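import Vale.Agent.P218FT.Defs
import Mathlib.Analysis.InnerProductSpace.Trace
import Mathlib.Analysis.InnerProductSpace.Calculus
import Mathlib.Analysis.Calculus.FDeriv.Symmetric
import Mathlib.Analysis.Calculus.MeanValue
import Mathlib.Analysis.Calculus.Deriv.MeanValue
import Mathlib.Analysis.Calculus.ContDiff.FiniteDimension
import Mathlib.Analysis.Calculus.ContDiff.RCLike

/-! Local differential geometry of surfaces given by local equations: linear algebra, Taylor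
expansion, second-order jets of curves, independence of the local equation. -/

open MeasureTheory Set Filter Topology Metric Asymptotics
open scoped ENNReal NNReal RealInnerProductSpace ContDiff

namespace Vale.Agent.P218FT

/-! ### Linear algebra -/

lemma pt_apply (n v : E3) : pt n v = v - ⟪n, v⟫ • n := by
  simp [pt]

lemma pt_neg (n : E3) : pt (-n) = pt n := by
  ext1 v
  simp [pt_apply]

lemma pt_sign {ε : ℝ} (hε : ε = 1 ∨ ε = -1) (n : E3) : pt (ε • n) = pt n := by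
  rcases hε with h | h <;> simp [h, pt_neg]

lemma pt_of_orth {n v : E3} (h : ⟪n, v⟫ = 0) : pt n v = v := by
  simp [pt_apply, h]

lemma pt_self {n : E3} (hn : ‖n‖ = 1) : pt n n = 0 := by
  simp [pt_apply, hn]

lemma inner_pt_left (n u v : E3) : ⟪pt n u, v⟫ = ⟪u, pt n v⟫ := by
  simp only [pt_apply, inner_sub_left, inner_sub_right, real_inner_smul_left,
    real_inner_smul_right]
  rw [real_inner_comm n u]; ring

lemma inner_pt_nrm {n : E3} (hn : ‖n‖ = 1) (v : E3) : ⟪n, pt n v⟫ = 0 := by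
  rw [← inner_pt_left, pt_self hn, inner_zero_left]

lemma pt_pt {n : E3} (hn : ‖n‖ = 1) (v : E3) : pt n (pt n v) = pt n v :=
  pt_of_orth (inner_pt_nrm hn v)

lemma norm_pt_sq {n : E3} (hn : ‖n‖ = 1) (v : E3) : ‖pt n v‖ ^ 2 = ‖v‖ ^ 2 - ⟪n, v⟫ ^ 2 := by
  rw [← real_inner_self_eq_norm_sq, inner_pt_left, pt_pt hn, pt_apply, inner_sub_right,
    real_inner_smul_right, real_inner_self_eq_norm_sq, real_inner_comm n v]
  ring

lemma norm_pt_le {n : E3} (hn : ‖n‖ = 1) (v : E3) : ‖pt n v‖ ≤ ‖v‖ := by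
  have h := norm_pt_sq hn v
  have : ‖pt n v‖ ^ 2 ≤ ‖v‖ ^ 2 := by nlinarith [sq_nonneg ⟪n, v⟫]
  exact (sq_le_sq₀ (norm_nonneg _) (norm_nonneg _)).1 this

lemma continuous_pt : Continuous pt := by
  have : pt = fun n : E3 => ContinuousLinearMap.id ℝ E3 -
      ContinuousLinearMap.smulRightL ℝ E3 E3 (innerSL ℝ n) n := rfl
  rw [this]
  refine continuous_const.sub ?_
  exact ((ContinuousLinearMap.smulRightL ℝ E3 E3).continuous.comp
    (innerSL ℝ (E := E3)).continuous).clm_apply continuous_id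

/-- an orthonormal triple -/
structure Triple (a b c : E3) : Prop where
  na : ‖a‖ = 1
  nb : ‖b‖ = 1
  nc : ‖c‖ = 1
  ab : ⟪a, b⟫ = 0
  ac : ⟪a, c⟫ = 0
  bc : ⟪b, c⟫ = 0

lemma Triple.orthonormal {a b c : E3} (h : Triple a b c) : Orthonormal ℝ ![a, b, c] := by
  have ba : ⟪b, a⟫ = 0 := by rw [real_inner_comm]; exact h.ab
  have ca : ⟪c, a⟫ = 0 := by rw [real_inner_comm]; exact h.ac
  have cb : ⟪c, b⟫ = 0 := by rw [real_inner_comm]; exact h.bc
  refine ⟨fun i => ?_, fun i j hij => ?_⟩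
  · fin_cases i <;> simp [h.na, h.nb, h.nc]
  · fin_cases i <;> fin_cases j <;> simp_all [h.ab, h.ac, h.bc]

/-- the orthonormal basis of a triple -/
lemma Triple.exists_basis {a b c : E3} (h : Triple a b c) :
    ∃ B : OrthonormalBasis (Fin 3) ℝ E3, B 0 = a ∧ B 1 = b ∧ B 2 = c := by
  have h1 : Orthonormal ℝ ((univ : Set (Fin 3)).domRestrict ![a, b, c]) :=
    h.orthonormal.comp _ Subtype.val_injective
  obtain ⟨B, hB⟩ := h1.exists_orthonormalBasis_extension_of_card_eq (by simp)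
  exact ⟨B, hB 0 trivial, hB 1 trivial, hB 2 trivial⟩

lemma exists_triple {n : E3} (hn : ‖n‖ = 1) : ∃ a b : E3, Triple a b n := by
  have h1 : Orthonormal ℝ (({2} : Set (Fin 3)).domRestrict fun _ => n) := by
    refine ⟨fun i => ?_, fun i j hij => ?_⟩
    · exact hn
    · exact absurd (Subtype.ext ((mem_singleton_iff.1 i.2).trans (mem_singleton_iff.1 j.2).symm)) hij
  obtain ⟨B, hB⟩ := h1.exists_orthonormalBasis_extension_of_card_eq (by simp)
  have h2 : B 2 = n := by simpa using hB 2 rfl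
  refine ⟨B 0, B 1, B.norm_eq_one 0, B.norm_eq_one 1, hn, ?_, ?_, ?_⟩
  · exact B.orthonormal.2 (by decide)
  · rw [← h2]; exact B.orthonormal.2 (by decide)
  · rw [← h2]; exact B.orthonormal.2 (by decide)

lemma Triple.expand {a b c : E3} (h : Triple a b c) (v : E3) :
    v = ⟪a, v⟫ • a + ⟪b, v⟫ • b + ⟪c, v⟫ • c := by
  obtain ⟨B, h0, h1, h2⟩ := h.exists_basis
  have := B.sum_repr' v
  rw [Fin.sum_univ_three, h0, h1, h2] at this
  exact this.symm

lemma Triple.inner_eq {a b c : E3} (h : Triple a b c) (u v : E3) :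
    ⟪u, v⟫ = ⟪a, u⟫ * ⟪a, v⟫ + ⟪b, u⟫ * ⟪b, v⟫ + ⟪c, u⟫ * ⟪c, v⟫ := by
  conv_lhs => rw [h.expand u]
  simp only [inner_add_left, real_inner_smul_left]

lemma Triple.norm_sq {a b c : E3} (h : Triple a b c) (v : E3) :
    ‖v‖ ^ 2 = ⟪a, v⟫ ^ 2 + ⟪b, v⟫ ^ 2 + ⟪c, v⟫ ^ 2 := by
  rw [← real_inner_self_eq_norm_sq, h.inner_eq]; ring

lemma Triple.tr_eq {a b c : E3} (h : Triple a b c) (L : E3 →L[ℝ] E3) :
    tr L = ⟪L a, a⟫ + ⟪L b, b⟫ + ⟪L c, c⟫ := by
  obtain ⟨B, h0, h1, h2⟩ := h.exists_basis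
  unfold tr
  rw [LinearMap.trace_eq_sum_inner _ B, Fin.sum_univ_three, h0, h1, h2]
  simp only [ContinuousLinearMap.coe_coe, real_inner_comm]

lemma tr_smul (c : ℝ) (L : E3 →L[ℝ] E3) : tr (c • L) = c * tr L := by
  simp [tr]

lemma tr_add (L L' : E3 →L[ℝ] E3) : tr (L + L') = tr L + tr L' := by
  simp [tr]

lemma tr_sub (L L' : E3 →L[ℝ] E3) : tr (L - L') = tr L - tr L' := by
  simp [tr]

lemma continuous_tr : Continuous tr := by
  obtain ⟨a, b, h⟩ := exists_triple (n := EuclideanSpace.single (0 : Fin 3) (1 : ℝ)) (by simp)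
  have : tr = fun L : E3 →L[ℝ] E3 => ⟪L a, a⟫ + ⟪L b, b⟫
      + ⟪L (EuclideanSpace.single (0 : Fin 3) (1 : ℝ)), EuclideanSpace.single (0 : Fin 3) (1 : ℝ)⟫ :=
    funext fun L => h.tr_eq L
  rw [this]
  fun_prop

/-! ### Gradients -/

/-- the Riesz isomorphism -/
noncomputable def rz : (E3 →L[ℝ] ℝ) →L[ℝ] E3 :=
  LinearMap.toContinuousLinearMap
    { toFun := fun l => (InnerProductSpace.toDual ℝ E3).symm l
      map_add' := fun a b => map_add _ a b
      map_smul' := fun c l => by simp }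

lemma gradient_eq_rz (f : E3 → ℝ) : gradient f = fun x => rz (fderiv ℝ f x) := rfl

lemma inner_rz (l : E3 →L[ℝ] ℝ) (v : E3) : ⟪rz l, v⟫ = l v := by
  simp [rz]

lemma inner_grad (f : E3 → ℝ) (x v : E3) : ⟪gradient f x, v⟫ = fderiv ℝ f x v := by
  rw [gradient_eq_rz]; exact inner_rz _ _

lemma norm_grad (f : E3 → ℝ) (x : E3) : ‖gradient f x‖ = ‖fderiv ℝ f x‖ := by
  simp [gradient]

lemma contDiff_grad {f : E3 → ℝ} (hf : ContDiff ℝ ∞ f) : ContDiff ℝ ∞ (gradient f) := by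
  rw [gradient_eq_rz]
  exact rz.contDiff.comp (hf.fderiv_right (m := ∞) (by simp))

lemma contDiff_grad_one {f : E3 → ℝ} (hf : ContDiff ℝ 2 f) : ContDiff ℝ 1 (gradient f) := by
  rw [gradient_eq_rz]
  exact rz.contDiff.comp (hf.fderiv_right (m := 1) (by norm_num))

lemma inner_hess {f : E3 → ℝ} (hf : ContDiff ℝ 2 f) (x v u : E3) :
    ⟪fderiv ℝ (gradient f) x v, u⟫ = fderiv ℝ (fderiv ℝ f) x v u := by
  have h1 : DifferentiableAt ℝ (fderiv ℝ f) x :=
    (hf.fderiv_right (m := 1) (by norm_num)).differentiable (by norm_num) x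
  have h2 : HasFDerivAt (gradient f) (rz.comp (fderiv ℝ (fderiv ℝ f) x)) x := by
    rw [gradient_eq_rz]
    exact rz.hasFDerivAt.comp x h1.hasFDerivAt
  rw [h2.fderiv]
  exact inner_rz _ _

lemma hess_symm {f : E3 → ℝ} (hf : ContDiff ℝ 2 f) (x v u : E3) :
    ⟪fderiv ℝ (gradient f) x v, u⟫ = ⟪v, fderiv ℝ (gradient f) x u⟫ := by
  rw [inner_hess hf, real_inner_comm, inner_hess hf]
  exact ((hf.contDiffAt (x := x)).isSymmSndFDerivAt (by simp)).eq v u

/-- second-order Taylor expansion -/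
lemma taylor2 {f : E3 → ℝ} (hf : ContDiff ℝ 2 f) (x : E3) :
    (fun h => f (x + h) - f x - ⟪gradient f x, h⟫ - ⟪fderiv ℝ (gradient f) x h, h⟫ / 2)
      =o[𝓝 0] fun h => ‖h‖ ^ 2 := by
  set g := gradient f x
  set H := fderiv ℝ (gradient f) x
  have hd : ∀ h : E3, HasFDerivAt (fun h => f (x + h) - ⟪g, h⟫ - ⟪H h, h⟫ / 2)
      (innerSL ℝ (gradient f (x + h) - g - H h)) h := by
    intro h
    have h1 : HasFDerivAt (fun h => f (x + h)) (fderiv ℝ f (x + h)) h := by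
      have := ((hf.differentiable (by norm_num)) (x + h)).hasFDerivAt
      have h0 := this.comp h ((hasFDerivAt_id h).const_add x)
      rw [ContinuousLinearMap.comp_id] at h0
      exact h0
    have h2 : HasFDerivAt (fun h : E3 => ⟪g, h⟫) (innerSL ℝ g) h := (innerSL ℝ g).hasFDerivAt
    have h3 := (H.hasFDerivAt (x := h)).inner ℝ (hasFDerivAt_id h)
    have h4 := (h1.sub h2).sub (h3.mul_const (1 / 2 : ℝ))
    refine (h4.congr_fderiv ?_).congr_of_eventuallyEq (Eventually.of_forall fun y => ?_)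
    swap
    · simp only [Pi.sub_apply, id]; ring
    · ext1 v
      have e1 := hess_symm hf x v h
      simp only [innerSL_apply_apply, inner_sub_left, inner_grad, sub_apply,
        smul_apply, ContinuousLinearMap.comp_apply, fderivInnerCLM_apply,
        ContinuousLinearMap.prod_apply, ContinuousLinearMap.id_apply, id, smul_eq_mul]
      have e2 : ⟪H v, h⟫ = ⟪H h, v⟫ := by rw [e1, real_inner_comm]
      rw [e2]; ring
  have hG : HasFDerivAt (gradient f) H x :=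
    ((contDiff_grad_one hf).differentiable (by norm_num) x).hasFDerivAt
  have ho : (fun h : E3 => innerSL ℝ (gradient f (x + h) - g - H h))
      =o[𝓝[univ] 0] fun h => ‖h - 0‖ ^ 1 := by
    rw [nhdsWithin_univ]
    have := (hasFDerivAt_iff_isLittleO_nhds_zero.1 hG)
    refine IsLittleO.of_norm_left ?_
    simp only [innerSL_apply_norm, sub_zero, pow_one]
    exact this.norm_left.norm_right
  have := convex_univ.isLittleO_pow_succ (mem_univ (0 : E3))
    (fun h _ => (hd h).hasFDerivWithinAt) ho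
  rw [nhdsWithin_univ] at this
  simpa [sub_sub, add_comm, add_left_comm, add_assoc, sub_eq_add_neg] using this

/-! ### The normal and the shape operator of a local equation -/

lemma two_le_inf : (2 : WithTop ℕ∞) ≤ ((⊤ : ℕ∞) : WithTop ℕ∞) :=
  WithTop.coe_le_coe.2 (le_top : (2 : ℕ∞) ≤ ⊤)

lemma one_le_inf : (1 : WithTop ℕ∞) ≤ ((⊤ : ℕ∞) : WithTop ℕ∞) := by exact_mod_cast le_top

lemma norm_nuw {w : E3 → ℝ} {x : E3} (h : gradient w x ≠ 0) : ‖nuw w x‖ = 1 := by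
  rw [nuw, norm_smul, norm_inv, norm_norm, inv_mul_cancel₀ (norm_ne_zero_iff.2 h)]

lemma grad_eq_smul_nuw {w : E3 → ℝ} {x : E3} (h : gradient w x ≠ 0) :
    gradient w x = ‖gradient w x‖ • nuw w x := by
  rw [nuw, smul_smul, mul_inv_cancel₀ (norm_ne_zero_iff.2 h), one_smul]

lemma inner_grad_nuw {w : E3 → ℝ} {x : E3} (h : gradient w x ≠ 0) :
    ⟪gradient w x, nuw w x⟫ = ‖gradient w x‖ := by
  rw [nuw, real_inner_smul_right, real_inner_self_eq_norm_sq]
  field_simp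

lemma inner_grad_of_orth {w : E3 → ℝ} {x a : E3} (h : gradient w x ≠ 0) (ha : ⟪nuw w x, a⟫ = 0) :
    ⟪gradient w x, a⟫ = 0 := by
  rw [grad_eq_smul_nuw h, real_inner_smul_left, ha, mul_zero]

lemma inner_shw (w : E3 → ℝ) (x u v : E3) :
    ⟪shw w x u, v⟫ = -‖gradient w x‖⁻¹ *
      ⟪fderiv ℝ (gradient w) x (pt (nuw w x) u), pt (nuw w x) v⟫ := by
  simp only [shw, smul_apply, ContinuousLinearMap.comp_apply,
    real_inner_smul_left, inner_pt_left]

lemma shw_symm {w : E3 → ℝ} (hw : ContDiff ℝ 2 w) (x u v : E3) :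
    ⟪shw w x u, v⟫ = ⟪u, shw w x v⟫ := by
  rw [inner_shw, real_inner_comm (shw w x v), inner_shw, hess_symm hw, real_inner_comm]

lemma shw_nuw {w : E3 → ℝ} {x : E3} (h : gradient w x ≠ 0) : shw w x (nuw w x) = 0 := by
  simp [shw, pt_self (norm_nuw h)]

lemma shw_pt {w : E3 → ℝ} {x : E3} (h : gradient w x ≠ 0) (v : E3) :
    shw w x (pt (nuw w x) v) = shw w x v := by
  simp [shw, pt_pt (norm_nuw h)]

lemma inner_nuw_shw {w : E3 → ℝ} {x : E3} (h : gradient w x ≠ 0) (v : E3) :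
    ⟪nuw w x, shw w x v⟫ = 0 := by
  simp [shw, real_inner_smul_right, inner_pt_nrm (norm_nuw h)]

/-- a continuous function which is close to `c h` for small `h` has a zero -/
lemma exists_zero_of_close {φ : ℝ → ℝ} {η : ℝ} (hφ : Continuous φ) (hη : 0 < η)
    (h1 : φ (-η) < 0) (h2 : 0 < φ η) : ∃ h, |h| ≤ η ∧ φ h = 0 := by
  obtain ⟨h, hh, h0⟩ := intermediate_value_Icc (by linarith : -η ≤ η) hφ.continuousOn
    (⟨h1.le, h2.le⟩ : (0 : ℝ) ∈ Icc (φ (-η)) (φ η))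
  exact ⟨h, abs_le.2 hh, h0⟩

/-- **Correction lemma.** If `F(σ, q σ) = o(ρ σ)` and `F(σ, ·)` has derivative close to a nonzero
form along `n`, then `F(σ, ·)` has a zero at distance `o(ρ σ)` from `q σ`. -/
lemma exists_zero_littleO {P : Type*} [NormedAddCommGroup P] [NormedSpace ℝ P] {F : P → ℝ}
    (hF : ContDiff ℝ 1 F) {p₀ v : P} (hv : 0 < fderiv ℝ F p₀ v) {l : Filter ℝ} {q : ℝ → P}
    {ρ : ℝ → ℝ} (hq : Tendsto q l (𝓝 p₀)) (hρ : Tendsto ρ l (𝓝 0))
    (ho : (fun σ => F (q σ)) =o[l] ρ) :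
    ∃ h : ℝ → ℝ, (∀ᶠ σ in l, F (q σ + h σ • v) = 0) ∧ h =o[l] ρ := by
  set c := fderiv ℝ F p₀ v with hc
  have hcont : Continuous fun p => fderiv ℝ F p v :=
    (hF.continuous_fderiv (by norm_num)).clm_apply continuous_const
  obtain ⟨δ, hδ, hδ'⟩ : ∃ δ > 0, ∀ p, dist p p₀ < δ → c / 2 < fderiv ℝ F p v := by
    have : ∀ᶠ p in 𝓝 p₀, c / 2 < fderiv ℝ F p v :=
      hcont.continuousAt.eventually (lt_mem_nhds (by linarith))
    obtain ⟨δ, hδ, h⟩ := Metric.eventually_nhds_iff.1 this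
    exact ⟨δ, hδ, fun p hp => h hp⟩
  have hdiff := hF.differentiable (by norm_num)
  -- monotonicity along `v`
  have key : ∀ p : P, ∀ η : ℝ, 0 ≤ η → dist p p₀ + η * ‖v‖ < δ →
      c / 2 * η ≤ F (p + η • v) - F p ∧ c / 2 * η ≤ F p - F (p + (-η) • v) := by
    intro p η hη hp
    have hd : ∀ s : ℝ, HasDerivAt (fun s : ℝ => F (p + s • v)) (fderiv ℝ F (p + s • v) v) s := by
      intro s
      have h1 : HasDerivAt (fun s : ℝ => p + s • v) v s := by
        simpa using ((hasDerivAt_id s).smul_const v).const_add p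
      exact (hdiff _).hasFDerivAt.comp_hasDerivAt s h1
    have hb : ∀ s : ℝ, |s| ≤ η → c / 2 ≤ fderiv ℝ F (p + s • v) v := by
      intro s hs
      refine (hδ' _ ?_).le
      calc dist (p + s • v) p₀ ≤ dist (p + s • v) p + dist p p₀ := dist_triangle _ _ _
        _ = |s| * ‖v‖ + dist p p₀ := by rw [dist_eq_norm, add_sub_cancel_left, norm_smul]; rfl
        _ ≤ η * ‖v‖ + dist p p₀ := by gcongr
        _ < δ := by linarith
    have mono : ∀ a b : ℝ, -η ≤ a → a ≤ b → b ≤ η →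
        c / 2 * (b - a) ≤ F (p + b • v) - F (p + a • v) := by
      intro a b ha hab hb'
      have := (convex_Icc a b).mul_sub_le_image_sub_of_le_deriv
        (f := fun s : ℝ => F (p + s • v)) (C := c / 2)
        (fun s _ => (hd s).continuousAt.continuousWithinAt)
        (fun s _ => (hd s).differentiableAt.differentiableWithinAt)
        (fun s hs => by
          rw [(hd s).deriv]
          have := interior_subset hs
          exact hb s (abs_le.2 ⟨by linarith [this.1], by linarith [this.2]⟩))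
        a (left_mem_Icc.2 hab) b (right_mem_Icc.2 hab) hab
      exact this
    constructor
    · simpa using mono 0 η (by linarith) hη le_rfl
    · simpa using mono (-η) 0 le_rfl (by linarith) hη
  -- existence of a zero at distance at most `4 |F(q σ)| / c`
  have hF0 : Tendsto (fun σ => F (q σ)) l (𝓝 0) := ho.trans_tendsto hρ
  have ex : ∀ᶠ σ in l, ∃ h : ℝ, F (q σ + h • v) = 0 ∧ |h| ≤ 4 / c * |F (q σ)| := by
    have t1 : Tendsto (fun σ => dist (q σ) p₀ + 4 / c * |F (q σ)| * ‖v‖) l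
        (𝓝 (dist p₀ p₀ + 4 / c * |(0 : ℝ)| * ‖v‖)) :=
      (hq.dist tendsto_const_nhds).add ((hF0.abs.const_mul _).mul_const _)
    simp only [dist_self, abs_zero, mul_zero, zero_mul, add_zero] at t1
    filter_upwards [t1.eventually (gt_mem_nhds hδ)] with σ hσ
    by_cases h0 : F (q σ) = 0
    · exact ⟨0, by simpa using h0, by simp [h0]⟩
    have hpos : 0 < |F (q σ)| := abs_pos.2 h0
    have hη : 0 < 4 / c * |F (q σ)| := by positivity
    obtain ⟨k1, k2⟩ := key (q σ) _ hη.le hσ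
    have e : c / 2 * (4 / c * |F (q σ)|) = 2 * |F (q σ)| := by field_simp; ring
    rw [e] at k1 k2
    have hcont' : Continuous fun h : ℝ => F (q σ + h • v) :=
      hF.continuous.comp (continuous_const.add (continuous_id.smul continuous_const))
    obtain ⟨h, hh, h0'⟩ := exists_zero_of_close hcont' hη
      (by linarith [le_abs_self (F (q σ))]) (by linarith [neg_abs_le (F (q σ))])
    exact ⟨h, h0', hh⟩
  classical
  refine ⟨fun σ => if hσ : ∃ h : ℝ, F (q σ + h • v) = 0 ∧ |h| ≤ 4 / c * |F (q σ)| then hσ.choose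
    else 0, ?_, ?_⟩
  · filter_upwards [ex] with σ hσ
    rw [dif_pos hσ]; exact hσ.choose_spec.1
  · refine IsBigO.trans_isLittleO (g := fun σ => F (q σ)) (IsBigO.of_bound (4 / c) ?_) ho
    filter_upwards [ex] with σ hσ
    rw [dif_pos hσ]; exact hσ.choose_spec.2

lemma IsEqn.two {N : Set E3} {x : E3} {w : E3 → ℝ} (h : IsEqn N x w) : ContDiff ℝ 2 w :=
  h.1.of_le two_le_inf

lemma IsEqn.zero {N : Set E3} {x : E3} {w : E3 → ℝ} (h : IsEqn N x w) (hx : x ∈ N) : w x = 0 :=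
  h.2.2.self_of_nhds.1 hx

lemma IsEqn.eventually {N : Set E3} {x : E3} {w : E3 → ℝ} (h : IsEqn N x w) :
    ∀ᶠ y in 𝓝 x, IsEqn N y w := by
  have h1 : ∀ᶠ y in 𝓝 x, gradient w y ≠ 0 :=
    (contDiff_grad h.1).continuous.continuousAt.eventually_ne h.2.1
  filter_upwards [h1, h.2.2.eventually_nhds] with y hy hy' using ⟨h.1, hy, hy'⟩

/-- composition of the Taylor expansion with a second-order jet -/
lemma taylor_jet {f : E3 → ℝ} (hf : ContDiff ℝ 2 f) {x a k : E3} {p : ℝ → E3}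
    (hp : (fun σ => p σ - (x + σ • a + (σ ^ 2 / 2) • k)) =o[𝓝 0] fun σ : ℝ => σ ^ 2) :
    (fun σ => f (p σ) - (f x + σ * ⟪gradient f x, a⟫
      + σ ^ 2 / 2 * (⟪fderiv ℝ (gradient f) x a, a⟫ + ⟪gradient f x, k⟫))) =o[𝓝 0]
        fun σ : ℝ => σ ^ 2 := by
  set g := gradient f x
  set H := fderiv ℝ (gradient f) x
  set r : ℝ → E3 := fun σ => p σ - (x + σ • a + (σ ^ 2 / 2) • k) with hr
  have hσ2 : (fun σ : ℝ => σ ^ 2) =o[𝓝 0] fun σ : ℝ => σ := isLittleO_pow_id (by norm_num)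
  -- `u σ = p σ - x - σ a` is `O(σ²)`
  have hu : (fun σ => (σ ^ 2 / 2) • k + r σ) =O[𝓝 0] fun σ : ℝ => σ ^ 2 := by
    refine IsBigO.add (IsBigO.of_bound (‖k‖ / 2) (Eventually.of_forall fun σ => ?_)) hp.isBigO
    rw [norm_smul, Real.norm_eq_abs, Real.norm_eq_abs, abs_div, abs_two]
    apply le_of_eq; ring
  have ha : (fun σ : ℝ => σ • a) =O[𝓝 0] fun σ : ℝ => σ :=
    IsBigO.of_bound ‖a‖ (Eventually.of_forall fun σ => by rw [norm_smul, mul_comm])
  have hh : (fun σ => σ • a + ((σ ^ 2 / 2) • k + r σ)) =O[𝓝 0] fun σ : ℝ => σ :=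
    ha.add (hu.trans hσ2.isBigO)
  have hh0 : Tendsto (fun σ => σ • a + ((σ ^ 2 / 2) • k + r σ)) (𝓝 0) (𝓝 0) :=
    hh.trans_tendsto tendsto_id
  have T := (taylor2 hf x).comp_tendsto hh0
  have T2 : ((fun h : E3 => ‖h‖ ^ 2) ∘ fun σ => σ • a + ((σ ^ 2 / 2) • k + r σ)) =O[𝓝 0]
      fun σ : ℝ => σ ^ 2 := hh.norm_left.pow 2
  have T3 := T.trans_isBigO T2
  have inn : ∀ {u v : ℝ → E3} {s t : ℝ → ℝ}, u =O[𝓝 0] s → v =o[𝓝 0] t →
      (fun σ => ⟪u σ, v σ⟫) =o[𝓝 0] fun σ => s σ * t σ := by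
    intro u v s t h1 h2
    refine IsBigO.trans_isLittleO (g := fun σ => ‖u σ‖ * ‖v σ‖)
      (IsBigO.of_bound 1 (Eventually.of_forall fun σ => ?_)) (h1.norm_left.mul_isLittleO h2.norm_left)
    simpa using abs_real_inner_le_norm _ _
  have hu' : (fun σ => (σ ^ 2 / 2) • k + r σ) =o[𝓝 0] fun σ : ℝ => σ := hu.trans_isLittleO hσ2
  have e1 : (fun σ => ⟪g, r σ⟫) =o[𝓝 0] fun σ : ℝ => σ ^ 2 := by
    simpa using inn (u := fun _ => g) (s := fun _ => (1 : ℝ)) (isBigO_const_const _ one_ne_zero _) hp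
  have e2 : (fun σ => ⟪H (σ • a), (σ ^ 2 / 2) • k + r σ⟫) =o[𝓝 0] fun σ : ℝ => σ ^ 2 := by
    simpa only [sq] using inn ((H.isBigO_comp _ _).trans ha) hu'
  have e3 : (fun σ => ⟪σ • a + ((σ ^ 2 / 2) • k + r σ), H ((σ ^ 2 / 2) • k + r σ)⟫) =o[𝓝 0]
      fun σ : ℝ => σ ^ 2 := by
    simpa only [sq] using inn hh ((H.isBigO_comp _ _).trans_isLittleO hu')
  have tot := ((T3.add e1).add (e2.const_mul_left (1 / 2))).add (e3.const_mul_left (1 / 2))
  refine tot.congr_left fun σ => ?_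
  have hpσ : x + (σ • a + ((σ ^ 2 / 2) • k + r σ)) = p σ := by simp only [hr]; abel
  simp only [Function.comp, hpσ]
  rw [real_inner_comm (H ((σ ^ 2 / 2) • k + r σ))]
  have hk : ⟪g, (σ ^ 2 / 2) • k + r σ⟫ = σ ^ 2 / 2 * ⟪g, k⟫ + ⟪g, r σ⟫ := by
    rw [inner_add_right, real_inner_smul_right]
  change f (p σ) - f x - ⟪g, _⟫ - ⟪H _, _⟫ / 2 + _ + _ + _ = _
  generalize (σ ^ 2 / 2) • k + r σ = u at *
  simp only [map_add, map_smul, inner_add_left, inner_add_right, real_inner_smul_left,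
    real_inner_smul_right, hk]
  ring

/-- uniqueness of the coefficients of a second-order expansion -/
lemma coef_zero {b c : ℝ} (h : (fun σ : ℝ => σ * b + σ ^ 2 / 2 * c) =o[𝓝 0] fun σ : ℝ => σ ^ 2) :
    b = 0 ∧ c = 0 := by
  have hσ2 : (fun σ : ℝ => σ ^ 2) =o[𝓝 0] fun σ : ℝ => σ := isLittleO_pow_id (by norm_num)
  have hb : b = 0 := by
    have h1 : (fun σ : ℝ => σ * b) =o[𝓝 0] fun σ : ℝ => σ := by
      have h2 : (fun σ : ℝ => σ ^ 2 / 2 * c) =o[𝓝 0] fun σ : ℝ => σ :=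
        (hσ2.const_mul_left (c / 2)).congr_left fun σ => by ring
      exact ((h.trans hσ2).sub h2).congr_left fun σ => by ring
    have h3 := (h1.mono (nhdsWithin_le_nhds (s := {0}ᶜ))).tendsto_div_nhds_zero
    have h4 : Tendsto (fun σ : ℝ => σ * b / σ) (𝓝[≠] 0) (𝓝 b) :=
      tendsto_const_nhds.congr' (by
        filter_upwards [self_mem_nhdsWithin] with σ hσ
        have : σ ≠ 0 := hσ
        field_simp)
    exact tendsto_nhds_unique h4 h3
  refine ⟨hb, ?_⟩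
  have h3 := (h.mono (nhdsWithin_le_nhds (s := {0}ᶜ))).tendsto_div_nhds_zero
  have h4 : Tendsto (fun σ : ℝ => (σ * b + σ ^ 2 / 2 * c) / σ ^ 2) (𝓝[≠] 0) (𝓝 (c / 2)) :=
    tendsto_const_nhds.congr' (by
      filter_upwards [self_mem_nhdsWithin] with σ hσ
      have : σ ≠ 0 := hσ
      rw [hb]; field_simp; ring)
  linarith [tendsto_nhds_unique h4 h3]

lemma tendsto_of_jet {x a k : E3} {p : ℝ → E3}
    (hp : (fun σ => p σ - (x + σ • a + (σ ^ 2 / 2) • k)) =o[𝓝 0] fun σ : ℝ => σ ^ 2) :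
    Tendsto p (𝓝 0) (𝓝 x) := by
  have h1 : Tendsto (fun σ : ℝ => σ ^ 2) (𝓝 0) (𝓝 0) := by
    simpa using (continuous_pow 2).tendsto (0 : ℝ)
  have h2 : Tendsto (fun σ : ℝ => x + σ • a + (σ ^ 2 / 2) • k) (𝓝 0) (𝓝 x) := by
    have : Continuous fun σ : ℝ => x + σ • a + (σ ^ 2 / 2) • k := by fun_prop
    simpa using this.tendsto 0
  simpa using (hp.trans_tendsto h1).add h2

/-- **Spatial jets**: every tangent vector is the velocity of a second-order jet of points of the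
surface, with normal acceleration. -/
lemma IsEqn.jet {N : Set E3} {x : E3} {w : E3 → ℝ} (h : IsEqn N x w) (hx : x ∈ N) {a : E3}
    (ha : ⟪nuw w x, a⟫ = 0) : ∃ p : ℝ → E3, (∀ᶠ σ in 𝓝 0, p σ ∈ N) ∧
      (fun σ => p σ - (x + σ • a + (σ ^ 2 / 2) • (⟪shw w x a, a⟫ • nuw w x))) =o[𝓝 0]
        fun σ : ℝ => σ ^ 2 := by
  set k := ⟪shw w x a, a⟫ • nuw w x with hk
  set q : ℝ → E3 := fun σ => x + σ • a + (σ ^ 2 / 2) • k with hq
  have hg := h.2.1
  have hq0 : (fun σ => q σ - (x + σ • a + (σ ^ 2 / 2) • k)) =o[𝓝 0] fun σ : ℝ => σ ^ 2 := by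
    simp [hq]
  have T := taylor_jet h.two hq0
  have e : ⟪fderiv ℝ (gradient w) x a, a⟫ + ⟪gradient w x, k⟫ = 0 := by
    rw [hk, real_inner_smul_right, inner_grad_nuw hg, inner_shw, pt_of_orth ha]
    have := norm_ne_zero_iff.2 hg
    field_simp; ring
  rw [e, h.zero hx, inner_grad_of_orth hg ha] at T
  simp only [mul_zero, add_zero, sub_zero] at T
  have hv : 0 < fderiv ℝ w x (nuw w x) := by
    rw [← inner_grad, inner_grad_nuw hg]; exact norm_pos_iff.2 hg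
  have h1 : Tendsto (fun σ : ℝ => σ ^ 2) (𝓝 0) (𝓝 0) := by
    simpa using (continuous_pow 2).tendsto (0 : ℝ)
  obtain ⟨c, hc0, hc⟩ := exists_zero_littleO (h.1.of_le one_le_inf) hv (tendsto_of_jet hq0) h1 T
  have hp : (fun σ => (q σ + c σ • nuw w x) - (x + σ • a + (σ ^ 2 / 2) • k)) =o[𝓝 0]
      fun σ : ℝ => σ ^ 2 := by
    refine IsBigO.trans_isLittleO (g := c) (IsBigO.of_bound 1 (Eventually.of_forall fun σ => ?_)) hc
    simp [hq, norm_smul, norm_nuw hg]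
  refine ⟨fun σ => q σ + c σ • nuw w x, ?_, hp⟩
  filter_upwards [hc0, (tendsto_of_jet hp).eventually h.2.2] with σ h1 h2 using h2.2 h1

/-- **Independence of the local equation**, up to a common sign. -/
lemma IsEqn.sign {N : Set E3} {x : E3} {w w' : E3 → ℝ} (h : IsEqn N x w) (h' : IsEqn N x w')
    (hx : x ∈ N) : ∃ ε : ℝ, (ε = 1 ∨ ε = -1) ∧ nuw w' x = ε • nuw w x ∧ shw w' x = ε • shw w x := by
  have hg := h.2.1
  have hg' := h'.2.1
  have hn := norm_nuw hg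
  have key : ∀ a, ⟪nuw w x, a⟫ = 0 → ⟪gradient w' x, a⟫ = 0 ∧
      ⟪fderiv ℝ (gradient w') x a, a⟫ + ⟪gradient w' x, ⟪shw w x a, a⟫ • nuw w x⟫ = 0 := by
    intro a ha
    obtain ⟨p, hp, hj⟩ := h.jet hx ha
    have T := taylor_jet h'.two hj
    refine coef_zero (T.neg_left.congr' ?_ EventuallyEq.rfl)
    filter_upwards [hp, (tendsto_of_jet hj).eventually h'.2.2] with σ h1 h2
    rw [h2.1 h1, h'.zero hx]; ring
  have e1 : gradient w' x = ⟪nuw w x, gradient w' x⟫ • nuw w x := by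
    have := (key (pt (nuw w x) (gradient w' x)) (inner_pt_nrm hn _)).1
    rw [← pt_pt hn, ← inner_pt_left, real_inner_self_eq_norm_sq, sq_eq_zero_iff, norm_eq_zero,
      pt_apply, sub_eq_zero] at this
    exact this
  set c := ⟪nuw w x, gradient w' x⟫ with hc
  have hc0 : c ≠ 0 := fun h0 => hg' (by rw [e1, h0, zero_smul])
  have e2 : ‖gradient w' x‖ = |c| := by rw [e1, norm_smul, hn, mul_one]; rfl
  have hε : |c|⁻¹ * c = 1 ∨ |c|⁻¹ * c = -1 := by
    rcases lt_or_gt_of_ne hc0 with h0 | h0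
    · right; rw [abs_of_neg h0]; field_simp
    · left; rw [abs_of_pos h0]; field_simp
  have e3 : nuw w' x = (|c|⁻¹ * c) • nuw w x := by
    rw [nuw, e2, mul_smul, ← e1]
  refine ⟨|c|⁻¹ * c, hε, e3, ?_⟩
  have sym : (shw w' x - (|c|⁻¹ * c) • shw w x).toLinearMap.IsSymmetric := by
    intro u v
    simp only [ContinuousLinearMap.coe_coe, sub_apply, smul_apply, inner_sub_left, inner_sub_right,
      real_inner_smul_left, real_inner_smul_right, shw_symm h.two, shw_symm h'.two]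
  have z := sym.inner_map_self_eq_zero.1 fun v => by
    have k2 := (key (pt (nuw w x) v) (inner_pt_nrm hn _)).2
    rw [real_inner_smul_right, real_inner_comm (nuw w x), ← hc, inner_shw, pt_pt hn] at k2
    simp only [ContinuousLinearMap.coe_coe, sub_apply, smul_apply, inner_sub_left,
      real_inner_smul_left]
    rw [inner_shw, inner_shw, e3, pt_sign hε, e2]
    have : |c| ≠ 0 := abs_ne_zero.2 hc0
    have e4 := eq_neg_of_add_eq_zero_left k2
    rw [e4]; ring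
  have : shw w' x - (|c|⁻¹ * c) • shw w x = 0 := ContinuousLinearMap.coe_injective z
  exact sub_eq_zero.1 this

/-! ### Surfaces -/

lemma IsSurf.isEqn {N : Set E3} (h : IsSurf N) {x : E3} (hx : x ∈ N) : IsEqn N x (eqn N x) := by
  have := h.2 x hx
  rw [eqn, dif_pos this]
  exact this.choose_spec

lemma IsEqn.isEqn_eqn {N : Set E3} {x : E3} {w : E3 → ℝ} (h : IsEqn N x w) :
    IsEqn N x (eqn N x) := by
  have : ∃ w, IsEqn N x w := ⟨w, h⟩
  rw [eqn, dif_pos this]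
  exact this.choose_spec

/-- the normal and the shape operator in terms of any local equation -/
lemma IsEqn.nu_sh {N : Set E3} {x : E3} {w : E3 → ℝ} (h : IsEqn N x w) (hx : x ∈ N) :
    ∃ ε : ℝ, (ε = 1 ∨ ε = -1) ∧ nu N x = ε • nuw w x ∧ sh N x = ε • shw w x :=
  h.sign h.isEqn_eqn hx

lemma sign_mul_self {ε : ℝ} (hε : ε = 1 ∨ ε = -1) : ε * ε = 1 := by
  rcases hε with h | h <;> simp [h]

lemma IsEqn.Hv_eq {N : Set E3} {x : E3} {w : E3 → ℝ} (h : IsEqn N x w) (hx : x ∈ N) :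
    Hv N x = tr (shw w x) • nuw w x := by
  obtain ⟨ε, hε, h1, h2⟩ := h.nu_sh hx
  rw [Hv, h1, h2, tr_smul, smul_smul, mul_right_comm, sign_mul_self hε, one_mul]

lemma IsEqn.a2_eq {N : Set E3} {x : E3} {w : E3 → ℝ} (h : IsEqn N x w) (hx : x ∈ N) :
    a2 N x = tr ((shw w x).comp (shw w x)) := by
  obtain ⟨ε, hε, h1, h2⟩ := h.nu_sh hx
  rw [a2, h2, ContinuousLinearMap.smul_comp, ContinuousLinearMap.comp_smul, smul_smul,
    sign_mul_self hε, one_smul]

lemma IsEqn.pt_eq {N : Set E3} {x : E3} {w : E3 → ℝ} (h : IsEqn N x w) (hx : x ∈ N) :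
    pt (nu N x) = pt (nuw w x) := by
  obtain ⟨ε, hε, h1, -⟩ := h.nu_sh hx
  rw [h1, pt_sign hε]

lemma IsEqn.abs_inner_eq {N : Set E3} {x : E3} {w : E3 → ℝ} (h : IsEqn N x w) (hx : x ∈ N)
    (v : E3) : |⟪v, nu N x⟫| = |⟪v, nuw w x⟫| := by
  obtain ⟨ε, hε, h1, -⟩ := h.nu_sh hx
  rcases hε with h | h <;> simp [h1, h]

lemma IsEqn.inner_sq_eq {N : Set E3} {x : E3} {w : E3 → ℝ} (h : IsEqn N x w) (hx : x ∈ N)
    (v : E3) : ⟪nu N x, v⟫ ^ 2 = ⟪nuw w x, v⟫ ^ 2 := by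
  rw [real_inner_comm, ← sq_abs, h.abs_inner_eq hx, sq_abs, real_inner_comm]

section surf

variable {N : Set E3} (h : IsSurf N) {x : E3} (hx : x ∈ N)
include h hx

lemma IsSurf.norm_nu : ‖nu N x‖ = 1 := norm_nuw (h.isEqn hx).2.1

lemma IsSurf.sh_symm (u v : E3) : ⟪sh N x u, v⟫ = ⟪u, sh N x v⟫ := shw_symm (h.isEqn hx).two x u v

lemma IsSurf.sh_nu : sh N x (nu N x) = 0 := shw_nuw (h.isEqn hx).2.1

lemma IsSurf.inner_nu_sh (v : E3) : ⟪nu N x, sh N x v⟫ = 0 := inner_nuw_shw (h.isEqn hx).2.1 v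

lemma IsSurf.sh_pt (v : E3) : sh N x (pt (nu N x) v) = sh N x v := shw_pt (h.isEqn hx).2.1 v

/-- spatial jets -/
lemma IsSurf.jet {a : E3} (ha : ⟪nu N x, a⟫ = 0) : ∃ p : ℝ → E3, (∀ᶠ σ in 𝓝 0, p σ ∈ N) ∧
    (fun σ => p σ - (x + σ • a + (σ ^ 2 / 2) • (⟪sh N x a, a⟫ • nu N x))) =o[𝓝 0]
      fun σ : ℝ => σ ^ 2 := (h.isEqn hx).jet hx ha

lemma IsSurf.tr_sh {a b : E3} (ht : Triple a b (nu N x)) :
    tr (sh N x) = ⟪sh N x a, a⟫ + ⟪sh N x b, b⟫ := by
  rw [ht.tr_eq, h.sh_nu hx, inner_zero_left, add_zero]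

lemma IsSurf.a2_eq {a b : E3} (ht : Triple a b (nu N x)) :
    a2 N x = ⟪sh N x a, a⟫ ^ 2 + 2 * ⟪sh N x a, b⟫ ^ 2 + ⟪sh N x b, b⟫ ^ 2 := by
  rw [a2, ht.tr_eq]
  simp only [ContinuousLinearMap.comp_apply, h.sh_nu hx, map_zero, inner_zero_left, add_zero]
  rw [h.sh_symm hx (sh N x a), h.sh_symm hx (sh N x b), real_inner_self_eq_norm_sq,
    real_inner_self_eq_norm_sq, ht.norm_sq, ht.norm_sq, h.inner_nu_sh hx, h.inner_nu_sh hx,
    ← h.sh_symm hx a b, real_inner_comm (sh N x a) a, real_inner_comm (sh N x a) b,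
    real_inner_comm (sh N x b) b]
  ring

lemma IsSurf.a2_nonneg : 0 ≤ a2 N x := by
  obtain ⟨a, b, ht⟩ := exists_triple (h.norm_nu hx)
  rw [h.a2_eq hx ht]; positivity

lemma IsSurf.norm_Hv : ‖Hv N x‖ = |tr (sh N x)| := by
  rw [Hv, norm_smul, h.norm_nu hx, mul_one]; rfl

lemma IsSurf.norm_Hv_sq_le : ‖Hv N x‖ ^ 2 ≤ 2 * a2 N x := by
  obtain ⟨a, b, ht⟩ := exists_triple (h.norm_nu hx)
  rw [h.norm_Hv hx, sq_abs, h.a2_eq hx ht, h.tr_sh hx ht]
  nlinarith [sq_nonneg (⟪sh N x a, a⟫ - ⟪sh N x b, b⟫), sq_nonneg ⟪sh N x a, b⟫]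

lemma IsSurf.norm_Hv_le : ‖Hv N x‖ ≤ 2 * √(a2 N x) := by
  have h1 := h.norm_Hv_sq_le hx
  have h2 := Real.sq_sqrt (h.a2_nonneg hx)
  have h3 := h.a2_nonneg hx
  refine (sq_le_sq₀ (norm_nonneg _) (by positivity)).1 ?_
  nlinarith

lemma IsSurf.norm_sh_apply_le (v : E3) : ‖sh N x v‖ ≤ √(a2 N x) * ‖v‖ := by
  obtain ⟨a, b, ht⟩ := exists_triple (h.norm_nu hx)
  refine (sq_le_sq₀ (norm_nonneg _) (by positivity)).1 ?_
  rw [mul_pow, Real.sq_sqrt (h.a2_nonneg hx), h.a2_eq hx ht, ht.norm_sq (sh N x v), ht.norm_sq v,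
    h.inner_nu_sh hx, ← h.sh_symm hx a, ← h.sh_symm hx b, ht.inner_eq (sh N x a),
    ht.inner_eq (sh N x b), h.inner_nu_sh hx, h.inner_nu_sh hx, ← h.sh_symm hx a b,
    real_inner_comm (sh N x a) a, real_inner_comm (sh N x a) b, real_inner_comm (sh N x b) b]
  generalize ⟪sh N x a, a⟫ = p
  generalize ⟪sh N x a, b⟫ = q
  generalize ⟪sh N x b, b⟫ = r
  generalize ⟪a, v⟫ = s
  generalize ⟪b, v⟫ = t
  generalize ⟪nu N x, v⟫ = u
  nlinarith [sq_nonneg (p * t - q * s), sq_nonneg (q * t - r * s),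
    mul_nonneg (sq_nonneg u) (sq_nonneg p), mul_nonneg (sq_nonneg u) (sq_nonneg q),
    mul_nonneg (sq_nonneg u) (sq_nonneg r)]

lemma IsSurf.norm_sh_le : ‖sh N x‖ ≤ √(a2 N x) :=
  ContinuousLinearMap.opNorm_le_bound _ (Real.sqrt_nonneg _) (h.norm_sh_apply_le hx)

lemma IsSurf.a2_le : a2 N x ≤ 4 * ‖sh N x‖ ^ 2 := by
  obtain ⟨a, b, ht⟩ := exists_triple (h.norm_nu hx)
  have key : ∀ u v : E3, ‖u‖ = 1 → ‖v‖ = 1 → ⟪sh N x u, v⟫ ^ 2 ≤ ‖sh N x‖ ^ 2 := by
    intro u v hu hv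
    rw [← sq_abs]
    refine pow_le_pow_left₀ (abs_nonneg _) ((abs_real_inner_le_norm _ _).trans ?_) 2
    simpa [hu, hv] using (sh N x).le_opNorm u
  rw [h.a2_eq hx ht]
  linarith [key a a ht.na ht.na, key a b ht.na ht.nb, key b b ht.nb ht.nb]

lemma IsSurf.pt_Hv : pt (nu N x) (Hv N x) = 0 := by
  rw [Hv, map_smul, pt_self (h.norm_nu hx), smul_zero]

end surf

end Vale.Agent.P218FT
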