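import Mathlib.Geometry.Euclidean.Volume.Measure
import Mathlib.Analysis.Calculus.Gradient.Basic
import Mathlib.Analysis.Calculus.ContDiff.Defs
import Mathlib.Analysis.InnerProductSpace.PiL2
import Mathlib.Analysis.SpecialFunctions.Exp
import Mathlib.Analysis.SpecialFunctions.Trigonometric.Basic
import Mathlib.LinearAlgebra.Trace
import Mathlib.MeasureTheory.Integral.Bochner.Basic

/-! Smooth properly embedded surfaces and mean curvature flows in `ℝ³`, as sets.

A surface is a closed set which is locally the zero set of a smooth function with nonzero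
gradient. The unit normal `nu N x` and the shape operator `sh N x` come from a chosen local
equation, so the pair is well defined up to a common sign; the mean curvature vector `Hv N x` and
`a2 N x = |A|²` do not depend on the choice. -/

open MeasureTheory Set Filter Topology Metric
open scoped ENNReal NNReal RealInnerProductSpace ContDiff

namespace Vale.Agent.P218FT

/-- Euclidean three-space -/
abbrev E3 : Type := EuclideanSpace ℝ (Fin 3)

/-- the trace -/
noncomputable def tr (L : E3 →L[ℝ] E3) : ℝ := LinearMap.trace ℝ E3 L.toLinearMap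

/-- the projection `v - ⟨n, v⟩ n`, orthogonal projection onto `n^⊥` when `n` is a unit vector -/
noncomputable def pt (n : E3) : E3 →L[ℝ] E3 :=
  ContinuousLinearMap.id ℝ E3 - (innerSL ℝ n).smulRight n

/-- the unit normal `∇w / |∇w|` of the level sets of `w` -/
noncomputable def nuw (w : E3 → ℝ) (x : E3) : E3 := ‖gradient w x‖⁻¹ • gradient w x

/-- the shape operator `- P D²w P / |∇w|` of the level sets of `w`: the second fundamental form
is `II(a, a) = ⟨shw w x a, a⟩ nuw w x` -/
noncomputable def shw (w : E3 → ℝ) (x : E3) : E3 →L[ℝ] E3 :=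
  (-‖gradient w x‖⁻¹) • ((pt (nuw w x)).comp ((fderiv ℝ (gradient w) x).comp (pt (nuw w x))))

/-- `w` is a smooth local equation of `N` at `x` -/
def IsEqn (N : Set E3) (x : E3) (w : E3 → ℝ) : Prop :=
  ContDiff ℝ ∞ w ∧ gradient w x ≠ 0 ∧ ∀ᶠ y in 𝓝 x, y ∈ N ↔ w y = 0

/-- a smooth properly embedded surface -/
def IsSurf (N : Set E3) : Prop := IsClosed N ∧ ∀ x ∈ N, ∃ w, IsEqn N x w

open Classical in
/-- a chosen local equation -/
noncomputable def eqn (N : Set E3) (x : E3) : E3 → ℝ :=
  if h : ∃ w, IsEqn N x w then h.choose else 0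

/-- a unit normal of `N` at `x` -/
noncomputable def nu (N : Set E3) (x : E3) : E3 := nuw (eqn N x) x

/-- the shape operator of `N` at `x` for the normal `nu N x` -/
noncomputable def sh (N : Set E3) (x : E3) : E3 →L[ℝ] E3 := shw (eqn N x) x

/-- the mean curvature vector -/
noncomputable def Hv (N : Set E3) (x : E3) : E3 := tr (sh N x) • nu N x

/-- the square of the norm of the second fundamental form -/
noncomputable def a2 (N : Set E3) (x : E3) : ℝ := tr ((sh N x).comp (sh N x))

/-- the divergence of `X` along `N` -/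
noncomputable def divT (N : Set E3) (X : E3 → E3) (x : E3) : ℝ :=
  tr (fderiv ℝ X x) - ⟪fderiv ℝ X x (nu N x), nu N x⟫

/-- the area measure of `N` (normalised: Lebesgue measure on planes) -/
noncomputable def area (N : Set E3) : Measure E3 := (μHE[2] : Measure E3).restrict N

/-- `(M_t)_{t ∈ I}` is a smooth properly embedded mean curvature flow: `I` is open, the space-time
track is closed in `I × ℝ³` and is locally the zero set of a smooth function `w` with nonzero
spatial gradient, and the normal velocity is the mean curvature vector. -/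
structure IsMCF (M : ℝ → Set E3) (I : Set ℝ) : Prop where
  isOpen : IsOpen I
  closed : ∀ t ∈ I, ∀ x, x ∉ M t → ∀ᶠ p : ℝ × E3 in 𝓝 (t, x), p.2 ∉ M p.1
  loc : ∀ t ∈ I, ∀ x ∈ M t, ∃ w : ℝ × E3 → ℝ, ContDiff ℝ ∞ w ∧
    gradient (fun y => w (t, y)) x ≠ 0 ∧ (∀ᶠ p : ℝ × E3 in 𝓝 (t, x), p.2 ∈ M p.1 ↔ w p = 0) ∧
    deriv (fun s => w (s, x)) t = -⟪gradient (fun y => w (t, y)) x, Hv (M t) x⟫

/-- the space-time track -/
def track (M : ℝ → Set E3) (I : Set ℝ) : Set (ℝ × E3) := {p | p.1 ∈ I ∧ p.2 ∈ M p.1}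

/-- area ratios at most `D` -/
def AreaRatio (D : ℝ) (N : Set E3) : Prop :=
  ∀ (p : E3) (r : ℝ), 0 < r → area N (ball p r) ≤ ENNReal.ofReal (D * r ^ 2)

/-- the local Gauss-Bonnet estimate with constant `G` -/
def LGB (G : ℝ) (N : Set E3) : Prop :=
  ∀ (p : E3) (r : ℝ), 0 < r →
    ∫⁻ x in ball p r, ENNReal.ofReal (a2 N x) ∂(area N) ≤
      ENNReal.ofReal G * (1 + ∫⁻ x in ball p (2 * r), ENNReal.ofReal (‖Hv N x‖ ^ 2) ∂(area N))

/-- the class `C(D, G)` of flows -/
structure InC (D G : ℝ) (M : ℝ → Set E3) (I : Set ℝ) : Prop where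
  mcf : IsMCF M I
  ratio : ∀ t ∈ I, AreaRatio D (M t)
  lgb : ∀ t ∈ I, LGB G (M t)

/-- the kernel `(4πσ)⁻¹ exp(-|z|²/(4σ))` -/
noncomputable def gk (σ : ℝ) (z : E3) : ℝ := (4 * Real.pi * σ)⁻¹ * Real.exp (-‖z‖ ^ 2 / (4 * σ))

/-- the Gaussian area of `N` at centre `y` and scale `r` -/
noncomputable def gA (N : Set E3) (y : E3) (r : ℝ) : ℝ := ∫ x, gk (r ^ 2) (x - y) ∂(area N)

/-- the Gaussian density ratio of the flow at `(y, t)` and scale `r` -/
noncomputable def dens (M : ℝ → Set E3) (y : E3) (t r : ℝ) : ℝ := gA (M (t - r ^ 2)) y r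

/-- the speed `H + (x - y)^⊥ / (2 σ)` relative to the centre `y`, `σ` being the time left -/
noncomputable def relV (N : Set E3) (y : E3) (σ : ℝ) (x : E3) : E3 :=
  Hv N x + ((2 * σ)⁻¹ * ⟪x - y, nu N x⟫) • nu N x

/-- the two-point curvature bound at `x`: one sheet in `B(x, r)`, with curvature at most `C` -/
def TwoPt (N : Set E3) (x : E3) (r C : ℝ) : Prop :=
  ∀ y ∈ N, ‖y - x‖ ≤ r → |⟪y - x, nu N x⟫| ≤ C * ‖y - x‖ ^ 2

/-- the image of a set under `x ↦ lam (x - x₀)` -/
def scaleSet (lam : ℝ) (x₀ : E3) (N : Set E3) : Set E3 := {y | x₀ + lam⁻¹ • y ∈ N}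

/-- the parabolic rescaling of a flow about `(x₀, t₀)` -/
def scaleFlow (lam : ℝ) (x₀ : E3) (t₀ : ℝ) (M : ℝ → Set E3) : ℝ → Set E3 :=
  fun s => scaleSet lam x₀ (M (t₀ + s / lam ^ 2))

end Vale.Agent.P218FT
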