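import Vale.Agent.P218FT.Spec
import Vale.Agent.P218GA.Jac
import Mathlib.Analysis.Calculus.ImplicitContDiff
import Mathlib.Analysis.Calculus.BumpFunction.FiniteDimension
import Mathlib.Analysis.InnerProductSpace.Adjoint
import Mathlib.MeasureTheory.Measure.Lebesgue.VolumeOfBalls
import Mathlib.Analysis.Real.Pi.Bounds

/-! Graph charts of surfaces and of flows, and the area formula in a chart. -/

open MeasureTheory Set Filter Topology Metric
open scoped ENNReal NNReal RealInnerProductSpace ContDiff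

namespace Vale.Agent.P218FT.Chart

open Vale.Agent.P218GA

/-- the Euclidean plane -/
abbrev E2 : Type := EuclideanSpace ℝ (Fin 2)

/-- `J` is an isometry from the plane onto the orthogonal complement of the unit vector `n`, and
`pr` is its adjoint -/
structure Frame (n : E3) (J : E2 →L[ℝ] E3) (pr : E3 →L[ℝ] E2) : Prop where
  unit : ‖n‖ = 1
  inner_J : ∀ u v, ⟪J u, J v⟫ = ⟪u, v⟫
  orth : ∀ u, ⟪n, J u⟫ = 0
  adj : ∀ x u, ⟪x, J u⟫ = ⟪pr x, u⟫
  decomp : ∀ x, J (pr x) + ⟪n, x⟫ • n = x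

lemma pt_apply (n v : E3) : pt n v = v - ⟪n, v⟫ • n := by simp [pt]

theorem exists_frame {n : E3} (hn : ‖n‖ = 1) : ∃ J pr, Frame n J pr := by
  have hn0 : n ≠ 0 := by
    intro h
    rw [h, norm_zero] at hn
    exact zero_ne_one hn
  have : Fact (Module.finrank ℝ E3 = 2 + 1) := ⟨by simp⟩
  let b := OrthonormalBasis.fromOrthogonalSpanSingleton (𝕜 := ℝ) 2 hn0
  let Ji : E2 →ₗᵢ[ℝ] E3 := (ℝ ∙ n)ᗮ.subtypeₗᵢ.comp b.repr.symm.toLinearIsometry
  let J : E2 →L[ℝ] E3 := Ji.toContinuousLinearMap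
  have h1 : ∀ u v, ⟪J u, J v⟫ = ⟪u, v⟫ := fun u v => Ji.inner_map_map u v
  have h2 : ∀ u, ⟪n, J u⟫ = 0 := fun u =>
    Submodule.mem_orthogonal_singleton_iff_inner_right.1 (b.repr.symm u).2
  have h3 : ∀ x u, ⟪x, J u⟫ = ⟪ContinuousLinearMap.adjoint J x, u⟫ := fun x u =>
    (ContinuousLinearMap.adjoint_inner_left J u x).symm
  refine ⟨J, ContinuousLinearMap.adjoint J, hn, h1, h2, h3, fun x => ?_⟩
  have hm : x - ⟪n, x⟫ • n ∈ (ℝ ∙ n)ᗮ := by
    rw [Submodule.mem_orthogonal_singleton_iff_inner_right, inner_sub_right, inner_smul_right,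
      real_inner_self_eq_norm_sq, hn]
    ring
  have h4 : J (b.repr ⟨_, hm⟩) = x - ⟪n, x⟫ • n := by simp [J, Ji]
  have h5 : ContinuousLinearMap.adjoint J x = b.repr ⟨_, hm⟩ := by
    refine ext_inner_right ℝ fun v => ?_
    rw [← h3, ← h1, h4, inner_sub_left, inner_smul_left, h2]
    simp
  rw [h5, h4]
  abel

namespace Frame

variable {n : E3} {J : E2 →L[ℝ] E3} {pr : E3 →L[ℝ] E2}

lemma inner_n (F : Frame n J pr) : ⟪n, n⟫ = 1 := by
  rw [real_inner_self_eq_norm_sq, F.unit]; norm_num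

lemma orth' (F : Frame n J pr) (u : E2) : ⟪J u, n⟫ = 0 := by rw [real_inner_comm, F.orth]

lemma pr_J (F : Frame n J pr) (u : E2) : pr (J u) = u :=
  ext_inner_right ℝ fun v => by rw [← F.adj, F.inner_J]

lemma pr_n (F : Frame n J pr) : pr n = 0 :=
  ext_inner_right ℝ fun v => by rw [← F.adj, F.orth, inner_zero_left]

lemma norm_J (F : Frame n J pr) (u : E2) : ‖J u‖ = ‖u‖ := by
  rw [← Real.sqrt_sq (norm_nonneg (J u)), ← real_inner_self_eq_norm_sq, F.inner_J,
    real_inner_self_eq_norm_sq, Real.sqrt_sq (norm_nonneg u)]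

lemma J_pr (F : Frame n J pr) (x : E3) : J (pr x) = pt n x := by
  rw [pt_apply, eq_sub_iff_add_eq, F.decomp]

lemma isometry (F : Frame n J pr) : Isometry J :=
  AddMonoidHomClass.isometry_of_norm J F.norm_J

lemma norm_sq_add (F : Frame n J pr) (u : E2) (c : ℝ) : ‖J u + c • n‖ ^ 2 = ‖u‖ ^ 2 + c ^ 2 := by
  rw [norm_add_sq_real, inner_smul_right, F.orth', F.norm_J, norm_smul, F.unit, Real.norm_eq_abs,
    mul_one, sq_abs]
  ring

lemma norm_sq_eq (F : Frame n J pr) (x : E3) : ‖x‖ ^ 2 = ‖pr x‖ ^ 2 + ⟪n, x⟫ ^ 2 := by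
  conv_lhs => rw [← F.decomp x]
  exact F.norm_sq_add _ _

lemma norm_pr_le (F : Frame n J pr) (x : E3) : ‖pr x‖ ≤ ‖x‖ := by
  have := F.norm_sq_eq x
  exact abs_le_of_sq_le_sq' (by nlinarith [sq_nonneg ⟪n, x⟫]) (norm_nonneg x) |>.2

lemma measure_image (F : Frame n J pr) (s : Set E2) :
    (μHE[2] : Measure E3) (J '' s) = volume s := by
  rw [F.isometry.euclideanHausdorffMeasure_image, EuclideanSpace.euclideanHausdorffMeasure_eq_volume]

lemma lintegral_image (F : Frame n J pr) {s : Set E2} (hs : MeasurableSet s) (g : E3 → ℝ≥0∞) :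
    ∫⁻ y in J '' s, g y ∂(μHE[2] : Measure E3) = ∫⁻ u in s, g (J u) := by
  have he : MeasurableEmbedding J := F.isometry.isClosedEmbedding.measurableEmbedding
  have h1 : (μHE[2] : Measure E3).restrict (J '' s) = Measure.map J (volume.restrict s) := by
    rw [← EuclideanSpace.euclideanHausdorffMeasure_eq_volume 2]
    have := he.restrict_map (μHE[2] : Measure E2) (J '' s)
    rw [preimage_image_eq _ he.injective, F.isometry.map_euclideanHausdorffMeasure,
      Measure.restrict_restrict (he.measurableSet_image' hs),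
      inter_eq_left.2 (image_subset_range _ _)] at this
    exact this
  rw [h1, he.lintegral_map]

end Frame

/-- the graph parametrisation -/
def gr (n : E3) (J : E2 →L[ℝ] E3) (h : E2 → ℝ) (u : E2) : E3 := J u + h u • n

/-- the area element of a graph -/
noncomputable def jac (h : E2 → ℝ) (u : E2) : ℝ := √(1 + ‖gradient h u‖ ^ 2)

lemma one_le_jac (h : E2 → ℝ) (u : E2) : 1 ≤ jac h u :=
  Real.one_le_sqrt.2 (le_add_of_nonneg_right (sq_nonneg _))

lemma jac_pos (h : E2 → ℝ) (u : E2) : 0 < jac h u := lt_of_lt_of_le one_pos (one_le_jac h u)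

lemma jac_sq (h : E2 → ℝ) (u : E2) : jac h u ^ 2 = 1 + ‖gradient h u‖ ^ 2 :=
  Real.sq_sqrt (by positivity)

lemma inner_gradient {E : Type*} [NormedAddCommGroup E] [InnerProductSpace ℝ E] [CompleteSpace E]
    (f : E → ℝ) (x v : E) : ⟪gradient f x, v⟫ = fderiv ℝ f x v := by
  rw [gradient, InnerProductSpace.toDual_symm_apply]

lemma norm_gradient {E : Type*} [NormedAddCommGroup E] [InnerProductSpace ℝ E] [CompleteSpace E]
    (f : E → ℝ) (x : E) : ‖gradient f x‖ = ‖fderiv ℝ f x‖ := by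
  rw [gradient, LinearIsometryEquiv.norm_map]

variable {n : E3} {J : E2 →L[ℝ] E3} {pr : E3 →L[ℝ] E2} {h : E2 → ℝ}

lemma Frame.pr_gr (F : Frame n J pr) (h : E2 → ℝ) (u : E2) : pr (gr n J h u) = u := by
  simp [gr, F.pr_J, F.pr_n]

lemma Frame.inner_gr (F : Frame n J pr) (h : E2 → ℝ) (u : E2) : ⟪n, gr n J h u⟫ = h u := by
  rw [gr, inner_add_right, F.orth, inner_smul_right, F.inner_n]; ring

lemma Frame.gr_injective (F : Frame n J pr) (h : E2 → ℝ) : Function.Injective (gr n J h) :=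
  Function.LeftInverse.injective (F.pr_gr h)

lemma Frame.gr_pr (F : Frame n J pr) {y : E3} (hy : h (pr y) = ⟪n, y⟫) : gr n J h (pr y) = y := by
  rw [gr, hy, F.decomp]

lemma Frame.norm_gr_sub_sq (F : Frame n J pr) (h : E2 → ℝ) (u v : E2) :
    ‖gr n J h u - gr n J h v‖ ^ 2 = ‖u - v‖ ^ 2 + (h u - h v) ^ 2 := by
  rw [← F.norm_sq_add, gr, gr, map_sub, sub_smul]
  congr 2
  abel

lemma hasFDerivAt_gr {u : E2} (hh : DifferentiableAt ℝ h u) :
    HasFDerivAt (gr n J h) (J + (fderiv ℝ h u).smulRight n) u :=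
  J.hasFDerivAt.add (hh.hasFDerivAt.smul_const n)

lemma contDiffOn_gr {k : ℕ∞ω} {O : Set E2} (hh : ContDiffOn ℝ k h O) :
    ContDiffOn ℝ k (gr n J h) O :=
  J.contDiff.contDiffOn.add (hh.smul contDiffOn_const)

lemma contDiff_gr {k : ℕ∞ω} (hh : ContDiff ℝ k h) : ContDiff ℝ k (gr n J h) :=
  J.contDiff.add (hh.smul contDiff_const)

lemma Frame.normDet (F : Frame n J pr) (h : E2 → ℝ) (u : E2) :
    ((J + (fderiv ℝ h u).smulRight n : E2 →L[ℝ] E3) : E2 →ₗ[ℝ] E3).normDet = jac h u := by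
  rw [normDet_eq_sqrt _ (EuclideanSpace.basisFun (Fin 2) ℝ), Matrix.det_fin_two, jac]
  congr 1
  have e : ∀ v w : E2, ⟪J v + fderiv ℝ h u v • n, J w + fderiv ℝ h u w • n⟫
      = ⟪v, w⟫ + fderiv ℝ h u v * fderiv ℝ h u w := by
    intro v w
    simp only [inner_add_left, inner_add_right, inner_smul_left, inner_smul_right, F.inner_J,
      F.orth, F.orth', F.inner_n]
    simp
    ring
  have e2 : ‖gradient h u‖ ^ 2 = (fderiv ℝ h u (EuclideanSpace.single 0 1)) ^ 2
      + (fderiv ℝ h u (EuclideanSpace.single 1 1)) ^ 2 := by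
    rw [EuclideanSpace.real_norm_sq_eq, Fin.sum_univ_two, ← inner_gradient, ← inner_gradient,
      EuclideanSpace.inner_single_right, EuclideanSpace.inner_single_right]
    simp
  simp only [Matrix.gram_apply, ContinuousLinearMap.coe_coe, _root_.add_apply,
    ContinuousLinearMap.smulRight_apply, e, EuclideanSpace.basisFun_apply, e2]
  simp [EuclideanSpace.inner_single_right]
  ring

/-- **Area formula** for a graph. -/
theorem Frame.lintegral_graph (F : Frame n J pr) {O : Set E2} (hO : IsOpen O)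
    (hh : ContDiffOn ℝ 1 h O) {s : Set E2} (hs : MeasurableSet s) (hsO : s ⊆ O)
    (g : E3 → ℝ≥0∞) :
    ∫⁻ x in gr n J h '' s, g x ∂(μHE[2] : Measure E3)
      = ∫⁻ u in s, ENNReal.ofReal (jac h u) * g (gr n J h u) := by
  have hd : ∀ u ∈ O, fderiv ℝ (gr n J h) u = J + (fderiv ℝ h u).smulRight n := fun u hu =>
    (hasFDerivAt_gr ((hh.contDiffAt (hO.mem_nhds hu)).differentiableAt one_ne_zero)).fderiv
  have hi : ∀ u ∈ O, Function.Injective (fderiv ℝ (gr n J h) u) := by
    intro u hu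
    rw [hd u hu]
    refine Function.LeftInverse.injective (g := pr) fun v => ?_
    simp [F.pr_J, F.pr_n]
  have key := (isJac_volume (U := E2) (V := E3) (m := 2) (by simp)).lintegral_image hO
    (contDiffOn_gr hh) hi hs hsO (F.gr_injective h).injOn g
  rw [hausdorff_eq_smul, Measure.restrict_smul, lintegral_smul_measure] at key
  have h2 : ∫⁻ u in s, ENNReal.ofReal (cH 2 * ((fderiv ℝ (gr n J h) u : E2 →L[ℝ] E3) :
        E2 →ₗ[ℝ] E3).normDet) * g (gr n J h u)
      = (cH 2 : ℝ≥0∞) * ∫⁻ u in s, ENNReal.ofReal (jac h u) * g (gr n J h u) := by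
    rw [← lintegral_const_mul' _ _ ENNReal.coe_ne_top]
    refine setLIntegral_congr_fun hs fun u hu => ?_
    rw [hd u (hsO hu), F.normDet, ENNReal.ofReal_mul (cH 2).coe_nonneg, ENNReal.ofReal_coe_nnreal,
      mul_assoc]
  rw [h2, ENNReal.smul_def, smul_eq_mul] at key
  exact (ENNReal.mul_right_inj (by exact_mod_cast (cH_pos 2).ne') ENNReal.coe_ne_top).1 key

/-- **Area formula** for a graph, Bochner integrals. -/
theorem Frame.integral_graph (F : Frame n J pr) {O : Set E2} (hO : IsOpen O)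
    (hh : ContDiffOn ℝ 1 h O) {s : Set E2} (hs : MeasurableSet s) (hsO : s ⊆ O)
    {G : Type*} [NormedAddCommGroup G] [NormedSpace ℝ G] (g : E3 → G) :
    ∫ x in gr n J h '' s, g x ∂(μHE[2] : Measure E3) = ∫ u in s, jac h u • g (gr n J h u) := by
  have hd : ∀ u ∈ O, fderiv ℝ (gr n J h) u = J + (fderiv ℝ h u).smulRight n := fun u hu =>
    (hasFDerivAt_gr ((hh.contDiffAt (hO.mem_nhds hu)).differentiableAt one_ne_zero)).fderiv
  have hi : ∀ u ∈ O, Function.Injective (fderiv ℝ (gr n J h) u) := by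
    intro u hu
    rw [hd u hu]
    refine Function.LeftInverse.injective (g := pr) fun v => ?_
    simp [F.pr_J, F.pr_n]
  have key := (isJac_volume (U := E2) (V := E3) (m := 2) (by simp)).integral_image hO
    (contDiffOn_gr hh) hi hs hsO (F.gr_injective h).injOn g
  rw [hausdorff_eq_smul, Measure.restrict_smul, integral_smul_nnreal_measure] at key
  have h2 : ∫ u in s, (cH 2 * ((fderiv ℝ (gr n J h) u : E2 →L[ℝ] E3) :
        E2 →ₗ[ℝ] E3).normDet) • g (gr n J h u)
      = (cH 2 : ℝ) • ∫ u in s, jac h u • g (gr n J h u) := by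
    rw [← integral_smul]
    refine setIntegral_congr_fun hs fun u hu => ?_
    rw [hd u (hsO hu), F.normDet, mul_smul]
  rw [h2, NNReal.smul_def] at key
  exact smul_right_injective G (cH_pos' 2).ne' key

/-- a function which is smooth near a point has a smooth global representative -/
lemma exists_contDiff_eventuallyEq {P G : Type*} [NormedAddCommGroup P] [NormedSpace ℝ P]
    [FiniteDimensional ℝ P] [NormedAddCommGroup G] [NormedSpace ℝ G] {f : P → G} {z : P}
    {k : ℕ∞} (hf : ∀ᶠ y in 𝓝 z, ContDiffAt ℝ k f y) : ∃ g : P → G, ContDiff ℝ k g ∧ g =ᶠ[𝓝 z] f := by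
  obtain ⟨r, hr, hb⟩ := nhds_basis_closedBall.mem_iff.1 hf
  let φ : ContDiffBump z := ⟨r / 2, r, half_pos hr, half_lt_self hr⟩
  refine ⟨fun y => φ y • f y, contDiff_iff_contDiffAt.2 fun y => ?_, ?_⟩
  · by_cases hy : y ∈ closedBall z r
    · exact φ.contDiffAt.smul (hb hy)
    · have : ∀ᶠ y' in 𝓝 y, φ y' • f y' = 0 := by
        filter_upwards [isClosed_closedBall.isOpen_compl.mem_nhds hy] with y' hy'
        have : φ y' = 0 := φ.zero_of_le_dist (not_le.1 (mt mem_closedBall.2 hy')).le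
        rw [this, zero_smul]
      exact contDiffAt_const.congr_of_eventuallyEq this
  · filter_upwards [φ.eventuallyEq_one] with y hy
    rw [hy, Pi.one_apply, one_smul]

/-- the implicit function theorem for a smooth scalar equation -/
lemma exists_implicit {Z : Type*} [NormedAddCommGroup Z] [NormedSpace ℝ Z] [FiniteDimensional ℝ Z]
    {f : Z × ℝ → ℝ} (hf : ContDiff ℝ ∞ f) {v : Z × ℝ} (hv : fderiv ℝ f v (0, 1) ≠ 0) :
    ∃ h : Z → ℝ, ContDiff ℝ ∞ h ∧ ∀ᶠ q in 𝓝 v, f q = f v ↔ h q.1 = q.2 := by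
  have : CompleteSpace Z := FiniteDimensional.complete ℝ Z
  have hinv : ∀ q : Z × ℝ, fderiv ℝ f q (0, 1) ≠ 0 →
      (fderiv ℝ f q ∘L .inr ℝ Z ℝ).IsInvertible := by
    intro q hq
    refine ⟨ContinuousLinearEquiv.unitsEquivAut ℝ (Units.mk0 _ hq), ?_⟩
    ext
    simp
  have pn : (∞ : ℕ∞ω) ≠ 0 := by simp
  let ψ := (hf.contDiffAt (x := v)).implicitFunction pn (hinv v hv)
  have h0 : ψ v.1 = v.2 := ContDiffAt.implicitFunction_apply_self _ _ _
  have h1 : ∀ᶠ q in 𝓝 v, f q = f v ↔ ψ q.1 = q.2 :=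
    ContDiffAt.eventually_apply_eq_iff_implicitFunction _ _ _
  have h2 : ContinuousAt ψ v.1 := (ContDiffAt.contDiffAt_implicitFunction _ _ _).continuousAt
  have h3 : Tendsto (fun z => (z, ψ z)) (𝓝 v.1) (𝓝 v) := by
    have := (continuousAt_id.prodMk h2).tendsto
    simpa [h0] using this
  have h4 : ∀ᶠ q in 𝓝 v, fderiv ℝ f q (0, 1) ≠ 0 := by
    have : Continuous fun q => fderiv ℝ f q (0, 1) :=
      (hf.continuous_fderiv pn).clm_apply continuous_const
    exact this.continuousAt.eventually_ne hv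
  have h5 : ∀ᶠ z in 𝓝 v.1, ContDiffAt ℝ ∞ ψ z := by
    filter_upwards [h3.eventually h1.eventually_nhds, h3.eventually h4] with z hz1 hz4
    let ψ' := (hf.contDiffAt (x := (z, ψ z))).implicitFunction pn (hinv _ hz4)
    have a0 : ψ' z = ψ z := ContDiffAt.implicitFunction_apply_self (u := (z, ψ z)) _ _ _
    have a1 : ContDiffAt ℝ ∞ ψ' z := ContDiffAt.contDiffAt_implicitFunction (u := (z, ψ z)) _ _ _
    have a2 : ∀ᶠ y in 𝓝 z, f (y, ψ' y) = f (z, ψ z) :=
      ContDiffAt.eventually_apply_implicitFunction (u := (z, ψ z)) _ _ _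
    have a3 : Tendsto (fun y => (y, ψ' y)) (𝓝 z) (𝓝 (z, ψ z)) := by
      have := (continuousAt_id.prodMk a1.continuousAt).tendsto
      simpa [a0] using this
    have a4 : f (z, ψ z) = f v := hz1.self_of_nhds.2 rfl
    refine a1.congr_of_eventuallyEq ?_
    filter_upwards [a2, a3.eventually hz1] with y hy1 hy2
    exact hy2.1 (hy1.trans a4)
  obtain ⟨h, hh, he⟩ := exists_contDiff_eventuallyEq (k := ⊤) h5
  refine ⟨h, hh, ?_⟩
  filter_upwards [h1, continuousAt_fst.tendsto.eventually he] with q hq1 hq2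
  rw [hq1, hq2]

/-- the zero set of a smooth function with parameters is locally a graph -/
theorem Frame.exists_graph (F : Frame n J pr) {P : Type*} [NormedAddCommGroup P] [NormedSpace ℝ P]
    [FiniteDimensional ℝ P] {w : P × E3 → ℝ} (hw : ContDiff ℝ ∞ w) {q₀ : P × E3} (h0 : w q₀ = 0)
    (hn : fderiv ℝ w q₀ (0, n) ≠ 0) :
    ∃ h : P × E2 → ℝ, ContDiff ℝ ∞ h ∧ ∀ᶠ q in 𝓝 q₀, w q = 0 ↔ h (q.1, pr q.2) = ⟪n, q.2⟫ := by
  let A : (P × E2) × ℝ →L[ℝ] P × E3 :=
    ((ContinuousLinearMap.fst ℝ P E2).comp (ContinuousLinearMap.fst ℝ (P × E2) ℝ)).prod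
      (J.comp ((ContinuousLinearMap.snd ℝ P E2).comp (ContinuousLinearMap.fst ℝ (P × E2) ℝ)) +
        (ContinuousLinearMap.snd ℝ (P × E2) ℝ).smulRight n)
  have hA : ∀ v, A v = (v.1.1, J v.1.2 + v.2 • n) := fun v => by simp [A]
  let B : P × E3 → (P × E2) × ℝ := fun q => ((q.1, pr q.2), ⟪n, q.2⟫)
  have hB : Continuous B := by fun_prop
  have hAB : ∀ q, A (B q) = q := fun q => by rw [hA]; simp [B, F.decomp]
  have hf : ContDiff ℝ ∞ (w ∘ A) := hw.comp A.contDiff
  have hd : fderiv ℝ (w ∘ A) (B q₀) (0, 1) ≠ 0 := by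
    rw [fderiv_comp _ (hw.differentiable (by simp) _) A.differentiableAt, A.fderiv,
      ContinuousLinearMap.comp_apply, hAB, hA]
    simpa using hn
  obtain ⟨h, hh, he⟩ := exists_implicit hf hd
  refine ⟨h, hh, ?_⟩
  filter_upwards [hB.continuousAt.tendsto.eventually he] with q hq
  simpa [hAB, h0, B] using hq

/-- in the open set `U`, the set `N` is the graph of the smooth function `h` over `n^⊥` -/
structure IsChart (N : Set E3) (n : E3) (J : E2 →L[ℝ] E3) (pr : E3 →L[ℝ] E2) (h : E2 → ℝ)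
    (U : Set E3) : Prop where
  frame : Frame n J pr
  smooth : ContDiff ℝ ∞ h
  isOpen : IsOpen U
  mem_iff : ∀ y ∈ U, y ∈ N ↔ h (pr y) = ⟪n, y⟫

variable {N U : Set E3}

lemma eqn_spec (hN : IsSurf N) {x : E3} (hx : x ∈ N) : IsEqn N x (eqn N x) := by
  have h := hN.2 x hx
  rw [eqn, dif_pos h]
  exact h.choose_spec

lemma norm_nuw {w : E3 → ℝ} {x : E3} (hw : gradient w x ≠ 0) : ‖nuw w x‖ = 1 := by
  rw [nuw, norm_smul, norm_inv, norm_norm, inv_mul_cancel₀ (norm_ne_zero_iff.2 hw)]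

lemma norm_nu (hN : IsSurf N) {x : E3} (hx : x ∈ N) : ‖nu N x‖ = 1 :=
  norm_nuw (eqn_spec hN hx).2.1

/-- a local equation gives a chart in every direction which is not tangent -/
theorem IsEqn.exists_chart {x : E3} {w : E3 → ℝ} (hw : IsEqn N x w) (hx : x ∈ N)
    (F : Frame n J pr) (hn : ⟪gradient w x, n⟫ ≠ 0) :
    ∃ h U, x ∈ U ∧ IsChart N n J pr h U := by
  have h0 : w x = 0 := hw.2.2.self_of_nhds.1 hx
  have hs : ContDiff ℝ ∞ fun q : ℝ × E3 => w q.2 := hw.1.comp contDiff_snd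
  have hd : fderiv ℝ (fun q : ℝ × E3 => w q.2) (0, x) (0, n) ≠ 0 := by
    have : HasFDerivAt (fun q : ℝ × E3 => w q.2)
        ((fderiv ℝ w x).comp (ContinuousLinearMap.snd ℝ ℝ E3)) (0, x) :=
      HasFDerivAt.comp ((0 : ℝ), x) (hw.1.differentiable (by simp) x).hasFDerivAt hasFDerivAt_snd
    rw [this.fderiv]
    simpa [inner_gradient] using hn
  obtain ⟨h, hh, he⟩ := F.exists_graph hs (q₀ := (0, x)) h0 hd
  have ht : Tendsto (fun y : E3 => ((0 : ℝ), y)) (𝓝 x) (𝓝 (0, x)) :=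
    (continuous_const.prodMk continuous_id).continuousAt
  obtain ⟨U, hU, hUo, hxU⟩ := _root_.eventually_nhds_iff.1 ((ht.eventually he).and hw.2.2)
  exact ⟨fun u => h (0, u), U, hxU, F, hh.comp (contDiff_const.prodMk contDiff_id), hUo,
    fun y hy => (hU y hy).2.trans (hU y hy).1⟩

theorem exists_chart (hN : IsSurf N) {x : E3} (hx : x ∈ N) (F : Frame n J pr)
    (hn : ⟪nu N x, n⟫ ≠ 0) : ∃ h U, x ∈ U ∧ IsChart N n J pr h U := by
  refine IsEqn.exists_chart (eqn_spec hN hx) hx F fun h0 => hn ?_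
  rw [nu, nuw, inner_smul_left, h0, mul_zero]

namespace IsChart

lemma gr_pr (C : IsChart N n J pr h U) {y : E3} (hy : y ∈ N) (hU : y ∈ U) :
    gr n J h (pr y) = y := C.frame.gr_pr ((C.mem_iff y hU).1 hy)

lemma gr_mem (C : IsChart N n J pr h U) {u : E2} (hu : gr n J h u ∈ U) : gr n J h u ∈ N := by
  rw [C.mem_iff _ hu, C.frame.pr_gr, C.frame.inner_gr]

lemma continuous_gr (C : IsChart N n J pr h U) : Continuous (gr n J h) :=
  (contDiff_gr C.smooth).continuous

lemma image_pr (C : IsChart N n J pr h U) {S : Set E3} (hS : S ⊆ N ∩ U) :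
    pr '' S = gr n J h ⁻¹' S := by
  ext u
  constructor
  · rintro ⟨y, hy, rfl⟩
    rw [mem_preimage, C.gr_pr (hS hy).1 (hS hy).2]
    exact hy
  · intro hu
    exact ⟨_, hu, C.frame.pr_gr h u⟩

lemma image_gr (C : IsChart N n J pr h U) {S : Set E3} (hS : S ⊆ N ∩ U) :
    gr n J h '' (pr '' S) = S := by
  rw [image_image]
  exact (image_congr fun y hy => C.gr_pr (hS hy).1 (hS hy).2).trans (image_id' S)

lemma measurableSet_image (C : IsChart N n J pr h U) {S : Set E3} (hS : S ⊆ N ∩ U)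
    (hm : MeasurableSet S) : MeasurableSet (pr '' S) := by
  rw [C.image_pr hS]
  exact C.continuous_gr.measurable hm

lemma restrict_area {S : Set E3} (hS : S ⊆ N) (hm : MeasurableSet S) :
    (area N).restrict S = (μHE[2] : Measure E3).restrict S := by
  rw [area, Measure.restrict_restrict hm, inter_eq_left.2 hS]

/-- **Area formula** in a chart. -/
theorem lintegral (C : IsChart N n J pr h U) {S : Set E3} (hS : S ⊆ N ∩ U) (hm : MeasurableSet S)
    (g : E3 → ℝ≥0∞) :
    ∫⁻ x in S, g x ∂(area N) = ∫⁻ u in pr '' S, ENNReal.ofReal (jac h u) * g (gr n J h u) := by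
  rw [restrict_area (hS.trans inter_subset_left) hm,
    ← C.frame.lintegral_graph isOpen_univ (C.smooth.of_le (by simp)).contDiffOn
      (C.measurableSet_image hS hm) (subset_univ _), C.image_gr hS]

/-- **Area formula** in a chart, Bochner integrals. -/
theorem integral (C : IsChart N n J pr h U) {S : Set E3} (hS : S ⊆ N ∩ U) (hm : MeasurableSet S)
    {G : Type*} [NormedAddCommGroup G] [NormedSpace ℝ G] (g : E3 → G) :
    ∫ x in S, g x ∂(area N) = ∫ u in pr '' S, jac h u • g (gr n J h u) := by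
  rw [restrict_area (hS.trans inter_subset_left) hm,
    ← C.frame.integral_graph isOpen_univ (C.smooth.of_le (by simp)).contDiffOn
      (C.measurableSet_image hS hm) (subset_univ _), C.image_gr hS]

theorem measure_eq (C : IsChart N n J pr h U) {S : Set E3} (hS : S ⊆ N ∩ U) (hm : MeasurableSet S) :
    area N S = ∫⁻ u in pr '' S, ENNReal.ofReal (jac h u) := by
  have := C.lintegral hS hm fun _ => 1
  simpa using this

/-- the gradient of a function which vanishes on `N` is normal to the graph -/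
lemma pr_gradient (C : IsChart N n J pr h U) {y : E3} (hy : y ∈ N) (hU : y ∈ U) {w : E3 → ℝ}
    (hw : DifferentiableAt ℝ w y) (h0 : ∀ᶠ z in 𝓝 y, z ∈ N → w z = 0) :
    pr (gradient w y) = -(⟪n, gradient w y⟫ • gradient h (pr y)) := by
  have e := C.gr_pr hy hU
  have ht : Tendsto (gr n J h) (𝓝 (pr y)) (𝓝 y) := by
    have := C.continuous_gr.continuousAt (x := pr y) |>.tendsto
    rwa [e] at this
  have h1 : (w ∘ gr n J h) =ᶠ[𝓝 (pr y)] fun _ => 0 := by
    filter_upwards [ht.eventually h0, ht.eventually (C.isOpen.mem_nhds hU)] with u h1 h2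
    exact h1 (C.gr_mem h2)
  have h2 : HasFDerivAt (w ∘ gr n J h)
      ((fderiv ℝ w y).comp (J + (fderiv ℝ h (pr y)).smulRight n)) (pr y) := by
    refine HasFDerivAt.comp _ ?_ (hasFDerivAt_gr (C.smooth.differentiable (by simp) _))
    rw [e]
    exact hw.hasFDerivAt
  have h3 := h2.unique ((hasFDerivAt_const (0 : ℝ) (pr y)).congr_of_eventuallyEq h1)
  refine ext_inner_right ℝ fun v => ?_
  have h4 := congrArg (fun L : E2 →L[ℝ] ℝ => L v) h3
  simp only [ContinuousLinearMap.comp_apply, _root_.add_apply,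
    ContinuousLinearMap.smulRight_apply, map_add, map_smul, smul_eq_mul,
    _root_.zero_apply] at h4
  rw [← C.frame.adj, inner_neg_left, inner_smul_left, inner_gradient, inner_gradient,
    real_inner_comm, inner_gradient]
  simp only [conj_trivial]
  linarith

lemma gradient_eq (C : IsChart N n J pr h U) {y : E3} (hy : y ∈ N) (hU : y ∈ U) {w : E3 → ℝ}
    (hw : DifferentiableAt ℝ w y) (h0 : ∀ᶠ z in 𝓝 y, z ∈ N → w z = 0) :
    gradient w y = ⟪n, gradient w y⟫ • (n - J (gradient h (pr y))) := by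
  conv_lhs => rw [← C.frame.decomp (gradient w y), C.pr_gradient hy hU hw h0]
  rw [map_neg, map_smul, smul_sub]
  abel

lemma norm_normal (F : Frame n J pr) (h : E2 → ℝ) (u : E2) :
    ‖n - J (gradient h u)‖ = jac h u := by
  have := F.norm_sq_add (-gradient h u) 1
  rw [map_neg, one_smul, neg_add_eq_sub, norm_neg] at this
  rw [jac, ← Real.sqrt_sq (norm_nonneg (n - J (gradient h u))), this]
  congr 1
  ring

/-- the unit normal of a local equation in a chart -/
lemma nuw_eq (C : IsChart N n J pr h U) {y : E3} (hy : y ∈ N) (hU : y ∈ U) {w : E3 → ℝ}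
    (hw : IsEqn N y w) : ∃ σ : ℝ, (σ = 1 ∨ σ = -1) ∧
      nuw w y = (σ * (jac h (pr y))⁻¹) • (n - J (gradient h (pr y))) := by
  have e := C.gradient_eq hy hU (hw.1.differentiable (by simp) y) (hw.2.2.mono fun z hz => hz.1)
  set c := ⟪n, gradient w y⟫ with hc
  have hc0 : c ≠ 0 := by
    intro h0
    rw [h0, zero_smul] at e
    exact hw.2.1 e
  have hj := jac_pos h (pr y)
  have e2 : ‖gradient w y‖ = |c| * jac h (pr y) := by
    rw [e, norm_smul, norm_normal C.frame, Real.norm_eq_abs]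
  refine ⟨c / |c|, ?_, ?_⟩
  · rcases lt_or_gt_of_ne hc0 with h1 | h1
    · right; rw [abs_of_neg h1]; field_simp
    · left; rw [abs_of_pos h1]; field_simp
  · rw [nuw, e2]
    conv_lhs => rw [e]
    rw [smul_smul]
    congr 1
    field_simp

lemma nu_eq (C : IsChart N n J pr h U) (hN : IsSurf N) {y : E3} (hy : y ∈ N) (hU : y ∈ U) :
    ∃ σ : ℝ, (σ = 1 ∨ σ = -1) ∧ nu N y = (σ * (jac h (pr y))⁻¹) • (n - J (gradient h (pr y))) :=
  C.nuw_eq hy hU (eqn_spec hN hy)

lemma abs_inner_nu (C : IsChart N n J pr h U) (hN : IsSurf N) {y : E3} (hy : y ∈ N) (hU : y ∈ U) :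
    |⟪nu N y, n⟫| = (jac h (pr y))⁻¹ := by
  obtain ⟨σ, hσ, e⟩ := C.nu_eq hN hy hU
  rw [e, inner_smul_left, inner_sub_left, C.frame.inner_n, C.frame.orth']
  have := (jac_pos h (pr y)).le
  rcases hσ with rfl | rfl <;> simp [abs_of_nonneg this]

end IsChart

/-- `pt e` in terms of a frame -/
lemma Frame.image_pt (F : Frame n J pr) (S : Set E3) : pt n '' S = J '' (pr '' S) := by
  rw [image_image]
  exact image_congr fun y _ => (F.J_pr y).symm

lemma IsSurf.measurableSet (hN : IsSurf N) : MeasurableSet N := hN.1.measurableSet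

lemma area_apply (hN : IsSurf N) (S : Set E3) : area N S = area N (S ∩ N) := by
  rw [area, Measure.restrict_apply' hN.1.measurableSet, Measure.restrict_apply' hN.1.measurableSet,
    inter_assoc, inter_self]

/-- the projection formula in a chart -/
lemma IsChart.lintegral_proj (C : IsChart N n J pr h U) (hN : IsSurf N) {S : Set E3}
    (hS : S ⊆ N ∩ U) (hm : MeasurableSet S) (g : E3 → ℝ≥0∞) :
    ∫⁻ x in S, ENNReal.ofReal |⟪nu N x, n⟫| * g (pt n x) ∂(area N)
      = ∫⁻ y in pt n '' S, g y ∂(μHE[2] : Measure E3) := by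
  have hm' := C.measurableSet_image hS hm
  rw [C.lintegral hS hm, C.frame.image_pt, C.frame.lintegral_image hm']
  refine setLIntegral_congr_fun hm' ?_
  rintro _ ⟨y, hy, rfl⟩
  simp only
  rw [C.gr_pr (hS hy).1 (hS hy).2, C.abs_inner_nu hN (hS hy).1 (hS hy).2, ← mul_assoc,
    ← ENNReal.ofReal_mul (jac_pos _ _).le, mul_inv_cancel₀ (jac_pos _ _).ne', ENNReal.ofReal_one,
    one_mul, C.frame.J_pr]

lemma measurableSet_image_pt {e : E3} {S : Set E3} (hm : MeasurableSet S) (hi : InjOn (pt e) S) :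
    MeasurableSet (pt e '' S) :=
  hm.image_of_continuousOn_injOn (pt e).continuous.continuousOn hi

/-- a countable partition of a transversal piece of surface into pieces of charts -/
lemma exists_chart_partition (hN : IsSurf N) (F : Frame n J pr) {S : Set E3} (hS : S ⊆ N)
    (hm : MeasurableSet S) (hne : ∀ x ∈ S, ⟪nu N x, n⟫ ≠ 0) :
    ∃ A : ℕ → Set E3, (∀ k, MeasurableSet (A k)) ∧ Pairwise (Function.onFun Disjoint A) ∧
      ⋃ k, A k = S ∧ ∀ k, A k = ∅ ∨ ∃ h U, IsChart N n J pr h U ∧ A k ⊆ N ∩ U := by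
  choose! h U hxU hC using fun x (hx : x ∈ S) => exists_chart hN (hS hx) F (hne x hx)
  obtain ⟨A, hAm, hAd, hAc, hAt⟩ := exists_partition (O := S) (t := U)
    fun x hx => (hC x hx).isOpen.mem_nhds (hxU x hx)
  refine ⟨fun k => S ∩ A k, fun k => hm.inter (hAm k), fun i j hij =>
    (hAd hij).mono inter_subset_right inter_subset_right, ?_, fun k => ?_⟩
  · rw [← inter_iUnion, inter_eq_left.2 hAc]
  · rcases hAt k with h0 | ⟨x, hx, hxt⟩
    · left; simp [h0]
    · exact Or.inr ⟨h x, U x, hC x hx, inter_subset_inter hS hxt⟩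

/-- **Projection formula**: the area of a piece of surface which projects injectively along `e`. -/
theorem lintegral_proj (hN : IsSurf N) {e : E3} (he : ‖e‖ = 1) {S : Set E3} (hS : S ⊆ N)
    (hm : MeasurableSet S) (hne : ∀ x ∈ S, ⟪nu N x, e⟫ ≠ 0) (hi : InjOn (pt e) S)
    (g : E3 → ℝ≥0∞) :
    ∫⁻ x in S, ENNReal.ofReal |⟪nu N x, e⟫| * g (pt e x) ∂(area N)
      = ∫⁻ y in pt e '' S, g y ∂(μHE[2] : Measure E3) := by
  obtain ⟨J, pr, F⟩ := exists_frame he
  obtain ⟨A, hAm, hAd, hAS, hA⟩ := exists_chart_partition hN F hS hm hne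
  have hsub : ∀ k, A k ⊆ S := fun k => hAS ▸ subset_iUnion A k
  rw [← hAS, image_iUnion, lintegral_iUnion hAm hAd,
    lintegral_iUnion (fun k => measurableSet_image_pt (hAm k) (hi.mono (hsub k)))
      (fun i j hij => (hAd hij).image hi (hsub i) (hsub j))]
  refine tsum_congr fun k => ?_
  rcases hA k with h0 | ⟨h, U, C, hk⟩
  · simp [h0]
  · exact C.lintegral_proj hN hk (hAm k) g

/-- the projection of a transversal piece of surface, without injectivity -/
theorem lintegral_proj_ge (hN : IsSurf N) {e : E3} (he : ‖e‖ = 1) {S : Set E3} (hS : S ⊆ N)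
    (hm : MeasurableSet S) (hne : ∀ x ∈ S, ⟪nu N x, e⟫ ≠ 0) (g : E3 → ℝ≥0∞) :
    ∫⁻ y in pt e '' S, g y ∂(μHE[2] : Measure E3)
      ≤ ∫⁻ x in S, ENNReal.ofReal |⟪nu N x, e⟫| * g (pt e x) ∂(area N) := by
  obtain ⟨J, pr, F⟩ := exists_frame he
  obtain ⟨A, hAm, hAd, hAS, hA⟩ := exists_chart_partition hN F hS hm hne
  rw [← hAS, image_iUnion, lintegral_iUnion hAm hAd]
  refine (lintegral_iUnion_le _ _).trans (ENNReal.tsum_le_tsum fun k => ?_)
  rcases hA k with h0 | ⟨h, U, C, hk⟩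
  · simp [h0]
  · exact (C.lintegral_proj hN hk (hAm k) g).ge

/-- integrals of functions of the projection over a piece of surface with small tilt -/
theorem lintegral_proj_le (hN : IsSurf N) {e : E3} (he : ‖e‖ = 1) {c : ℝ} (hc : 0 < c) {S : Set E3}
    (hS : S ⊆ N) (hm : MeasurableSet S) (hne : ∀ x ∈ S, c ≤ |⟪nu N x, e⟫|) (hi : InjOn (pt e) S)
    (g : E3 → ℝ≥0∞) :
    ENNReal.ofReal c * ∫⁻ x in S, g (pt e x) ∂(area N)
      ≤ ∫⁻ y in pt e '' S, g y ∂(μHE[2] : Measure E3) := by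
  rw [← lintegral_proj hN he hS hm (fun x hx => abs_pos.1 (hc.trans_le (hne x hx))) hi g,
    ← lintegral_const_mul' _ _ ENNReal.ofReal_ne_top]
  exact setLIntegral_mono' hm fun x hx =>
    mul_le_mul_left (ENNReal.ofReal_le_ofReal (hne x hx)) _

theorem proj_proof : ProjStmt := by
  intro N hN e c S he hc hS hm hne hi
  simpa using lintegral_proj_le hN he hc hS hm hne hi fun _ => 1

lemma inner_nu_self (hN : IsSurf N) {x : E3} (hx : x ∈ N) : ⟪nu N x, nu N x⟫ = 1 := by
  rw [real_inner_self_eq_norm_sq, norm_nu hN hx]; norm_num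

/-- the chart over the tangent plane -/
theorem exists_chart_tangent (hN : IsSurf N) {x : E3} (hx : x ∈ N) :
    ∃ J pr h U, x ∈ U ∧ IsChart N (nu N x) J pr h U ∧ gradient h (pr x) = 0 := by
  obtain ⟨J, pr, F⟩ := exists_frame (norm_nu hN hx)
  obtain ⟨h, U, hxU, C⟩ := exists_chart hN hx F (by rw [inner_nu_self hN hx]; exact one_ne_zero)
  refine ⟨J, pr, h, U, hxU, C, ?_⟩
  have h1 := C.abs_inner_nu hN hx hxU
  rw [inner_nu_self hN hx, abs_one, eq_comm, inv_eq_one] at h1
  have h2 := jac_sq h (pr x)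
  rw [h1] at h2
  have h3 : ‖gradient h (pr x)‖ ^ 2 = 0 := by linarith
  simpa using h3

lemma continuous_jac (hh : ContDiff ℝ 1 h) : Continuous (jac h) := by
  have : Continuous fun u => ‖fderiv ℝ h u‖ := (hh.continuous_fderiv one_ne_zero).norm
  unfold jac
  simp only [norm_gradient]
  fun_prop

theorem locFin_proof : LocFinStmt := by
  intro N hN
  refine ⟨fun x => ?_⟩
  by_cases hx : x ∈ N
  · obtain ⟨J, pr, h, U, hxU, C, -⟩ := exists_chart_tangent hN hx
    refine ⟨U ∩ ball x 1, inter_mem (C.isOpen.mem_nhds hxU) (ball_mem_nhds x one_pos), ?_⟩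
    have hm : MeasurableSet (U ∩ ball x 1 ∩ N) :=
      (C.isOpen.measurableSet.inter measurableSet_ball).inter hN.1.measurableSet
    rw [area_apply hN, C.measure_eq (fun y hy => ⟨hy.2, hy.1.1⟩) hm]
    have hsub : pr '' (U ∩ ball x 1 ∩ N) ⊆ closedBall (pr x) 1 := by
      rintro _ ⟨y, hy, rfl⟩
      rw [mem_closedBall, dist_eq_norm, ← map_sub]
      exact (C.frame.norm_pr_le _).trans (mem_ball_iff_norm.1 hy.1.2).le
    refine (lintegral_mono_set hsub).trans_lt ?_
    have := ((continuous_jac (C.smooth.of_le (by simp))).continuousOn.integrableOn_compact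
      (μ := volume) (isCompact_closedBall (pr x) 1))
    exact lt_of_le_of_lt (lintegral_mono fun u => Real.ofReal_le_enorm _) this.2
  · refine ⟨Nᶜ, hN.1.isOpen_compl.mem_nhds hx, ?_⟩
    rw [area_apply hN, compl_inter_self, measure_empty]
    exact ENNReal.zero_lt_top

/-- in a chart, the area is at least the area of the projection -/
lemma IsChart.volume_le (C : IsChart N n J pr h U) {S : Set E3} (hS : S ⊆ N ∩ U)
    (hm : MeasurableSet S) : volume (pr '' S) ≤ area N S := by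
  rw [C.measure_eq hS hm, ← setLIntegral_one]
  exact lintegral_mono fun u => ENNReal.one_le_ofReal.2 (one_le_jac h u)

theorem lower_proof : LowerStmt := by
  intro N hN x hx
  obtain ⟨J, pr, h, U, hxU, C, h0⟩ := exists_chart_tangent hN hx
  have hd : HasFDerivAt h (0 : E2 →L[ℝ] ℝ) (pr x) := by
    have h1 := (C.smooth.differentiable (by simp) (pr x)).hasFDerivAt
    have h2 : fderiv ℝ h (pr x) = 0 := by rw [← norm_eq_zero, ← norm_gradient, h0, norm_zero]
    rwa [h2] at h1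
  have h1 : ∀ᶠ u in 𝓝 (pr x), |h u - h (pr x)| ≤ ‖u - pr x‖ := by
    filter_upwards [hd.isLittleO.bound one_pos] with u hu
    simpa using hu
  obtain ⟨δ, hδ, hb⟩ := Metric.eventually_nhds_iff_ball.1 h1
  obtain ⟨δ', hδ', hU⟩ := Metric.isOpen_iff.1 C.isOpen x hxU
  filter_upwards [Ioo_mem_nhdsGT (lt_min hδ hδ')] with r hr
  have hr0 : 0 < r := hr.1
  have hr1 : r < δ := hr.2.trans_le (min_le_left _ _)
  have hr2 : r < δ' := hr.2.trans_le (min_le_right _ _)
  have hS : ball x r ∩ N ⊆ N ∩ U := fun y hy => ⟨hy.2, hU (ball_subset_ball hr2.le hy.1)⟩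
  have hsub : ball (pr x) (2 / 3 * r) ⊆ pr '' (ball x r ∩ N) := by
    intro u hu
    have hu' : ‖u - pr x‖ < 2 / 3 * r := mem_ball_iff_norm.1 hu
    have a1 := hb u (ball_subset_ball (by linarith) hu)
    have a2 := C.frame.norm_gr_sub_sq h u (pr x)
    rw [C.gr_pr hx hxU] at a2
    have a3 : (h u - h (pr x)) ^ 2 ≤ ‖u - pr x‖ ^ 2 := by
      rw [← sq_abs]
      exact pow_le_pow_left₀ (abs_nonneg _) a1 2
    have a4 : ‖u - pr x‖ ^ 2 ≤ (2 / 3 * r) ^ 2 := pow_le_pow_left₀ (norm_nonneg _) hu'.le 2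
    have a5 : gr (nu N x) J h u ∈ ball x r := by
      rw [mem_ball_iff_norm]
      exact lt_of_pow_lt_pow_left₀ 2 hr0.le (by nlinarith)
    exact ⟨_, ⟨a5, C.gr_mem (hU (ball_subset_ball hr2.le a5))⟩, C.frame.pr_gr h u⟩
  rw [area_apply hN]
  refine le_trans ?_ (C.volume_le hS (measurableSet_ball.inter hN.1.measurableSet))
  refine le_trans ?_ (measure_mono hsub)
  rw [EuclideanSpace.volume_ball_fin_two, ← ENNReal.ofReal_pow (by positivity),
    ← ENNReal.ofReal_mul (by positivity)]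
  refine ENNReal.ofReal_le_ofReal ?_
  nlinarith [Real.pi_gt_three, sq_nonneg r]

end Vale.Agent.P218FT.Chart
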