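import Vale.Agent.P218FT.EVKey

/-! First variation formula, continuity and evolution of integrals along a smooth flow. -/

open MeasureTheory Set Filter Topology Metric
open scoped ENNReal NNReal RealInnerProductSpace ContDiff

namespace Vale.Agent.P218FT.EV

/-- a smooth family of properly embedded surfaces -/
structure IsFam (M : ℝ → Set E3) (I : Set ℝ) : Prop where
  isOpen : IsOpen I
  closed : ∀ t ∈ I, ∀ x, x ∉ M t → ∀ᶠ p : ℝ × E3 in 𝓝 (t, x), p.2 ∉ M p.1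
  loc : ∀ t ∈ I, ∀ x ∈ M t, ∃ w : ℝ × E3 → ℝ, ContDiff ℝ ∞ w ∧
    gradient (fun y => w (t, y)) x ≠ 0 ∧ (∀ᶠ p : ℝ × E3 in 𝓝 (t, x), p.2 ∈ M p.1 ↔ w p = 0)

variable {M : ℝ → Set E3} {I : Set ℝ}

lemma isFam_of_mcf (h : IsMCF M I) : IsFam M I :=
  ⟨h.isOpen, h.closed, fun t ht x hx => by
    obtain ⟨w, h1, h2, h3, -⟩ := h.loc t ht x hx
    exact ⟨w, h1, h2, h3⟩⟩

lemma isFam_of_surf {N : Set E3} (h : IsSurf N) : IsFam (fun _ => N) univ :=
  ⟨isOpen_univ, fun t _ x hx =>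
    (continuous_snd.tendsto ((t, x) : ℝ × E3)).eventually (h.1.isOpen_compl.mem_nhds hx),
    fun t _ x hx => by
      obtain ⟨w, h1, h2, h3⟩ := h.2 x hx
      exact ⟨fun p => w p.2, h1.comp contDiff_snd, h2,
        (continuous_snd.tendsto ((t, x) : ℝ × E3)).eventually h3⟩⟩

lemma IsFam.isClosed (h : IsFam M I) {t : ℝ} (ht : t ∈ I) : IsClosed (M t) := by
  rw [← isOpen_compl_iff, isOpen_iff_mem_nhds]
  intro x hx
  exact ((Continuous.prodMk_right t).tendsto x).eventually (h.closed t ht x hx)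

lemma IsFam.ae_mem (h : IsFam M I) {t : ℝ} (ht : t ∈ I) : ∀ᵐ x ∂area (M t), x ∈ M t :=
  ae_restrict_mem (h.isClosed ht).measurableSet

/-- every point over `I` is in a chart or away from the track -/
lemma IsFam.cases (h : IsFam M I) {p : ℝ × E3} (hp : p.1 ∈ I) :
    (∃ c : Chart M, p ∈ c.U ∧ c.U ⊆ I ×ˢ univ) ∨ {q : ℝ × E3 | q.2 ∉ M q.1} ∈ 𝓝 p := by
  by_cases hx : p.2 ∈ M p.1
  · obtain ⟨w, h1, h2, h3⟩ := h.loc p.1 hp p.2 hx
    obtain ⟨c, -, hc, hU⟩ := exists_chart (M := M) (p₀ := p) h1 h2 h3 (h3.self_of_nhds.1 hx)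
      ((h.isOpen.prod isOpen_univ).mem_nhds ⟨hp, mem_univ _⟩)
    exact Or.inl ⟨c, hc, hU⟩
  · exact Or.inr (h.closed p.1 hp p.2 hx)

namespace Chart

variable (c : Chart M) {K : Set (ℝ × E3)}

lemma isEqn {p : ℝ × E3} (hp : p ∈ c.U) : IsEqn (M p.1) p.2 fun y => c.w (p.1, y) :=
  ⟨c.smooth.comp (contDiff_const.prodMk contDiff_id), c.sg_ne hp,
    (((Continuous.prodMk_right p.1).tendsto p.2).eventually (c.openU.mem_nhds hp)).mono
      fun y hy => c.zero (p.1, y) hy⟩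

lemma Hv_eq {p : ℝ × E3} (hp : p ∈ c.U) (hx : p.2 ∈ M p.1) :
    Hv (M p.1) p.2 = mc c.w p • nrm c.w p := (c.isEqn hp).Hv_eq hx

lemma divT_eq {p : ℝ × E3} (hp : p ∈ c.U) (hx : p.2 ∈ M p.1) {X : ℝ × E3 → E3}
    (hX : DifferentiableAt ℝ X p) : divT (M p.1) (fun y => X (p.1, y)) p.2 =
      sdiv X p - ⟪fderiv ℝ X p (0, nrm c.w p), nrm c.w p⟫ := by
  obtain ⟨ε, hε, h1, -⟩ := (c.isEqn hp).nu_sh hx
  rw [divT, (EV.hasFDerivAt_slice hX).fderiv, h1, nrm_eq, map_smul, real_inner_smul_left,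
    real_inner_smul_right, ← mul_assoc, sign_mul_self hε, one_mul]
  rfl

lemma continuousOn_nrm : ContinuousOn (nrm c.w) c.U := fun _ hp =>
  (contDiffAt_nrm c.smooth (c.sg_ne hp)).continuousAt.continuousWithinAt

lemma continuousOn_mc : ContinuousOn (mc c.w) c.U := fun _ hp =>
  (continuousAt_mc c.smooth (c.sg_ne hp)).continuousWithinAt

lemma speed (h : IsMCF M I) {p : ℝ × E3} (hp : p ∈ c.U) (ht : p.1 ∈ I) (hx : p.2 ∈ M p.1) :
    -fderiv ℝ c.w p (1, 0) / ‖sg c.w p‖ = mc c.w p := by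
  obtain ⟨w', h1, h2, h3, h4⟩ := h.loc p.1 ht p.2 hx
  have hd : DifferentiableAt ℝ w' p := h1.differentiable (by simp) p
  have e : ∀ v : E3, ((1, v) : ℝ × E3) = (1, 0) + (0, v) := fun v => by simp
  have h5 : deriv (fun s => w' (s, p.2)) p.1 = fderiv ℝ w' p (1, 0) :=
    (hd.hasFDerivAt.comp_hasDerivAt p.1
      ((hasDerivAt_id p.1).prodMk (hasDerivAt_const p.1 p.2))).deriv
  have h6 : fderiv ℝ w' p (1, Hv (M p.1) p.2) = 0 := by
    rw [e, map_add, ← h5, h4, ← inner_sg hd]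
    exact neg_add_cancel _
  have h7 := c.tangent_of_eqn hp ((c.zero p hp).1 hx) hd h2 h3 h6
  have h8 : ⟪sg c.w p, nrm c.w p⟫ = ‖sg c.w p‖ := inner_grad_nuw (c.sg_ne hp)
  rw [e, map_add, ← inner_sg (c.diffw p), c.Hv_eq hp hx, inner_smul_right, h8] at h7
  rw [div_eq_iff (norm_ne_zero_iff.2 (c.sg_ne hp))]
  linarith

end Chart

/-- the first variation formula for a time dependent field -/
def PFV (M : ℝ → Set E3) (I : Set ℝ) (X : ℝ × E3 → E3) : Prop :=
  ∀ t ∈ I, Integrable (fun x => divT (M t) (fun y => X (t, y)) x) (area (M t)) ∧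
    Integrable (fun x => ⟪X (t, x), Hv (M t) x⟫) (area (M t)) ∧
    ∫ x, divT (M t) (fun y => X (t, y)) x ∂area (M t) = -∫ x, ⟪X (t, x), Hv (M t) x⟫ ∂area (M t)

lemma divT_zero {K : Set (ℝ × E3)} (hKc : IsCompact K) {X : ℝ × E3 → E3} (hX : ContDiff ℝ 1 X)
    (h0 : ∀ p ∉ K, X p = 0) {t : ℝ} {x : E3} (hp : (t, x) ∉ K) (N : Set E3) :
    divT N (fun y => X (t, y)) x = 0 := by
  have h1 := (hasFDerivAt_slice (hX.differentiable (by simp) (t, x))).fderiv
  rw [Chart.fderiv_zero hKc h0 hp] at h1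
  simp [divT, h1, tr]

lemma pfv_chart (h : IsFam M I) (c : Chart M) {K : Set (ℝ × E3)} (hKc : IsCompact K)
    (hK : K ⊆ c.U) {X : ℝ × E3 → E3} (hX : ContDiff ℝ 1 X) (h0 : ∀ p ∉ K, X p = 0) :
    PFV M I X := by
  intro t ht
  have hD : Continuous (fderiv ℝ X) := hX.continuous_fderiv (by simp)
  let φ₁ : ℝ × E3 → ℝ := fun p => sdiv X p - ⟪fderiv ℝ X p (0, nrm c.w p), nrm c.w p⟫
  let φ₂ : ℝ × E3 → ℝ := fun p => ⟪X p, mc c.w p • nrm c.w p⟫
  have z₁ : ∀ p ∉ K, φ₁ p = 0 := fun p hp => by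
    simp [φ₁, sdiv, Chart.fderiv_zero hKc h0 hp, tr]
  have z₂ : ∀ p ∉ K, φ₂ p = 0 := fun p hp => by simp [φ₂, h0 p hp]
  have c₁ : ContinuousOn φ₁ c.U :=
    (continuous_sdiv_aux.comp hD).continuousOn.sub ((hD.continuousOn.clm_apply
      (continuousOn_const.prodMk c.continuousOn_nrm)).inner c.continuousOn_nrm)
  have c₂ : ContinuousOn φ₂ c.U :=
    hX.continuous.continuousOn.inner (c.continuousOn_mc.smul c.continuousOn_nrm)
  have i₁ := c.integrable_cont hKc hK z₁ (c₁.mono fun p hp => hp.1) t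
  have i₂ := c.integrable_cont hKc hK z₂ (c₂.mono fun p hp => hp.1) t
  have a₁ : (fun x => φ₁ (t, x)) =ᵐ[area (M t)] fun x => divT (M t) (fun y => X (t, y)) x := by
    filter_upwards [h.ae_mem ht] with x hx
    by_cases hp : (t, x) ∈ K
    · exact (c.divT_eq (hK hp) hx (hX.differentiable (by simp) _)).symm
    · rw [z₁ _ hp, divT_zero hKc hX h0 hp]
  have a₂ : (fun x => φ₂ (t, x)) =ᵐ[area (M t)] fun x => ⟪X (t, x), Hv (M t) x⟫ := by
    filter_upwards [h.ae_mem ht] with x hx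
    by_cases hp : (t, x) ∈ K
    · exact congrArg (fun v => ⟪X (t, x), v⟫) (c.Hv_eq (hK hp) hx).symm
    · rw [z₂ _ hp, h0 _ hp, inner_zero_left]
  refine ⟨i₁.congr a₁, i₂.congr a₂, ?_⟩
  have W0 : ∀ p ∉ K, fvW c.w X p = 0 := fun p hp => by simp [fvW, h0 p hp]
  have hW : ContDiffOn ℝ 1 (fvW c.w X) c.U := fun p hp =>
    ((((contDiffAt_nsg c.smooth (c.sg_ne hp)).of_le (by simp)).smul hX.contDiffAt).sub
      ((hX.contDiffAt.inner ℝ ((contDiff_sg c.smooth).contDiffAt.of_le (by simp))).smul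
        ((contDiffAt_nrm c.smooth (c.sg_ne hp)).of_le (by simp)))).contDiffWithinAt
  have k := c.key hKc hK (h := fun _ => 0) contDiffOn_const hW (fun _ _ => rfl) W0
    (fun q hq => fv_tang c.smooth (c.sg_ne hq) X) t
  simp only [zero_div, integral_zero, fderiv_fun_const, Pi.zero_apply, zero_apply, zero_add] at k
  have k2 := k.unique (hasDerivAt_const t (0 : ℝ))
  have e : (fun x => sdiv (fvW c.w X) (t, x) / ‖sg c.w (t, x)‖) =
      fun x => φ₁ (t, x) + φ₂ (t, x) := by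
    ext x
    by_cases hp : (t, x) ∈ K
    · exact fv_div c.smooth (c.sg_ne (hK hp)) (hX.differentiable (by simp) _)
    · rw [z₁ _ hp, z₂ _ hp]
      simp [sdiv, Chart.fderiv_zero hKc W0 hp, tr]
  rw [e, integral_add i₁ i₂, integral_congr_ae a₁, integral_congr_ae a₂] at k2
  linarith

lemma pfv_of_ae (h : IsFam M I) {X : ℝ × E3 → E3}
    (h1 : ∀ t ∈ I, ∀ x ∈ M t, X (t, x) = 0 ∧ divT (M t) (fun y => X (t, y)) x = 0) :
    PFV M I X := by
  intro t ht
  have a₁ : (fun _ => (0 : ℝ)) =ᵐ[area (M t)] fun x => divT (M t) (fun y => X (t, y)) x := by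
    filter_upwards [h.ae_mem ht] with x hx using (h1 t ht x hx).2.symm
  have a₂ : (fun _ => (0 : ℝ)) =ᵐ[area (M t)] fun x => ⟪X (t, x), Hv (M t) x⟫ := by
    filter_upwards [h.ae_mem ht] with x hx
    rw [(h1 t ht x hx).1, inner_zero_left]
  refine ⟨(integrable_zero _ _ _).congr a₁, (integrable_zero _ _ _).congr a₂, ?_⟩
  rw [← integral_congr_ae a₁, ← integral_congr_ae a₂]
  simp

lemma divT_add (N : Set E3) {X Y : E3 → E3} {x : E3} (hX : DifferentiableAt ℝ X x)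
    (hY : DifferentiableAt ℝ Y x) :
    divT N (fun y => X y + Y y) x = divT N X x + divT N Y x := by
  have h : HasFDerivAt (fun y => X y + Y y) _ x := hX.hasFDerivAt.add hY.hasFDerivAt
  rw [divT, divT, divT, h.fderiv, tr_add, add_apply, inner_add_left]
  ring

/-- the first variation formula, cut off near a compact set -/
theorem pfv_loc (h : IsFam M I) {K : Set (ℝ × E3)} (hKc : IsCompact K) (hK : ∀ p ∈ K, p.1 ∈ I) :
    ∃ ψ : ℝ × E3 → ℝ, ContDiff ℝ ∞ ψ ∧ (∀ p ∈ K, ψ p = 1) ∧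
      ∀ X, ContDiff ℝ 1 X → PFV M I fun p => ψ p • X p := by
  refine localise (fun X => ContDiff ℝ 1 X) (PFV M I)
    (fun χ X hχ hX => (hχ.of_le (by simp)).smul hX)
    (pfv_of_ae h fun t _ x _ => ⟨rfl, by simp [divT, tr]⟩) ?_ hKc fun p hp => ?_
  · intro X Y hX hY h1 h2 t ht
    obtain ⟨a1, a2, a3⟩ := h1 t ht
    obtain ⟨b1, b2, b3⟩ := h2 t ht
    have e : (fun x => divT (M t) (fun y => X (t, y) + Y (t, y)) x) =
        fun x => divT (M t) (fun y => X (t, y)) x + divT (M t) (fun y => Y (t, y)) x :=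
      funext fun x => divT_add _
        (hasFDerivAt_slice (hX.differentiable (by simp) (t, x))).differentiableAt
        (hasFDerivAt_slice (hY.differentiable (by simp) (t, x))).differentiableAt
    simp only [e, inner_add_left]
    refine ⟨a1.add b1, a2.add b2, ?_⟩
    rw [integral_add a1 b1, integral_add a2 b2, a3, b3, neg_add]
  · rcases h.cases (hK p hp) with ⟨c, hc, -⟩ | hU
    · exact ⟨c.U, c.openU.mem_nhds hc, fun X hX K' h1 h2 h3 => pfv_chart h c h1 h2 hX h3⟩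
    · refine ⟨_, hU, fun X hX K' h1 h2 h3 => pfv_of_ae h fun t _ x hx => ?_⟩
      have : (t, x) ∉ K' := fun h' => h2 h' hx
      exact ⟨h3 _ this, divT_zero h1 hX h3 this _⟩

/-- **First variation**, with the integrability of both integrands -/
theorem fv_full {N : Set E3} (hN : IsSurf N) {X : E3 → E3} (hX : ContDiff ℝ 1 X)
    (hs : HasCompactSupport X) :
    Integrable (fun x => divT N X x) (area N) ∧ Integrable (fun x => ⟪X x, Hv N x⟫) (area N) ∧
      ∫ x, divT N X x ∂area N = -∫ x, ⟪X x, Hv N x⟫ ∂area N := by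
  obtain ⟨ψ, -, h1, h2⟩ := pfv_loc (isFam_of_surf hN)
    ((isCompact_singleton (x := (0 : ℝ))).prod hs.isCompact) fun _ _ => mem_univ _
  have h3 := h2 (fun p => X p.2) (hX.comp contDiff_snd) 0 (mem_univ _)
  have e : ∀ y, ψ (0, y) • X y = X y := fun y => by
    by_cases hy : y ∈ tsupport X
    · rw [h1 (0, y) ⟨mem_singleton _, hy⟩, one_smul]
    · rw [image_eq_zero_of_notMem_tsupport hy, smul_zero]
  simpa only [e] using h3

/-- integrability and continuity in time -/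
def PC (M : ℝ → Set E3) (I : Set ℝ) (g : ℝ × E3 → ℝ) : Prop :=
  (∀ t ∈ I, Integrable (fun x => g (t, x)) (area (M t))) ∧
    ContinuousOn (fun t => ∫ x, g (t, x) ∂area (M t)) I

lemma pc_of_ae (h : IsFam M I) {g : ℝ × E3 → ℝ} (h1 : ∀ t ∈ I, ∀ x ∈ M t, g (t, x) = 0) :
    PC M I g := by
  have a : ∀ t ∈ I, (fun _ => (0 : ℝ)) =ᵐ[area (M t)] fun x => g (t, x) := fun t ht => by
    filter_upwards [h.ae_mem ht] with x hx using (h1 t ht x hx).symm
  refine ⟨fun t ht => (integrable_zero _ _ _).congr (a t ht),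
    (continuousOn_const (c := (0 : ℝ))).congr fun t ht => ?_⟩
  rw [← integral_congr_ae (a t ht), integral_zero]

theorem pc_loc (h : IsFam M I) {K : Set (ℝ × E3)} (hKc : IsCompact K) (hK : ∀ p ∈ K, p.1 ∈ I) :
    ∃ ψ : ℝ × E3 → ℝ, ContDiff ℝ ∞ ψ ∧ (∀ p ∈ K, ψ p = 1) ∧
      ∀ g, ContinuousOn g (track M I) → PC M I fun p => ψ p • g p := by
  refine localise (fun g => ContinuousOn g (track M I)) (PC M I)
    (fun χ g hχ hg => hχ.continuous.continuousOn.smul hg)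
    (pc_of_ae h fun _ _ _ _ => rfl) ?_ hKc fun p hp => ?_
  · rintro f g - - ⟨a1, a2⟩ ⟨b1, b2⟩
    exact ⟨fun t ht => (a1 t ht).add (b1 t ht),
      (a2.add b2).congr fun t ht => integral_add (a1 t ht) (b1 t ht)⟩
  · rcases h.cases (hK p hp) with ⟨c, hc, hU⟩ | hU
    · refine ⟨c.U, c.openU.mem_nhds hc, fun g hg K' h1 h2 h3 => ?_⟩
      have hg' : ContinuousOn g {p | p ∈ c.U ∧ c.w p = 0} :=
        hg.mono fun q hq => ⟨(hU hq.1).1, (c.zero q hq.1).2 hq.2⟩
      exact ⟨fun t _ => c.integrable_cont h1 h2 h3 hg' t,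
        (c.continuous_integral h1 h2 h3 hg').continuousOn⟩
    · exact ⟨_, hU, fun g _ K' _ h2 h3 => pc_of_ae h fun t _ x hx => h3 _ fun h' => h2 h' hx⟩

/-- a cut-off which is one on the support near a given time -/
lemma cut_eq {F : Type*} [NormedAddCommGroup F] [NormedSpace ℝ F] {g : ℝ × E3 → F} {R δ t : ℝ}
    (h0 : ∀ p : ℝ × E3, R ≤ ‖p.2‖ → g p = 0) {ψ : ℝ × E3 → ℝ}
    (h1 : ∀ p ∈ closedBall t δ ×ˢ closedBall (0 : E3) R, ψ p = 1) {p : ℝ × E3}
    (hp : p.1 ∈ closedBall t δ) : ψ p • g p = g p := by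
  rcases le_total R ‖p.2‖ with h | h
  · rw [h0 p h, smul_zero]
  · rw [h1 p ⟨hp, by simpa using h⟩, one_smul]

/-- **Continuity in time**, with integrability, for smooth families -/
theorem cont_full (h : IsFam M I) {g : ℝ × E3 → ℝ} {R : ℝ} (hg : ContinuousOn g (track M I))
    (h0 : ∀ p : ℝ × E3, R ≤ ‖p.2‖ → g p = 0) : PC M I g := by
  have key : ∀ t ∈ I, Integrable (fun x => g (t, x)) (area (M t)) ∧
      ContinuousAt (fun t => ∫ x, g (t, x) ∂area (M t)) t := by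
    intro t ht
    obtain ⟨δ, hδ, hI⟩ := nhds_basis_closedBall.mem_iff.1 (h.isOpen.mem_nhds ht)
    obtain ⟨ψ, -, h1, h2⟩ := pc_loc h
      ((isCompact_closedBall t δ).prod (isCompact_closedBall (0 : E3) R)) fun p hp => hI hp.1
    obtain ⟨h3, h4⟩ := h2 g hg
    have e : ∀ s ∈ closedBall t δ, ∀ x, ψ (s, x) • g (s, x) = g (s, x) :=
      fun s hs x => cut_eq h0 h1 hs
    refine ⟨by simpa only [e t (mem_closedBall_self hδ.le)] using h3 t ht, ?_⟩
    refine (h4.continuousAt (h.isOpen.mem_nhds ht)).congr ?_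
    filter_upwards [closedBall_mem_nhds t hδ] with s hs
    simp only [e s hs]
  exact ⟨fun t ht => (key t ht).1, fun t ht => (key t ht).2.continuousWithinAt⟩

/-- the evolution equation for integrals -/
def PEV (M : ℝ → Set E3) (I : Set ℝ) (f : ℝ × E3 → ℝ) : Prop :=
  ∀ t ∈ I, Integrable (fun x => f (t, x)) (area (M t)) ∧
    Integrable (fun x => fderiv ℝ f (t, x) (1, Hv (M t) x) - ‖Hv (M t) x‖ ^ 2 * f (t, x))
      (area (M t)) ∧
    HasDerivAt (fun s => ∫ x, f (s, x) ∂area (M s))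
      (∫ x, (fderiv ℝ f (t, x) (1, Hv (M t) x) - ‖Hv (M t) x‖ ^ 2 * f (t, x)) ∂area (M t)) t

lemma pev_chart (h : IsMCF M I) (c : Chart M) {K : Set (ℝ × E3)} (hKc : IsCompact K)
    (hK : K ⊆ c.U) {f : ℝ × E3 → ℝ} (hf : ContDiff ℝ 1 f) (h0 : ∀ p ∉ K, f p = 0) :
    PEV M I f := by
  intro t ht
  have hD : Continuous (fderiv ℝ f) := hf.continuous_fderiv (by simp)
  let φ : ℝ × E3 → ℝ := fun p => fderiv ℝ f p (1, mc c.w p • nrm c.w p) - mc c.w p ^ 2 * f p
  have z : ∀ p ∉ K, φ p = 0 := fun p hp => by simp [φ, Chart.fderiv_zero hKc h0 hp, h0 p hp]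
  have cφ : ContinuousOn φ c.U :=
    (hD.continuousOn.clm_apply (continuousOn_const.prodMk
      (c.continuousOn_mc.smul c.continuousOn_nrm))).sub
      ((c.continuousOn_mc.pow 2).mul hf.continuous.continuousOn)
  have a : (fun x => φ (t, x)) =ᵐ[area (M t)]
      fun x => fderiv ℝ f (t, x) (1, Hv (M t) x) - ‖Hv (M t) x‖ ^ 2 * f (t, x) := by
    filter_upwards [(isFam_of_mcf h).ae_mem ht] with x hx
    by_cases hp : (t, x) ∈ K
    · rw [c.Hv_eq (hK hp) hx, norm_smul, norm_nrm (c.sg_ne (hK hp)), mul_one, Real.norm_eq_abs,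
        sq_abs]
    · rw [z _ hp, Chart.fderiv_zero hKc h0 hp, h0 _ hp]
      simp
  refine ⟨c.integrable_cont hKc hK h0 hf.continuous.continuousOn t,
    (c.integrable_cont hKc hK z (cφ.mono fun p hp => hp.1) t).congr a, ?_⟩
  have W0 : ∀ p ∉ K, evW c.w f p = 0 := fun p hp => by simp [evW, h0 p hp]
  have g0 : ∀ p ∉ K, f p * ‖sg c.w p‖ = 0 := fun p hp => by simp [h0 p hp]
  have hW : ContDiffOn ℝ 1 (evW c.w f) c.U := fun p hp =>
    ((hf.contDiffAt.mul ((contDiff_fderiv_apply c.smooth _).contDiffAt.of_le (by simp))).neg.smul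
      ((contDiffAt_nrm c.smooth (c.sg_ne hp)).of_le (by simp))).contDiffWithinAt
  have hh : ContDiffOn ℝ 1 (fun p => f p * ‖sg c.w p‖) c.U := fun p hp =>
    (hf.contDiffAt.mul ((contDiffAt_nsg c.smooth (c.sg_ne hp)).of_le (by simp))).contDiffWithinAt
  have k := c.key hKc hK hh hW g0 W0 (fun q hq => ev_tang c.smooth (c.sg_ne hq) f) t
  have e : ∀ p, f p * ‖sg c.w p‖ / ‖sg c.w p‖ = f p := fun p => by
    by_cases hp : p ∈ K
    · exact mul_div_cancel_right₀ _ (norm_ne_zero_iff.2 (c.sg_ne (hK hp)))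
    · simp [h0 p hp]
  simp only [e] at k
  convert k using 1
  rw [← integral_congr_ae a]
  refine integral_congr_ae ?_
  filter_upwards [(isFam_of_mcf h).ae_mem ht] with x hx
  by_cases hp : (t, x) ∈ K
  · rw [ev_div c.smooth (c.sg_ne (hK hp)) (hf.differentiable (by simp) _),
      c.speed h (hK hp) ht hx, ← sq]
  · rw [z _ hp, Chart.fderiv_zero hKc g0 hp]
    simp [sdiv, Chart.fderiv_zero hKc W0 hp, tr]

lemma pev_of_ae (h : IsFam M I) {f : ℝ × E3 → ℝ}
    (h1 : ∀ t ∈ I, ∀ x ∈ M t, f (t, x) = 0 ∧ fderiv ℝ f (t, x) = 0) : PEV M I f := by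
  intro t ht
  have a : ∀ t ∈ I, (fun _ => (0 : ℝ)) =ᵐ[area (M t)] fun x => f (t, x) := fun t ht => by
    filter_upwards [h.ae_mem ht] with x hx using (h1 t ht x hx).1.symm
  have a₂ : (fun _ => (0 : ℝ)) =ᵐ[area (M t)]
      fun x => fderiv ℝ f (t, x) (1, Hv (M t) x) - ‖Hv (M t) x‖ ^ 2 * f (t, x) := by
    filter_upwards [h.ae_mem ht] with x hx
    simp [(h1 t ht x hx).1, (h1 t ht x hx).2]
  refine ⟨(integrable_zero _ _ _).congr (a t ht), (integrable_zero _ _ _).congr a₂, ?_⟩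
  rw [← integral_congr_ae a₂, integral_zero]
  refine (hasDerivAt_const t (0 : ℝ)).congr_of_eventuallyEq ?_
  filter_upwards [h.isOpen.mem_nhds ht] with s hs
  rw [← integral_congr_ae (a s hs), integral_zero]

theorem pev_loc (h : IsMCF M I) {K : Set (ℝ × E3)} (hKc : IsCompact K) (hK : ∀ p ∈ K, p.1 ∈ I) :
    ∃ ψ : ℝ × E3 → ℝ, ContDiff ℝ ∞ ψ ∧ (∀ p ∈ K, ψ p = 1) ∧
      ∀ f, ContDiff ℝ 1 f → PEV M I fun p => ψ p • f p := by
  have hF := isFam_of_mcf h
  refine localise (fun f => ContDiff ℝ 1 f) (PEV M I)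
    (fun χ f hχ hf => (hχ.of_le (by simp)).smul hf)
    (pev_of_ae hF fun t _ x _ => ⟨rfl, by simp⟩) ?_ hKc fun p hp => ?_
  · intro f g hf hg h1 h2 t ht
    obtain ⟨a1, a2, a3⟩ := h1 t ht
    obtain ⟨b1, b2, b3⟩ := h2 t ht
    have e : (fun x => fderiv ℝ (fun p => f p + g p) (t, x) (1, Hv (M t) x) -
        ‖Hv (M t) x‖ ^ 2 * (f (t, x) + g (t, x))) = fun x =>
        (fderiv ℝ f (t, x) (1, Hv (M t) x) - ‖Hv (M t) x‖ ^ 2 * f (t, x)) +
        (fderiv ℝ g (t, x) (1, Hv (M t) x) - ‖Hv (M t) x‖ ^ 2 * g (t, x)) := by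
      ext x
      rw [fderiv_fun_add (hf.differentiable (by simp) _) (hg.differentiable (by simp) _), add_apply]
      ring
    rw [e]
    refine ⟨a1.add b1, a2.add b2, ?_⟩
    rw [integral_add a2 b2]
    refine (a3.add b3).congr_of_eventuallyEq ?_
    filter_upwards [h.isOpen.mem_nhds ht] with s hs
    exact integral_add (h1 s hs).1 (h2 s hs).1
  · rcases hF.cases (hK p hp) with ⟨c, hc, -⟩ | hU
    · exact ⟨c.U, c.openU.mem_nhds hc, fun f hf K' h1 h2 h3 => pev_chart h c h1 h2 hf h3⟩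
    · refine ⟨_, hU, fun f _ K' h1 h2 h3 => pev_of_ae hF fun t _ x hx => ?_⟩
      have : (t, x) ∉ K' := fun h' => h2 h' hx
      exact ⟨h3 _ this, Chart.fderiv_zero h1 h3 this⟩

/-- **Evolution of integrals**, with the integrability of both integrands -/
theorem ev_full (h : IsMCF M I) {f : ℝ × E3 → ℝ} {R : ℝ} (hf : ContDiff ℝ 1 f)
    (h0 : ∀ p : ℝ × E3, R ≤ ‖p.2‖ → f p = 0) : PEV M I f := by
  intro t ht
  obtain ⟨δ, hδ, hI⟩ := nhds_basis_closedBall.mem_iff.1 (h.isOpen.mem_nhds ht)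
  obtain ⟨ψ, -, h1, h2⟩ := pev_loc h
    ((isCompact_closedBall t δ).prod (isCompact_closedBall (0 : E3) R)) fun p hp => hI hp.1
  obtain ⟨h3, h4, h5⟩ := h2 f hf t ht
  have e : ∀ s ∈ closedBall t δ, ∀ x, ψ (s, x) • f (s, x) = f (s, x) :=
    fun s hs x => cut_eq h0 h1 hs
  have e2 : ∀ x, fderiv ℝ (fun p => ψ p • f p) (t, x) = fderiv ℝ f (t, x) := fun x => by
    refine Filter.EventuallyEq.fderiv_eq ?_
    filter_upwards [(continuous_fst.tendsto ((t, x) : ℝ × E3)).eventually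
      (closedBall_mem_nhds t hδ)] with p hp using cut_eq h0 h1 hp
  simp only [e t (mem_closedBall_self hδ.le), e2] at h3 h4 h5
  refine ⟨h3, h4, h5.congr_of_eventuallyEq ?_⟩
  filter_upwards [closedBall_mem_nhds t hδ] with s hs
  simp only [e s hs]

end Vale.Agent.P218FT.EV

namespace Vale.Agent.P218FT

theorem fv_proof : FVStmt := fun _ hN _ hX hs => (EV.fv_full hN hX hs).2.2

theorem cont_proof : ContStmt := fun _ _ h _ _ hg h0 => (EV.cont_full (EV.isFam_of_mcf h) hg h0).2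

theorem ev_proof : EVStmt := fun _ _ h _ _ hf h0 t ht => (EV.ev_full h hf h0 t ht).2.2

end Vale.Agent.P218FT
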