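import Vale.Agent.P218FT.Local

/-! Local geometry of smooth flows: space-time equations, continuity on the track, time jets,
tangency of chords, compactness. -/

open MeasureTheory Set Filter Topology Metric Asymptotics
open scoped ENNReal NNReal RealInnerProductSpace ContDiff

namespace Vale.Agent.P218FT

/-- the time slice of a space-time function -/
def sl (w : ℝ × E3 → ℝ) (t : ℝ) : E3 → ℝ := fun y => w (t, y)

/-- `w` is a smooth local space-time equation of the flow at `p` -/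
def IsEqnT (M : ℝ → Set E3) (p : ℝ × E3) (w : ℝ × E3 → ℝ) : Prop :=
  ContDiff ℝ ∞ w ∧ gradient (sl w p.1) p.2 ≠ 0 ∧ ∀ᶠ q : ℝ × E3 in 𝓝 p, q.2 ∈ M q.1 ↔ w q = 0

lemma contDiff_sl {w : ℝ × E3 → ℝ} {n : WithTop ℕ∞} (hw : ContDiff ℝ n w) (t : ℝ) :
    ContDiff ℝ n (sl w t) := hw.comp (contDiff_const.prodMk contDiff_id)

lemma fderiv_sl {w : ℝ × E3 → ℝ} (hw : ContDiff ℝ ∞ w) (t : ℝ) (y : E3) :
    fderiv ℝ (sl w t) y = (fderiv ℝ w (t, y)).comp (ContinuousLinearMap.inr ℝ ℝ E3) := by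
  have h1 := (hw.differentiable (by simp) (t, y)).hasFDerivAt
  exact (h1.comp y (hasFDerivAt_prodMk_right t y)).fderiv

lemma contDiff_sgrad {w : ℝ × E3 → ℝ} (hw : ContDiff ℝ ∞ w) :
    ContDiff ℝ ∞ fun p : ℝ × E3 => gradient (sl w p.1) p.2 := by
  have : (fun p : ℝ × E3 => gradient (sl w p.1) p.2) =
      fun p => rz ((fderiv ℝ w p).comp (ContinuousLinearMap.inr ℝ ℝ E3)) := by
    ext1 p; rw [gradient_eq_rz]; simp only [fderiv_sl hw]
  rw [this]
  exact rz.contDiff.comp ((hw.fderiv_right (m := ∞) (by simp)).clm_comp contDiff_const)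

lemma continuous_shess {w : ℝ × E3 → ℝ} (hw : ContDiff ℝ ∞ w) :
    Continuous fun p : ℝ × E3 => fderiv ℝ (gradient (sl w p.1)) p.2 := by
  have hG := contDiff_sgrad hw
  have : (fun p : ℝ × E3 => fderiv ℝ (gradient (sl w p.1)) p.2) =
      fun p => (fderiv ℝ (fun p : ℝ × E3 => gradient (sl w p.1) p.2) p).comp
        (ContinuousLinearMap.inr ℝ ℝ E3) := by
    ext1 p
    have h1 := (hG.differentiable (by simp) (p.1, p.2)).hasFDerivAt
    exact (h1.comp p.2 (hasFDerivAt_prodMk_right p.1 p.2)).fderiv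
  rw [this]
  exact (hG.continuous_fderiv (by simp)).clm_comp continuous_const

lemma deriv_time {w : ℝ × E3 → ℝ} (hw : ContDiff ℝ ∞ w) (t : ℝ) (y : E3) :
    deriv (fun s => w (s, y)) t = fderiv ℝ w (t, y) (1, 0) := by
  have h1 := (hw.differentiable (by simp) (t, y)).hasFDerivAt
  have h2 : HasDerivAt (fun s : ℝ => (s, y)) ((1 : ℝ), (0 : E3)) t :=
    (hasDerivAt_id t).prodMk (hasDerivAt_const t y)
  exact (h1.comp_hasDerivAt t h2).deriv

lemma fderiv_apply_prod {w : ℝ × E3 → ℝ} (hw : ContDiff ℝ ∞ w) (t : ℝ) (y : E3) (c : ℝ) (v : E3) :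
    fderiv ℝ w (t, y) (c, v) = c * deriv (fun s => w (s, y)) t + ⟪gradient (sl w t) y, v⟫ := by
  rw [deriv_time hw, inner_grad, fderiv_sl hw]
  have : ((c, v) : ℝ × E3) = c • ((1 : ℝ), (0 : E3)) + ((0 : ℝ), v) := by simp
  rw [this, map_add, map_smul]
  simp

namespace IsEqnT

variable {M : ℝ → Set E3} {p : ℝ × E3} {w : ℝ × E3 → ℝ}

lemma isEqn (h : IsEqnT M p w) : IsEqn (M p.1) p.2 (sl w p.1) := by
  refine ⟨contDiff_sl h.1 _, h.2.1, ?_⟩
  have : Tendsto (fun y : E3 => (p.1, y)) (𝓝 p.2) (𝓝 p) :=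
    (continuous_const.prodMk continuous_id).tendsto' p.2 p rfl
  exact this.eventually h.2.2

lemma eventually (h : IsEqnT M p w) : ∀ᶠ q in 𝓝 p, IsEqnT M q w := by
  have h1 : ∀ᶠ q : ℝ × E3 in 𝓝 p, gradient (sl w q.1) q.2 ≠ 0 :=
    (contDiff_sgrad h.1).continuous.continuousAt.eventually_ne h.2.1
  filter_upwards [h1, h.2.2.eventually_nhds] with q hq hq' using ⟨h.1, hq, hq'⟩

lemma continuousAt_nuw (h : IsEqnT M p w) :
    ContinuousAt (fun q : ℝ × E3 => nuw (sl w q.1) q.2) p := by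
  have hG := (contDiff_sgrad h.1).continuous.continuousAt (x := p)
  exact (hG.norm.inv₀ (norm_ne_zero_iff.2 h.2.1)).smul hG

lemma continuousAt_shw (h : IsEqnT M p w) :
    ContinuousAt (fun q : ℝ × E3 => shw (sl w q.1) q.2) p := by
  have hG := (contDiff_sgrad h.1).continuous.continuousAt (x := p)
  have hP := continuous_pt.continuousAt.comp h.continuousAt_nuw
  exact (hG.norm.inv₀ (norm_ne_zero_iff.2 h.2.1)).neg.smul
    (hP.clm_comp ((continuous_shess h.1).continuousAt.clm_comp hP))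

end IsEqnT

namespace IsMCF

variable {M : ℝ → Set E3} {I : Set ℝ} (h : IsMCF M I)
include h

lemma exists_eqnT {t : ℝ} (ht : t ∈ I) {x : E3} (hx : x ∈ M t) : ∃ w, IsEqnT M (t, x) w ∧
    deriv (fun s => w (s, x)) t = -⟪gradient (sl w t) x, Hv (M t) x⟫ := by
  obtain ⟨w, h1, h2, h3, h4⟩ := h.loc t ht x hx
  exact ⟨w, ⟨h1, h2, h3⟩, h4⟩

/-- the time slices are surfaces -/
lemma isSurf {t : ℝ} (ht : t ∈ I) : IsSurf (M t) := by
  refine ⟨isOpen_compl_iff.1 (isOpen_iff_mem_nhds.2 fun x hx => ?_), fun x hx => ?_⟩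
  · have : Tendsto (fun y : E3 => (t, y)) (𝓝 x) (𝓝 (t, x)) :=
      (continuous_const.prodMk continuous_id).tendsto' x _ rfl
    exact this.eventually (h.closed t ht x hx)
  · obtain ⟨w, hw, -⟩ := h.exists_eqnT ht hx
    exact ⟨_, hw.isEqn⟩

lemma mono {J : Set ℝ} (hJ : IsOpen J) (hJI : J ⊆ I) : IsMCF M J :=
  ⟨hJ, fun t ht => h.closed t (hJI ht), fun t ht => h.loc t (hJI ht)⟩

/-- the track over a closed set of times is closed -/
lemma isClosed_track {J : Set ℝ} (hJ : IsClosed J) (hJI : J ⊆ I) : IsClosed (track M J) := by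
  refine isOpen_compl_iff.1 (isOpen_iff_mem_nhds.2 fun p hp => ?_)
  by_cases h1 : p.1 ∈ J
  · have h2 : p.2 ∉ M p.1 := fun h2 => hp ⟨h1, h2⟩
    filter_upwards [h.closed p.1 (hJI h1) p.2 h2] with q hq hq' using hq hq'.2
  · have : ∀ᶠ q : ℝ × E3 in 𝓝 p, q.1 ∈ Jᶜ :=
      continuous_fst.continuousAt.eventually_mem (hJ.isOpen_compl.mem_nhds h1)
    filter_upwards [this] with q hq hq' using hq hq'.1

/-- bounded parts of the track over a compact interval are compact -/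
lemma isCompact_track {a b : ℝ} (hJ : Icc a b ⊆ I) (c : E3) (R : ℝ) :
    IsCompact {p : ℝ × E3 | p ∈ track M (Icc a b) ∧ ‖p.2 - c‖ ≤ R} := by
  have h1 : IsCompact (Icc a b ×ˢ closedBall c R) := isCompact_Icc.prod (isCompact_closedBall c R)
  refine h1.of_isClosed_subset ((h.isClosed_track isClosed_Icc hJ).inter
    (isClosed_le (f := fun p : ℝ × E3 => ‖p.2 - c‖) (by fun_prop) continuous_const))
    fun p hp => ⟨hp.1.1, ?_⟩
  rw [mem_closedBall, dist_eq_norm]; exact hp.2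

/-- continuity on the track of every quantity which does not depend on the sign of the normal -/
lemma continuousOn_even {Y : Type*} [TopologicalSpace Y] {Φ : E3 × (E3 →L[ℝ] E3) → Y}
    (hΦ : Continuous Φ) (he : ∀ n A, Φ (-n, -A) = Φ (n, A)) :
    ContinuousOn (fun p : ℝ × E3 => Φ (nu (M p.1) p.2, sh (M p.1) p.2)) (track M I) := by
  intro p hp
  obtain ⟨w, hw, -⟩ := h.exists_eqnT hp.1 hp.2
  have h1 : ContinuousAt (fun q : ℝ × E3 => Φ (nuw (sl w q.1) q.2, shw (sl w q.1) q.2)) p :=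
    hΦ.continuousAt.comp (hw.continuousAt_nuw.prodMk hw.continuousAt_shw)
  have key : ∀ q, IsEqnT M q w → q.2 ∈ M q.1 → Φ (nu (M q.1) q.2, sh (M q.1) q.2)
      = Φ (nuw (sl w q.1) q.2, shw (sl w q.1) q.2) := by
    intro q hq hq'
    obtain ⟨ε, hε, e1, e2⟩ := hq.isEqn.nu_sh hq'
    rcases hε with h0 | h0
    · rw [e1, e2, h0, one_smul, one_smul]
    · have e3 : ((-1 : ℝ) • shw (sl w q.1) q.2) = -shw (sl w q.1) q.2 := by ext1 v; simp
      rw [e1, e2, h0, e3, neg_one_smul, he]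
  refine h1.continuousWithinAt.congr_of_eventuallyEq ?_ (key p hw hp.2)
  filter_upwards [nhdsWithin_le_nhds hw.eventually, self_mem_nhdsWithin] with q hq hq'
    using key q hq hq'.2

lemma continuousOn_a2 : ContinuousOn (fun p : ℝ × E3 => a2 (M p.1) p.2) (track M I) :=
  h.continuousOn_even (Φ := fun q => tr (q.2.comp q.2))
    (continuous_tr.comp (continuous_snd.clm_comp continuous_snd)) (by simp)

lemma continuousOn_Hv : ContinuousOn (fun p : ℝ × E3 => Hv (M p.1) p.2) (track M I) :=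
  h.continuousOn_even (Φ := fun q => tr q.2 • q.1)
    ((continuous_tr.comp continuous_snd).smul continuous_fst)
    (fun n A => by rw [← neg_one_smul ℝ A, tr_smul]; simp)

lemma continuousOn_pt : ContinuousOn (fun p : ℝ × E3 => pt (nu (M p.1) p.2)) (track M I) :=
  h.continuousOn_even (Φ := fun q => pt q.1) (continuous_pt.comp continuous_fst)
    (fun n _ => pt_neg n)

lemma continuousOn_norm_sh : ContinuousOn (fun p : ℝ × E3 => ‖sh (M p.1) p.2‖) (track M I) :=
  h.continuousOn_even (Φ := fun q => ‖q.2‖) continuous_snd.norm (by simp)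

/-- joint continuity of `|⟨v, ν⟩|` -/
lemma continuousOn_abs_inner :
    ContinuousOn (fun q : (ℝ × E3) × E3 => |⟪q.2, nu (M q.1.1) q.1.2⟫|) (track M I ×ˢ univ) := by
  have h1 : ContinuousOn (fun q : (ℝ × E3) × E3 => ‖q.2 - pt (nu (M q.1.1) q.1.2) q.2‖)
      (track M I ×ˢ univ) :=
    (continuousOn_snd.sub ((h.continuousOn_pt.comp continuousOn_fst fun q hq => hq.1).clm_apply
      continuousOn_snd)).norm
  refine h1.congr fun q hq => ?_
  simp only [pt_apply, sub_sub_cancel, norm_smul, (h.isSurf hq.1.1).norm_nu hq.1.2, mul_one,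
    real_inner_comm]
  rfl

/-- `|A|²` is bounded on bounded parts of the track over compact intervals -/
lemma exists_a2_bound {a b : ℝ} (hJ : Icc a b ⊆ I) (c : E3) (R : ℝ) :
    ∃ C : ℝ, 0 < C ∧ ∀ t ∈ Icc a b, ∀ x ∈ M t, ‖x - c‖ ≤ R → a2 (M t) x ≤ C := by
  obtain ⟨C, hC⟩ := ((h.isCompact_track hJ c R).image_of_continuousOn
    (h.continuousOn_a2.mono fun p hp => ⟨hJ hp.1.1, hp.1.2⟩)).bddAbove
  refine ⟨max C 1, by positivity, fun t ht x hx hR => le_trans ?_ (le_max_left _ _)⟩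
  exact hC ⟨(t, x), ⟨⟨ht, hx⟩, hR⟩, rfl⟩

/-- **Time jets**: points of the flow moving with the mean curvature vector to first order. -/
lemma time_jet {t : ℝ} (ht : t ∈ I) {x : E3} (hx : x ∈ M t) : ∃ p : ℝ → E3,
    (∀ᶠ σ in 𝓝 0, p σ ∈ M (t + σ)) ∧
      (fun σ => p σ - (x + σ • Hv (M t) x)) =o[𝓝 0] fun σ : ℝ => σ := by
  obtain ⟨w, hw, he⟩ := h.exists_eqnT ht hx
  set q : ℝ → ℝ × E3 := fun σ => (t + σ, x + σ • Hv (M t) x) with hq
  have hqd : HasDerivAt q (1, Hv (M t) x) 0 := by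
    have h2 : HasDerivAt (fun σ : ℝ => x + σ • Hv (M t) x) (Hv (M t) x) 0 := by
      simpa using ((hasDerivAt_id (0 : ℝ)).smul_const (Hv (M t) x)).const_add x
    exact ((hasDerivAt_id (0 : ℝ)).const_add t).prodMk h2
  have hq0 : q 0 = (t, x) := by simp [hq]
  have hwd : HasFDerivAt w (fderiv ℝ w (t, x)) (q 0) := by
    rw [hq0]; exact (hw.1.differentiable (by simp) _).hasFDerivAt
  have h1 := hwd.comp_hasDerivAt 0 hqd
  rw [fderiv_apply_prod hw.1, he, one_mul, neg_add_cancel] at h1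
  have h0 : w (t, x) = 0 := hw.2.2.self_of_nhds.1 hx
  have h2 : (fun σ => w (q σ)) =o[𝓝 0] fun σ : ℝ => σ := by
    simpa [hq0, h0] using hasDerivAt_iff_isLittleO.1 h1
  have hv : 0 < fderiv ℝ w (t, x) (0, nuw (sl w t) x) := by
    rw [fderiv_apply_prod hw.1, zero_mul, zero_add, inner_grad_nuw hw.2.1]
    exact norm_pos_iff.2 hw.2.1
  have hqt : Tendsto q (𝓝 0) (𝓝 (t, x)) := hq0 ▸ hqd.continuousAt
  obtain ⟨c, hc0, hc⟩ := exists_zero_littleO (hw.1.of_le one_le_inf) hv hqt tendsto_id h2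
  have hct : Tendsto (fun σ => q σ + c σ • ((0 : ℝ), nuw (sl w t) x)) (𝓝 0) (𝓝 (t, x)) := by
    simpa using hqt.add ((hc.trans_tendsto tendsto_id).smul_const ((0 : ℝ), nuw (sl w t) x))
  refine ⟨fun σ => x + σ • Hv (M t) x + c σ • nuw (sl w t) x, ?_, ?_⟩
  · filter_upwards [hc0, hct.eventually hw.2.2] with σ h3 h4
    simpa [hq] using h4.2 h3
  · refine IsBigO.trans_isLittleO (g := c) (IsBigO.of_bound 1 (Eventually.of_forall fun σ => ?_)) hc
    simp [norm_smul, norm_nuw hw.2.1]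

/-- every local space-time equation satisfies the level set equation on the track -/
lemma eqn_of_isEqnT {t : ℝ} (ht : t ∈ I) {x : E3} (hx : x ∈ M t) {w : ℝ × E3 → ℝ}
    (hw : IsEqnT M (t, x) w) :
    deriv (fun s => w (s, x)) t = -⟪gradient (sl w t) x, Hv (M t) x⟫ := by
  obtain ⟨p, hp, hj⟩ := h.time_jet ht hx
  have hp1 : Tendsto p (𝓝 0) (𝓝 x) := by
    have h2 : Tendsto (fun σ : ℝ => x + σ • Hv (M t) x) (𝓝 0) (𝓝 x) := by
      have : Continuous fun σ : ℝ => x + σ • Hv (M t) x := by fun_prop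
      simpa using this.tendsto 0
    simpa using (hj.trans_tendsto tendsto_id).add h2
  have hp0 : p 0 = x := by
    have := hj.isBigO.eq_zero_imp (E'' := E3) (F'' := ℝ)
    have h3 := (hj.def one_pos).self_of_nhds
    simpa [sub_eq_zero] using h3
  have hpd : HasDerivAt p (Hv (M t) x) 0 := by
    rw [hasDerivAt_iff_isLittleO, hp0]
    simpa [sub_sub] using hj
  have hqd : HasDerivAt (fun σ : ℝ => (t + σ, p σ)) (1, Hv (M t) x) 0 :=
    ((hasDerivAt_id (0 : ℝ)).const_add t).prodMk hpd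
  have hwd : HasFDerivAt w (fderiv ℝ w (t, x)) ((fun σ : ℝ => (t + σ, p σ)) 0) := by
    simp only [add_zero, hp0]; exact (hw.1.differentiable (by simp) _).hasFDerivAt
  have h1 := hwd.comp_hasDerivAt 0 hqd
  have hqt : Tendsto (fun σ : ℝ => (t + σ, p σ)) (𝓝 0) (𝓝 (t, x)) := by
    simpa [hp0] using hqd.continuousAt.tendsto
  have h2 : HasDerivAt (w ∘ fun σ : ℝ => (t + σ, p σ)) 0 0 := by
    refine (hasDerivAt_const (0 : ℝ) (0 : ℝ)).congr_of_eventuallyEq ?_
    filter_upwards [hp, hqt.eventually hw.2.2] with σ h3 h4 using h4.1 h3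
  have h3 := h1.unique h2
  rw [fderiv_apply_prod hw.1, one_mul] at h3
  linarith

/-- **Tangency of chords**, locally uniformly in space-time. -/
lemma exists_twoPt {t : ℝ} (ht : t ∈ I) {x : E3} (hx : x ∈ M t) : ∃ r C : ℝ, 0 < r ∧ 0 < C ∧
    ∀ᶠ q : ℝ × E3 in 𝓝 (t, x), q.2 ∈ M q.1 → TwoPt (M q.1) q.2 r C := by
  obtain ⟨w, hw, -⟩ := h.exists_eqnT ht hx
  set g := ‖gradient (sl w t) x‖ with hg
  set K := ‖fderiv ℝ (gradient (sl w t)) x‖ + 1 with hK
  have hg0 : 0 < g := norm_pos_iff.2 hw.2.1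
  have hK0 : 0 < K := by positivity
  have e1 : ∀ᶠ q : ℝ × E3 in 𝓝 (t, x), g / 2 < ‖gradient (sl w q.1) q.2‖ :=
    (contDiff_sgrad hw.1).continuous.norm.continuousAt.eventually (lt_mem_nhds (by simp only; linarith))
  have e2 : ∀ᶠ q : ℝ × E3 in 𝓝 (t, x), ‖fderiv ℝ (gradient (sl w q.1)) q.2‖ < K :=
    (continuous_shess hw.1).norm.continuousAt.eventually (gt_mem_nhds (by simp only; linarith))
  obtain ⟨δ, hδ, hδ'⟩ := Metric.eventually_nhds_iff.1 ((e1.and e2).and hw.eventually)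
  refine ⟨δ / 2, 2 * K / g, by positivity, by positivity, ?_⟩
  filter_upwards [ball_mem_nhds (t, x) (half_pos hδ)] with q hq hqM y hy hyq
  have hq' : dist q (t, x) < δ / 2 := hq
  have hin : ∀ z ∈ closedBall q.2 ‖y - q.2‖, dist (q.1, z) (t, x) < δ := by
    intro z hz
    have h1 : dist (q.1, z) q ≤ δ / 2 := by
      rw [Prod.dist_eq, dist_self]
      exact max_le (by positivity) ((mem_closedBall.1 hz).trans hyq)
    linarith [dist_triangle (q.1, z) q (t, x)]
  have hq2 : q.2 ∈ closedBall q.2 ‖y - q.2‖ := mem_closedBall_self (norm_nonneg _)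
  have hy2 : y ∈ closedBall q.2 ‖y - q.2‖ := by rw [mem_closedBall, dist_eq_norm]
  have hs := contDiff_sl hw.1 q.1
  have lip : ∀ z ∈ closedBall q.2 ‖y - q.2‖,
      ‖gradient (sl w q.1) z - gradient (sl w q.1) q.2‖ ≤ K * ‖y - q.2‖ := by
    intro z hz
    have := (convex_closedBall q.2 ‖y - q.2‖).norm_image_sub_le_of_norm_fderiv_le (𝕜 := ℝ)
      (f := gradient (sl w q.1)) (C := K)
      (fun u _ => (contDiff_grad hs).differentiable (by simp) u)
      (fun u hu => (hδ' (hin u hu)).1.2.le) hq2 hz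
    refine this.trans ?_
    have : ‖z - q.2‖ ≤ ‖y - q.2‖ := by rw [← dist_eq_norm]; exact mem_closedBall.1 hz
    gcongr
  have mv := (convex_closedBall q.2 ‖y - q.2‖).norm_image_sub_le_of_norm_fderiv_le' (𝕜 := ℝ)
    (f := sl w q.1) (C := K * ‖y - q.2‖) (φ := fderiv ℝ (sl w q.1) q.2)
    (fun u _ => hs.differentiable (by simp) u)
    (fun u hu => by
      have e : fderiv ℝ (sl w q.1) u - fderiv ℝ (sl w q.1) q.2
          = innerSL ℝ (gradient (sl w q.1) u - gradient (sl w q.1) q.2) := by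
        ext1 v; simp
      rw [e, innerSL_apply_norm]; exact lip u hu) hq2 hy2
  have hE := (hδ' (hin q.2 hq2)).2
  have hEy := (hδ' (hin y hy2)).2
  have z1 : sl w q.1 q.2 = 0 := hE.isEqn.zero hqM
  have z2 : sl w q.1 y = 0 := hEy.isEqn.zero hy
  rw [z1, z2, sub_zero, zero_sub, norm_neg, ← inner_grad, Real.norm_eq_abs] at mv
  have hgq := (hδ' (hin q.2 hq2)).1.1
  have := hE.isEqn.abs_inner_eq hqM (y - q.2)
  simp only at this hgq
  rw [this, nuw, real_inner_smul_right, abs_mul, abs_inv, abs_norm, real_inner_comm,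
    inv_mul_le_iff₀ (by linarith)]
  refine mv.trans ?_
  have : K * ‖y - q.2‖ * ‖y - q.2‖ = g / 2 * (2 * K / g * ‖y - q.2‖ ^ 2) := by field_simp
  rw [this]
  gcongr

/-- tangency of chords, uniformly on bounded parts of the track over compact intervals -/
lemma exists_twoPt_compact {a b : ℝ} (hJ : Icc a b ⊆ I) (c : E3) (R : ℝ) :
    ∃ r C : ℝ, 0 < r ∧ 0 < C ∧ ∀ t ∈ Icc a b, ∀ x ∈ M t, ‖x - c‖ ≤ R → TwoPt (M t) x r C := by
  have key := (h.isCompact_track hJ c R).induction_on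
    (p := fun S => ∃ r C : ℝ, 0 < r ∧ 0 < C ∧ ∀ q ∈ S, q.2 ∈ M q.1 → TwoPt (M q.1) q.2 r C)
    ⟨1, 1, one_pos, one_pos, by simp⟩
    (fun S T hST ⟨r, C, hr, hC, H⟩ => ⟨r, C, hr, hC, fun q hq => H q (hST hq)⟩)
    (fun S T ⟨r, C, hr, hC, H⟩ ⟨r', C', hr', hC', H'⟩ =>
      ⟨min r r', max C C', by positivity, by positivity, fun q hq hM y hy hyq => by
        rcases hq with hq | hq
        · exact (H q hq hM y hy (hyq.trans (min_le_left _ _))).trans (by gcongr; exact le_max_left _ _)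
        · exact (H' q hq hM y hy (hyq.trans (min_le_right _ _))).trans
            (by gcongr; exact le_max_right _ _)⟩)
    (fun q hq => by
      obtain ⟨r, C, hr, hC, H⟩ := h.exists_twoPt (hJ hq.1.1) hq.1.2
      exact ⟨_, nhdsWithin_le_nhds H, r, C, hr, hC, fun q' hq' => hq'⟩)
  obtain ⟨r, C, hr, hC, H⟩ := key
  exact ⟨r, C, hr, hC, fun t ht x hx hR => H (t, x) ⟨⟨ht, hx⟩, hR⟩ hx⟩

end IsMCF

/-- under a two-point bound, points of the double cone are at a definite distance -/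
lemma TwoPt.le_of_cone {N : Set E3} {x y : E3} {r C : ℝ} (h : TwoPt N x r C) (hC : 0 < C)
    (hy : y ∈ N) (hne : y ≠ x) (hc : ‖y - x‖ / 2 ≤ |⟪y - x, nu N x⟫|) :
    min r (1 / (2 * C)) ≤ ‖y - x‖ := by
  by_contra hlt
  rw [not_le, lt_min_iff] at hlt
  have h1 := h y hy hlt.1.le
  have h2 : 0 < ‖y - x‖ := norm_pos_iff.2 (sub_ne_zero.2 hne)
  have h3 := hlt.2
  rw [lt_div_iff₀ (by positivity)] at h3
  nlinarith

/-- the derivative of the unit normal along tangent vectors -/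
lemma fderiv_nuw {w : E3 → ℝ} (hw : ContDiff ℝ ∞ w) {x : E3} (hg : gradient w x ≠ 0) :
    ContDiffAt ℝ ∞ (nuw w) x ∧
      ∀ v, ⟪nuw w x, v⟫ = 0 → fderiv ℝ (nuw w) x v = -shw w x v := by
  have hG := (contDiff_grad hw).contDiffAt (x := x)
  have hN : ContDiffAt ℝ ∞ (fun y => ‖gradient w y‖⁻¹) x :=
    (hG.norm ℝ hg).inv (norm_ne_zero_iff.2 hg)
  have hn : ContDiffAt ℝ ∞ (nuw w) x := hN.smul hG
  refine ⟨hn, fun v hv => ?_⟩
  have d1 := (hN.differentiableAt (by simp)).hasFDerivAt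
  have d2 := (hG.differentiableAt (by simp)).hasFDerivAt
  have d3 : fderiv ℝ (nuw w) x v = ‖gradient w x‖⁻¹ • fderiv ℝ (gradient w) x v
      + fderiv ℝ (fun y => ‖gradient w y‖⁻¹) x v • gradient w x := by
    have := (d1.smul d2).fderiv
    change fderiv ℝ (nuw w) x = _ at this
    rw [this]; simp
  -- the derivative is orthogonal to the normal
  have d4 : ⟪nuw w x, fderiv ℝ (nuw w) x v⟫ = 0 := by
    have dn := (hn.differentiableAt (by simp)).hasFDerivAt
    have h1 := dn.inner ℝ dn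
    have h2 : HasFDerivAt (fun y => ⟪nuw w y, nuw w y⟫) (0 : E3 →L[ℝ] ℝ) x := by
      refine (hasFDerivAt_const (1 : ℝ) x).congr_of_eventuallyEq ?_
      filter_upwards [hG.continuousAt.eventually_ne hg] with y hy
      rw [real_inner_self_eq_norm_sq, norm_nuw hy]; norm_num
    have h3 := DFunLike.congr_fun (h1.unique h2) v
    simp only [ContinuousLinearMap.comp_apply, ContinuousLinearMap.prod_apply,
      fderivInnerCLM_apply, zero_apply] at h3
    rw [real_inner_comm (nuw w x)] at h3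
    linarith
  rw [← pt_of_orth d4, d3, map_add, map_smul, map_smul]
  have : pt (nuw w x) (gradient w x) = 0 := by
    conv_lhs => rw [grad_eq_smul_nuw hg]
    rw [map_smul, pt_self (norm_nuw hg), smul_zero]
  rw [this, smul_zero, add_zero, shw]
  simp [pt_of_orth hv]

end Vale.Agent.P218FT
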