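import Vale.Agent.P218FT.Static
import Mathlib.Analysis.SpecialFunctions.Gaussian.FourierTransform
import Mathlib.Analysis.Calculus.BumpFunction.InnerProduct
import Mathlib.Analysis.InnerProductSpace.Projection.FiniteDimensional

/-! The projection `pt e`, Gaussian integrals over planes and over pieces of surfaces which
project injectively, cut-off Gaussians. -/

open MeasureTheory Set Filter Topology Metric
open scoped ENNReal NNReal RealInnerProductSpace ContDiff

namespace Vale.Agent.P218FT.PI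

theorem pt_apply (n v : E3) : pt n v = v - ⟪n, v⟫ • n := by simp [pt]

theorem inner_pt {e : E3} (he : ‖e‖ = 1) (v : E3) : ⟪pt e v, e⟫ = 0 := by
  rw [pt_apply, inner_sub_left, real_inner_smul_left, real_inner_self_eq_norm_sq, he,
    real_inner_comm]
  ring

theorem norm_pt_sq {e : E3} (he : ‖e‖ = 1) (v : E3) : ‖pt e v‖ ^ 2 = ‖v‖ ^ 2 - ⟪v, e⟫ ^ 2 := by
  rw [pt_apply, norm_sub_sq_real, norm_smul, real_inner_smul_right, he, real_inner_comm e v,
    Real.norm_eq_abs, mul_pow, sq_abs]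
  ring

theorem norm_pt_le {e : E3} (he : ‖e‖ = 1) (v : E3) : ‖pt e v‖ ≤ ‖v‖ := by
  have h := norm_pt_sq he v
  have : ‖pt e v‖ ^ 2 ≤ ‖v‖ ^ 2 := by nlinarith [sq_nonneg ⟪v, e⟫]
  exact (pow_le_pow_iff_left₀ (norm_nonneg _) (norm_nonneg _) two_ne_zero).mp this

theorem pt_add_smul (e v : E3) : pt e v + ⟪v, e⟫ • e = v := by
  rw [pt_apply, real_inner_comm]; abel

theorem inner_pt_self {e : E3} (he : ‖e‖ = 1) (v : E3) : ⟪pt e v, v⟫ = ‖pt e v‖ ^ 2 := by
  conv_lhs => rw [← pt_add_smul e v]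
  rw [show pt e (pt e v + ⟪v, e⟫ • e) = pt e v by rw [pt_add_smul], inner_add_right,
    real_inner_smul_right, inner_pt he, real_inner_self_eq_norm_sq]
  ring

/-- the Gaussian has integral one over the plane `e^⊥` -/
theorem lintegral_gk_plane {e : E3} (he : ‖e‖ = 1) {σ : ℝ} (hσ : 0 < σ) :
    ∫⁻ x in {x : E3 | ⟪x, e⟫ = 0}, ENNReal.ofReal (gk σ x) ∂(μHE[2] : Measure E3) = 1 := by
  have he0 : e ≠ 0 := by
    intro h; rw [h, norm_zero] at he; exact zero_ne_one he
  set V : Submodule ℝ E3 := (ℝ ∙ e)ᗮ with hV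
  have : Fact (Module.finrank ℝ E3 = 2 + 1) := ⟨by simp⟩
  have hfin : Module.finrank ℝ V = 2 := Submodule.finrank_orthogonal_span_singleton he0
  have hiso : Isometry (V.subtypeₗᵢ) := V.subtypeₗᵢ.isometry
  have hr : range (V.subtypeₗᵢ) = {x : E3 | ⟪x, e⟫ = 0} := by
    ext x
    simp only [mem_range, mem_ofPred_eq]
    constructor
    · rintro ⟨y, rfl⟩
      exact Submodule.mem_orthogonal_singleton_iff_inner_left.mp y.2
    · intro hx
      exact ⟨⟨x, Submodule.mem_orthogonal_singleton_iff_inner_left.mpr hx⟩, rfl⟩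
  have hm : Measurable fun x : E3 => ENNReal.ofReal (gk σ x) :=
    ENNReal.measurable_ofReal.comp (continuous_gk σ).measurable
  rw [← hr, ← hiso.map_euclideanHausdorffMeasure, lintegral_map hm hiso.continuous.measurable]
  have hvol : (μHE[2] : Measure V) = volume := by
    rw [← hfin]; exact InnerProductSpace.euclideanHausdorffMeasure_eq_volume
  rw [hvol]
  have hpi := Real.pi_pos
  have hb : 0 < (4 * σ)⁻¹ := by positivity
  have hI := GaussianFourier.integral_rexp_neg_mul_sq_norm (V := V) hb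
  rw [hfin] at hI
  have hI2 : ∫ v : V, gk σ (V.subtypeₗᵢ v) = 1 := by
    have : ∀ v : V, gk σ (V.subtypeₗᵢ v) =
        (4 * Real.pi * σ)⁻¹ * Real.exp (-(4 * σ)⁻¹ * ‖v‖ ^ 2) := by
      intro v
      unfold gk
      rw [V.subtypeₗᵢ.norm_map]
      congr 2
      field_simp
    simp_rw [this]
    rw [integral_const_mul, hI]
    norm_num
    field_simp
  have hint : Integrable (fun v : V => gk σ (V.subtypeₗᵢ v)) volume := by
    by_contra h
    rw [integral_undef h] at hI2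
    exact zero_ne_one hI2
  rw [← ofReal_integral_eq_lintegral_ofReal hint (Eventually.of_forall fun v => (gk_pos hσ _).le),
    hI2, ENNReal.ofReal_one]

/-- integral of a function of the projection over a piece of surface which projects injectively -/
theorem lintegral_proj_le (hP : ProjStmt) {N : Set E3} (hN : IsSurf N) {e : E3} {c : ℝ}
    {S : Set E3} (he : ‖e‖ = 1) (hc : 0 < c) (hS : S ⊆ N) (hm : MeasurableSet S)
    (ht : ∀ x ∈ S, c ≤ |⟪nu N x, e⟫|) (hi : InjOn (pt e) S) {f : E3 → ℝ≥0∞} (hf : Measurable f) :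
    ∫⁻ x in S, f (pt e x) ∂(area N) ≤
      ENNReal.ofReal c⁻¹ * ∫⁻ x in {x : E3 | ⟪x, e⟫ = 0}, f x ∂(μHE[2] : Measure E3) := by
  have hpm : Measurable (pt e) := (pt e).continuous.measurable
  have hle : Measure.map (pt e) ((area N).restrict S) ≤
      ENNReal.ofReal c⁻¹ • (μHE[2] : Measure E3).restrict {x : E3 | ⟪x, e⟫ = 0} := by
    refine Measure.le_iff.mpr fun A hA => ?_
    rw [Measure.map_apply hpm hA, Measure.restrict_apply (hpm hA), Measure.smul_apply,
      Measure.restrict_apply hA, smul_eq_mul]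
    have h1 := hP N hN e c (pt e ⁻¹' A ∩ S) he hc (inter_subset_right.trans hS)
      ((hpm hA).inter hm) (fun x hx => ht x hx.2) (hi.mono inter_subset_right)
    have h2 : pt e '' (pt e ⁻¹' A ∩ S) ⊆ A ∩ {x : E3 | ⟪x, e⟫ = 0} := by
      rintro _ ⟨x, hx, rfl⟩
      exact ⟨hx.1, inner_pt he x⟩
    have h3 := h1.trans (measure_mono h2)
    calc area N (pt e ⁻¹' A ∩ S)
        = ENNReal.ofReal c⁻¹ * (ENNReal.ofReal c * area N (pt e ⁻¹' A ∩ S)) := by
          rw [← mul_assoc, ← ENNReal.ofReal_mul (by positivity), inv_mul_cancel₀ hc.ne',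
            ENNReal.ofReal_one, one_mul]
      _ ≤ _ := by gcongr
  calc ∫⁻ x in S, f (pt e x) ∂(area N)
      = ∫⁻ x, f x ∂(Measure.map (pt e) ((area N).restrict S)) := (lintegral_map hf hpm).symm
    _ ≤ ∫⁻ x, f x ∂(ENNReal.ofReal c⁻¹ • (μHE[2] : Measure E3).restrict {x : E3 | ⟪x, e⟫ = 0}) :=
        lintegral_mono' hle le_rfl
    _ = _ := by rw [lintegral_smul_measure, smul_eq_mul]

theorem lintegral_gk_proj_le (hP : ProjStmt) {N : Set E3} (hN : IsSurf N) {e : E3} {c : ℝ}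
    {S : Set E3} (he : ‖e‖ = 1) (hc : 0 < c) (hS : S ⊆ N) (hm : MeasurableSet S)
    (ht : ∀ x ∈ S, c ≤ |⟪nu N x, e⟫|) (hi : InjOn (pt e) S) {σ : ℝ} (hσ : 0 < σ) :
    ∫⁻ x in S, ENNReal.ofReal (gk σ (pt e x)) ∂(area N) ≤ ENNReal.ofReal c⁻¹ := by
  have hf : Measurable fun x : E3 => ENNReal.ofReal (gk σ x) :=
    ENNReal.measurable_ofReal.comp (continuous_gk σ).measurable
  have := lintegral_proj_le hP hN he hc hS hm ht hi hf
  rwa [lintegral_gk_plane he hσ, mul_one] at this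

theorem contDiff_gk (σ : ℝ) : ContDiff ℝ 1 (gk σ) := by
  unfold gk
  refine contDiff_const.mul (ContDiff.exp ?_)
  exact ((contDiff_norm_sq ℝ).neg).div_const _

/-- a cut-off Gaussian -/
theorem exists_cutoff {σ ρ : ℝ} (hσ : 0 < σ) (hρ : 0 < ρ) :
    ∃ (ζ : E3 → ℝ) (K : ℝ), 0 < K ∧ Test ζ 0 (2 * ρ) K ∧ (∀ x, 0 ≤ ζ x) ∧ (∀ x, ζ x ≤ gk σ x) ∧
      ∀ x ∈ ball (0 : E3) ρ, ζ x = gk σ x := by
  let χ : ContDiffBump (0 : E3) := ⟨ρ, 2 * ρ, hρ, by linarith⟩
  have hs : ContDiff ℝ 1 fun x => gk σ x * χ x := (contDiff_gk σ).mul χ.contDiff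
  have hc : HasCompactSupport fun x => gk σ x * χ x := χ.hasCompactSupport.mul_left
  obtain ⟨K₀, hK₀⟩ := hs.continuous.bounded_above_of_compact_support hc
  obtain ⟨K₁, hK₁⟩ := (hs.continuous_fderiv one_ne_zero).bounded_above_of_compact_support
    (hc.fderiv (𝕜 := ℝ))
  refine ⟨fun x => gk σ x * χ x, max 1 (max K₀ K₁), lt_max_of_lt_left one_pos, ⟨hs, ?_, ?_, ?_⟩,
    fun x => mul_nonneg (gk_pos hσ x).le χ.nonneg, fun x => ?_, fun x hx => ?_⟩
  · intro x hx
    have : χ x = 0 := χ.zero_of_le_dist (by simpa [χ, dist_eq_norm] using hx)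
    simp [this]
  · intro x
    exact (hK₀ x).trans ((le_max_left _ _).trans (le_max_right _ _))
  · intro x
    exact (hK₁ x).trans ((le_max_right _ _).trans (le_max_right _ _))
  · exact mul_le_of_le_one_right (gk_pos hσ x).le χ.le_one
  · have : χ x = 1 := χ.one_of_mem_closedBall (ball_subset_closedBall hx)
    simp [this]

/-- the Gaussian area is the integral of the cut-off Gaussian up to the tail -/
theorem gA_le_cutoff {D : ℝ} {N : Set E3} (hN : AreaRatio D N) {r ρ R K τ : ℝ} (hr : 0 < r)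
    {ζ : E3 → ℝ} (hζ : Test ζ 0 R K) (h0 : ∀ x, 0 ≤ ζ x)
    (h1 : ∀ x ∈ ball (0 : E3) ρ, ζ x = gk (r ^ 2) x) (y : E3)
    (ht : ∫ x in (ball y ρ)ᶜ, gk (r ^ 2) (x - y) ∂(area N) ≤ τ) :
    gA N y r ≤ ∫ x, ζ (x - y) ∂(area N) + τ := by
  have hi := integrable_gk hN y (show 0 < r ^ 2 by positivity)
  have hz := (hζ.translate y).integrable hN
  unfold gA
  rw [← integral_add_compl (measurableSet_ball (x := y) (ε := ρ)) hi]
  have h2 : ∫ x in ball y ρ, gk (r ^ 2) (x - y) ∂(area N) = ∫ x in ball y ρ, ζ (x - y) ∂(area N) := by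
    refine setIntegral_congr_fun measurableSet_ball fun x hx => ?_
    exact (h1 _ (by simpa [mem_ball, dist_eq_norm] using hx)).symm
  have h3 : ∫ x in ball y ρ, ζ (x - y) ∂(area N) ≤ ∫ x, ζ (x - y) ∂(area N) :=
    setIntegral_le_integral hz (Eventually.of_forall fun x => h0 _)
  linarith

theorem cutoff_le_gA {D : ℝ} {N : Set E3} (hN : AreaRatio D N) {r R K : ℝ} (hr : 0 < r)
    {ζ : E3 → ℝ} (hζ : Test ζ 0 R K) (h1 : ∀ x, ζ x ≤ gk (r ^ 2) x) (y : E3) :
    ∫ x, ζ (x - y) ∂(area N) ≤ gA N y r :=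
  integral_mono ((hζ.translate y).integrable hN) (integrable_gk hN y (by positivity))
    fun x => h1 _

theorem gA_nonneg (N : Set E3) (y : E3) (r : ℝ) : 0 ≤ gA N y r :=
  integral_nonneg fun _ => gk_nonneg (sq_nonneg r) _

/-- the Gaussian density ratios at a point of the flow are at least one -/
theorem one_le_dens (hH : HuiskenStmt) (hD : DensStmt) {D : ℝ} {M : ℝ → Set E3} {I : Set ℝ}
    (hM : IsMCF M I) (hA : ∀ t ∈ I, AreaRatio D (M t)) {t r : ℝ} {x : E3} (hr : 0 < r)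
    (hI : Icc (t - r ^ 2) t ⊆ I) (hx : x ∈ M t) : 1 ≤ dens M x t r := by
  have ht : t ∈ I := hI ⟨by nlinarith, le_rfl⟩
  refine le_of_tendsto (hD D M I hM hA t ht x hx) ?_
  have : Ioc (0 : ℝ) r ∈ 𝓝[>] (0 : ℝ) := Ioc_mem_nhdsGT hr
  filter_upwards [this] with ρ hρ
  have hρ2 : ρ ^ 2 ≤ r ^ 2 := by have := hρ.1; have := hρ.2; gcongr
  have hρ0 : 0 < ρ ^ 2 := by have := hρ.1; positivity
  have h := hH D M I hM hA x t (t - r ^ 2) (t - ρ ^ 2) (by linarith) (by linarith)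
    (fun s hs => hI ⟨hs.1, by linarith [hs.2]⟩)
  rw [show t - (t - ρ ^ 2) = ρ ^ 2 by ring, show t - (t - r ^ 2) = r ^ 2 by ring,
    Real.sqrt_sq hρ.1.le, Real.sqrt_sq hr.le] at h
  exact (ENNReal.ofReal_le_ofReal_iff (gA_nonneg _ _ _)).mp (le_self_add.trans h)

end Vale.Agent.P218FT.PI
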