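import Vale.Agent.P218FT.Spec2
import Vale.Agent.P218FT.Local
import Mathlib.MeasureTheory.Measure.Lebesgue.Basic
import Mathlib.MeasureTheory.Measure.Haar.OfBasis
import Mathlib.Analysis.Calculus.ContDiff.Operations
import Mathlib.Analysis.Calculus.Deriv.Comp
import Mathlib.Analysis.Calculus.Deriv.Add
import Mathlib.Analysis.Calculus.Deriv.Mul

/-! Behaviour of all the quantities of block T under translations and (parabolic) dilations. -/

open MeasureTheory Set Filter Topology Metric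
open scoped ENNReal NNReal RealInnerProductSpace ContDiff

namespace Vale.Agent.P218FT

namespace Sc

variable {lam : ℝ} {x₀ : E3} {t₀ : ℝ}

/-! ### The two affine maps -/

theorem up_dn (hl : lam ≠ 0) (x₀ x : E3) : x₀ + lam⁻¹ • (lam • (x - x₀)) = x := by
  rw [inv_smul_smul₀ hl]; abel

theorem dn_up (hl : lam ≠ 0) (x₀ y : E3) : lam • (x₀ + lam⁻¹ • y - x₀) = y := by
  rw [add_sub_cancel_left, smul_inv_smul₀ hl]

theorem up_sub_up (lam : ℝ) (x₀ y z : E3) :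
    x₀ + lam⁻¹ • y - (x₀ + lam⁻¹ • z) = lam⁻¹ • (y - z) := by
  rw [smul_sub]; abel

theorem dn_sub (hl : lam ≠ 0) (x₀ x y : E3) :
    lam • (x - x₀) - y = lam • (x - (x₀ + lam⁻¹ • y)) := by
  rw [← sub_sub, smul_sub lam (x - x₀), smul_inv_smul₀ hl]

theorem dn_sub_dn (lam : ℝ) (x₀ x z : E3) :
    lam • (x - x₀) - lam • (z - x₀) = lam • (x - z) := by
  rw [← smul_sub]; congr 1; abel

theorem norm_up_sub_up (hl : 0 < lam) (x₀ y z : E3) :
    ‖x₀ + lam⁻¹ • y - (x₀ + lam⁻¹ • z)‖ = ‖y - z‖ / lam := by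
  rw [up_sub_up, norm_smul, Real.norm_eq_abs, abs_of_pos (inv_pos.2 hl), div_eq_inv_mul]

theorem norm_dn_sub (hl : 0 < lam) (x₀ x y : E3) :
    ‖lam • (x - x₀) - y‖ = lam * ‖x - (x₀ + lam⁻¹ • y)‖ := by
  rw [dn_sub hl.ne', norm_smul, Real.norm_eq_abs, abs_of_pos hl]

theorem up_inj (hl : lam ≠ 0) {x₀ y z : E3} : x₀ + lam⁻¹ • y = x₀ + lam⁻¹ • z ↔ y = z := by
  constructor
  · intro h
    rw [← dn_up hl x₀ y, h, dn_up hl]
  · rintro rfl; rfl

theorem tup_tdn (hl : lam ≠ 0) (t₀ t : ℝ) : t₀ + (t - t₀) * lam ^ 2 / lam ^ 2 = t := by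
  field_simp; ring

theorem tdn_tup (hl : lam ≠ 0) (t₀ s : ℝ) : (t₀ + s / lam ^ 2 - t₀) * lam ^ 2 = s := by
  field_simp; ring

theorem tup_le_tup (hl : 0 < lam) {t₀ a b : ℝ} : t₀ + a / lam ^ 2 ≤ t₀ + b / lam ^ 2 ↔ a ≤ b := by
  rw [add_le_add_iff_left, div_le_div_iff_of_pos_right (by positivity)]

theorem tup_lt_tup (hl : 0 < lam) {t₀ a b : ℝ} : t₀ + a / lam ^ 2 < t₀ + b / lam ^ 2 ↔ a < b := by
  rw [add_lt_add_iff_left, div_lt_div_iff_of_pos_right (by positivity)]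

/-- the dilation as a homeomorphism -/
noncomputable def dnH (lam : ℝ) (hl : lam ≠ 0) (x₀ : E3) : E3 ≃ₜ E3 where
  toFun x := lam • (x - x₀)
  invFun y := x₀ + lam⁻¹ • y
  left_inv x := up_dn hl x₀ x
  right_inv y := dn_up hl x₀ y
  continuous_toFun := by fun_prop
  continuous_invFun := by fun_prop

/-- the time dilation as a homeomorphism -/
noncomputable def tdnH (lam : ℝ) (hl : lam ≠ 0) (t₀ : ℝ) : ℝ ≃ₜ ℝ where
  toFun t := (t - t₀) * lam ^ 2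
  invFun s := t₀ + s / lam ^ 2
  left_inv t := tup_tdn hl t₀ t
  right_inv s := tdn_tup hl t₀ s
  continuous_toFun := by fun_prop
  continuous_invFun := by fun_prop

theorem embDn (hl : lam ≠ 0) (x₀ : E3) : MeasurableEmbedding fun x : E3 => lam • (x - x₀) :=
  (dnH lam hl x₀).measurableEmbedding

theorem embTdn (hl : lam ≠ 0) (t₀ : ℝ) : MeasurableEmbedding fun t : ℝ => (t - t₀) * lam ^ 2 :=
  (tdnH lam hl t₀).measurableEmbedding

theorem preimage_ball (hl : 0 < lam) (x₀ p : E3) (r : ℝ) :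
    (fun x : E3 => lam • (x - x₀)) ⁻¹' ball p r = ball (x₀ + lam⁻¹ • p) (r / lam) := by
  ext x
  simp only [mem_preimage, mem_ball, dist_eq_norm]
  rw [norm_dn_sub hl, lt_div_iff₀ hl, mul_comm]

theorem preimage_closedBall (hl : 0 < lam) (x₀ p : E3) (r : ℝ) :
    (fun x : E3 => lam • (x - x₀)) ⁻¹' closedBall p r = closedBall (x₀ + lam⁻¹ • p) (r / lam) := by
  ext x
  simp only [mem_preimage, mem_closedBall, dist_eq_norm]
  rw [norm_dn_sub hl, le_div_iff₀ hl, mul_comm]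

theorem up_mem_ball (hl : 0 < lam) {x₀ p y : E3} {r : ℝ} :
    x₀ + lam⁻¹ • y ∈ ball (x₀ + lam⁻¹ • p) (r / lam) ↔ y ∈ ball p r := by
  rw [← preimage_ball hl, mem_preimage, dn_up hl.ne']

theorem preimage_Icc (hl : 0 < lam) (t₀ a b : ℝ) :
    (fun t : ℝ => (t - t₀) * lam ^ 2) ⁻¹' Icc a b = Icc (t₀ + a / lam ^ 2) (t₀ + b / lam ^ 2) := by
  ext t
  simp only [mem_preimage, mem_Icc]
  rw [← tup_le_tup (t₀ := t₀) hl, ← tup_le_tup (t₀ := t₀) (b := b) hl, tup_tdn hl.ne']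

theorem tup_mem_Icc (hl : 0 < lam) {t₀ a b s : ℝ} :
    t₀ + s / lam ^ 2 ∈ Icc (t₀ + a / lam ^ 2) (t₀ + b / lam ^ 2) ↔ s ∈ Icc a b := by
  simp only [mem_Icc, tup_le_tup hl]

end Sc

open Sc

variable {lam : ℝ} {x₀ : E3} {t₀ : ℝ} {N : Set E3} {M : ℝ → Set E3} {I : Set ℝ}

/-! ### Sets and time intervals -/

theorem mem_scaleSet {y : E3} : y ∈ scaleSet lam x₀ N ↔ x₀ + lam⁻¹ • y ∈ N := Iff.rfl

theorem dn_mem_scaleSet (hl : lam ≠ 0) {x : E3} : lam • (x - x₀) ∈ scaleSet lam x₀ N ↔ x ∈ N := by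
  rw [mem_scaleSet, up_dn hl]

theorem scaleFlow_apply (s : ℝ) :
    scaleFlow lam x₀ t₀ M s = scaleSet lam x₀ (M (t₀ + s / lam ^ 2)) := rfl

theorem scaleFlow_tdn (hl : lam ≠ 0) (t : ℝ) :
    scaleFlow lam x₀ t₀ M ((t - t₀) * lam ^ 2) = scaleSet lam x₀ (M t) := by
  rw [scaleFlow_apply, tup_tdn hl]

theorem mem_scaleFlow {s : ℝ} {y : E3} :
    y ∈ scaleFlow lam x₀ t₀ M s ↔ x₀ + lam⁻¹ • y ∈ M (t₀ + s / lam ^ 2) := Iff.rfl

theorem scaleSet_scaleSet (lam mu : ℝ) (x₀ y₀ : E3) (N : Set E3) :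
    scaleSet mu y₀ (scaleSet lam x₀ N) = scaleSet (lam * mu) (x₀ + lam⁻¹ • y₀) N := by
  ext z
  simp only [mem_scaleSet, smul_add, smul_smul, mul_inv, add_assoc]

theorem scaleSet_one_zero (N : Set E3) : scaleSet 1 0 N = N := by
  ext z; simp [mem_scaleSet]

theorem scaleSet_inv (hl : lam ≠ 0) (x₀ : E3) (N : Set E3) :
    scaleSet lam⁻¹ (-(lam • x₀)) (scaleSet lam x₀ N) = N := by
  rw [scaleSet_scaleSet, mul_inv_cancel₀ hl, smul_neg, inv_smul_smul₀ hl, add_neg_cancel,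
    scaleSet_one_zero]

theorem scaleFlow_scaleFlow (lam mu : ℝ) (x₀ y₀ : E3) (t₀ s₀ : ℝ) (M : ℝ → Set E3) :
    scaleFlow mu y₀ s₀ (scaleFlow lam x₀ t₀ M) =
      scaleFlow (lam * mu) (x₀ + lam⁻¹ • y₀) (t₀ + s₀ / lam ^ 2) M := by
  funext s
  simp only [scaleFlow_apply, scaleSet_scaleSet]
  congr 2
  rw [add_div, mul_pow, div_div, add_assoc, mul_comm]

theorem scaleSet_ball (hl : 0 < lam) (x₀ p : E3) (r : ℝ) :
    scaleSet lam x₀ (ball (x₀ + lam⁻¹ • p) (r / lam)) = ball p r := by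
  ext y; rw [mem_scaleSet, up_mem_ball hl]

theorem IsClosed.scaleSet (hN : IsClosed N) (lam : ℝ) (x₀ : E3) : IsClosed (scaleSet lam x₀ N) :=
  hN.preimage (f := fun y : E3 => x₀ + lam⁻¹ • y) (by fun_prop)

theorem measurableSet_scaleSet (hN : MeasurableSet N) (lam : ℝ) (x₀ : E3) :
    MeasurableSet (scaleSet lam x₀ N) :=
  hN.preimage (f := fun y : E3 => x₀ + lam⁻¹ • y) (by fun_prop)

theorem isCompact_scaleSet (hl : lam ≠ 0) (hN : IsCompact N) (x₀ : E3) :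
    IsCompact (scaleSet lam x₀ N) :=
  (dnH lam hl x₀).symm.isCompact_preimage.2 hN

/-- the time interval of the rescaled flow -/
def scaleInt (lam t₀ : ℝ) (I : Set ℝ) : Set ℝ := {s | t₀ + s / lam ^ 2 ∈ I}

theorem mem_scaleInt {s : ℝ} : s ∈ scaleInt lam t₀ I ↔ t₀ + s / lam ^ 2 ∈ I := Iff.rfl

theorem Icc_subset_scaleInt (hl : 0 < lam) {a b : ℝ} :
    Icc a b ⊆ scaleInt lam t₀ I ↔ Icc (t₀ + a / lam ^ 2) (t₀ + b / lam ^ 2) ⊆ I := by
  constructor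
  · intro h t ht
    rw [← preimage_Icc hl] at ht
    have := h ht
    rwa [mem_scaleInt, tup_tdn hl.ne'] at this
  · intro h s hs
    exact h ((tup_mem_Icc hl).2 hs)

theorem scaleInt_Ioo (hl : 0 < lam) (t₀ a b : ℝ) :
    scaleInt lam t₀ (Ioo a b) = Ioo ((a - t₀) * lam ^ 2) ((b - t₀) * lam ^ 2) := by
  ext s
  simp only [mem_scaleInt, mem_Ioo]
  rw [← tup_lt_tup (t₀ := t₀) (b := s) hl, ← tup_lt_tup (t₀ := t₀) (a := s) hl, tup_tdn hl.ne',
    tup_tdn hl.ne']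

/-! ### Local equations, normal, curvature -/

theorem hasFDerivAt_up (lam : ℝ) (x₀ y : E3) :
    HasFDerivAt (fun y : E3 => x₀ + lam⁻¹ • y) (lam⁻¹ • ContinuousLinearMap.id ℝ E3) y :=
  ((hasFDerivAt_id y).const_smul lam⁻¹).const_add x₀

theorem fderiv_comp_up {F : Type*} [NormedAddCommGroup F] [NormedSpace ℝ F] (hl : lam ≠ 0)
    (f : E3 → F) (y : E3) :
    fderiv ℝ (fun z => f (x₀ + lam⁻¹ • z)) y = lam⁻¹ • fderiv ℝ f (x₀ + lam⁻¹ • y) := by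
  by_cases hf : DifferentiableAt ℝ f (x₀ + lam⁻¹ • y)
  · have := (hf.hasFDerivAt.comp y (hasFDerivAt_up lam x₀ y)).fderiv
    rw [ContinuousLinearMap.comp_smul, ContinuousLinearMap.comp_id] at this
    exact this
  · have hg : ¬ DifferentiableAt ℝ (fun z => f (x₀ + lam⁻¹ • z)) y := by
      intro hg
      apply hf
      have h1 : DifferentiableAt ℝ (fun x : E3 => lam • (x - x₀)) (x₀ + lam⁻¹ • y) := by fun_prop
      have h2 : DifferentiableAt ℝ (fun z => f (x₀ + lam⁻¹ • z))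
          ((fun x : E3 => lam • (x - x₀)) (x₀ + lam⁻¹ • y)) := by
        simp only [dn_up hl]; exact hg
      have h3 := h2.comp (x₀ + lam⁻¹ • y) h1
      have : ((fun z => f (x₀ + lam⁻¹ • z)) ∘ fun x : E3 => lam • (x - x₀)) = f := by
        funext x; simp only [Function.comp, up_dn hl]
      rwa [this] at h3
    rw [fderiv_zero_of_not_differentiableAt hf, fderiv_zero_of_not_differentiableAt hg, smul_zero]

theorem gradient_comp_up (hl : lam ≠ 0) (w : E3 → ℝ) (y : E3) :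
    gradient (fun z => w (x₀ + lam⁻¹ • z)) y = lam⁻¹ • gradient w (x₀ + lam⁻¹ • y) := by
  simp only [gradient, fderiv_comp_up hl, map_smul]

theorem nuw_comp_up (hl : 0 < lam) (w : E3 → ℝ) (y : E3) :
    nuw (fun z => w (x₀ + lam⁻¹ • z)) y = nuw w (x₀ + lam⁻¹ • y) := by
  simp only [nuw, gradient_comp_up hl.ne', norm_smul, smul_smul, Real.norm_eq_abs,
    abs_of_pos (inv_pos.2 hl), mul_inv, inv_inv]
  congr 1
  field_simp

theorem shw_comp_up (hl : 0 < lam) (w : E3 → ℝ) (y : E3) :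
    shw (fun z => w (x₀ + lam⁻¹ • z)) y = lam⁻¹ • shw w (x₀ + lam⁻¹ • y) := by
  have h1 : gradient (fun z => w (x₀ + lam⁻¹ • z)) =
      fun z => lam⁻¹ • gradient w (x₀ + lam⁻¹ • z) := funext fun z => gradient_comp_up hl.ne' w z
  have h2 : fderiv ℝ (gradient fun z => w (x₀ + lam⁻¹ • z)) y =
      (lam⁻¹ * lam⁻¹) • fderiv ℝ (gradient w) (x₀ + lam⁻¹ • y) := by
    rw [h1]
    have : (fun z => lam⁻¹ • gradient w (x₀ + lam⁻¹ • z)) =
        lam⁻¹ • fun z => gradient w (x₀ + lam⁻¹ • z) := rfl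
    rw [this, fderiv_const_smul_field, Pi.smul_apply, fderiv_comp_up hl.ne', smul_smul]
  simp only [shw, nuw_comp_up hl, h2, gradient_comp_up hl.ne', norm_smul, Real.norm_eq_abs,
    abs_of_pos (inv_pos.2 hl), mul_inv, inv_inv, ContinuousLinearMap.smul_comp,
    ContinuousLinearMap.comp_smul, smul_smul]
  congr 1
  field_simp

theorem IsEqn.scale (hl : lam ≠ 0) {w : E3 → ℝ} {y : E3} (hw : IsEqn N (x₀ + lam⁻¹ • y) w) :
    IsEqn (scaleSet lam x₀ N) y fun z => w (x₀ + lam⁻¹ • z) := by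
  refine ⟨hw.1.comp (f := fun z : E3 => x₀ + lam⁻¹ • z) (by fun_prop), ?_, ?_⟩
  · rw [gradient_comp_up hl]
    exact smul_ne_zero (inv_ne_zero hl) hw.2.1
  · have hc : Tendsto (fun z : E3 => x₀ + lam⁻¹ • z) (𝓝 y) (𝓝 (x₀ + lam⁻¹ • y)) :=
      Continuous.tendsto (by fun_prop) y
    exact hc.eventually hw.2.2

theorem IsSurf.scale (hl : lam ≠ 0) (hN : IsSurf N) (x₀ : E3) : IsSurf (scaleSet lam x₀ N) :=
  ⟨IsClosed.scaleSet hN.1 lam x₀, fun _ hy => let ⟨_, hw⟩ := hN.2 _ hy; ⟨_, hw.scale hl⟩⟩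

/-- the normal and the shape operator of the rescaled set, at any of its points -/
theorem nu_sh_scale (hl : 0 < lam) {y : E3} (hy : y ∈ scaleSet lam x₀ N) :
    ∃ ε : ℝ, (ε = 1 ∨ ε = -1) ∧ nu (scaleSet lam x₀ N) y = ε • nu N (x₀ + lam⁻¹ • y) ∧
      sh (scaleSet lam x₀ N) y = (ε * lam⁻¹) • sh N (x₀ + lam⁻¹ • y) := by
  by_cases h : ∃ w, IsEqn N (x₀ + lam⁻¹ • y) w
  · have hw : IsEqn N (x₀ + lam⁻¹ • y) (eqn N (x₀ + lam⁻¹ • y)) := by
      rw [eqn, dif_pos h]; exact h.choose_spec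
    obtain ⟨ε, hε, h1, h2⟩ := (hw.scale hl.ne').nu_sh hy
    refine ⟨ε, hε, ?_, ?_⟩
    · rw [h1, nuw_comp_up hl]; rfl
    · rw [h2, shw_comp_up hl, smul_smul]; rfl
  · have h' : ¬ ∃ w, IsEqn (scaleSet lam x₀ N) y w := by
      rintro ⟨w, hw⟩
      apply h
      have e : y = -(lam • x₀) + lam⁻¹⁻¹ • (x₀ + lam⁻¹ • y) := by
        rw [inv_inv, smul_add, smul_inv_smul₀ hl.ne']; abel
      rw [e] at hw
      have := hw.scale (inv_ne_zero hl.ne')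
      rw [scaleSet_inv hl.ne'] at this
      exact ⟨_, this⟩
    have hg : ∀ z : E3, gradient (0 : E3 → ℝ) z = 0 := fun z => by
      simp [gradient]
    refine ⟨1, Or.inl rfl, ?_, ?_⟩
    · simp only [nu, eqn, dif_neg h, dif_neg h', nuw, hg, smul_zero]
    · simp only [sh, eqn, dif_neg h, dif_neg h', shw, hg, norm_zero, inv_zero, neg_zero]
      ext1 v
      simp

theorem Hv_scale (hl : 0 < lam) {y : E3} (hy : y ∈ scaleSet lam x₀ N) :
    Hv (scaleSet lam x₀ N) y = lam⁻¹ • Hv N (x₀ + lam⁻¹ • y) := by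
  obtain ⟨ε, hε, h1, h2⟩ := nu_sh_scale hl hy
  rw [Hv, Hv, h1, h2, tr_smul, smul_smul, smul_smul]
  congr 1
  rcases hε with rfl | rfl <;> ring

theorem norm_Hv_scale (hl : 0 < lam) {y : E3} (hy : y ∈ scaleSet lam x₀ N) :
    ‖Hv (scaleSet lam x₀ N) y‖ = ‖Hv N (x₀ + lam⁻¹ • y)‖ / lam := by
  rw [Hv_scale hl hy, norm_smul, Real.norm_eq_abs, abs_of_pos (inv_pos.2 hl), div_eq_inv_mul]

theorem a2_scale (hl : 0 < lam) {y : E3} (hy : y ∈ scaleSet lam x₀ N) :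
    a2 (scaleSet lam x₀ N) y = a2 N (x₀ + lam⁻¹ • y) / lam ^ 2 := by
  obtain ⟨ε, hε, -, h2⟩ := nu_sh_scale hl hy
  rw [a2, a2, h2, ContinuousLinearMap.smul_comp, ContinuousLinearMap.comp_smul, smul_smul,
    tr_smul]
  rcases hε with rfl | rfl <;> field_simp

theorem sqrt_a2_scale (hl : 0 < lam) {y : E3} (hy : y ∈ scaleSet lam x₀ N) :
    √(a2 (scaleSet lam x₀ N) y) = √(a2 N (x₀ + lam⁻¹ • y)) / lam := by
  rw [a2_scale hl hy, Real.sqrt_div' _ (by positivity), Real.sqrt_sq hl.le]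

theorem norm_sh_scale (hl : 0 < lam) {y : E3} (hy : y ∈ scaleSet lam x₀ N) :
    ‖sh (scaleSet lam x₀ N) y‖ = ‖sh N (x₀ + lam⁻¹ • y)‖ / lam := by
  obtain ⟨ε, hε, -, h2⟩ := nu_sh_scale hl hy
  rw [h2, norm_smul, Real.norm_eq_abs, abs_mul, abs_of_pos (inv_pos.2 hl), div_eq_inv_mul]
  rcases hε with rfl | rfl <;> simp

theorem abs_inner_nu_scale (hl : 0 < lam) {y : E3} (hy : y ∈ scaleSet lam x₀ N) (v : E3) :
    |⟪v, nu (scaleSet lam x₀ N) y⟫| = |⟪v, nu N (x₀ + lam⁻¹ • y)⟫| := by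
  obtain ⟨ε, hε, h1, -⟩ := nu_sh_scale hl hy
  rw [h1, inner_smul_right, abs_mul]
  rcases hε with rfl | rfl <;> simp

theorem inner_nu_sq_scale (hl : 0 < lam) {y : E3} (hy : y ∈ scaleSet lam x₀ N) (v : E3) :
    ⟪nu (scaleSet lam x₀ N) y, v⟫ ^ 2 = ⟪nu N (x₀ + lam⁻¹ • y), v⟫ ^ 2 := by
  rw [← sq_abs, real_inner_comm, abs_inner_nu_scale hl hy, sq_abs, real_inner_comm]

theorem inner_smul_nu_scale (hl : 0 < lam) {y : E3} (hy : y ∈ scaleSet lam x₀ N) (v : E3) :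
    ⟪v, nu (scaleSet lam x₀ N) y⟫ • nu (scaleSet lam x₀ N) y =
      ⟪v, nu N (x₀ + lam⁻¹ • y)⟫ • nu N (x₀ + lam⁻¹ • y) := by
  obtain ⟨ε, hε, h1, -⟩ := nu_sh_scale hl hy
  rw [h1, inner_smul_right, smul_smul]
  congr 1
  rcases hε with rfl | rfl <;> ring

theorem pt_nu_scale (hl : 0 < lam) {y : E3} (hy : y ∈ scaleSet lam x₀ N) :
    pt (nu (scaleSet lam x₀ N) y) = pt (nu N (x₀ + lam⁻¹ • y)) := by
  ext1 v
  simp only [pt, sub_apply, ContinuousLinearMap.smulRight_apply,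
    innerSL_apply_apply]
  rw [real_inner_comm, inner_smul_nu_scale hl hy, real_inner_comm]

theorem relV_scale (hl : 0 < lam) {y : E3} (hy : y ∈ scaleSet lam x₀ N) (c : E3) (σ : ℝ) :
    relV (scaleSet lam x₀ N) c σ y =
      lam⁻¹ • relV N (x₀ + lam⁻¹ • c) (σ / lam ^ 2) (x₀ + lam⁻¹ • y) := by
  rw [relV, relV, Hv_scale hl hy, mul_smul, inner_smul_nu_scale hl hy, up_sub_up, smul_add,
    inner_smul_left, smul_smul, smul_smul]
  congr 2
  simp only [conj_trivial]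
  rcases eq_or_ne σ 0 with rfl | hσ
  · simp
  · field_simp

theorem divT_scale (hl : 0 < lam) {y : E3} (hy : y ∈ scaleSet lam x₀ N) (X : E3 → E3) :
    divT (scaleSet lam x₀ N) (fun z => X (x₀ + lam⁻¹ • z)) y =
      lam⁻¹ * divT N X (x₀ + lam⁻¹ • y) := by
  obtain ⟨ε, hε, h1, -⟩ := nu_sh_scale hl hy
  rw [divT, divT, fderiv_comp_up hl.ne', tr_smul, h1]
  simp only [smul_apply, map_smul, inner_smul_left, inner_smul_right,
    conj_trivial]
  rcases hε with rfl | rfl <;> ring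

/-! ### Area and integrals -/

open scoped Pointwise in
theorem Sc.map_dn_hausdorff (hl : 0 < lam) (x₀ : E3) :
    (μHE[2] : Measure E3) =
      ENNReal.ofReal (lam ^ 2) • (μHE[2] : Measure E3).map fun x : E3 => lam • (x - x₀) := by
  ext S _
  rw [Measure.smul_apply, (embDn hl.ne' x₀).map_apply]
  have e : S = lam • ((fun x : E3 => x + x₀) ⁻¹' ((fun x : E3 => lam • (x - x₀)) ⁻¹' S)) := by
    ext y
    rw [Set.mem_smul_set_iff_inv_smul_mem₀ hl.ne']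
    simp only [mem_preimage, add_sub_cancel_right, smul_inv_smul₀ hl.ne']
  conv_lhs => rw [e]
  rw [Measure.euclideanHausdorffMeasure_smul₀ 2 hl.ne', measure_preimage_add_right, smul_eq_mul,
    ENNReal.smul_def, smul_eq_mul]
  congr 1
  rw [ENNReal.ofReal_pow hl.le, ENNReal.coe_pow, ← enorm_eq_nnnorm, Real.enorm_eq_ofReal hl.le]

/-- the area measure of the rescaled set -/
theorem area_scale (hl : 0 < lam) (x₀ : E3) (N : Set E3) :
    area (scaleSet lam x₀ N) =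
      ENNReal.ofReal (lam ^ 2) • (area N).map fun x : E3 => lam • (x - x₀) := by
  have e : (fun x : E3 => lam • (x - x₀)) ⁻¹' scaleSet lam x₀ N = N := by
    ext x; exact dn_mem_scaleSet hl.ne'
  rw [area, area]
  conv_lhs => rw [Sc.map_dn_hausdorff hl x₀]
  rw [Measure.restrict_smul, (embDn hl.ne' x₀).restrict_map, e]

theorem area_scale_apply (hl : 0 < lam) (x₀ : E3) (N S : Set E3) :
    area (scaleSet lam x₀ N) S =
      ENNReal.ofReal (lam ^ 2) * area N ((fun x : E3 => lam • (x - x₀)) ⁻¹' S) := by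
  rw [area_scale hl, Measure.smul_apply, (embDn hl.ne' x₀).map_apply, smul_eq_mul]

theorem area_scale_scaleSet (hl : 0 < lam) (x₀ : E3) (N S : Set E3) :
    area (scaleSet lam x₀ N) (scaleSet lam x₀ S) = ENNReal.ofReal (lam ^ 2) * area N S := by
  rw [area_scale_apply hl]
  congr 2
  ext x; exact dn_mem_scaleSet hl.ne'

theorem area_scale_ball (hl : 0 < lam) (x₀ : E3) (N : Set E3) (p : E3) (r : ℝ) :
    area (scaleSet lam x₀ N) (ball p r) =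
      ENNReal.ofReal (lam ^ 2) * area N (ball (x₀ + lam⁻¹ • p) (r / lam)) := by
  rw [area_scale_apply hl, preimage_ball hl]

theorem lintegral_scale (hl : 0 < lam) (x₀ : E3) (N : Set E3) (f : E3 → ℝ≥0∞) :
    ∫⁻ y, f y ∂(area (scaleSet lam x₀ N)) =
      ENNReal.ofReal (lam ^ 2) * ∫⁻ x, f (lam • (x - x₀)) ∂(area N) := by
  rw [area_scale hl, lintegral_smul_measure, (embDn hl.ne' x₀).lintegral_map, smul_eq_mul]

theorem setLIntegral_scale (hl : 0 < lam) (x₀ : E3) (N S : Set E3) (f : E3 → ℝ≥0∞) :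
    ∫⁻ y in S, f y ∂(area (scaleSet lam x₀ N)) = ENNReal.ofReal (lam ^ 2) *
      ∫⁻ x in (fun x : E3 => lam • (x - x₀)) ⁻¹' S, f (lam • (x - x₀)) ∂(area N) := by
  rw [area_scale hl, Measure.restrict_smul, lintegral_smul_measure,
    (embDn hl.ne' x₀).restrict_map, (embDn hl.ne' x₀).lintegral_map, smul_eq_mul]

theorem integral_scale {F : Type*} [NormedAddCommGroup F] [NormedSpace ℝ F] (hl : 0 < lam)
    (x₀ : E3) (N : Set E3) (f : E3 → F) :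
    ∫ y, f y ∂(area (scaleSet lam x₀ N)) = lam ^ 2 • ∫ x, f (lam • (x - x₀)) ∂(area N) := by
  rw [area_scale hl, integral_smul_measure, (embDn hl.ne' x₀).integral_map,
    ENNReal.toReal_ofReal (by positivity)]

theorem setIntegral_scale {F : Type*} [NormedAddCommGroup F] [NormedSpace ℝ F] (hl : 0 < lam)
    (x₀ : E3) (N S : Set E3) (f : E3 → F) :
    ∫ y in S, f y ∂(area (scaleSet lam x₀ N)) =
      lam ^ 2 • ∫ x in (fun x : E3 => lam • (x - x₀)) ⁻¹' S, f (lam • (x - x₀)) ∂(area N) := by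
  rw [area_scale hl, Measure.restrict_smul, integral_smul_measure,
    (embDn hl.ne' x₀).restrict_map, (embDn hl.ne' x₀).integral_map,
    ENNReal.toReal_ofReal (by positivity)]

theorem integrable_scale {F : Type*} [NormedAddCommGroup F] (hl : 0 < lam)
    (x₀ : E3) (N : Set E3) (f : E3 → F) :
    Integrable f (area (scaleSet lam x₀ N)) ↔
      Integrable (fun x => f (lam • (x - x₀))) (area N) := by
  rw [area_scale hl, integrable_smul_measure (by simp [hl.ne']) ENNReal.ofReal_ne_top,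
    (embDn hl.ne' x₀).integrable_map_iff]
  rfl

/-- change of variables when the integrands are only related on the surface -/
theorem setLIntegral_ball_scale (hl : 0 < lam) (hN : MeasurableSet N) (p : E3) (r : ℝ)
    {f g : E3 → ℝ≥0∞} {k : ℝ≥0∞} (hk : k ≠ ⊤)
    (h : ∀ y ∈ scaleSet lam x₀ N, y ∈ ball p r → f y = k * g (x₀ + lam⁻¹ • y)) :
    ∫⁻ y in ball p r, f y ∂(area (scaleSet lam x₀ N)) = ENNReal.ofReal (lam ^ 2) * k *
      ∫⁻ x in ball (x₀ + lam⁻¹ • p) (r / lam), g x ∂(area N) := by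
  rw [setLIntegral_scale hl, preimage_ball hl, mul_assoc, ← lintegral_const_mul' _ _ hk]
  congr 1
  rw [area, Measure.restrict_restrict measurableSet_ball]
  refine setLIntegral_congr_fun (measurableSet_ball.inter hN) fun x hx => ?_
  have h1 : lam • (x - x₀) ∈ ball p r := by
    have := hx.1
    rwa [← preimage_ball hl] at this
  have := h _ ((dn_mem_scaleSet hl.ne').2 hx.2) h1
  rwa [up_dn hl.ne'] at this

/-- change of variables when the integrands are only related on the surface -/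
theorem lintegral_scale_congr (hl : 0 < lam) (hN : MeasurableSet N)
    {f g : E3 → ℝ≥0∞} {k : ℝ≥0∞} (hk : k ≠ ⊤)
    (h : ∀ y ∈ scaleSet lam x₀ N, f y = k * g (x₀ + lam⁻¹ • y)) :
    ∫⁻ y, f y ∂(area (scaleSet lam x₀ N)) =
      ENNReal.ofReal (lam ^ 2) * k * ∫⁻ x, g x ∂(area N) := by
  rw [lintegral_scale hl, mul_assoc, ← lintegral_const_mul' _ _ hk]
  congr 1
  refine setLIntegral_congr_fun hN fun x hx => ?_
  have := h _ ((dn_mem_scaleSet hl.ne').2 hx)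
  rwa [up_dn hl.ne'] at this

/-- change of variables when the integrands are only related on the surface -/
theorem integral_scale_congr (hl : 0 < lam) (hN : MeasurableSet N) {f g : E3 → ℝ} {k : ℝ}
    (h : ∀ y ∈ scaleSet lam x₀ N, f y = k * g (x₀ + lam⁻¹ • y)) :
    ∫ y, f y ∂(area (scaleSet lam x₀ N)) = lam ^ 2 * k * ∫ x, g x ∂(area N) := by
  rw [integral_scale hl, mul_assoc, ← integral_const_mul, smul_eq_mul]
  congr 1
  refine setIntegral_congr_fun hN fun x hx => ?_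
  have := h _ ((dn_mem_scaleSet hl.ne').2 hx)
  rwa [up_dn hl.ne'] at this

theorem Sc.ofReal_cancel (hl : 0 < lam) :
    ENNReal.ofReal (lam ^ 2) * ENNReal.ofReal ((lam ^ 2)⁻¹) = 1 := by
  rw [← ENNReal.ofReal_mul (by positivity), mul_inv_cancel₀ (by positivity), ENNReal.ofReal_one]

/-- `∫ |A|²` is invariant -/
theorem lintegral_a2_scale (hl : 0 < lam) (hN : MeasurableSet N) (x₀ p : E3) (r : ℝ) :
    ∫⁻ y in ball p r, ENNReal.ofReal (a2 (scaleSet lam x₀ N) y) ∂(area (scaleSet lam x₀ N)) =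
      ∫⁻ x in ball (x₀ + lam⁻¹ • p) (r / lam), ENNReal.ofReal (a2 N x) ∂(area N) := by
  rw [setLIntegral_ball_scale hl hN p r (k := ENNReal.ofReal ((lam ^ 2)⁻¹))
    (g := fun x => ENNReal.ofReal (a2 N x)) ENNReal.ofReal_ne_top, Sc.ofReal_cancel hl, one_mul]
  intro y hy _
  rw [a2_scale hl hy, ← ENNReal.ofReal_mul (by positivity), div_eq_inv_mul]

/-- `∫ |H|²` is invariant -/
theorem lintegral_Hv_sq_scale (hl : 0 < lam) (hN : MeasurableSet N) (x₀ p : E3) (r : ℝ) :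
    ∫⁻ y in ball p r, ENNReal.ofReal (‖Hv (scaleSet lam x₀ N) y‖ ^ 2)
        ∂(area (scaleSet lam x₀ N)) =
      ∫⁻ x in ball (x₀ + lam⁻¹ • p) (r / lam), ENNReal.ofReal (‖Hv N x‖ ^ 2) ∂(area N) := by
  rw [setLIntegral_ball_scale hl hN p r (k := ENNReal.ofReal ((lam ^ 2)⁻¹))
    (g := fun x => ENNReal.ofReal (‖Hv N x‖ ^ 2)) ENNReal.ofReal_ne_top, Sc.ofReal_cancel hl,
    one_mul]
  intro y hy _
  rw [norm_Hv_scale hl hy, ← ENNReal.ofReal_mul (by positivity), div_pow, div_eq_inv_mul]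

/-- `∫ |A|` scales like a length -/
theorem lintegral_sqrt_a2_scale (hl : 0 < lam) (hN : MeasurableSet N) (x₀ p : E3) (r : ℝ) :
    ∫⁻ y in ball p r, ENNReal.ofReal (√(a2 (scaleSet lam x₀ N) y)) ∂(area (scaleSet lam x₀ N)) =
      ENNReal.ofReal lam *
        ∫⁻ x in ball (x₀ + lam⁻¹ • p) (r / lam), ENNReal.ofReal (√(a2 N x)) ∂(area N) := by
  rw [setLIntegral_ball_scale hl hN p r (k := ENNReal.ofReal lam⁻¹)
    (g := fun x => ENNReal.ofReal (√(a2 N x))) ENNReal.ofReal_ne_top,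
    ← ENNReal.ofReal_mul (by positivity)]
  · congr 2
    field_simp
  · intro y hy _
    rw [sqrt_a2_scale hl hy, ← ENNReal.ofReal_mul (by positivity), div_eq_inv_mul]

/-- `∫ |H|` scales like a length -/
theorem lintegral_Hv_scale (hl : 0 < lam) (hN : MeasurableSet N) (x₀ p : E3) (r : ℝ) :
    ∫⁻ y in ball p r, ENNReal.ofReal ‖Hv (scaleSet lam x₀ N) y‖ ∂(area (scaleSet lam x₀ N)) =
      ENNReal.ofReal lam *
        ∫⁻ x in ball (x₀ + lam⁻¹ • p) (r / lam), ENNReal.ofReal ‖Hv N x‖ ∂(area N) := by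
  rw [setLIntegral_ball_scale hl hN p r (k := ENNReal.ofReal lam⁻¹)
    (g := fun x => ENNReal.ofReal ‖Hv N x‖) ENNReal.ofReal_ne_top,
    ← ENNReal.ofReal_mul (by positivity)]
  · congr 2
    field_simp
  · intro y hy _
    rw [norm_Hv_scale hl hy, ← ENNReal.ofReal_mul (by positivity), div_eq_inv_mul]

/-! ### Invariance of the classes -/

theorem AreaRatio.scale {D : ℝ} (hl : 0 < lam) (h : AreaRatio D N) (x₀ : E3) :
    AreaRatio D (scaleSet lam x₀ N) := by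
  intro p r hr
  rw [area_scale_ball hl]
  refine (mul_le_mul_right (h _ _ (div_pos hr hl)) _).trans (le_of_eq ?_)
  rw [← ENNReal.ofReal_mul (by positivity)]
  congr 1
  field_simp

theorem LGB.scale {G : ℝ} (hl : 0 < lam) (hN : MeasurableSet N) (h : LGB G N) (x₀ : E3) :
    LGB G (scaleSet lam x₀ N) := by
  intro p r hr
  rw [lintegral_a2_scale hl hN, lintegral_Hv_sq_scale hl hN, mul_div_assoc]
  exact h _ _ (div_pos hr hl)

theorem IsMCF.isClosed_slice (h : IsMCF M I) {t : ℝ} (ht : t ∈ I) : IsClosed (M t) := by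
  rw [← isOpen_compl_iff, isOpen_iff_mem_nhds]
  intro x hx
  have hc : Tendsto (fun y : E3 => (t, y)) (𝓝 x) (𝓝 (t, x)) := Continuous.tendsto (by fun_prop) x
  exact hc.eventually (h.closed t ht x hx)

theorem IsMCF.measurableSet_slice (h : IsMCF M I) {t : ℝ} (ht : t ∈ I) : MeasurableSet (M t) :=
  (h.isClosed_slice ht).measurableSet

theorem IsMCF.scale (hl : 0 < lam) (h : IsMCF M I) (x₀ : E3) (t₀ : ℝ) :
    IsMCF (scaleFlow lam x₀ t₀ M) (scaleInt lam t₀ I) := by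
  have hc : Continuous fun p : ℝ × E3 => (t₀ + p.1 / lam ^ 2, x₀ + lam⁻¹ • p.2) := by fun_prop
  refine ⟨h.isOpen.preimage (f := fun s : ℝ => t₀ + s / lam ^ 2) (by fun_prop), ?_, ?_⟩
  · intro s hs y hy
    exact (hc.tendsto (s, y)).eventually (h.closed _ hs _ hy)
  · intro s hs y hy
    obtain ⟨w, hw, hg, he, hd⟩ := h.loc _ hs _ hy
    refine ⟨fun p => w (t₀ + p.1 / lam ^ 2, x₀ + lam⁻¹ • p.2), hw.comp (by fun_prop), ?_,
      (hc.tendsto (s, y)).eventually he, ?_⟩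
    · rw [gradient_comp_up hl.ne' (fun z => w (t₀ + s / lam ^ 2, z))]
      exact smul_ne_zero (inv_ne_zero hl.ne') hg
    · rw [gradient_comp_up hl.ne' (fun z => w (t₀ + s / lam ^ 2, z)), scaleFlow_apply,
        Hv_scale hl hy, inner_smul_left, inner_smul_right]
      have h1 : DifferentiableAt ℝ (fun t => w (t, x₀ + lam⁻¹ • y)) (t₀ + s / lam ^ 2) :=
        ((hw.comp (f := fun t : ℝ => (t, x₀ + lam⁻¹ • y)) (by fun_prop)).differentiable
          (by simp)).differentiableAt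
      have h2 : HasDerivAt (fun s : ℝ => t₀ + s / lam ^ 2) (1 / lam ^ 2) s :=
        ((hasDerivAt_id s).div_const _).const_add t₀
      have h3 := (h1.hasDerivAt.comp s h2).deriv
      rw [hd] at h3
      refine h3.trans ?_
      simp only [conj_trivial]
      field_simp

theorem InC.scale {D G : ℝ} (hl : 0 < lam) (h : InC D G M I) (x₀ : E3) (t₀ : ℝ) :
    InC D G (scaleFlow lam x₀ t₀ M) (scaleInt lam t₀ I) :=
  ⟨h.mcf.scale hl x₀ t₀, fun _ hs => (h.ratio _ hs).scale hl x₀,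
    fun _ hs => (h.lgb _ hs).scale hl (h.mcf.measurableSet_slice hs) x₀⟩

theorem ratio_scaleFlow {D : ℝ} (hl : 0 < lam) (h : ∀ t ∈ I, AreaRatio D (M t)) (x₀ : E3)
    (t₀ : ℝ) : ∀ s ∈ scaleInt lam t₀ I, AreaRatio D (scaleFlow lam x₀ t₀ M s) :=
  fun _ hs => (h _ hs).scale hl x₀

theorem mem_track_scale {p : ℝ × E3} :
    p ∈ track (scaleFlow lam x₀ t₀ M) (scaleInt lam t₀ I) ↔
      (t₀ + p.1 / lam ^ 2, x₀ + lam⁻¹ • p.2) ∈ track M I := Iff.rfl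

/-! ### Gaussian quantities -/

theorem gk_smul (hl : lam ≠ 0) (σ : ℝ) (z : E3) :
    gk σ (lam • z) = (lam ^ 2)⁻¹ * gk (σ / lam ^ 2) z := by
  rw [gk, gk, norm_smul, mul_pow, Real.norm_eq_abs, sq_abs, ← mul_assoc]
  rcases eq_or_ne σ 0 with rfl | hσ
  · simp
  · congr 1
    · field_simp
    · congr 1
      field_simp

theorem gk_scale (hl : lam ≠ 0) (x₀ : E3) (σ : ℝ) (y z : E3) :
    gk σ (y - z) = (lam ^ 2)⁻¹ * gk (σ / lam ^ 2) (x₀ + lam⁻¹ • y - (x₀ + lam⁻¹ • z)) := by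
  rw [up_sub_up, ← gk_smul hl, smul_inv_smul₀ hl]

theorem gA_scale (hl : 0 < lam) (x₀ : E3) (N : Set E3) (y : E3) (r : ℝ) :
    gA (scaleSet lam x₀ N) y r = gA N (x₀ + lam⁻¹ • y) (r / lam) := by
  rw [gA, gA, integral_scale hl, smul_eq_mul, ← integral_const_mul]
  congr 1
  funext x
  rw [dn_sub hl.ne', gk_smul hl.ne', div_pow, ← mul_assoc, mul_inv_cancel₀ (by positivity),
    one_mul]

theorem dens_scale (hl : 0 < lam) (x₀ : E3) (t₀ : ℝ) (M : ℝ → Set E3) (y : E3) (s r : ℝ) :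
    dens (scaleFlow lam x₀ t₀ M) y s r =
      dens M (x₀ + lam⁻¹ • y) (t₀ + s / lam ^ 2) (r / lam) := by
  rw [dens, dens, scaleFlow_apply, gA_scale hl, div_pow, sub_div, add_sub_assoc]

/-! ### Two-point conditions -/

theorem forall_scaleSet (hl : lam ≠ 0) {P : E3 → Prop} :
    (∀ z ∈ scaleSet lam x₀ N, P (x₀ + lam⁻¹ • z)) ↔ ∀ x ∈ N, P x := by
  constructor
  · intro h x hx
    have := h _ ((dn_mem_scaleSet hl).2 hx)
    rwa [up_dn hl] at this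
  · intro h z hz
    exact h _ hz

theorem Sc.abs_inner_up (hl : 0 < lam) {y : E3} (hy : y ∈ scaleSet lam x₀ N) (z : E3) :
    |⟪x₀ + lam⁻¹ • z - (x₀ + lam⁻¹ • y), nu N (x₀ + lam⁻¹ • y)⟫| =
      |⟪z - y, nu (scaleSet lam x₀ N) y⟫| / lam := by
  rw [abs_inner_nu_scale hl hy, up_sub_up, inner_smul_left, abs_mul, conj_trivial,
    abs_of_pos (inv_pos.2 hl), div_eq_inv_mul]

theorem twoPt_scale (hl : 0 < lam) {y : E3} (hy : y ∈ scaleSet lam x₀ N) (r C : ℝ) :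
    TwoPt (scaleSet lam x₀ N) y r C ↔ TwoPt N (x₀ + lam⁻¹ • y) (r / lam) (C * lam) := by
  rw [TwoPt, TwoPt, ← forall_scaleSet (x₀ := x₀) (N := N) hl.ne']
  refine forall₂_congr fun z _ => ?_
  rw [norm_up_sub_up hl, Sc.abs_inner_up hl hy, div_le_div_iff_of_pos_right hl,
    div_le_iff₀ hl]
  have : C * lam * (‖z - y‖ / lam) ^ 2 * lam = C * ‖z - y‖ ^ 2 := by field_simp
  rw [this]

theorem inCone_scale (hl : 0 < lam) {y : E3} (hy : y ∈ scaleSet lam x₀ N) (z : E3) :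
    InCone (scaleSet lam x₀ N) y z ↔ InCone N (x₀ + lam⁻¹ • y) (x₀ + lam⁻¹ • z) := by
  rw [InCone, InCone, norm_up_sub_up hl, Sc.abs_inner_up hl hy, Ne, Ne, up_inj hl.ne',
    div_right_comm, div_le_div_iff_of_pos_right hl, mem_scaleSet]

theorem sepGE_scale (hl : 0 < lam) {y : E3} (hy : y ∈ scaleSet lam x₀ N) (m : ℝ) :
    SepGE (scaleSet lam x₀ N) y m ↔ SepGE N (x₀ + lam⁻¹ • y) (m / lam) := by
  constructor
  · intro h x hx
    rw [← up_dn hl.ne' x₀ x] at hx ⊢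
    rw [norm_up_sub_up hl, div_le_div_iff_of_pos_right hl]
    exact h _ ((inCone_scale hl hy _).2 hx)
  · intro h z hz
    have := h _ ((inCone_scale hl hy _).1 hz)
    rwa [norm_up_sub_up hl, div_le_div_iff_of_pos_right hl] at this

theorem bad_scale (hl : 0 < lam) {y : E3} (hy : y ∈ scaleSet lam x₀ N) (s : ℝ) :
    Bad (scaleSet lam x₀ N) y s ↔ Bad N (x₀ + lam⁻¹ • y) (s / lam) := by
  rw [Bad, Bad, sepGE_scale hl hy]
  refine and_congr_right fun _ => ?_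
  constructor
  · rintro ⟨z, hz, h1, h2, h3⟩
    refine ⟨_, hz, fun h => h1 ((up_inj hl.ne').1 h), ?_, ?_⟩
    · rw [norm_up_sub_up hl, h2]
    · rw [Sc.abs_inner_up hl hy, h3, div_right_comm]
  · rintro ⟨x, hx, h1, h2, h3⟩
    rw [← up_dn hl.ne' x₀ x] at h1 h2 h3
    refine ⟨_, (dn_mem_scaleSet hl.ne').2 hx, fun h => h1 (by rw [h]), ?_, ?_⟩
    · rwa [norm_up_sub_up hl, div_left_inj' hl.ne'] at h2
    · rwa [Sc.abs_inner_up hl hy, div_right_comm, div_left_inj' hl.ne'] at h3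

/-! ### Space-time integrals -/

theorem lintegral_Icc_scale (hl : 0 < lam) (t₀ a b : ℝ) (F : ℝ → ℝ≥0∞) :
    ∫⁻ s in Icc a b, F (t₀ + s / lam ^ 2) =
      ENNReal.ofReal (lam ^ 2) * ∫⁻ t in Icc (t₀ + a / lam ^ 2) (t₀ + b / lam ^ 2), F t := by
  have hv : (volume : Measure ℝ) =
      ENNReal.ofReal (lam ^ 2) • (volume : Measure ℝ).map fun t : ℝ => (t - t₀) * lam ^ 2 := by
    have e : (fun t : ℝ => (t - t₀) * lam ^ 2) = (fun t => t * lam ^ 2) ∘ fun t => t - t₀ := rfl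
    rw [e, ← Measure.map_map (by fun_prop) (by fun_prop), map_sub_right_eq_self,
      Real.map_volume_mul_right (by positivity), smul_smul, abs_of_pos (by positivity),
      Sc.ofReal_cancel hl, one_smul]
  conv_lhs => rw [hv]
  rw [Measure.restrict_smul, lintegral_smul_measure, (embTdn hl.ne' t₀).restrict_map,
    (embTdn hl.ne' t₀).lintegral_map, preimage_Icc hl, smul_eq_mul]
  simp only [tup_tdn hl.ne']

/-- change of variables in a space-time integral over a cylinder -/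
theorem lintegral_cyl_scale (hl : 0 < lam) {a b : ℝ}
    (hM : ∀ t ∈ Icc (t₀ + a / lam ^ 2) (t₀ + b / lam ^ 2), MeasurableSet (M t)) (p : E3) (r : ℝ)
    {f g : ℝ → E3 → ℝ≥0∞} {k : ℝ≥0∞} (hk : k ≠ ⊤)
    (h : ∀ s ∈ Icc a b, ∀ y ∈ scaleFlow lam x₀ t₀ M s, y ∈ ball p r →
      f s y = k * g (t₀ + s / lam ^ 2) (x₀ + lam⁻¹ • y)) :
    ∫⁻ s in Icc a b, ∫⁻ y in ball p r, f s y ∂(area (scaleFlow lam x₀ t₀ M s)) =
      ENNReal.ofReal (lam ^ 2) * (ENNReal.ofReal (lam ^ 2) * k) *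
        ∫⁻ t in Icc (t₀ + a / lam ^ 2) (t₀ + b / lam ^ 2),
          ∫⁻ x in ball (x₀ + lam⁻¹ • p) (r / lam), g t x ∂(area (M t)) := by
  rw [mul_assoc, ← lintegral_const_mul' _ _ (ENNReal.mul_ne_top ENNReal.ofReal_ne_top hk),
    ← lintegral_Icc_scale hl]
  refine setLIntegral_congr_fun measurableSet_Icc fun s hs => ?_
  exact setLIntegral_ball_scale hl (hM _ ((tup_mem_Icc hl).2 hs)) p r hk (h s hs)

theorem diss_scale (hl : 0 < lam) {a b : ℝ}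
    (hM : ∀ t ∈ Icc (t₀ + a / lam ^ 2) (t₀ + b / lam ^ 2), MeasurableSet (M t)) (Λ : ℝ) (c : E3)
    (r : ℝ) :
    diss (scaleFlow lam x₀ t₀ M) Λ c r a b = ENNReal.ofReal (lam ^ 2) *
      diss M (Λ * lam ^ 2) (x₀ + lam⁻¹ • c) (r / lam) (t₀ + a / lam ^ 2) (t₀ + b / lam ^ 2) := by
  rw [diss, diss, lintegral_cyl_scale hl hM c r (k := ENNReal.ofReal ((lam ^ 2)⁻¹))
    (g := fun t x => ENNReal.ofReal (‖Hv (M t) x‖ ^ 2 - Λ * lam ^ 2)) ENNReal.ofReal_ne_top,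
    Sc.ofReal_cancel hl, mul_one]
  intro s _ y hy _
  rw [scaleFlow_apply, norm_Hv_scale hl hy, ← ENNReal.ofReal_mul (by positivity)]
  congr 1
  field_simp

theorem potA_scale (hl : 0 < lam) {a b : ℝ}
    (hM : ∀ t ∈ Icc (t₀ + a / lam ^ 2) (t₀ + b / lam ^ 2), MeasurableSet (M t)) (y : E3)
    (s r : ℝ) :
    potA (scaleFlow lam x₀ t₀ M) y s r a b =
      potA M (x₀ + lam⁻¹ • y) (t₀ + s / lam ^ 2) (r / lam) (t₀ + a / lam ^ 2)
        (t₀ + b / lam ^ 2) := by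
  rw [potA, potA, lintegral_cyl_scale hl hM y r
    (k := ENNReal.ofReal ((lam ^ 2)⁻¹) * ENNReal.ofReal ((lam ^ 2)⁻¹))
    (g := fun t x => ENNReal.ofReal (a2 (M t) x * gk (t₀ + s / lam ^ 2 - t) (x₀ + lam⁻¹ • y - x)))
    (ENNReal.mul_ne_top ENNReal.ofReal_ne_top ENNReal.ofReal_ne_top), ← mul_assoc
    (ENNReal.ofReal (lam ^ 2)) (ENNReal.ofReal ((lam ^ 2)⁻¹)), Sc.ofReal_cancel hl, one_mul,
    Sc.ofReal_cancel hl, one_mul]
  intro u _ z hz _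
  rw [scaleFlow_apply, a2_scale hl hz, gk_scale hl.ne' x₀, ← ENNReal.ofReal_mul (by positivity),
    ← ENNReal.ofReal_mul (by positivity), add_sub_add_left_eq_sub (s / lam ^ 2), ← sub_div]
  congr 1
  field_simp

theorem IsMCF.diss_scale (hl : 0 < lam) (h : IsMCF M I) {a b : ℝ}
    (hI : Icc (t₀ + a / lam ^ 2) (t₀ + b / lam ^ 2) ⊆ I) (Λ : ℝ) (c : E3) (r : ℝ) :
    diss (scaleFlow lam x₀ t₀ M) Λ c r a b = ENNReal.ofReal (lam ^ 2) *
      diss M (Λ * lam ^ 2) (x₀ + lam⁻¹ • c) (r / lam) (t₀ + a / lam ^ 2) (t₀ + b / lam ^ 2) :=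
  Vale.Agent.P218FT.diss_scale hl (fun _ ht => h.measurableSet_slice (hI ht)) Λ c r

theorem IsMCF.potA_scale (hl : 0 < lam) (h : IsMCF M I) {a b : ℝ}
    (hI : Icc (t₀ + a / lam ^ 2) (t₀ + b / lam ^ 2) ⊆ I) (y : E3) (s r : ℝ) :
    potA (scaleFlow lam x₀ t₀ M) y s r a b =
      potA M (x₀ + lam⁻¹ • y) (t₀ + s / lam ^ 2) (r / lam) (t₀ + a / lam ^ 2)
        (t₀ + b / lam ^ 2) :=
  Vale.Agent.P218FT.potA_scale hl (fun _ ht => h.measurableSet_slice (hI ht)) y s r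

/-! ### Sources and barriers -/

/-- the rescaled source -/
noncomputable def Src.scale (lam : ℝ) (x₀ : E3) (t₀ : ℝ) (s : Src) : Src :=
  ⟨s.a * lam ^ 2, lam • (s.c - x₀), (s.τ - t₀) * lam ^ 2, (s.τ' - t₀) * lam ^ 2⟩

theorem Src.val_scale (hl : 0 < lam) (s : Src) (u : ℝ) (y : E3) :
    (s.scale lam x₀ t₀).val u y = s.val (t₀ + u / lam ^ 2) (x₀ + lam⁻¹ • y) := by
  have h1 : (s.τ' - t₀) * lam ^ 2 < u ↔ s.τ' < t₀ + u / lam ^ 2 := by
    rw [← tup_lt_tup (t₀ := t₀) hl, tup_tdn hl.ne']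
  simp only [Src.val, Src.scale, h1]
  split_ifs
  · rw [gk_scale hl.ne' x₀, up_dn hl.ne']
    have : (u - (s.τ - t₀) * lam ^ 2) / lam ^ 2 = t₀ + u / lam ^ 2 - s.τ := by
      field_simp; ring
    rw [this]
    field_simp
  · rfl

theorem bar_scale (hl : 0 < lam) (l : Multiset Src) (u : ℝ) (y : E3) :
    bar (l.map (Src.scale lam x₀ t₀)) u y = bar l (t₀ + u / lam ^ 2) (x₀ + lam⁻¹ • y) := by
  simp only [bar, Multiset.map_map, Function.comp_def, Src.val_scale hl]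

theorem mass_scale (l : Multiset Src) :
    mass (l.map (Src.scale lam x₀ t₀)) = mass l * lam ^ 2 := by
  simp only [mass, Multiset.map_map, Function.comp_def, Src.scale, Multiset.sum_map_mul_right]

theorem Valid.scale (hl : 0 < lam) {l : Multiset Src} (h : Valid l) (x₀ : E3) (t₀ : ℝ) :
    Valid (l.map (Src.scale lam x₀ t₀)) := by
  intro s hs
  obtain ⟨s, hs', rfl⟩ := Multiset.mem_map.1 hs
  refine ⟨mul_nonneg (h s hs').1 (by positivity), ?_⟩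
  exact mul_lt_mul_of_pos_right (sub_lt_sub_right (h s hs').2 _) (by positivity)

theorem Cov.scale (hl : 0 < lam) {u R m η : ℝ} {c : E3}
    (h : Cov N (t₀ + u / lam ^ 2) (x₀ + lam⁻¹ • c) (R / lam) (m / lam) (η / lam ^ 2)) :
    Cov (scaleSet lam x₀ N) u c R m η := by
  obtain ⟨l, hv, ha, hm, hc⟩ := h
  refine ⟨l.map (Src.scale lam x₀ t₀), hv.scale hl x₀ t₀, ?_, ?_, ?_⟩
  · intro s hs
    obtain ⟨s, hs', rfl⟩ := Multiset.mem_map.1 hs
    have := ha s hs'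
    rw [← tup_tdn hl.ne' t₀ s.τ', tup_lt_tup hl] at this
    exact this
  · rw [mass_scale]
    exact (le_div_iff₀ (by positivity)).1 hm
  · intro y hy h1 h2
    rw [bar_scale hl]
    refine hc _ hy ?_ fun h => h2 ((sepGE_scale hl hy m).2 h)
    rw [norm_up_sub_up hl]
    exact div_le_div_of_nonneg_right h1 hl.le

theorem cov_scale (hl : 0 < lam) (t₀ u R m η : ℝ) (c : E3) :
    Cov (scaleSet lam x₀ N) u c R m η ↔
      Cov N (t₀ + u / lam ^ 2) (x₀ + lam⁻¹ • c) (R / lam) (m / lam) (η / lam ^ 2) := by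
  refine ⟨fun h => ?_, Cov.scale hl⟩
  rw [← scaleSet_inv hl.ne' x₀ N]
  refine Cov.scale (t₀ := -(t₀ * lam ^ 2)) (inv_pos.2 hl) ?_
  have e1 : -(t₀ * lam ^ 2) + (t₀ + u / lam ^ 2) / lam⁻¹ ^ 2 = u := by field_simp; ring
  have e2 : -(lam • x₀) + lam⁻¹⁻¹ • (x₀ + lam⁻¹ • c) = c := by
    rw [inv_inv, smul_add, smul_inv_smul₀ hl.ne']; abel
  have e3 : R / lam / lam⁻¹ = R := by field_simp
  have e4 : m / lam / lam⁻¹ = m := by field_simp
  have e5 : η / lam ^ 2 / lam⁻¹ ^ 2 = η := by field_simp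
  rw [e1, e2, e3, e4, e5]
  exact h

/-! ### Zooming in at scale `ρ`: the case `lam = ρ⁻¹` -/

section Zoom

variable {ρ : ℝ}

theorem mem_zoom {y : E3} : y ∈ scaleSet ρ⁻¹ x₀ N ↔ x₀ + ρ • y ∈ N := by
  rw [mem_scaleSet, inv_inv]

theorem Sc.tzoom (ρ t₀ s : ℝ) : t₀ + s / ρ⁻¹ ^ 2 = t₀ + s * ρ ^ 2 := by
  rw [inv_pow, div_inv_eq_mul]

theorem zoomFlow_apply (s : ℝ) :
    scaleFlow ρ⁻¹ x₀ t₀ M s = scaleSet ρ⁻¹ x₀ (M (t₀ + s * ρ ^ 2)) := by
  rw [scaleFlow_apply, Sc.tzoom]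

theorem Icc_subset_zoomInt (hρ : 0 < ρ) {a b : ℝ} :
    Icc a b ⊆ scaleInt ρ⁻¹ t₀ I ↔ Icc (t₀ + a * ρ ^ 2) (t₀ + b * ρ ^ 2) ⊆ I := by
  rw [Icc_subset_scaleInt (inv_pos.2 hρ), Sc.tzoom, Sc.tzoom]

theorem area_zoom_ball (hρ : 0 < ρ) (x₀ : E3) (N : Set E3) (p : E3) (r : ℝ) :
    area (scaleSet ρ⁻¹ x₀ N) (ball p r) =
      ENNReal.ofReal ((ρ ^ 2)⁻¹) * area N (ball (x₀ + ρ • p) (r * ρ)) := by
  rw [area_scale_ball (inv_pos.2 hρ), inv_inv, inv_pow, div_inv_eq_mul]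

theorem gA_zoom (hρ : 0 < ρ) (x₀ : E3) (N : Set E3) (y : E3) (r : ℝ) :
    gA (scaleSet ρ⁻¹ x₀ N) y r = gA N (x₀ + ρ • y) (r * ρ) := by
  rw [gA_scale (inv_pos.2 hρ), inv_inv, div_inv_eq_mul]

theorem dens_zoom (hρ : 0 < ρ) (x₀ : E3) (t₀ : ℝ) (M : ℝ → Set E3) (y : E3) (s r : ℝ) :
    dens (scaleFlow ρ⁻¹ x₀ t₀ M) y s r = dens M (x₀ + ρ • y) (t₀ + s * ρ ^ 2) (r * ρ) := by
  rw [dens_scale (inv_pos.2 hρ), inv_inv, Sc.tzoom, div_inv_eq_mul]

theorem twoPt_zoom (hρ : 0 < ρ) {y : E3} (hy : x₀ + ρ • y ∈ N) (r C : ℝ) :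
    TwoPt (scaleSet ρ⁻¹ x₀ N) y r C ↔ TwoPt N (x₀ + ρ • y) (r * ρ) (C / ρ) := by
  rw [twoPt_scale (inv_pos.2 hρ) (mem_zoom.2 hy), inv_inv, div_inv_eq_mul, div_eq_mul_inv]

theorem sepGE_zoom (hρ : 0 < ρ) {y : E3} (hy : x₀ + ρ • y ∈ N) (m : ℝ) :
    SepGE (scaleSet ρ⁻¹ x₀ N) y m ↔ SepGE N (x₀ + ρ • y) (m * ρ) := by
  rw [sepGE_scale (inv_pos.2 hρ) (mem_zoom.2 hy), inv_inv, div_inv_eq_mul]

theorem bad_zoom (hρ : 0 < ρ) {y : E3} (hy : x₀ + ρ • y ∈ N) (s : ℝ) :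
    Bad (scaleSet ρ⁻¹ x₀ N) y s ↔ Bad N (x₀ + ρ • y) (s * ρ) := by
  rw [bad_scale (inv_pos.2 hρ) (mem_zoom.2 hy), inv_inv, div_inv_eq_mul]

theorem cov_zoom (hρ : 0 < ρ) (t₀ u R m η : ℝ) (c : E3) :
    Cov (scaleSet ρ⁻¹ x₀ N) u c R m η ↔
      Cov N (t₀ + u * ρ ^ 2) (x₀ + ρ • c) (R * ρ) (m * ρ) (η * ρ ^ 2) := by
  rw [cov_scale (inv_pos.2 hρ) t₀, inv_inv, Sc.tzoom, div_inv_eq_mul, div_inv_eq_mul, inv_pow,
    div_inv_eq_mul]

theorem IsMCF.diss_zoom (hρ : 0 < ρ) (h : IsMCF M I) {a b : ℝ}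
    (hI : Icc (t₀ + a * ρ ^ 2) (t₀ + b * ρ ^ 2) ⊆ I) (Λ : ℝ) (c : E3) (r : ℝ) :
    diss (scaleFlow ρ⁻¹ x₀ t₀ M) Λ c r a b = ENNReal.ofReal ((ρ ^ 2)⁻¹) *
      diss M (Λ / ρ ^ 2) (x₀ + ρ • c) (r * ρ) (t₀ + a * ρ ^ 2) (t₀ + b * ρ ^ 2) := by
  rw [h.diss_scale (inv_pos.2 hρ) (by rwa [Sc.tzoom, Sc.tzoom]), inv_inv, Sc.tzoom, Sc.tzoom,
    div_inv_eq_mul, inv_pow, div_eq_mul_inv]

theorem IsMCF.potA_zoom (hρ : 0 < ρ) (h : IsMCF M I) {a b : ℝ}
    (hI : Icc (t₀ + a * ρ ^ 2) (t₀ + b * ρ ^ 2) ⊆ I) (y : E3) (s r : ℝ) :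
    potA (scaleFlow ρ⁻¹ x₀ t₀ M) y s r a b =
      potA M (x₀ + ρ • y) (t₀ + s * ρ ^ 2) (r * ρ) (t₀ + a * ρ ^ 2) (t₀ + b * ρ ^ 2) := by
  rw [h.potA_scale (inv_pos.2 hρ) (by rwa [Sc.tzoom, Sc.tzoom]), inv_inv, Sc.tzoom, Sc.tzoom,
    Sc.tzoom, div_inv_eq_mul]

theorem lintegral_sqrt_a2_zoom (hρ : 0 < ρ) (hN : MeasurableSet N) (x₀ p : E3) (r : ℝ) :
    ∫⁻ y in ball p r, ENNReal.ofReal (√(a2 (scaleSet ρ⁻¹ x₀ N) y)) ∂(area (scaleSet ρ⁻¹ x₀ N)) =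
      ENNReal.ofReal ρ⁻¹ *
        ∫⁻ x in ball (x₀ + ρ • p) (r * ρ), ENNReal.ofReal (√(a2 N x)) ∂(area N) := by
  rw [lintegral_sqrt_a2_scale (inv_pos.2 hρ) hN, inv_inv, div_inv_eq_mul]

theorem integral_zoom {F : Type*} [NormedAddCommGroup F] [NormedSpace ℝ F] (hρ : 0 < ρ)
    (x₀ : E3) (N : Set E3) (f : E3 → F) :
    ∫ y, f (x₀ + ρ • y) ∂(area (scaleSet ρ⁻¹ x₀ N)) = (ρ ^ 2)⁻¹ • ∫ x, f x ∂(area N) := by
  rw [integral_scale (inv_pos.2 hρ), inv_pow]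
  simp only [smul_inv_smul₀ hρ.ne', add_sub_cancel]

/-- the area of the set of points with small separation -/
theorem area_notSep_zoom (hρ : 0 < ρ) (hN : MeasurableSet N) (x₀ p : E3) (r m : ℝ) :
    area (scaleSet ρ⁻¹ x₀ N) {y | y ∈ ball p r ∧ ¬ SepGE (scaleSet ρ⁻¹ x₀ N) y m} =
      ENNReal.ofReal ((ρ ^ 2)⁻¹) *
        area N {x | x ∈ ball (x₀ + ρ • p) (r * ρ) ∧ ¬ SepGE N x (m * ρ)} := by
  have hl := inv_pos.2 hρ
  rw [area_scale_apply hl, inv_pow, area, Measure.restrict_apply' hN, Measure.restrict_apply' hN]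
  congr 2
  ext x
  simp only [mem_inter_iff, mem_preimage, mem_setOf_eq]
  refine and_congr_left fun hx => ?_
  have e : x₀ + ρ • ρ⁻¹ • (x - x₀) = x := by rw [smul_inv_smul₀ hρ.ne', add_sub_cancel]
  rw [sepGE_zoom hρ (by rwa [e]), e, ← mem_preimage (f := fun x : E3 => ρ⁻¹ • (x - x₀)),
    preimage_ball hl, inv_inv, div_inv_eq_mul]

/-- White's theorem at scale `ρ` -/
theorem WhiteAt.zoom {D ε r C : ℝ} (hW : WhiteAt D ε r C) (hρ : 0 < ρ) (hM : IsMCF M I)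
    (hD : ∀ t ∈ I, AreaRatio D (M t)) (x₀ : E3) (t₀ : ℝ) (hI : Icc (t₀ - 4 * ρ ^ 2) t₀ ⊆ I)
    (hd : ∀ y ∈ ball x₀ (3 * ρ), ∀ t ∈ Icc (t₀ - 3 * ρ ^ 2) t₀, dens M y t ρ ≤ 1 + ε) :
    ∀ t ∈ Icc (t₀ - ρ ^ 2) t₀, ∀ x ∈ M t, x ∈ ball x₀ ρ → TwoPt (M t) x (r * ρ) (C / ρ) := by
  have hl := inv_pos.2 hρ
  have h2 : 0 < ρ ^ 2 := by positivity
  have key := hW _ _ (hM.scale hl x₀ t₀) (ratio_scaleFlow hl hD x₀ t₀) 0 0
    ((Icc_subset_zoomInt hρ).2 (by convert hI using 2 <;> ring)) (fun y hy s hs => by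
      rw [dens_zoom hρ, one_mul]
      refine hd _ ?_ _ ⟨by nlinarith [hs.1], by nlinarith [hs.2]⟩
      rw [mem_ball_zero_iff] at hy
      rw [mem_ball, dist_eq_norm, add_sub_cancel_left, norm_smul, Real.norm_eq_abs,
        abs_of_pos hρ]
      nlinarith)
  intro t ht x hx hb
  have e : x₀ + ρ • ρ⁻¹ • (x - x₀) = x := by rw [smul_inv_smul₀ hρ.ne', add_sub_cancel]
  have et : t₀ + (t - t₀) / ρ ^ 2 * ρ ^ 2 = t := by field_simp; ring
  have := key ((t - t₀) / ρ ^ 2) ⟨by rw [le_div_iff₀ h2]; linarith [ht.1],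
    by rw [div_le_iff₀ h2]; linarith [ht.2]⟩ (ρ⁻¹ • (x - x₀))
    (by rw [zoomFlow_apply, et, mem_zoom, e]; exact hx) (by
      rw [mem_ball_zero_iff, norm_smul, Real.norm_eq_abs, abs_of_pos hl, inv_mul_lt_iff₀ hρ,
        mul_one]
      rwa [mem_ball, dist_eq_norm] at hb)
  rwa [zoomFlow_apply, et, twoPt_zoom hρ (by rwa [e]), e] at this

end Zoom

end Vale.Agent.P218FT
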