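import Vale.Agent.P218FT.WSpec
import Mathlib.Analysis.Calculus.DerivativeTest
import Mathlib.Analysis.Calculus.FDeriv.Symmetric
import Mathlib.Analysis.Calculus.Deriv.MeanValue
import Mathlib.Analysis.Calculus.MeanValue

/-! Calculus lemmas for White's theorem. -/

open MeasureTheory Set Filter Topology Metric
open scoped ENNReal NNReal RealInnerProductSpace ContDiff

namespace Vale.Agent.P218FT.W

/-- the second derivative at a local minimum is nonnegative -/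
theorem snd_nonneg_of_isLocalMin {g g₁ : ℝ → ℝ} {c : ℝ} (h₁ : ∀ᶠ s in 𝓝 (0 : ℝ), HasDerivAt g (g₁ s) s)
    (h₂ : HasDerivAt g₁ c 0) (hmin : IsLocalMin g 0) : 0 ≤ c := by
  by_contra hc
  push Not at hc
  have hd : deriv g =ᶠ[𝓝 0] g₁ := h₁.mono fun s hs => hs.deriv
  have h0 : deriv g 0 = 0 := hmin.deriv_eq_zero
  have hdd : deriv (deriv g) 0 = c := by rw [hd.deriv_eq]; exact h₂.deriv
  have hmax : IsLocalMax g 0 :=
    isLocalMax_of_deriv_deriv_neg (by rw [hdd]; exact hc) h0 h₁.self_of_nhds.continuousAt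
  have hconst : g =ᶠ[𝓝 0] fun _ => g 0 := by
    filter_upwards [hmin, hmax] with s a b using le_antisymm b a
  have : deriv g =ᶠ[𝓝 0] fun _ => 0 := by
    filter_upwards [hconst.eventually_nhds] with s hs
    have hs' : g =ᶠ[𝓝 s] fun _ => g 0 := hs
    rw [hs'.deriv_eq]; simp
  rw [this.deriv_eq] at hdd
  simp at hdd
  linarith

/-- a quadratic bound for the first order Taylor remainder bounds the second derivative -/
theorem abs_snd_le {g g₁ : ℝ → ℝ} {c K : ℝ} (h₁ : ∀ᶠ s in 𝓝 (0 : ℝ), HasDerivAt g (g₁ s) s)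
    (h₂ : HasDerivAt g₁ c 0) (hK : ∀ᶠ s in 𝓝 (0 : ℝ), |g s - g 0 - s * g₁ 0| ≤ K * s ^ 2) :
    |c| ≤ 2 * K := by
  have key : ∀ σ : ℝ, |σ| = 1 → 0 ≤ 2 * K + σ * c := by
    intro σ hσ
    refine snd_nonneg_of_isLocalMin (g := fun s => K * s ^ 2 + σ * (g s - g 0 - s * g₁ 0))
      (g₁ := fun s => K * (2 * s) + σ * (g₁ s - g₁ 0)) ?_ ?_ ?_
    · filter_upwards [h₁] with s hs
      have a := ((hasDerivAt_pow 2 s).const_mul K).add
        (((hs.sub_const (g 0)).sub ((hasDerivAt_id s).mul_const (g₁ 0))).const_mul σ)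
      refine a.congr_deriv ?_
      simp
    · have a := (((hasDerivAt_id (0 : ℝ)).const_mul 2).const_mul K).add
        ((h₂.sub_const (g₁ 0)).const_mul σ)
      refine a.congr_deriv ?_
      ring
    · filter_upwards [hK] with s hs
      have : |σ * (g s - g 0 - s * g₁ 0)| ≤ K * s ^ 2 := by rw [abs_mul, hσ, one_mul]; exact hs
      have := (abs_le.1 this).1
      simp only [sub_self, mul_zero, zero_mul, ne_eq, OfNat.ofNat_ne_zero, not_false_eq_true,
        zero_pow, add_zero]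
      linarith
  have a := key 1 (by simp)
  have b := key (-1) (by simp)
  rw [abs_le]; constructor <;> linarith

/-- interpolation: a small function with bounded third derivative has a small first order Taylor
remainder -/
theorem taylor_small {g g₁ g₂ g₃ : ℝ → ℝ} {ρ τ C : ℝ} (hρ : 0 < ρ)
    (h₁ : ∀ s ∈ Icc (-ρ) ρ, HasDerivAt g (g₁ s) s) (h₂ : ∀ s ∈ Icc (-ρ) ρ, HasDerivAt g₁ (g₂ s) s)
    (h₃ : ∀ s ∈ Icc (-ρ) ρ, HasDerivAt g₂ (g₃ s) s) (h0 : ∀ s ∈ Icc (-ρ) ρ, |g s| ≤ τ)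
    (hC : ∀ s ∈ Icc (-ρ) ρ, |g₃ s| ≤ C) {s : ℝ} (hs : s ∈ Icc 0 ρ) :
    |g s - g 0 - s * g₁ 0| ≤ (9 * τ / ρ ^ 2 + 2 * C * ρ) * s ^ 2 := by
  have slope : ∀ (f f' : ℝ → ℝ), (∀ s ∈ Icc (-ρ) ρ, HasDerivAt f (f' s) s) → ∀ a b, -ρ ≤ a → a < b →
      b ≤ ρ → ∃ c ∈ Ioo a b, f' c = (f b - f a) / (b - a) := by
    intro f f' hf a b ha hab hb
    refine exists_hasDerivAt_eq_slope f f' hab ?_ ?_
    · intro x hx
      exact (hf x ⟨by linarith [hx.1], by linarith [hx.2]⟩).continuousAt.continuousWithinAt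
    · intro x hx
      exact hf x ⟨by linarith [hx.1], by linarith [hx.2]⟩
  obtain ⟨a, ha, ha'⟩ := slope g g₁ h₁ (-ρ) (-ρ / 3) le_rfl (by linarith) (by linarith)
  obtain ⟨b, hb, hb'⟩ := slope g g₁ h₁ (ρ / 3) ρ (by linarith) (by linarith) le_rfl
  obtain ⟨c, hc, hc'⟩ := slope g₁ g₂ h₂ a b ha.1.le (by linarith [ha.2, hb.1]) hb.2.le
  have hτ : 0 ≤ τ := (abs_nonneg _).trans (h0 0 ⟨by linarith, by linarith⟩)
  have hC0 : 0 ≤ C := (abs_nonneg _).trans (hC 0 ⟨by linarith, by linarith⟩)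
  have e1 : |g₁ a| ≤ 3 * τ / ρ := by
    rw [ha', abs_div, abs_of_pos (by linarith : 0 < -ρ / 3 - -ρ), div_le_div_iff₀ (by linarith) hρ]
    have := abs_sub (g (-ρ / 3)) (g (-ρ))
    have h1 := h0 (-ρ / 3) ⟨by linarith, by linarith⟩
    have h2 := h0 (-ρ) ⟨by linarith, by linarith⟩
    nlinarith
  have e2 : |g₁ b| ≤ 3 * τ / ρ := by
    rw [hb', abs_div, abs_of_pos (by linarith : 0 < ρ - ρ / 3), div_le_div_iff₀ (by linarith) hρ]
    have := abs_sub (g ρ) (g (ρ / 3))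
    have h1 := h0 (ρ / 3) ⟨by linarith, by linarith⟩
    have h2 := h0 ρ ⟨by linarith, by linarith⟩
    nlinarith
  have e3 : |g₂ c| ≤ 9 * τ / ρ ^ 2 := by
    have hba : 2 * ρ / 3 ≤ b - a := by linarith [ha.2, hb.1]
    rw [hc', abs_div, abs_of_pos (by linarith : 0 < b - a), div_le_iff₀ (by linarith)]
    have := abs_sub (g₁ b) (g₁ a)
    have h9 : 9 * τ / ρ ^ 2 * (2 * ρ / 3) = 3 * τ / ρ + 3 * τ / ρ := by field_simp; ring
    have : 9 * τ / ρ ^ 2 * (2 * ρ / 3) ≤ 9 * τ / ρ ^ 2 * (b - a) :=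
      mul_le_mul_of_nonneg_left hba (by positivity)
    linarith
  have hcI : c ∈ Icc (-ρ) ρ := ⟨by linarith [hc.1, ha.1], by linarith [hc.2, hb.2]⟩
  have lip : ∀ (f f' : ℝ → ℝ) (L : ℝ) (S : Set ℝ), Convex ℝ S → (∀ s ∈ S, HasDerivAt f (f' s) s) →
      (∀ s ∈ S, |f' s| ≤ L) → ∀ x ∈ S, ∀ y ∈ S, |f y - f x| ≤ L * |y - x| := by
    intro f f' L S hS hf hL x hx y hy
    exact hS.norm_image_sub_le_of_norm_hasDerivWithin_le
      (fun s hs => (hf s hs).hasDerivWithinAt) hL hx hy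
  set κ := 9 * τ / ρ ^ 2 + 2 * C * ρ with hκ
  have e4 : ∀ x ∈ Icc (-ρ) ρ, |g₂ x| ≤ κ := by
    intro x hx
    have h := lip g₂ g₃ C _ (convex_Icc _ _) h₃ hC c hcI x hx
    have h' : |x - c| ≤ 2 * ρ := by
      rw [abs_le]; constructor <;> linarith [hx.1, hx.2, hcI.1, hcI.2]
    have := abs_sub_abs_le_abs_sub (g₂ x) (g₂ c)
    nlinarith
  have hsub : Icc 0 s ⊆ Icc (-ρ) ρ := Icc_subset_Icc (by linarith) hs.2
  have hκ0 : 0 ≤ κ := by positivity
  have e5 : ∀ x ∈ Icc 0 s, |g₁ x - g₁ 0| ≤ κ * s := by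
    intro x hx
    have h := lip g₁ g₂ κ _ (convex_Icc _ _) h₂ e4 0 ⟨by linarith, by linarith⟩ x (hsub hx)
    rw [sub_zero, abs_of_nonneg hx.1] at h
    exact h.trans (mul_le_mul_of_nonneg_left hx.2 hκ0)
  have h := lip (fun x => g x - x * g₁ 0) (fun x => g₁ x - g₁ 0) (κ * s) _ (convex_Icc 0 s)
    (fun x hx => ((h₁ x (hsub hx)).sub ((hasDerivAt_id x).mul_const (g₁ 0))).congr_deriv (by simp))
    e5 0 ⟨le_rfl, hs.1⟩ s ⟨hs.1, le_rfl⟩
  simp only [zero_mul, sub_zero, abs_of_nonneg hs.1] at h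
  calc |g s - g 0 - s * g₁ 0| = |g s - s * g₁ 0 - g 0| := by ring_nf
    _ ≤ κ * s * s := h
    _ = κ * s ^ 2 := by ring

section
variable {E : Type} [NormedAddCommGroup E] [InnerProductSpace ℝ E] [CompleteSpace E]

omit [CompleteSpace E] in
theorem hasDerivAt_line (x a : E) (s : ℝ) : HasDerivAt (fun s : ℝ => x + s • a) a s := by
  simpa using ((hasDerivAt_id s).smul_const a).const_add x

omit [CompleteSpace E] in
/-- derivatives along a line -/
theorem hasDerivAt_iter {F : E → ℝ} {x a : E} {s : ℝ} (k : ℕ) (hF : ContDiffAt ℝ ∞ F (x + s • a)) :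
    HasDerivAt (fun s : ℝ => iteratedFDeriv ℝ k F (x + s • a) fun _ => a)
      (iteratedFDeriv ℝ (k + 1) F (x + s • a) fun _ => a) s := by
  have hd : DifferentiableAt ℝ (iteratedFDeriv ℝ k F) (x + s • a) :=
    hF.differentiableAt_iteratedFDeriv (by exact_mod_cast ENat.natCast_lt_top k)
  have h1 := hd.hasFDerivAt.comp_hasDerivAt s (hasDerivAt_line x a s)
  have h2 := (ContinuousMultilinearMap.apply ℝ (fun _ : Fin k => E) ℝ
    (fun _ => a)).hasFDerivAt.comp_hasDerivAt s h1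
  rw [iteratedFDeriv_succ_apply_left]
  exact h2

theorem inner_fderiv_gradient {F : E → ℝ} {x : E} (hF : ContDiffAt ℝ 2 F x) (a b : E) :
    ⟪fderiv ℝ (gradient F) x a, b⟫ = fderiv ℝ (fderiv ℝ F) x a b := by
  have hd : DifferentiableAt ℝ (fderiv ℝ F) x :=
    (hF.fderiv_right (m := 1) (by norm_num)).differentiableAt (by norm_num)
  have h := ((InnerProductSpace.toDual ℝ E).symm.toContinuousLinearEquiv.hasFDerivAt
    (x := fderiv ℝ F x)).comp x hd.hasFDerivAt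
  have : fderiv ℝ (gradient F) x = _ := h.fderiv
  rw [this]
  simp

theorem hess_symm {F : E → ℝ} {x : E} (hF : ContDiffAt ℝ 2 F x) (a b : E) :
    ⟪fderiv ℝ (gradient F) x a, b⟫ = ⟪fderiv ℝ (gradient F) x b, a⟫ := by
  rw [inner_fderiv_gradient hF, inner_fderiv_gradient hF]
  exact (hF.isSymmSndFDerivAt (by simp)) a b

theorem inner_gradient (F : E → ℝ) (x a : E) : ⟪gradient F x, a⟫ = fderiv ℝ F x a := by
  simp [gradient]

omit [CompleteSpace E] in
theorem norm_le_of_symm {L : E →L[ℝ] E} {K : ℝ} (hK : 0 ≤ K) (hs : ∀ a b, ⟪L a, b⟫ = ⟪L b, a⟫)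
    (h : ∀ a, |⟪L a, a⟫| ≤ K * ‖a‖ ^ 2) : ‖L‖ ≤ K := by
  have key : ∀ a b : E, ⟪L a, b⟫ ≤ K * (‖a‖ ^ 2 + ‖b‖ ^ 2) / 2 := by
    intro a b
    have h1 := (abs_le.1 (h (a + b))).2
    have h2 := (abs_le.1 (h (a - b))).1
    have h3 := parallelogram_law_with_norm ℝ a b
    simp only [map_add, map_sub, inner_add_left, inner_add_right, inner_sub_left,
      inner_sub_right] at h1 h2
    have := hs a b
    nlinarith
  refine L.opNorm_le_of_unit_norm hK fun a ha => ?_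
  rcases eq_or_ne (L a) 0 with h0 | h0
  · simpa [h0] using hK
  have hp : 0 < ‖L a‖ := norm_pos_iff.2 h0
  have := key a (‖L a‖⁻¹ • L a)
  rw [inner_smul_right, real_inner_self_eq_norm_sq, norm_smul, norm_inv, norm_norm,
    inv_mul_cancel₀ hp.ne', ha] at this
  have e : ‖L a‖⁻¹ * ‖L a‖ ^ 2 = ‖L a‖ := by field_simp
  rw [e] at this
  linarith

/-- a quadratic bound for the Taylor remainder bounds the Hessian -/
theorem norm_hess_le {F : E → ℝ} {x : E} {K : ℝ} (hK : 0 ≤ K) (hF : ContDiffAt ℝ 2 F x)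
    (h : ∀ᶠ y in 𝓝 x, |F y - F x - ⟪gradient F x, y - x⟫| ≤ K * ‖y - x‖ ^ 2) :
    ‖fderiv ℝ (gradient F) x‖ ≤ 2 * K := by
  refine norm_le_of_symm (by positivity) (hess_symm hF) fun a => ?_
  have hl : Tendsto (fun s : ℝ => x + s • a) (𝓝 0) (𝓝 x) := by
    have := (hasDerivAt_line x a 0).continuousAt.tendsto
    simpa using this
  have hd : DifferentiableAt ℝ (fderiv ℝ F) x :=
    (hF.fderiv_right (m := 1) (by norm_num)).differentiableAt (by norm_num)
  have hev : ∀ᶠ y in 𝓝 x, DifferentiableAt ℝ F y :=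
    (hF.eventually (by simp)).mono fun y hy => hy.differentiableAt (by norm_num)
  have := abs_snd_le (g := fun s => F (x + s • a)) (g₁ := fun s => fderiv ℝ F (x + s • a) a)
    (c := fderiv ℝ (fderiv ℝ F) x a a) (K := K * ‖a‖ ^ 2) ?_ ?_ ?_
  · rw [inner_fderiv_gradient hF]; linarith
  · filter_upwards [hl.eventually hev] with s hs
    exact hs.hasFDerivAt.comp_hasDerivAt s (hasDerivAt_line x a s)
  · have hd' : HasFDerivAt (fderiv ℝ F) (fderiv ℝ (fderiv ℝ F) x) (x + (0 : ℝ) • a) := by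
      simpa using hd.hasFDerivAt
    have h1 := hd'.comp_hasDerivAt (0 : ℝ) (hasDerivAt_line x a 0)
    exact (ContinuousLinearMap.apply ℝ ℝ a).hasFDerivAt.comp_hasDerivAt (0 : ℝ) h1
  · filter_upwards [hl.eventually h] with s hs
    simp only [add_sub_cancel_left, inner_smul_right, inner_gradient, norm_smul, Real.norm_eq_abs,
      mul_pow, sq_abs] at hs
    simp only [zero_smul, add_zero]
    linarith

omit [CompleteSpace E] in
/-- interpolation in several variables -/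
theorem taylor_small' {F : E → ℝ} {ρ τ C : ℝ} (hρ : 0 < ρ)
    (hF : ∀ x ∈ closedBall (0 : E) ρ, ContDiffAt ℝ ∞ F x)
    (h0 : ∀ x ∈ closedBall (0 : E) ρ, |F x| ≤ τ)
    (hC : ∀ x ∈ closedBall (0 : E) ρ, ‖iteratedFDeriv ℝ 3 F x‖ ≤ C) {x : E} (hx : ‖x‖ ≤ ρ) :
    |F x - F 0 - fderiv ℝ F 0 x| ≤ (9 * τ / ρ ^ 2 + 2 * C * ρ) * ‖x‖ ^ 2 := by
  rcases eq_or_ne x 0 with rfl | hx0
  · simp
  have hp : 0 < ‖x‖ := norm_pos_iff.2 hx0
  set a : E := ‖x‖⁻¹ • x with ha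
  have ha1 : ‖a‖ = 1 := by rw [ha, norm_smul, norm_inv, norm_norm, inv_mul_cancel₀ hp.ne']
  have hxa : ‖x‖ • a = x := by rw [ha, smul_smul, mul_inv_cancel₀ hp.ne', one_smul]
  have hm : ∀ s ∈ Icc (-ρ) ρ, (0 : E) + s • a ∈ closedBall (0 : E) ρ := by
    intro s hs
    simp only [zero_add, mem_closedBall, dist_zero_right, norm_smul, ha1, mul_one, Real.norm_eq_abs]
    exact abs_le.2 hs
  have := taylor_small (g := fun s => iteratedFDeriv ℝ 0 F (0 + s • a) fun _ => a)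
    (g₁ := fun s => iteratedFDeriv ℝ 1 F (0 + s • a) fun _ => a)
    (g₂ := fun s => iteratedFDeriv ℝ 2 F (0 + s • a) fun _ => a)
    (g₃ := fun s => iteratedFDeriv ℝ 3 F (0 + s • a) fun _ => a) (τ := τ) (C := C) hρ
    (fun s hs => hasDerivAt_iter 0 (hF _ (hm s hs))) (fun s hs => hasDerivAt_iter 1 (hF _ (hm s hs)))
    (fun s hs => hasDerivAt_iter 2 (hF _ (hm s hs)))
    (fun s hs => by simpa using h0 _ (hm s hs))
    (fun s hs => by
      have := (iteratedFDeriv ℝ 3 F (0 + s • a)).le_opNorm fun _ => a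
      simp only [ha1, Finset.prod_const_one, mul_one] at this
      exact this.trans (hC _ (hm s hs)))
    (s := ‖x‖) ⟨hp.le, hx⟩
  simp only [iteratedFDeriv_zero_apply, zero_add, zero_smul, iteratedFDeriv_one_apply, hxa] at this
  have e : ‖x‖ * fderiv ℝ F 0 a = fderiv ℝ F 0 x := by
    rw [← smul_eq_mul, ← map_smul, hxa]
  rwa [e] at this

end

end Vale.Agent.P218FT.W
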