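import Vale.Agent.P218FT.ConvA
import Vale.Agent.P218FT.Local2
import Vale.Agent.P218FT.WCalc

/-! Uniform graph cylinders from two-point bounds, and compactness of flows. -/

open Set Filter Topology Metric
open scoped ContDiff RealInnerProductSpace

namespace Vale.Agent.P218FT.Conv

open Vale.Agent.P218FT.Chart

variable {e : E3} {J : P2 →L[ℝ] E3} {pr : E3 →L[ℝ] P2}

/-- the isometry of a frame -/
def iso (F : Frame e J pr) : P2 →ₗᵢ[ℝ] E3 := ⟨J.toLinearMap, F.norm_J⟩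

lemma tilt_eq (F : Frame e J pr) {ν : E3} (hν : ‖ν‖ = 1) {g : P2}
    (h : ∀ a, ⟪J a + ⟪g, a⟫ • e, ν⟫ = 0) : ⟪ν, e⟫ ^ 2 * (1 + ‖g‖ ^ 2) = 1 := by
  have h1 : pr ν = -(⟪ν, e⟫ • g) := by
    refine ext_inner_right ℝ fun a => ?_
    have := h a
    rw [inner_add_left, real_inner_smul_left, real_inner_comm ν (J a), F.adj,
      real_inner_comm ν e] at this
    rw [inner_neg_left, real_inner_smul_left]
    linarith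
  have h2 := F.norm_sq_eq ν
  rw [hν, h1, norm_neg, norm_smul, mul_pow, Real.norm_eq_abs, sq_abs, real_inner_comm ν e] at h2
  linarith

lemma abs_trace_le (L : P2 →L[ℝ] P2) : |LinearMap.trace ℝ P2 L.toLinearMap| ≤ 2 * ‖L‖ := by
  rw [LinearMap.trace_eq_sum_inner _ (EuclideanSpace.basisFun (Fin 2) ℝ), Fin.sum_univ_two]
  have key : ∀ i, |⟪EuclideanSpace.basisFun (Fin 2) ℝ i,
      L.toLinearMap (EuclideanSpace.basisFun (Fin 2) ℝ i)⟫| ≤ ‖L‖ := by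
    intro i
    have h1 : ‖EuclideanSpace.basisFun (Fin 2) ℝ i‖ = 1 :=
      (EuclideanSpace.basisFun (Fin 2) ℝ).orthonormal.1 i
    refine (abs_real_inner_le_norm _ _).trans ?_
    have h2 := L.le_opNorm (EuclideanSpace.basisFun (Fin 2) ℝ i)
    rw [h1, mul_one] at h2
    rw [h1, one_mul]
    exact h2
  exact (abs_add_le _ _).trans (by linarith [key 0, key 1])

lemma abs_deriv_le {u : P2 × ℝ → ℝ} {p : P2 × ℝ} (h : GEq u p) :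
    |deriv (fun s => u (p.1, s)) p.2| ≤ 3 * ‖hx u p‖ := by
  rw [h]
  refine (abs_sub _ _).trans ?_
  have h1 := abs_trace_le (hx u p)
  have h2 : |⟪hx u p (gx u p), gx u p⟫ / (1 + ‖gx u p‖ ^ 2)| ≤ ‖hx u p‖ := by
    rw [abs_div, abs_of_pos (by positivity : 0 < 1 + ‖gx u p‖ ^ 2), div_le_iff₀ (by positivity)]
    refine (abs_real_inner_le_norm _ _).trans ?_
    have h3 := (hx u p).le_opNorm (gx u p)
    nlinarith [norm_nonneg (gx u p), norm_nonneg (hx u p)]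
  linarith

lemma vertical_eq {N : Set E3} {y : E3} {z r C : ℝ} (he : ‖e‖ = 1) (hy : TwoPt N y r C)
    (hz : y + z • e ∈ N) (ht : 1 / 2 ≤ ⟪nu N y, e⟫ ^ 2) (hr : |z| ≤ r) (hs : C * |z| < 1 / 2) :
    z = 0 := by
  have hn : ‖y + z • e - y‖ = |z| := by
    rw [add_sub_cancel_left, norm_smul, he, mul_one, Real.norm_eq_abs]
  have h := hy _ hz (hn.trans_le hr)
  rw [hn, add_sub_cancel_left, real_inner_smul_left, abs_mul, real_inner_comm] at h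
  have h2 : 1 / 2 ≤ |⟪nu N y, e⟫| := by
    rw [← sq_abs] at ht
    nlinarith [abs_nonneg ⟪nu N y, e⟫]
  by_contra h0
  have h3 : 0 < |z| := abs_pos.2 h0
  nlinarith

/-- the cylinder of radius `ρ` about `(ξ₀, t₀)`, cut by the interval `[t₁, t₂]` -/
def cyl (ξ₀ : P2) (t₀ t₁ t₂ ρ : ℝ) : Set (P2 × ℝ) :=
  closedBall ξ₀ ρ ×ˢ (Icc t₁ t₂ ∩ closedBall t₀ (ρ ^ 2))

lemma norm_sub_le_frame (F : Frame e J pr) (x₀ : E3) (ξ η : P2) (z y : ℝ) :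
    ‖x₀ + J ξ + z • e - (x₀ + J η + y • e)‖ ^ 2 = ‖ξ - η‖ ^ 2 + (z - y) ^ 2 := by
  rw [← F.norm_sq_add, map_sub, sub_smul]
  congr 2
  abel

lemma le_of_sq {a b : ℝ} (hb : 0 ≤ b) (h : a ^ 2 ≤ b ^ 2) : a ≤ b := (abs_le_of_sq_le_sq' h hb).2

/-- the data of a graph representation on the open set `O` -/
structure GD (M : ℝ → Set E3) (I : Set ℝ) (x₀ e : E3) (J : P2 →L[ℝ] E3) (pr : E3 →L[ℝ] P2)
    (r C ρ t₁ t₂ : ℝ) (h : P2 × ℝ → ℝ) (O : Set (P2 × ℝ)) : Prop where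
  mcf : IsMCF M I
  frame : Frame e J pr
  hC : 0 < C
  hρ : 0 < ρ
  hρr : 10 * ρ ≤ r
  hρC : 600 * (C * ρ) ≤ 1
  sub : Icc t₁ t₂ ⊆ I
  two : ∀ s ∈ Icc t₁ t₂, ∀ y ∈ M s, ‖y - x₀‖ ≤ r → TwoPt (M s) y r C
  isOpen : IsOpen O
  smooth : ContDiffOn ℝ ∞ h O
  time : ∀ p ∈ O, p.2 ∈ I
  lt : ∀ p ∈ O, |h p| < 6 * ρ
  mem : ∀ p ∈ O, x₀ + J p.1 + h p • e ∈ M p.2
  orth : ∀ p ∈ O, ∀ a, ⟪J a + ⟪gx h p, a⟫ • e, nu (M p.2) (x₀ + J p.1 + h p • e)⟫ = 0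
  geq : ∀ p ∈ O, GEq h p
  iff : ∀ p ∈ O, ∀ z : ℝ, |z| ≤ 6 * ρ → (x₀ + J p.1 + z • e ∈ M p.2 ↔ z = h p)
  good : ∀ (p : P2 × ℝ) (z : ℝ), p.2 ∈ I → |z| < 6 * ρ → x₀ + J p.1 + z • e ∈ M p.2 →
    ⟪nu (M p.2) (x₀ + J p.1 + z • e), e⟫ ≠ 0 →
    (∀ z' : ℝ, |z'| ≤ 6 * ρ → x₀ + J p.1 + z' • e ∈ M p.2 → z' = z) → p ∈ O

lemma exists_gd (hG : GraphStmt) {r C ρ : ℝ} (hC : 0 < C) (hρ : 0 < ρ) (hρr : 10 * ρ ≤ r)
    (hρC : 600 * (C * ρ) ≤ 1) {M : ℝ → Set E3} {I : Set ℝ} (hM : IsMCF M I) (x₀ : E3)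
    (F : Frame e J pr) {t₁ t₂ : ℝ} (hI : Icc t₁ t₂ ⊆ I)
    (hT : ∀ s ∈ Icc t₁ t₂, ∀ y ∈ M s, ‖y - x₀‖ ≤ r → TwoPt (M s) y r C) :
    ∃ h O, GD M I x₀ e J pr r C ρ t₁ t₂ h O := by
  obtain ⟨hO, h, hh, hp⟩ := hG M I hM x₀ (iso F) e (6 * ρ) F.unit F.orth'
  refine ⟨h, _, hM, F, hC, hρ, hρr, hρC, hI, hT, hO, hh, fun p hp' => hp'.1,
    fun p hp' => (hp p hp').1, fun p hp' => (hp p hp').2.1, fun p hp' => (hp p hp').2.2.1,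
    fun p hp' => (hp p hp').2.2.2.2, fun p hpO z hz => ?_,
    fun p z a1 a2 a3 a4 a5 => ⟨a1, z, a2, a3, a4, a5⟩⟩
  obtain ⟨-, z₁, -, -, -, hu⟩ := id hpO
  obtain ⟨a1, a2, -⟩ := hp p hpO
  exact ⟨fun hz' => (hu z hz hz').trans (hu _ a1.le a2).symm, fun hz' => hz' ▸ a2⟩

namespace GD

variable {M : ℝ → Set E3} {I : Set ℝ} {x₀ : E3} {r C ρ t₁ t₂ : ℝ} {h : P2 × ℝ → ℝ}
  {O : Set (P2 × ℝ)} (D : GD M I x₀ e J pr r C ρ t₁ t₂ h O)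
include D

lemma near {ξ : P2} {z : ℝ} (h1 : ‖ξ‖ ≤ 2 * ρ) (h2 : |z| ≤ 6 * ρ) :
    ‖x₀ + J ξ + z • e - x₀‖ ≤ r := by
  rw [add_assoc, add_sub_cancel_left]
  refine (norm_add_le _ _).trans ?_
  rw [D.frame.norm_J, norm_smul, D.frame.unit, Real.norm_eq_abs]
  linarith [D.hρr, D.hρ]

lemma good' {p : P2 × ℝ} {z : ℝ} (a1 : p.2 ∈ Icc t₁ t₂) (a2 : ‖p.1‖ ≤ 2 * ρ) (a3 : |z| ≤ 3 * ρ)
    (a4 : x₀ + J p.1 + z • e ∈ M p.2) (a5 : 1 / 2 ≤ ⟪nu (M p.2) (x₀ + J p.1 + z • e), e⟫ ^ 2) :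
    p ∈ O ∧ h p = z := by
  have hρ := D.hρ
  have hO' : p ∈ O := by
    refine D.good p z (D.sub a1) (by linarith) a4 (fun h0 => ?_) fun z' b1 b2 => ?_
    · rw [h0] at a5
      norm_num at a5
    · have b3 : |z' - z| ≤ 9 * ρ := (abs_sub _ _).trans (by linarith)
      refine sub_eq_zero.1 (vertical_eq D.frame.unit (D.two _ a1 _ a4 (D.near a2 (by linarith)))
        ?_ a5 (by linarith [D.hρr]) (by nlinarith [D.hρC, D.hC]))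
      rwa [add_assoc, ← add_smul, add_sub_cancel]
  exact ⟨hO', ((D.iff p hO' z (by linarith)).1 a4).symm⟩

lemma cd {p : P2 × ℝ} (hp : p ∈ O) : ContDiffAt ℝ ∞ h p :=
  D.smooth.contDiffAt (D.isOpen.mem_nhds hp)

lemma sl {p : P2 × ℝ} (hp : p ∈ O) : ContDiffAt ℝ ∞ (fun ξ => h (ξ, p.2)) p.1 :=
  ContDiffAt.comp p.1 (D.cd hp) (contDiffAt_id.prodMk contDiffAt_const)

lemma tl {p : P2 × ℝ} (hp : p ∈ O) : DifferentiableAt ℝ (fun s => h (p.1, s)) p.2 :=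
  (ContDiffAt.comp p.2 (D.cd hp) (contDiffAt_const.prodMk contDiffAt_id)).differentiableAt
    (by simp)

lemma gxd {p : P2 × ℝ} (hp : p ∈ O) : DifferentiableAt ℝ (fun ξ => gx h (ξ, p.2)) p.1 := by
  have h1 : DifferentiableAt ℝ (fderiv ℝ fun ξ => h (ξ, p.2)) p.1 :=
    ((D.sl hp).fderiv_right (m := 1) two_le_inf).differentiableAt one_ne_zero
  exact (InnerProductSpace.toDual ℝ P2).symm.toContinuousLinearEquiv.differentiableAt.comp _ h1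

lemma gxc : ContinuousOn (gx h) O := by
  have h1 : ContinuousOn (fderiv ℝ h) O := D.smooth.continuousOn_fderiv_of_isOpen D.isOpen (by simp)
  have h2 : ContinuousOn (fun p => (InnerProductSpace.toDual ℝ P2).symm
      ((fderiv ℝ h p).comp (ContinuousLinearMap.inl ℝ P2 ℝ))) O :=
    (InnerProductSpace.toDual ℝ P2).symm.continuous.comp_continuousOn
      (h1.clm_comp continuousOn_const)
  refine h2.congr fun p hp => ?_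
  have h3 := ((D.cd hp).differentiableAt (by simp)).hasFDerivAt.comp p.1
    (hasFDerivAt_prodMk_left (𝕜 := ℝ) p.1 p.2)
  exact congrArg (InnerProductSpace.toDual ℝ P2).symm h3.fderiv

lemma tilt {p : P2 × ℝ} (hp : p ∈ O) :
    ⟪nu (M p.2) (x₀ + J p.1 + h p • e), e⟫ ^ 2 * (1 + ‖gx h p‖ ^ 2) = 1 :=
  tilt_eq D.frame ((D.mcf.isSurf (D.time p hp)).norm_nu (D.mem p hp)) (D.orth p hp)

lemma rem {p : P2 × ℝ} (hpO : p ∈ O) (hg : ‖gx h p‖ ≤ 1) (a1 : p.2 ∈ Icc t₁ t₂)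
    (a2 : ‖p.1‖ ≤ 2 * ρ) {η : P2} (a3 : (η, p.2) ∈ O) (a4 : |h (η, p.2) - h p| ≤ 2 * ‖η - p.1‖)
    (a5 : ‖η - p.1‖ ≤ 2 * ρ) :
    |h (η, p.2) - h p - ⟪gx h p, η - p.1⟫| ≤ 8 * C * ‖η - p.1‖ ^ 2 := by
  have hρ := D.hρ
  have hC := D.hC
  have hρr := D.hρr
  have b1 := D.two _ a1 _ (D.mem p hpO) (D.near a2 (D.lt p hpO).le)
  have b2 := norm_sub_le_frame D.frame x₀ η p.1 (h (η, p.2)) (h p)
  have b3 : (h (η, p.2) - h p) ^ 2 ≤ 4 * ‖η - p.1‖ ^ 2 := by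
    rw [← sq_abs]
    nlinarith [abs_nonneg (h (η, p.2) - h p)]
  have b4 : ‖x₀ + J η + h (η, p.2) • e - (x₀ + J p.1 + h p • e)‖ ≤ r := by
    refine le_of_sq (by linarith) ?_
    rw [b2]
    nlinarith [norm_nonneg (η - p.1)]
  have b5 := b1 (x₀ + J η + h (η, p.2) • e) (D.mem (η, p.2) a3) b4
  have b6 : x₀ + J η + h (η, p.2) • e - (x₀ + J p.1 + h p • e) =
      (J (η - p.1) + ⟪gx h p, η - p.1⟫ • e) + (h (η, p.2) - h p - ⟪gx h p, η - p.1⟫) • e := by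
    rw [map_sub, sub_smul, sub_smul]
    abel
  rw [b2, b6, inner_add_left, D.orth p hpO, zero_add, real_inner_smul_left, abs_mul,
    real_inner_comm _ e] at b5
  have b8 := D.tilt hpO
  set c := ⟪nu (M p.2) (x₀ + J p.1 + h p • e), e⟫
  have b9 : 5 / 8 ≤ |c| := by
    have g1 : ‖gx h p‖ ^ 2 ≤ 1 := by nlinarith [norm_nonneg (gx h p)]
    have g2 : 1 / 2 ≤ |c| ^ 2 := by rw [sq_abs]; nlinarith [sq_nonneg c]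
    nlinarith [abs_nonneg c]
  have b10 := mul_le_mul_of_nonneg_left b9 (abs_nonneg (h (η, p.2) - h p - ⟪gx h p, η - p.1⟫))
  have b11 := mul_le_mul_of_nonneg_left b3 hC.le
  linarith

lemma hess {p : P2 × ℝ} (hpO : p ∈ O) (hg : ‖gx h p‖ ≤ 1) (a1 : p.2 ∈ Icc t₁ t₂)
    (a2 : ‖p.1‖ ≤ 2 * ρ) : ‖hx h p‖ ≤ 16 * C := by
  have hρ := D.hρ
  have hC := D.hC
  have b1 : ∀ᶠ η in 𝓝 p.1, (η, p.2) ∈ O :=
    (continuous_id.prodMk continuous_const).continuousAt.eventually (D.isOpen.mem_nhds hpO)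
  have b2 : ∀ᶠ η in 𝓝 p.1, |h (η, p.2) - h p| ≤ 2 * ‖η - p.1‖ := by
    have b3 := ((D.sl hpO).differentiableAt (by simp)).hasFDerivAt.isLittleO.bound one_pos
    filter_upwards [b3] with η hη
    have b4 := (fderiv ℝ (fun ξ => h (ξ, p.2)) p.1).le_opNorm (η - p.1)
    rw [← Chart.norm_gradient] at b4
    have b5 : ‖gradient (fun ξ => h (ξ, p.2)) p.1‖ ≤ 1 := hg
    have b6 := norm_le_insert' (h (η, p.2) - h (p.1, p.2))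
      (fderiv ℝ (fun ξ => h (ξ, p.2)) p.1 (η - p.1))
    rw [Real.norm_eq_abs] at b6
    nlinarith [norm_nonneg (η - p.1)]
  have b3 : ∀ᶠ η in 𝓝 p.1, ‖η - p.1‖ ≤ 2 * ρ :=
    mem_of_superset (closedBall_mem_nhds p.1 (by linarith : 0 < 2 * ρ))
      fun η hη => mem_closedBall_iff_norm.1 hη
  have := W.norm_hess_le (F := fun ξ => h (ξ, p.2)) (x := p.1) (K := 8 * C) (by positivity)
    ((D.sl hpO).of_le two_le_inf) (by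
      filter_upwards [b1, b2, b3] with η c1 c2 c3
      exact D.rem hpO hg a1 a2 c1 c2 c3)
  exact this.trans (by linarith)

omit D in
lemma cyl_norm {ξ₀ : P2} {t₀ σ : ℝ} (hξ₀ : ‖ξ₀‖ ≤ ρ) (hσ : σ ≤ ρ) {p : P2 × ℝ}
    (hp : p ∈ cyl ξ₀ t₀ t₁ t₂ σ) : ‖p.1‖ ≤ 2 * ρ := by
  have := norm_le_insert' p.1 ξ₀
  linarith [mem_closedBall_iff_norm.1 hp.1]

/-- improved estimates on a good cylinder -/
lemma improve {ξ₀ : P2} {t₀ σ : ℝ} (ht₀ : t₀ ∈ Icc t₁ t₂) (hξ₀ : ‖ξ₀‖ ≤ ρ)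
    (hz₀ : |h (ξ₀, t₀)| ≤ ρ) (hg0 : ‖gx h (ξ₀, t₀)‖ ≤ 1 / 4) (hσ : 0 < σ) (hσρ : σ ≤ ρ)
    (hsub : ∀ p ∈ cyl ξ₀ t₀ t₁ t₂ σ, p ∈ O ∧ ‖gx h p‖ ≤ 1) {p : P2 × ℝ}
    (hp : p ∈ cyl ξ₀ t₀ t₁ t₂ σ) : ‖gx h p‖ ≤ 1 / 2 ∧ |h p| ≤ 3 * ρ := by
  have hρ := D.hρ
  have hC := D.hC
  have hCσ : C * σ ≤ 1 / 600 := by nlinarith [D.hρC]
  have hT0 : t₀ ∈ Icc t₁ t₂ ∩ closedBall t₀ (σ ^ 2) := ⟨ht₀, mem_closedBall_self (by positivity)⟩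
  have hD0 : ξ₀ ∈ closedBall ξ₀ σ := mem_closedBall_self hσ.le
  have hH : ∀ p ∈ cyl ξ₀ t₀ t₁ t₂ σ, ‖hx h p‖ ≤ 16 * C := fun p hp =>
    D.hess (hsub p hp).1 (hsub p hp).2 hp.2.1 (cyl_norm hξ₀ hσρ hp)
  have htime : ∀ η ∈ closedBall ξ₀ σ, ∀ s ∈ Icc t₁ t₂ ∩ closedBall t₀ (σ ^ 2),
      |h (η, s) - h (η, t₀)| ≤ 48 * C * σ ^ 2 := by
    intro η hη s hs
    have b0 := (convex_Icc t₁ t₂).inter (convex_closedBall t₀ (σ ^ 2))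
    have b1 := b0.norm_image_sub_le_of_norm_deriv_le (f := fun s => h (η, s)) (C := 48 * C)
      (fun s hs => D.tl (hsub (η, s) (mk_mem_prod hη hs)).1) (fun s hs => by
        have c1 := abs_deriv_le (D.geq (η, s) (hsub _ (mk_mem_prod hη hs)).1)
        have c2 := hH (η, s) (mk_mem_prod hη hs)
        exact c1.trans (by linarith)) hT0 hs
    exact b1.trans (mul_le_mul_of_nonneg_left (mem_closedBall_iff_norm.1 hs.2) (by positivity))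
  have hspace : ∀ η ∈ closedBall ξ₀ σ, ∀ s ∈ Icc t₁ t₂ ∩ closedBall t₀ (σ ^ 2),
      |h (η, s) - h (ξ₀, s)| ≤ 1 * ‖η - ξ₀‖ := fun η hη s hs =>
    (convex_closedBall ξ₀ σ).norm_image_sub_le_of_norm_fderiv_le (𝕜 := ℝ)
      (f := fun ξ => h (ξ, s)) (C := 1)
      (fun ξ hξ => (D.sl (hsub (ξ, s) (mk_mem_prod hξ hs)).1).differentiableAt (by simp))
      (fun ξ hξ => by
        rw [← Chart.norm_gradient]
        exact (hsub (ξ, s) (mk_mem_prod hξ hs)).2) hD0 hη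
  have hgrad : ∀ η ∈ closedBall ξ₀ σ, ∀ s ∈ Icc t₁ t₂ ∩ closedBall t₀ (σ ^ 2),
      ‖gx h (η, s) - gx h (ξ₀, s)‖ ≤ 16 * C * ‖η - ξ₀‖ := fun η hη s hs =>
    (convex_closedBall ξ₀ σ).norm_image_sub_le_of_norm_fderiv_le (𝕜 := ℝ)
      (f := fun ξ => gx h (ξ, s)) (C := 16 * C)
      (fun ξ hξ => D.gxd (hsub (ξ, s) (mk_mem_prod hξ hs)).1)
      (fun ξ hξ => hH (ξ, s) (mk_mem_prod hξ hs)) hD0 hη
  have hR : ∀ η ∈ closedBall ξ₀ σ, ∀ s ∈ Icc t₁ t₂ ∩ closedBall t₀ (σ ^ 2),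
      |h (η, s) - h (ξ₀, s) - ⟪gx h (ξ₀, s), η - ξ₀⟫| ≤ 8 * C * σ ^ 2 := by
    intro η hη s hs
    have b0 := mem_closedBall_iff_norm.1 hη
    have b2 := hspace η hη s hs
    have b1 := D.rem (hsub (ξ₀, s) (mk_mem_prod hD0 hs)).1 (hsub _ (mk_mem_prod hD0 hs)).2 hs.1
      (by linarith) (hsub (η, s) (mk_mem_prod hη hs)).1
      (by linarith [norm_nonneg (η - ξ₀)]) (by linarith)
    exact b1.trans (mul_le_mul_of_nonneg_left (pow_le_pow_left₀ (norm_nonneg _) b0 2)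
      (by positivity))
  have hcen : ∀ s ∈ Icc t₁ t₂ ∩ closedBall t₀ (σ ^ 2),
      ‖gx h (ξ₀, s) - gx h (ξ₀, t₀)‖ ≤ 112 * C * σ := by
    intro s hs
    set d := gx h (ξ₀, s) - gx h (ξ₀, t₀) with hd
    rcases eq_or_ne d 0 with h0 | h0
    · rw [h0, norm_zero]; positivity
    have hdp : 0 < ‖d‖ := norm_pos_iff.2 h0
    have hη : ξ₀ + (σ / ‖d‖) • d ∈ closedBall ξ₀ σ := by
      rw [mem_closedBall_iff_norm, add_sub_cancel_left, norm_smul, Real.norm_of_nonneg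
        (by positivity), div_mul_cancel₀ _ hdp.ne']
    have b1 := abs_le.1 (hR _ hη s hs)
    have b2 := abs_le.1 (hR _ hη t₀ hT0)
    have b3 := abs_le.1 (htime _ hη s hs)
    have b4 := abs_le.1 (htime _ hD0 s hs)
    have b5 : ⟪gx h (ξ₀, s), ξ₀ + (σ / ‖d‖) • d - ξ₀⟫ - ⟪gx h (ξ₀, t₀), ξ₀ + (σ / ‖d‖) • d - ξ₀⟫
        = σ * ‖d‖ := by
      rw [← inner_sub_left, ← hd, add_sub_cancel_left, real_inner_smul_right,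
        real_inner_self_eq_norm_sq]
      field_simp
    have b6 : σ * ‖d‖ ≤ σ * (112 * C * σ) := by linarith
    exact le_of_mul_le_mul_left b6 hσ
  have b0 := mem_closedBall_iff_norm.1 hp.1
  constructor
  · have b1 := hgrad p.1 hp.1 p.2 hp.2
    have b2 := hcen p.2 hp.2
    have b3 := norm_le_insert' (gx h (p.1, p.2)) (gx h (ξ₀, p.2))
    have b4 := norm_le_insert' (gx h (ξ₀, p.2)) (gx h (ξ₀, t₀))
    have b5 : 16 * C * ‖p.1 - ξ₀‖ ≤ 16 * C * σ := mul_le_mul_of_nonneg_left b0 (by positivity)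
    show ‖gx h (p.1, p.2)‖ ≤ 1 / 2
    linarith
  · have b1 := abs_le.1 (htime p.1 hp.1 p.2 hp.2)
    have b2 := abs_le.1 (hspace p.1 hp.1 t₀ hT0)
    have b3 := abs_le.1 hz₀
    have b4 : 48 * C * σ ^ 2 ≤ ρ := by nlinarith
    show |h (p.1, p.2)| ≤ 3 * ρ
    rw [abs_le]
    constructor <;> linarith

omit D in
lemma shrink_mem {ξ₀ : P2} {t₀ m l : ℝ} (ht₀ : t₀ ∈ Icc t₁ t₂) {p : P2 × ℝ}
    (hp : p ∈ cyl ξ₀ t₀ t₁ t₂ m) (hl : l ∈ Ioo (0 : ℝ) 1) :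
    (ξ₀ + l • (p.1 - ξ₀), t₀ + l ^ 2 * (p.2 - t₀)) ∈ cyl ξ₀ t₀ t₁ t₂ (l * m) := by
  have l2 : l ^ 2 ≤ 1 := by nlinarith [hl.1, hl.2]
  refine ⟨?_, ⟨?_, ?_⟩, ?_⟩
  · rw [mem_closedBall_iff_norm, add_sub_cancel_left, norm_smul, Real.norm_of_nonneg hl.1.le]
    exact mul_le_mul_of_nonneg_left (mem_closedBall_iff_norm.1 hp.1) hl.1.le
  · show t₁ ≤ t₀ + l ^ 2 * (p.2 - t₀)
    nlinarith [hp.2.1.1, ht₀.1, sq_nonneg l]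
  · show t₀ + l ^ 2 * (p.2 - t₀) ≤ t₂
    nlinarith [hp.2.1.2, ht₀.2, sq_nonneg l]
  · rw [mem_closedBall_iff_norm, add_sub_cancel_left, Real.norm_eq_abs, abs_mul,
      abs_of_nonneg (sq_nonneg l), mul_pow]
    exact mul_le_mul_of_nonneg_left (mem_closedBall_iff_norm.1 hp.2.2) (sq_nonneg l)

omit D in
lemma cyl_mono {ξ₀ : P2} {t₀ σ m : ℝ} (hσ : 0 ≤ σ) (hm : σ ≤ m) :
    cyl ξ₀ t₀ t₁ t₂ σ ⊆ cyl ξ₀ t₀ t₁ t₂ m := fun _ hq =>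
  ⟨closedBall_subset_closedBall hm hq.1, hq.2.1,
    closedBall_subset_closedBall (pow_le_pow_left₀ hσ hm 2) hq.2.2⟩

omit D in
lemma isCompact_cyl (ξ₀ : P2) (t₀ σ : ℝ) : IsCompact (cyl ξ₀ t₀ t₁ t₂ σ) :=
  (isCompact_closedBall _ _).prod (isCompact_Icc.inter_right isClosed_closedBall)

/-- the limit of good points is good -/
lemma closure_step {ξ₀ : P2} {t₀ m : ℝ} (ht₀ : t₀ ∈ Icc t₁ t₂) (hξ₀ : ‖ξ₀‖ ≤ ρ)
    (hz₀ : |h (ξ₀, t₀)| ≤ ρ) (hg0 : ‖gx h (ξ₀, t₀)‖ ≤ 1 / 4) (hm0 : 0 < m) (hmρ : m ≤ ρ)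
    (hsm : ∀ σ, 0 < σ → σ < m → ∀ p ∈ cyl ξ₀ t₀ t₁ t₂ σ, p ∈ O ∧ ‖gx h p‖ ≤ 1) {p : P2 × ℝ}
    (hp : p ∈ cyl ξ₀ t₀ t₁ t₂ m) : p ∈ O ∧ ‖gx h p‖ < 1 := by
  let Ψ : (P2 × ℝ) × ℝ → ℝ × E3 := fun q => (q.1.2, x₀ + J q.1.1 + q.2 • e)
  have hΨ : Continuous Ψ := by fun_prop
  let T : Set (ℝ × E3) := track M (Icc t₁ t₂) ∩
    (fun q : ℝ × E3 => |⟪e, nu (M q.1) q.2⟫| ^ 2) ⁻¹' Ici (4 / 5)
  have hTc : IsClosed T := by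
    refine ContinuousOn.preimage_isClosed_of_isClosed ?_
      (D.mcf.isClosed_track isClosed_Icc D.sub) isClosed_Ici
    exact (D.mcf.continuousOn_abs_inner.comp (f := fun q : ℝ × E3 => (q, e))
      (continuous_id.prodMk continuous_const).continuousOn
      fun q hq => ⟨⟨D.sub hq.1, hq.2⟩, mem_univ _⟩).pow 2
  have hK : IsCompact (Prod.fst '' ((cyl ξ₀ t₀ t₁ t₂ m ×ˢ Icc (-(3 * ρ)) (3 * ρ)) ∩ Ψ ⁻¹' T)) :=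
    (((isCompact_cyl _ _ _).prod isCompact_Icc).inter_right (hTc.preimage hΨ)).image continuous_fst
  let γ : ℝ → P2 × ℝ := fun l => (ξ₀ + l • (p.1 - ξ₀), t₀ + l ^ 2 * (p.2 - t₀))
  have hγ : Tendsto γ (𝓝[<] 1) (𝓝 p) := by
    have c1 : Continuous γ := by fun_prop
    have c2 : γ 1 = p := by simp [γ]
    exact (c1.tendsto' 1 p c2).mono_left nhdsWithin_le_nhds
  have hmem : p ∈ Prod.fst '' ((cyl ξ₀ t₀ t₁ t₂ m ×ˢ Icc (-(3 * ρ)) (3 * ρ)) ∩ Ψ ⁻¹' T) := by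
    refine hK.isClosed.mem_of_tendsto hγ ?_
    filter_upwards [Ioo_mem_nhdsLT (zero_lt_one' ℝ)] with l hl
    have c3 : γ l ∈ cyl ξ₀ t₀ t₁ t₂ (l * m) := shrink_mem ht₀ hp hl
    have c4 : l * m < m := by nlinarith [hl.2]
    have c5 : 0 < l * m := mul_pos hl.1 hm0
    have c6 := hsm _ c5 c4
    have c7 := D.improve ht₀ hξ₀ hz₀ hg0 c5 (by linarith) c6 c3
    have c8 := D.tilt (c6 _ c3).1
    refine ⟨(γ l, h (γ l)), ⟨⟨cyl_mono c5.le c4.le c3, abs_le.1 c7.2⟩,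
      ⟨c3.2.1, D.mem _ (c6 _ c3).1⟩, ?_⟩, rfl⟩
    show 4 / 5 ≤ |⟪e, nu (M (γ l).2) (x₀ + J (γ l).1 + h (γ l) • e)⟫| ^ 2
    rw [sq_abs, real_inner_comm]
    have c9 : ‖gx h (γ l)‖ ^ 2 ≤ 1 / 4 := by nlinarith [norm_nonneg (gx h (γ l)), c7.1]
    nlinarith [sq_nonneg ⟪nu (M (γ l).2) (x₀ + J (γ l).1 + h (γ l) • e), e⟫]
  obtain ⟨⟨p', z⟩, ⟨⟨-, hz⟩, ⟨-, hz2⟩, hz3⟩, rfl⟩ := hmem
  have hz3' : 4 / 5 ≤ ⟪nu (M p'.2) (x₀ + J p'.1 + z • e), e⟫ ^ 2 := by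
    have : 4 / 5 ≤ |⟪e, nu (M p'.2) (x₀ + J p'.1 + z • e)⟫| ^ 2 := hz3
    rwa [sq_abs, real_inner_comm] at this
  obtain ⟨c1, c2⟩ := D.good' hp.2.1 (cyl_norm hξ₀ hmρ hp) (abs_le.2 hz) hz2 (by linarith)
  have c3 := D.tilt c1
  rw [c2] at c3
  refine ⟨c1, lt_of_pow_lt_pow_left₀ 2 zero_le_one ?_⟩
  nlinarith [sq_nonneg ‖gx h p'‖]

lemma all_good {ξ₀ : P2} {t₀ : ℝ} (ht₀ : t₀ ∈ Icc t₁ t₂) (hξ₀ : ‖ξ₀‖ ≤ ρ) (h0 : (ξ₀, t₀) ∈ O)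
    (hz₀ : |h (ξ₀, t₀)| ≤ ρ) (hg0 : ‖gx h (ξ₀, t₀)‖ ≤ 1 / 4) :
    ∀ p ∈ cyl ξ₀ t₀ t₁ t₂ ρ, p ∈ O ∧ ‖gx h p‖ ≤ 1 := by
  let A : Set (P2 × ℝ) := O ∩ gx h ⁻¹' ball 0 1
  have hA : IsOpen A := D.gxc.isOpen_inter_preimage D.isOpen isOpen_ball
  suffices hall : cyl ξ₀ t₀ t₁ t₂ ρ ⊆ A from
    fun p hp => ⟨(hall hp).1, (mem_ball_zero_iff.1 (hall hp).2).le⟩
  by_contra hne
  have hne' : (cyl ξ₀ t₀ t₁ t₂ ρ \ A).Nonempty := Set.sdiff_nonempty.2 hne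
  let φ : P2 × ℝ → ℝ := fun p => max (‖p.1 - ξ₀‖ ^ 2) |p.2 - t₀|
  have hφ : Continuous φ := by fun_prop
  obtain ⟨p, hpm, hmin⟩ := ((isCompact_cyl _ _ _).diff hA).exists_isMinOn hne' hφ.continuousOn
  have hφ0 : 0 ≤ φ p := le_max_of_le_left (sq_nonneg _)
  have hle : ∀ σ, ∀ q ∈ cyl ξ₀ t₀ t₁ t₂ σ, φ q ≤ σ ^ 2 := fun σ q hq => max_le
    (pow_le_pow_left₀ (norm_nonneg _) (mem_closedBall_iff_norm.1 hq.1) 2)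
    (mem_closedBall_iff_norm.1 hq.2.2)
  have hm2 : √(φ p) ^ 2 = φ p := Real.sq_sqrt hφ0
  have hmρ : √(φ p) ≤ ρ := Real.sqrt_le_iff.2 ⟨D.hρ.le, hle _ _ hpm.1⟩
  have hm0 : 0 < √(φ p) := by
    refine Real.sqrt_pos.2 (lt_of_le_of_ne hφ0 fun h0' => hpm.2 ?_)
    have c1 : ‖p.1 - ξ₀‖ ^ 2 ≤ 0 := h0' ▸ le_max_left _ _
    have c2 : |p.2 - t₀| ≤ 0 := h0' ▸ le_max_right _ _
    have c3 : p = (ξ₀, t₀) := Prod.ext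
      (sub_eq_zero.1 (norm_eq_zero.1 (pow_eq_zero_iff two_ne_zero |>.1
        (le_antisymm c1 (sq_nonneg _))))) (sub_eq_zero.1 (abs_nonpos_iff.1 c2))
    rw [c3]
    exact ⟨h0, mem_ball_zero_iff.2 (by linarith)⟩
  have hpc : p ∈ cyl ξ₀ t₀ t₁ t₂ √(φ p) :=
    ⟨mem_closedBall_iff_norm.2 (le_of_sq hm0.le ((le_max_left _ _).trans_eq hm2.symm)), hpm.1.2.1,
      mem_closedBall_iff_norm.2 ((le_max_right _ _).trans_eq hm2.symm)⟩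
  have := D.closure_step ht₀ hξ₀ hz₀ hg0 hm0 hmρ (fun σ hσ hσm q hq => ?_) hpc
  · exact hpm.2 ⟨this.1, mem_ball_zero_iff.2 this.2⟩
  · have hqA : q ∈ A := by
      by_contra hqA
      have c0 : σ ^ 2 < √(φ p) ^ 2 := pow_lt_pow_left₀ hσm hσ.le two_ne_zero
      have c2 : φ p ≤ φ q := hmin ⟨cyl_mono hσ.le (by linarith) hq, hqA⟩
      linarith [hle _ _ hq]
    exact ⟨hqA.1, (mem_ball_zero_iff.1 hqA.2).le⟩

end GD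

/-- **Uniform graph cylinders** -/
theorem exists_cyl (hG : GraphStmt) {r C ρ : ℝ} (hC : 0 < C) (hρ : 0 < ρ) (hρr : 10 * ρ ≤ r)
    (hρC : 600 * (C * ρ) ≤ 1) {M : ℝ → Set E3} {I : Set ℝ} (hM : IsMCF M I) (x₀ : E3)
    (F : Frame e J pr) {t₀ t₁ t₂ : ℝ} (ht₀ : t₀ ∈ Icc t₁ t₂) (hI : Icc t₁ t₂ ⊆ I)
    (hT : ∀ s ∈ Icc t₁ t₂, ∀ y ∈ M s, ‖y - x₀‖ ≤ r → TwoPt (M s) y r C) {ξ₀ : P2} {z₀ : ℝ}
    (hξ₀ : ‖ξ₀‖ ≤ ρ) (hz₀ : |z₀| ≤ ρ) (hm : x₀ + J ξ₀ + z₀ • e ∈ M t₀)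
    (htilt : 16 / 17 ≤ ⟪nu (M t₀) (x₀ + J ξ₀ + z₀ • e), e⟫ ^ 2) :
    ∃ (h : P2 × ℝ → ℝ) (O : Set (P2 × ℝ)), IsOpen O ∧ ContDiffOn ℝ ∞ h O ∧
      cyl ξ₀ t₀ t₁ t₂ ρ ⊆ O ∧ ∀ p ∈ cyl ξ₀ t₀ t₁ t₂ ρ, GEq h p ∧ ‖gx h p‖ ≤ 1 ∧
        ‖hx h p‖ ≤ 16 * C ∧ |h p| ≤ 3 * ρ ∧
        ∀ z : ℝ, |z| ≤ 6 * ρ → (x₀ + J p.1 + z • e ∈ M p.2 ↔ z = h p) := by
  obtain ⟨h, O, D⟩ := exists_gd hG hC hρ hρr hρC hM x₀ F hI hT
  have hp0 := D.good' (p := (ξ₀, t₀)) ht₀ (by linarith) (by linarith : |z₀| ≤ 3 * ρ) hm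
    (by linarith)
  have hg0 : ‖gx h (ξ₀, t₀)‖ ≤ 1 / 4 := by
    have b1 := D.tilt hp0.1
    rw [hp0.2] at b1
    refine le_of_sq (by norm_num) ?_
    nlinarith [sq_nonneg ‖gx h (ξ₀, t₀)‖]
  have hz : |h (ξ₀, t₀)| ≤ ρ := hp0.2 ▸ hz₀
  have hall := D.all_good ht₀ hξ₀ hp0.1 hz hg0
  exact ⟨h, O, D.isOpen, D.smooth, fun p hp => (hall p hp).1, fun p hp =>
    ⟨D.geq p (hall p hp).1, (hall p hp).2,
      D.hess (hall p hp).1 (hall p hp).2 hp.2.1 (GD.cyl_norm hξ₀ le_rfl hp),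
      (D.improve ht₀ hξ₀ hz hg0 hρ le_rfl hall hp).2, D.iff p (hall p hp).1⟩⟩

end Vale.Agent.P218FT.Conv
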