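import Vale.Agent.P218FT.WSpec
import Mathlib.Order.Filter.Ultrafilter.Basic
import Mathlib.Topology.UniformSpace.UniformConvergence

/-! Smooth convergence of surfaces and of flows: definitions and statements. -/

open MeasureTheory Set Filter Topology Metric
open scoped ENNReal NNReal RealInnerProductSpace ContDiff

namespace Vale.Agent.P218FT

/-- uniform convergence on `W`, along `U`, of all derivatives of the smooth functions `f i` -/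
structure CInf {ι E F : Type} [NormedAddCommGroup E] [NormedSpace ℝ E] [NormedAddCommGroup F]
    [NormedSpace ℝ F] (U : Filter ι) (W : Set E) (f : ι → E → F) (g : E → F) : Prop where
  smooth : ∀ᶠ i in U, ContDiffOn ℝ ∞ (f i) W
  smooth_lim : ContDiffOn ℝ ∞ g W
  conv : ∀ k : ℕ,
    TendstoUniformlyOn (fun i => iteratedFDeriv ℝ k (f i)) (iteratedFDeriv ℝ k g) U W
  bdd : ∀ k : ℕ, ∃ C : ℝ, ∀ x ∈ W, ‖iteratedFDeriv ℝ k g x‖ ≤ C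

/-- the surfaces `N i` converge smoothly, with multiplicity one, to `S` -/
structure SLimS {ι : Type} (U : Filter ι) (N : ι → Set E3) (S : Set E3) : Prop where
  out : ∀ x, x ∉ S → ∃ W ∈ 𝓝 x, ∀ᶠ i in U, ∀ y ∈ W, y ∉ N i
  loc : ∀ x ∈ S, ∃ (W : Set E3) (w : ι → E3 → ℝ) (v : E3 → ℝ), IsOpen W ∧ x ∈ W ∧
    (∀ i, ContDiff ℝ ∞ (w i)) ∧ ContDiff ℝ ∞ v ∧ CInf U W w v ∧ gradient v x ≠ 0 ∧
    (∀ y ∈ W, y ∈ S ↔ v y = 0) ∧ ∀ᶠ i in U, ∀ y ∈ W, y ∈ N i ↔ w i y = 0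

/-- the flows `M i` converge smoothly, with multiplicity one, to the flow `L` on `I × ℝ³` -/
structure SLim {ι : Type} (U : Filter ι) (M : ι → ℝ → Set E3) (L : ℝ → Set E3) (I : Set ℝ) :
    Prop where
  out : ∀ t ∈ I, ∀ x, x ∉ L t → ∃ W ∈ 𝓝 (t, x), ∀ᶠ i in U, ∀ p ∈ W, p.2 ∉ M i p.1
  loc : ∀ t ∈ I, ∀ x ∈ L t, ∃ (W : Set (ℝ × E3)) (w : ι → ℝ × E3 → ℝ) (v : ℝ × E3 → ℝ),
    IsOpen W ∧ (t, x) ∈ W ∧ (∀ i, ContDiff ℝ ∞ (w i)) ∧ ContDiff ℝ ∞ v ∧ CInf U W w v ∧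
    gradient (fun y => v (t, y)) x ≠ 0 ∧ (∀ p ∈ W, p.2 ∈ L p.1 ↔ v p = 0) ∧
    ∀ᶠ i in U, ∀ p ∈ W, p.2 ∈ M i p.1 ↔ w i p = 0

/-- a smooth properly embedded self-shrinker -/
def IsShr (S : Set E3) : Prop := IsSurf S ∧ ∀ x ∈ S, relV S 0 1 x = 0

/-- the self-similar flow `s ↦ √(-s) S` -/
def ssFlow (S : Set E3) : ℝ → Set E3 := fun s => scaleSet (√(-s)) 0 S

/-- interior estimates of all derivatives for graphical mean curvature flow -/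
def IntStmt : Prop :=
  ∀ (k : ℕ) (B r : ℝ), 1 ≤ k → 0 < r → ∃ C : ℝ, ∀ (u : P2 × ℝ → ℝ) (O : Set (P2 × ℝ)) (ξ : P2)
    (t : ℝ), IsOpen O → ContDiffOn ℝ ∞ u O → closedBall ξ r ×ˢ Icc (t - r ^ 2) t ⊆ O →
    (∀ p ∈ closedBall ξ r ×ˢ Icc (t - r ^ 2) t, GEq u p ∧ ‖gx u p‖ ≤ B ∧ ‖hx u p‖ ≤ B) →
    ‖iteratedFDeriv ℝ k u (ξ, t)‖ ≤ C

/-- compactness of flows with locally uniform two-point bounds -/
def CompStmt : Prop :=
  ∀ (ι : Type) (U : Ultrafilter ι) (M : ι → ℝ → Set E3) (J : ι → Set ℝ) (I : Set ℝ), IsOpen I →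
    (∀ᶠ i in U, IsMCF (M i) (J i)) → (∀ t ∈ I, ∃ W ∈ 𝓝 t, ∀ᶠ i in U, W ⊆ J i) →
    (∀ t ∈ I, ∀ x : E3, ∃ W ∈ 𝓝 (t, x), ∃ r C : ℝ, 0 < r ∧ ∀ᶠ i in U, ∀ p ∈ W,
      p.2 ∈ M i p.1 → TwoPt (M i p.1) p.2 r C) →
    ∃ L : ℝ → Set E3, IsMCF L I ∧ SLim U M L I

/-- convergence of the integrals of geometric quantities -/
def SLimIntStmt : Prop :=
  ∀ (ι : Type) (U : Filter ι) (N : ι → Set E3) (S : Set E3), (∀ᶠ i in U, IsSurf (N i)) →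
    IsSurf S → SLimS U N S → ∀ (Φ : E3 × (E3 →L[ℝ] E3) × E3 × ℝ → ℝ) (R : ℝ), Continuous Φ →
    (∀ q : E3 × (E3 →L[ℝ] E3) × E3 × ℝ, R ≤ ‖q.1‖ → Φ q = 0) →
    Tendsto (fun i => ∫ x, Φ (x, pt (nu (N i) x), Hv (N i) x, a2 (N i) x) ∂(area (N i))) U
      (𝓝 (∫ x, Φ (x, pt (nu S x), Hv S x, a2 S x) ∂(area S)))

/-- **Block T**: the rescalings of a flow of class `C(D, G)` about `(x₀, b)` converge smoothly,
along every ultrafilter, to a self-similar flow of class `C(D, G)` whose Gaussian area is the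
limit of the density ratios -/
def ConvStmt : Prop :=
  ∀ (D G : ℝ) (M : ℝ → Set E3) (a b : ℝ), a < b → InC D G M (Ioo a b) → ∀ (x₀ : E3) (ι : Type)
    (U : Ultrafilter ι) (lam : ι → ℝ), Tendsto lam U atTop →
    ∃ S : Set E3, IsShr S ∧ InC D G (ssFlow S) (Iio 0) ∧
      SLim U (fun i => scaleFlow (lam i) x₀ b M) (ssFlow S) (Iio 0) ∧
      Tendsto (fun r => dens M x₀ b r) (𝓝[>] 0) (𝓝 (gA S 0 1))

end Vale.Agent.P218FT
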