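import Vale.Agent.P218FT.Int3
import Vale.Agent.P218FT.ConvSpec

/-! Interior estimates of every order for graphical mean curvature flow (helper69). -/

open Set Metric

namespace Vale.Agent.P218FT.Int

open Vale.Agent.P218F.GI

theorem int_proof : IntStmt := by
  intro k B r hk hr
  obtain ⟨k, rfl⟩ := Nat.exists_eq_add_of_le' hk
  obtain ⟨C, hC⟩ := int_all k B hr
  exact ⟨C, fun u O ξ t hO hu hsub h =>
    hC u (ξ, t) fun p hp => ⟨hu.contDiffAt (hO.mem_nhds (hsub hp)), h p hp⟩⟩

end Vale.Agent.P218FT.Int
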