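import Vale.Agent.P218FT.WSpec
import Vale.Agent.P218FT.Local
import Mathlib.Analysis.Calculus.ImplicitContDiff

/-! Graph representation of a mean curvature flow over a fixed plane. -/

open MeasureTheory Set Filter Topology Metric
open scoped ENNReal NNReal RealInnerProductSpace ContDiff

namespace Vale.Agent.P218FT

namespace WGraph

/-- the Riesz isomorphism of the plane -/
noncomputable def rz2 : (P2 →L[ℝ] ℝ) →L[ℝ] P2 :=
  LinearMap.toContinuousLinearMap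
    { toFun := fun l => (InnerProductSpace.toDual ℝ P2).symm l
      map_add' := fun a b => map_add _ a b
      map_smul' := fun c l => by simp }

lemma gradient_eq_rz2 (f : P2 → ℝ) : gradient f = fun x => rz2 (fderiv ℝ f x) := rfl

lemma inner_grad2 (f : P2 → ℝ) (x v : P2) : ⟪gradient f x, v⟫ = fderiv ℝ f x v := by
  rw [gradient_eq_rz2]; simp [rz2]

lemma slice_smooth {w : ℝ × E3 → ℝ} (hw : ContDiff ℝ ∞ w) (t : ℝ) :
    ContDiff ℝ ∞ fun y => w (t, y) :=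
  hw.comp (contDiff_const.prodMk contDiff_id)

lemma slice_eqn {M : ℝ → Set E3} {w : ℝ × E3 → ℝ} (hw : ContDiff ℝ ∞ w) {t : ℝ} {x : E3}
    (hg : gradient (fun y => w (t, y)) x ≠ 0)
    (he : ∀ᶠ p : ℝ × E3 in 𝓝 (t, x), p.2 ∈ M p.1 ↔ w p = 0) : IsEqn (M t) x fun y => w (t, y) :=
  ⟨slice_smooth hw t, hg,
    ((continuous_const.prodMk continuous_id).tendsto' x (t, x) rfl).eventually he⟩

lemma inner_slice {w : ℝ × E3 → ℝ} (hw : ContDiff ℝ ∞ w) (t : ℝ) (x v : E3) :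
    ⟪gradient (fun y => w (t, y)) x, v⟫ = fderiv ℝ w (t, x) (0, v) := by
  rw [inner_grad]
  have h1 := (hw.differentiable (by simp) (t, x)).hasFDerivAt
  have h2 := h1.comp x (hasFDerivAt_prodMk_right (𝕜 := ℝ) t x)
  rw [show (fun y => w (t, y)) = w ∘ fun y => (t, y) from rfl, h2.fderiv]
  simp

/-- a vector orthogonal to the tangent plane of a graph -/
lemma orth_expand {J : P2 →ₗᵢ[ℝ] E3} {e : E3} (he : ‖e‖ = 1) (hJ : ∀ a, ⟪J a, e⟫ = 0) {q : P2}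
    {v : E3} (hv : ∀ a, ⟪J a + ⟪q, a⟫ • e, v⟫ = 0) : v = ⟪e, v⟫ • (e - J q) := by
  set b := EuclideanSpace.basisFun (Fin 2) ℝ with hb
  have ht : Triple (J (b 0)) (J (b 1)) e :=
    ⟨by rw [J.norm_map, b.norm_eq_one], by rw [J.norm_map, b.norm_eq_one], he,
      by rw [J.inner_map_map]; exact b.orthonormal.2 (by decide), hJ _, hJ _⟩
  have hq : J q = ⟪q, b 0⟫ • J (b 0) + ⟪q, b 1⟫ • J (b 1) := by
    have := b.sum_repr' q
    rw [Fin.sum_univ_two] at this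
    conv_lhs => rw [← this]
    rw [map_add, map_smul, map_smul, real_inner_comm q, real_inner_comm q]
  have h0 := hv (b 0)
  have h1 := hv (b 1)
  rw [inner_add_left, real_inner_smul_left] at h0 h1
  conv_lhs => rw [ht.expand v]
  rw [hq, eq_neg_of_add_eq_zero_left h0, eq_neg_of_add_eq_zero_left h1]
  module

lemma norm_sq_nrm {J : P2 →ₗᵢ[ℝ] E3} {e : E3} (he : ‖e‖ = 1) (hJ : ∀ a, ⟪J a, e⟫ = 0) (q : P2) :
    ⟪e - J q, e - J q⟫ = 1 + ‖q‖ ^ 2 := by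
  rw [inner_sub_left, inner_sub_right, inner_sub_right, real_inner_self_eq_norm_sq, he, hJ,
    real_inner_comm, hJ, real_inner_self_eq_norm_sq, J.norm_map]
  ring

/-- the trace of the shape operator of a graph -/
lemma trace_graph {J : P2 →ₗᵢ[ℝ] E3} {e : E3} (he : ‖e‖ = 1) (hJ : ∀ a, ⟪J a, e⟫ = 0) {q : P2}
    {n : E3} (hn : ‖n‖ = 1) (hv : ∀ a, ⟪J a + ⟪q, a⟫ • e, n⟫ = 0) {S : E3 →L[ℝ] E3}
    (hS : ∀ u v, ⟪S u, v⟫ = ⟪S (pt n u), pt n v⟫) {H : P2 →L[ℝ] P2} {c : ℝ}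
    (hA : ∀ a b, ⟪S (J a + ⟪q, a⟫ • e), J b + ⟪q, b⟫ • e⟫ = ⟪H a, b⟫ * c) :
    tr S = c * (LinearMap.trace ℝ P2 H.toLinearMap - ⟪H q, q⟫ / (1 + ‖q‖ ^ 2)) := by
  set b := EuclideanSpace.basisFun (Fin 2) ℝ with hb
  have ht : Triple (J (b 0)) (J (b 1)) e :=
    ⟨by rw [J.norm_map, b.norm_eq_one], by rw [J.norm_map, b.norm_eq_one], he,
      by rw [J.inner_map_map]; exact b.orthonormal.2 (by decide), hJ _, hJ _⟩
  have hne := orth_expand he hJ hv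
  set m := ⟪e, n⟫ with hm
  have hk : m ^ 2 * (1 + ‖q‖ ^ 2) = 1 := by
    have h1 : ⟪n, n⟫ = 1 := by rw [real_inner_self_eq_norm_sq, hn]; norm_num
    rw [hne, real_inner_smul_left, real_inner_smul_right, norm_sq_nrm he hJ] at h1
    linarith
  have hqq : ⟪q, q⟫ = ‖q‖ ^ 2 := real_inner_self_eq_norm_sq q
  have hpe : pt n e = J (m ^ 2 • q) + ⟪q, m ^ 2 • q⟫ • e := by
    rw [pt_apply, real_inner_comm, ← hm, real_inner_smul_right, hqq, map_smul]
    have h2 : m ^ 2 * ‖q‖ ^ 2 = 1 - m ^ 2 := by linarith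
    rw [h2]
    conv_lhs => rw [hne]
    module
  have hpJ : ∀ a, pt n (J a) =
      J (a - (m ^ 2 * ⟪q, a⟫) • q) + ⟪q, a - (m ^ 2 * ⟪q, a⟫) • q⟫ • e := by
    intro a
    have h1 : pt n (J a + ⟪q, a⟫ • e) = J a + ⟪q, a⟫ • e :=
      pt_of_orth (by rw [real_inner_comm]; exact hv a)
    rw [map_add, map_smul, hpe] at h1
    rw [eq_sub_of_add_eq h1, inner_sub_right, real_inner_smul_right, real_inner_smul_right, map_sub,
      map_smul, map_smul]
    module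
  have htr : LinearMap.trace ℝ P2 H.toLinearMap = ⟪H (b 0), b 0⟫ + ⟪H (b 1), b 1⟫ := by
    rw [LinearMap.trace_eq_sum_inner _ b, Fin.sum_univ_two]
    simp only [ContinuousLinearMap.coe_coe, real_inner_comm]
  have hq : q = ⟪q, b 0⟫ • b 0 + ⟪q, b 1⟫ • b 1 := by
    have := b.sum_repr' q
    rw [Fin.sum_univ_two] at this
    conv_lhs => rw [← this]
    rw [real_inner_comm q, real_inner_comm q]
  have hn2 : ‖q‖ ^ 2 = ⟪q, b 0⟫ ^ 2 + ⟪q, b 1⟫ ^ 2 := by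
    rw [← hqq]
    have h1 := congrArg (fun v => ⟪q, v⟫) hq
    simp only [inner_add_right, real_inner_smul_right] at h1
    linarith
  have hl : ⟪H q, q⟫ = ⟪q, b 0⟫ * ⟪H (b 0), q⟫ + ⟪q, b 1⟫ * ⟪H (b 1), q⟫ := by
    have h1 := congrArg (fun v => ⟪H v, q⟫) hq
    simpa only [map_add, map_smul, inner_add_left, real_inner_smul_left] using h1
  have hr : ⟪H q, q⟫ = ⟪q, b 0⟫ * ⟪H q, b 0⟫ + ⟪q, b 1⟫ * ⟪H q, b 1⟫ := by
    have h1 := congrArg (fun v => ⟪H q, v⟫) hq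
    simpa only [inner_add_right, real_inner_smul_right] using h1
  have hpos : 1 + ‖q‖ ^ 2 ≠ 0 := by positivity
  have hdiv : ⟪H q, q⟫ / (1 + ‖q‖ ^ 2) = m ^ 2 * ⟪H q, q⟫ := by
    rw [div_eq_iff hpos]
    linear_combination (-⟪H q, q⟫) * hk
  rw [ht.tr_eq, hS (J (b 0)), hS (J (b 1)), hS e, hpJ, hpJ, hpe, hA, hA, hA, htr, hdiv]
  simp only [map_sub, map_smul, inner_sub_left, inner_sub_right, real_inner_smul_left,
    real_inner_smul_right]
  rw [hn2] at hk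
  linear_combination (c * m ^ 2) * hl + (c * m ^ 2) * hr + (c * m ^ 2 * ⟪H q, q⟫) * hk

section static

variable {f : E3 → ℝ} {u : P2 → ℝ} {ξ₀ : P2} {x₀ e : E3} {J : P2 →ₗᵢ[ℝ] E3}

lemma hasFDerivAt_graph {ξ : P2} (hu : DifferentiableAt ℝ u ξ) :
    HasFDerivAt (fun η => x₀ + J η + u η • e)
      (J.toContinuousLinearMap + (fderiv ℝ u ξ).smulRight e) ξ :=
  (J.toContinuousLinearMap.hasFDerivAt.const_add x₀).add (hu.hasFDerivAt.smul_const e)

lemma first_order (hf : ContDiff ℝ 2 f) {ξ : P2} (hu : DifferentiableAt ℝ u ξ)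
    (h0 : ∀ᶠ η in 𝓝 ξ, f (x₀ + J η + u η • e) = 0) (a : P2) :
    ⟪gradient f (x₀ + J ξ + u ξ • e), J a + ⟪gradient u ξ, a⟫ • e⟫ = 0 := by
  have h1 := ((hf.differentiable (by norm_num)) (x₀ + J ξ + u ξ • e)).hasFDerivAt.comp ξ
    (hasFDerivAt_graph (x₀ := x₀) (J := J) (e := e) hu)
  have h2 : HasFDerivAt (f ∘ fun η => x₀ + J η + u η • e) (0 : P2 →L[ℝ] ℝ) ξ :=
    (hasFDerivAt_const (0 : ℝ) ξ).congr_of_eventuallyEq h0
  have h3 := congrArg (fun L : P2 →L[ℝ] ℝ => L a) (h1.unique h2)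
  rw [inner_grad, inner_grad2]
  simpa using h3

lemma second_order (hf : ContDiff ℝ 2 f) (hu : ContDiffAt ℝ 2 u ξ₀)
    (h0 : ∀ᶠ η in 𝓝 ξ₀, f (x₀ + J η + u η • e) = 0) (a b : P2) :
    ⟪fderiv ℝ (gradient f) (x₀ + J ξ₀ + u ξ₀ • e) (J a + ⟪gradient u ξ₀, a⟫ • e),
        J b + ⟪gradient u ξ₀, b⟫ • e⟫ +
      ⟪fderiv ℝ (gradient u) ξ₀ a, b⟫ * ⟪gradient f (x₀ + J ξ₀ + u ξ₀ • e), e⟫ = 0 := by
  have hud : ∀ᶠ η in 𝓝 ξ₀, DifferentiableAt ℝ u η :=
    (hu.eventually (by simp)).mono fun η h => h.differentiableAt (by norm_num)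
  have hz : ∀ᶠ η in 𝓝 ξ₀,
      ⟪gradient f (x₀ + J η + u η • e), J b + ⟪gradient u η, b⟫ • e⟫ = 0 := by
    filter_upwards [hud, h0.eventually_nhds] with η h1 h2 using first_order hf h1 h2 b
  have hgu : DifferentiableAt ℝ (gradient u) ξ₀ := by
    rw [gradient_eq_rz2]
    exact rz2.differentiableAt.comp ξ₀
      ((hu.fderiv_right (m := 1) (by norm_num)).differentiableAt (by norm_num))
  have h1 := (((contDiff_grad_one hf).differentiable (by norm_num))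
    (x₀ + J ξ₀ + u ξ₀ • e)).hasFDerivAt.comp ξ₀
    (hasFDerivAt_graph (x₀ := x₀) (J := J) (e := e) hud.self_of_nhds)
  have h2 := (((hgu.hasFDerivAt.inner ℝ (hasFDerivAt_const b ξ₀)).smul_const e).const_add (J b))
  have h3 := h1.inner ℝ h2
  have h4 := (hasFDerivAt_const (𝕜 := ℝ) (0 : ℝ) ξ₀).congr_of_eventuallyEq hz
  have h5 := congrArg (fun L : P2 →L[ℝ] ℝ => L a) (h3.unique h4)
  simp only [ContinuousLinearMap.comp_apply, fderivInnerCLM_apply, ContinuousLinearMap.prod_apply,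
    ContinuousLinearMap.smulRight_apply, add_apply, Function.comp,
    LinearIsometry.coe_toContinuousLinearMap, zero_apply, inner_zero_right,
    zero_add, real_inner_smul_right, ← inner_grad2] at h5
  linarith

end static

/-- the local graph given by the implicit function theorem -/
lemma local_graph {M : ℝ → Set E3} {I : Set ℝ} (hM : IsMCF M I) {x₀ : E3} {J : P2 →ₗᵢ[ℝ] E3}
    {e : E3} {ρ : ℝ} {p₀ : P2 × ℝ} (hp : GoodAt M I x₀ J e ρ p₀) :
    ∃ φ : P2 × ℝ → ℝ, ContDiffAt ℝ ∞ φ p₀ ∧ ∀ᶠ p in 𝓝 p₀, p.2 ∈ I ∧ |φ p| < ρ ∧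
      x₀ + J p.1 + φ p • e ∈ M p.2 ∧ ⟪nu (M p.2) (x₀ + J p.1 + φ p • e), e⟫ ≠ 0 ∧
      ∀ z' : ℝ, |z'| ≤ ρ → x₀ + J p.1 + z' • e ∈ M p.2 → z' = φ p := by
  obtain ⟨hI, z, hz, hmem, htr, huniq⟩ := hp
  obtain ⟨w, hw, hg, hev, -⟩ := hM.loc _ hI _ hmem
  set Ψ : (P2 × ℝ) × ℝ → ℝ × E3 := fun v => (v.1.2, x₀ + J v.1.1 + v.2 • e) with hΨ
  have hΨs : ContDiff ℝ ∞ Ψ := by
    have hJ : ContDiff ℝ ∞ fun a : P2 => J a := J.toContinuousLinearMap.contDiff
    simp only [hΨ]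
    fun_prop
  have hW : ContDiffAt ℝ ∞ (w ∘ Ψ) (p₀, z) := (hw.comp hΨs).contDiffAt
  have heq := slice_eqn hw hg hev
  have hc : fderiv ℝ w (p₀.2, x₀ + J p₀.1 + z • e) (0, e) ≠ 0 := by
    rw [← inner_slice hw]
    intro h0
    obtain ⟨ε, -, h1, -⟩ := heq.nu_sh hmem
    apply htr
    rw [h1, nuw, real_inner_smul_left, real_inner_smul_left, h0, mul_zero, mul_zero]
  have hinv : (fderiv ℝ (w ∘ Ψ) (p₀, z) ∘L ContinuousLinearMap.inr ℝ (P2 × ℝ) ℝ).IsInvertible := by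
    have h1 : HasDerivAt (fun s : ℝ => Ψ (p₀, s)) ((0 : ℝ), e) z := by
      have h0 : HasDerivAt (fun s : ℝ => x₀ + J p₀.1 + s • e) e z := by
        simpa using ((hasDerivAt_id z).smul_const e).const_add (x₀ + J p₀.1)
      exact (hasDerivAt_const z p₀.2).prodMk h0
    have h2 := (hw.differentiable (by simp) (Ψ (p₀, z))).hasFDerivAt.comp_hasDerivAt z h1
    have h3 := (hW.differentiableAt (by simp)).hasFDerivAt.comp z
      (hasFDerivAt_prodMk_right (𝕜 := ℝ) p₀ z)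
    have h4 := h3.unique h2.hasFDerivAt
    refine ⟨ContinuousLinearEquiv.unitsEquivAut ℝ (Units.mk0 _ hc), ?_⟩
    rw [h4]
    ext
    simp [hΨ]
  set φ := hW.implicitFunction (by simp) hinv with hφ
  have hφs : ContDiffAt ℝ ∞ φ p₀ := hW.contDiffAt_implicitFunction (by simp) hinv
  have hφ0 : φ p₀ = z := hW.implicitFunction_apply_self (by simp) hinv
  have hw0 : (w ∘ Ψ) (p₀, z) = 0 := hev.self_of_nhds.1 hmem
  have hiff := hW.eventually_apply_eq_iff_implicitFunction (by simp) hinv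
  have happ := hW.eventually_apply_implicitFunction (by simp) hinv
  rw [hw0] at hiff happ
  have hT : Tendsto (fun p => Ψ (p, φ p)) (𝓝 p₀) (𝓝 (p₀.2, x₀ + J p₀.1 + z • e)) := by
    have h1 : ContinuousAt (fun p => Ψ (p, φ p)) p₀ :=
      hΨs.continuous.continuousAt.comp (continuousAt_id.prodMk hφs.continuousAt)
    have h2 := h1.tendsto
    rwa [hφ0] at h2
  have hcont : Continuous fun v : ℝ × E3 => fderiv ℝ w v (0, e) :=
    (hw.continuous_fderiv (by simp)).clm_apply continuous_const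
  have e1 : ∀ᶠ p : P2 × ℝ in 𝓝 p₀, p.2 ∈ I :=
    continuous_snd.continuousAt.eventually (hM.isOpen.mem_nhds hI)
  have e2 : ∀ᶠ p in 𝓝 p₀, |φ p| < ρ :=
    hφs.continuousAt.abs.eventually_lt_const (by simpa only [hφ0] using hz)
  have e3 := hT.eventually hev.eventually_nhds
  have e4 := hT.eventually (hcont.continuousAt.eventually_ne hc)
  have e5 : ∀ᶠ p in 𝓝 p₀, ∀ z' ∈ Icc (-ρ) ρ, x₀ + J p.1 + z' • e ∈ M p.2 → z' = φ p := by
    refine isCompact_Icc.eventually_forall_of_forall_eventually fun z' hz' => ?_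
    by_cases hzz : z' = z
    · subst hzz
      filter_upwards [hiff, hΨs.continuous.continuousAt.eventually hev] with v h1 h2 h3
      exact (h1.1 (h2.1 h3)).symm
    · have hn : x₀ + J p₀.1 + z' • e ∉ M p₀.2 := fun h => hzz (huniq z' (abs_le.2 hz') h)
      have h1 := (hΨs.continuous.tendsto (p₀, z')).eventually (hM.closed _ hI _ hn)
      filter_upwards [h1] with v h2 h3 using absurd h3 h2
  refine ⟨φ, hφs, ?_⟩
  filter_upwards [e1, e2, e3, e4, e5, happ] with p h1 h2 h3 h4 h5 h6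
  have hm : x₀ + J p.1 + φ p • e ∈ M p.2 := h3.self_of_nhds.2 h6
  refine ⟨h1, h2, hm, ?_, fun z' hz' => h5 z' (abs_le.1 hz')⟩
  have h7 : ⟪gradient (fun y => w (p.2, y)) (x₀ + J p.1 + φ p • e), e⟫ ≠ 0 := by
    rw [inner_slice hw]; exact h4
  have h8 : gradient (fun y => w (p.2, y)) (x₀ + J p.1 + φ p • e) ≠ 0 := fun h =>
    h7 (by rw [h, inner_zero_left])
  obtain ⟨ε, hε, h9, -⟩ := (slice_eqn hw h8 h3).nu_sh hm
  rw [h9, nuw, real_inner_smul_left, real_inner_smul_left]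
  refine mul_ne_zero ?_ (mul_ne_zero (inv_ne_zero (norm_ne_zero_iff.2 h8)) h7)
  rcases hε with h | h <;> simp [h]

/-- the identities satisfied by a smooth graph contained in the flow -/
lemma graph_identities {M : ℝ → Set E3} {I : Set ℝ} (hM : IsMCF M I) {x₀ : E3} {J : P2 →ₗᵢ[ℝ] E3}
    {e : E3} (he : ‖e‖ = 1) (hJ : ∀ a, ⟪J a, e⟫ = 0) {h : P2 × ℝ → ℝ} {p : P2 × ℝ} (hI : p.2 ∈ I)
    (hh : ContDiffAt ℝ 2 h p) (hev : ∀ᶠ q in 𝓝 p, x₀ + J q.1 + h q • e ∈ M q.2) :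
    (∀ a, ⟪J a + ⟪gx h p, a⟫ • e, nu (M p.2) (x₀ + J p.1 + h p • e)⟫ = 0) ∧
    (∀ a b, ⟪sh (M p.2) (x₀ + J p.1 + h p • e) (J a + ⟪gx h p, a⟫ • e), J b + ⟪gx h p, b⟫ • e⟫ =
      ⟪hx h p a, b⟫ * ⟪e, nu (M p.2) (x₀ + J p.1 + h p • e)⟫) ∧ GEq h p := by
  obtain ⟨ξ, t⟩ := p
  have hmem : x₀ + J ξ + h (ξ, t) • e ∈ M t := hev.self_of_nhds
  obtain ⟨w, hw, hg, hwe, hwt⟩ := hM.loc t hI _ hmem
  have heq := slice_eqn hw hg hwe
  have hu : ContDiffAt ℝ 2 (fun η => h (η, t)) ξ :=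
    hh.comp ξ (contDiffAt_id.prodMk contDiffAt_const)
  have hX : Tendsto (fun η => x₀ + J η + h (η, t) • e) (𝓝 ξ) (𝓝 (x₀ + J ξ + h (ξ, t) • e)) :=
    (hasFDerivAt_graph (x₀ := x₀) (J := J) (e := e)
      (hu.differentiableAt (by norm_num))).continuousAt
  have hsl : ∀ᶠ η in 𝓝 ξ, x₀ + J η + h (η, t) • e ∈ M t :=
    ((continuous_id.prodMk continuous_const).tendsto' ξ (ξ, t) rfl).eventually hev
  have zero : ∀ f, IsEqn (M t) (x₀ + J ξ + h (ξ, t) • e) f →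
      ∀ᶠ η in 𝓝 ξ, f (x₀ + J η + h (η, t) • e) = 0 := by
    intro f hf
    filter_upwards [hsl, hX.eventually hf.2.2] with η h1 h2 using h2.1 h1
  have hf := heq.isEqn_eqn
  have hn : ‖nu (M t) (x₀ + J ξ + h (ξ, t) • e)‖ = 1 := norm_nuw hf.2.1
  have k1 : ∀ a, ⟪J a + ⟪gx h (ξ, t), a⟫ • e, nu (M t) (x₀ + J ξ + h (ξ, t) • e)⟫ = 0 := by
    intro a
    have := first_order hf.two (hu.differentiableAt (by norm_num)) (zero _ hf) a
    rw [nu, nuw, real_inner_smul_right, real_inner_comm]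
    exact mul_eq_zero_of_right _ this
  have k2 : ∀ a b, ⟪sh (M t) (x₀ + J ξ + h (ξ, t) • e) (J a + ⟪gx h (ξ, t), a⟫ • e),
      J b + ⟪gx h (ξ, t), b⟫ • e⟫ =
      ⟪hx h (ξ, t) a, b⟫ * ⟪e, nu (M t) (x₀ + J ξ + h (ξ, t) • e)⟫ := by
    intro a b
    have h2 := second_order hf.two hu (zero _ hf) a b
    have ha := k1 a
    have hb := k1 b
    rw [real_inner_comm, nu] at ha hb
    rw [sh, inner_shw, pt_of_orth ha, pt_of_orth hb, nu, nuw, real_inner_smul_right,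
      real_inner_comm _ e]
    have h3 := eq_neg_of_add_eq_zero_left h2
    change -_ * ⟪fderiv ℝ _ _ (J a + ⟪gradient (fun η => h (η, t)) ξ, a⟫ • e),
      J b + ⟪gradient (fun η => h (η, t)) ξ, b⟫ • e⟫ =
      ⟪fderiv ℝ (gradient fun η => h (η, t)) ξ a, b⟫ * _
    rw [h3]
    ring
  refine ⟨k1, k2, ?_⟩
  have htr := trace_graph he hJ hn k1 (S := sh (M t) (x₀ + J ξ + h (ξ, t) • e))
    (fun u v => by
      rw [sh, nu, inner_shw, inner_shw, pt_pt (norm_nuw hf.2.1), pt_pt (norm_nuw hf.2.1)]) k2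
  have hne := orth_expand he hJ k1
  have hge := orth_expand (q := gx h (ξ, t)) he hJ (fun a => by
    rw [real_inner_comm]
    exact first_order heq.two (hu.differentiableAt (by norm_num)) (zero _ heq) a)
  set g := gradient (fun y => w (t, y)) (x₀ + J ξ + h (ξ, t) • e) with hgdef
  set n := nu (M t) (x₀ + J ξ + h (ξ, t) • e) with hndef
  have hge0 : ⟪e, g⟫ ≠ 0 := fun h0 => hg (by rw [hge, h0, zero_smul])
  have hk : ⟪e, n⟫ ^ 2 * (1 + ‖gx h (ξ, t)‖ ^ 2) = 1 := by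
    have h1 : ⟪n, n⟫ = 1 := by rw [real_inner_self_eq_norm_sq, hn]; norm_num
    conv_lhs at h1 => rw [hne]
    rw [real_inner_smul_left, real_inner_smul_right, norm_sq_nrm he hJ] at h1
    linarith
  have hgn : ⟪g, n⟫ = ⟪e, g⟫ * ⟪e, n⟫ * (1 + ‖gx h (ξ, t)‖ ^ 2) := by
    conv_lhs => rw [hge, hne]
    rw [real_inner_smul_left, real_inner_smul_right, norm_sq_nrm he hJ]
    ring
  have hs : DifferentiableAt ℝ (fun s => h (ξ, s)) t :=
    (hh.differentiableAt (by norm_num)).comp t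
      ((differentiableAt_const ξ).prodMk differentiableAt_id)
  have hwd := (hw.differentiable (by simp) (t, x₀ + J ξ + h (ξ, t) • e)).hasFDerivAt
  have d1 : HasDerivAt (fun s => (s, x₀ + J ξ + h (ξ, s) • e))
      ((1 : ℝ), deriv (fun s => h (ξ, s)) t • e) t :=
    (hasDerivAt_id t).prodMk ((hs.hasDerivAt.smul_const e).const_add _)
  have d2 := hwd.comp_hasDerivAt t d1
  have d3 : HasDerivAt (w ∘ fun s => (s, x₀ + J ξ + h (ξ, s) • e)) 0 t := by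
    refine (hasDerivAt_const t (0 : ℝ)).congr_of_eventuallyEq ?_
    filter_upwards [((continuous_const.prodMk continuous_id).tendsto' t (ξ, t) rfl).eventually hev,
      d1.continuousAt.eventually hwe] with s h1 h2 using h2.1 h1
  have d4 := d2.unique d3
  have d5 : HasDerivAt (fun s => w (s, x₀ + J ξ + h (ξ, t) • e))
      (fderiv ℝ w (t, x₀ + J ξ + h (ξ, t) • e) (1, 0)) t :=
    hwd.comp_hasDerivAt t ((hasDerivAt_id t).prodMk (hasDerivAt_const t _))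
  have d6 : ((1 : ℝ), deriv (fun s => h (ξ, s)) t • e) =
      ((1 : ℝ), (0 : E3)) + deriv (fun s => h (ξ, s)) t • ((0 : ℝ), e) := by simp
  rw [d6, map_add, map_smul, ← d5.deriv, hwt, ← inner_slice hw, Hv, real_inner_smul_right,
    ← hndef, ← hgdef, hgn, htr, real_inner_comm e g, smul_eq_mul] at d4
  refine mul_left_cancel₀ hge0 ?_
  change ⟪e, g⟫ * deriv (fun s => h (ξ, s)) t = _
  linear_combination d4 + (⟪e, g⟫ * (LinearMap.trace ℝ P2 (hx h (ξ, t)).toLinearMap -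
    ⟪hx h (ξ, t) (gx h (ξ, t)), gx h (ξ, t)⟫ / (1 + ‖gx h (ξ, t)‖ ^ 2))) * hk

end WGraph

open WGraph in
theorem graph_proof : GraphStmt := by
  intro M I hM x₀ J e ρ he hJ
  refine ⟨isOpen_iff_mem_nhds.2 fun p hp => ?_, ?_⟩
  · obtain ⟨φ, -, hev⟩ := local_graph hM hp
    filter_upwards [hev] with q hq using ⟨hq.1, φ q, hq.2⟩
  classical
  set h : P2 × ℝ → ℝ := fun p => if hp : GoodAt M I x₀ J e ρ p then hp.2.choose else 0 with hh
  have key : ∀ p, GoodAt M I x₀ J e ρ p → ContDiffAt ℝ ∞ h p ∧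
      ∀ᶠ q in 𝓝 p, |h q| < ρ ∧ x₀ + J q.1 + h q • e ∈ M q.2 := by
    intro p hp
    obtain ⟨φ, hφ, hev⟩ := local_graph hM hp
    have heq : h =ᶠ[𝓝 p] φ := by
      filter_upwards [hev] with q hq
      have hg : GoodAt M I x₀ J e ρ q := ⟨hq.1, φ q, hq.2⟩
      have hs := hg.2.choose_spec
      simp only [hh, dif_pos hg]
      exact hq.2.2.2.2 _ hs.1.le hs.2.1
    refine ⟨hφ.congr_of_eventuallyEq heq, ?_⟩
    filter_upwards [hev, heq] with q hq hq'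
    rw [hq']
    exact ⟨hq.2.1, hq.2.2.1⟩
  refine ⟨h, fun p hp => (key p hp).1.contDiffWithinAt, fun p hp => ?_⟩
  obtain ⟨h1, h2⟩ := key p hp
  exact ⟨h2.self_of_nhds.1, h2.self_of_nhds.2,
    graph_identities hM he hJ hp.1 (h1.of_le two_le_inf) (h2.mono fun q hq => hq.2)⟩

end Vale.Agent.P218FT
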