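import Vale.Agent.P218FT.ConvB
import Vale.Agent.P218FT.ConvC
import Vale.Agent.P218FT.IntAll
import Vale.Agent.P218FT.WGraph
import Vale.Agent.P218F.EndsSpec

/-! Compactness of flows with two-point bounds. -/

open Set Filter Topology Metric
open scoped ContDiff RealInnerProductSpace

namespace Vale.Agent.P218FT.Conv

open Vale.Agent.P218FT.Chart

variable {ι : Type}

/-- globally smooth representatives -/
lemma globalise {E F : Type} [NormedAddCommGroup E] [NormedSpace ℝ E] [FiniteDimensional ℝ E]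
    [NormedAddCommGroup F] [NormedSpace ℝ F] {U : Filter ι} {W : Set E} {f : ι → E → F} {g : E → F}
    (h : CInf U W f g) (hW : IsOpen W) {x : E} (hx : x ∈ W) :
    ∃ (δ : ℝ) (f' : ι → E → F) (g' : E → F), 0 < δ ∧ ball x δ ⊆ W ∧ (∀ i, ContDiff ℝ ∞ (f' i)) ∧
      ContDiff ℝ ∞ g' ∧ CInf U (ball x δ) f' g' ∧ (∀ᶠ i in U, ∀ y ∈ ball x δ, f' i y = f i y) ∧
      ∀ y ∈ ball x δ, g' y = g y := by
  classical
  obtain ⟨r, hr, hb⟩ := nhds_basis_closedBall.mem_iff.1 (hW.mem_nhds hx)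
  let φ : ContDiffBump x := ⟨r / 2, r, half_pos hr, half_lt_self hr⟩
  have key : ∀ a : E → F, ContDiffOn ℝ ∞ a W → ContDiff ℝ ∞ fun y => φ y • a y := by
    intro a ha
    refine contDiff_iff_contDiffAt.2 fun y => ?_
    by_cases hy : y ∈ closedBall x r
    · exact φ.contDiffAt.smul (ha.contDiffAt (hW.mem_nhds (hb hy)))
    · have : ∀ᶠ y' in 𝓝 y, φ y' • a y' = 0 := by
        filter_upwards [isClosed_closedBall.isOpen_compl.mem_nhds hy] with y' hy'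
        have : φ y' = 0 := φ.zero_of_le_dist (not_le.1 (mt mem_closedBall.2 hy')).le
        rw [this, zero_smul]
      exact contDiffAt_const.congr_of_eventuallyEq this
  have h1 : ∀ y ∈ ball x (r / 2), φ y = 1 := fun y hy =>
    φ.one_of_mem_closedBall (ball_subset_closedBall hy)
  have hsub : ball x (r / 2) ⊆ W :=
    (ball_subset_closedBall.trans (closedBall_subset_closedBall (by linarith))).trans hb
  let f' : ι → E → F := fun i => if ContDiffOn ℝ ∞ (f i) W then fun y => φ y • f i y else 0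
  have e1 : ∀ᶠ i in U, ∀ y ∈ ball x (r / 2), f' i y = f i y := h.smooth.mono fun i hi y hy => by
    simp only [f', if_pos hi, h1 y hy, one_smul]
  have e2 : ∀ y ∈ ball x (r / 2), φ y • g y = g y := fun y hy => by rw [h1 y hy, one_smul]
  refine ⟨r / 2, f', fun y => φ y • g y, half_pos hr, hsub, fun i => ?_, key g h.smooth_lim,
    (h.mono hsub).congr isOpen_ball (e1.mono fun i hi y hy => (hi y hy).symm)
      fun y hy => (e2 y hy).symm, e1, e2⟩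
  by_cases hi : ContDiffOn ℝ ∞ (f i) W
  · simp only [f', if_pos hi]
    exact key _ hi
  · simp only [f', if_neg hi]
    exact contDiff_const

/-- the equations `ℓ q = h i (A q)` of a smoothly converging family of graphs -/
lemma exists_equations {X Z : Type} [NormedAddCommGroup X] [NormedSpace ℝ X] [FiniteDimensional ℝ X]
    [NormedAddCommGroup Z] [NormedSpace ℝ Z] {U : Filter ι} [U.NeBot] {D : Set Z} (hD : IsOpen D)
    {h : ι → Z → ℝ} {h₀ : Z → ℝ} (hh : CInf U D h h₀) {A : X → Z} (hA : ContDiff ℝ ∞ A)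
    {ℓ : X → ℝ} (hℓ : ContDiff ℝ ∞ ℓ) {q₀ : X} {δ₀ : ℝ} (hδ₀ : 0 < δ₀)
    (hm : ∀ q ∈ ball q₀ δ₀, A q ∈ D) :
    ∃ (δ : ℝ) (w : ι → X → ℝ) (v : X → ℝ), 0 < δ ∧ ball q₀ δ ⊆ ball q₀ δ₀ ∧
      (∀ i, ContDiff ℝ ∞ (w i)) ∧ ContDiff ℝ ∞ v ∧ CInf U (ball q₀ δ) w v ∧
      (∀ᶠ i in U, ∀ q ∈ ball q₀ δ, w i q = ℓ q - h i (A q)) ∧
      ∀ q ∈ ball q₀ δ, v q = ℓ q - h₀ (A q) := by
  have h1 := hh.comp (cinf_fixed hA isBounded_ball) hD isOpen_ball (convex_ball q₀ δ₀)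
    isBounded_ball (Eventually.of_forall fun _ => hm) hm
  have h2 := (cinf_fixed hℓ isBounded_ball).prodMk h1 isOpen_ball (convex_ball q₀ δ₀) isBounded_ball
  have h3 := h2.comp_smooth (φ := fun z : ℝ × ℝ => z.1 - z.2) (contDiff_fst.sub contDiff_snd)
    isOpen_ball (convex_ball q₀ δ₀) isBounded_ball
  exact globalise h3 isOpen_ball (mem_ball_self hδ₀)

lemma grad_ne_zero {v : E3 → ℝ} {x e : E3} {c : ℝ} (hv : DifferentiableAt ℝ v x)
    (h : ∀ᶠ s : ℝ in 𝓝 0, v (x + s • e) = s - c) : gradient v x ≠ 0 := by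
  intro h0
  have h1 : HasDerivAt (fun s : ℝ => x + s • e) e 0 := by
    simpa using ((hasDerivAt_id (0 : ℝ)).smul_const e).const_add x
  have h2 : HasFDerivAt v (fderiv ℝ v x) (x + (0 : ℝ) • e) := by simpa using hv.hasFDerivAt
  have h3 := h2.comp_hasDerivAt 0 h1
  have h4 := h3.unique (((hasDerivAt_id (0 : ℝ)).sub_const c).congr_of_eventuallyEq h)
  rw [← inner_grad, h0, inner_zero_left] at h4
  exact zero_ne_one h4

/-- zeros of the approximating functions accumulate only at zeros of the limit -/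
lemma zero_of_approx {X : Type} [NormedAddCommGroup X] [NormedSpace ℝ X] {U : Filter ι} [U.NeBot]
    {W : Set X} {w : ι → X → ℝ} {v : X → ℝ} (h : CInf U W w v) (hW : IsOpen W) {q : X} (hq : q ∈ W)
    (hz : ∀ V ∈ 𝓝 q, ∀ᶠ i in U, ∃ p ∈ V, p ∈ W → w i p = 0) : v q = 0 := by
  by_contra h0
  have hp : 0 < |v q| / 2 := half_pos (abs_pos.2 h0)
  have hc : ContinuousAt v q := (h.smooth_lim.continuousOn q hq).continuousAt (hW.mem_nhds hq)
  have h1 : ∀ᶠ p in 𝓝 q, p ∈ W ∧ |v q| / 2 < |v p| :=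
    (hW.eventually_mem hq).and (hc.abs.eventually (lt_mem_nhds (by linarith)))
  obtain ⟨i, ⟨p, hp1, hp2⟩, hi⟩ :=
    ((hz _ h1).and (Metric.tendstoUniformlyOn_iff.1 h.unif _ hp)).exists
  have h2 := hi p hp1.1
  rw [hp2 hp1.1, dist_zero_right, Real.norm_eq_abs] at h2
  linarith [hp1.2]

/-- graphs over a common plane -/
lemma exists_graphs (U : Ultrafilter ι) {M : ι → ℝ → Set E3} {K : ι → Set ℝ} {r C ρ : ℝ}
    (hC : 0 < C) (hρ : 0 < ρ) (hρr : 10 * ρ ≤ r) (hρC : 600 * (C * ρ) ≤ 1) (x : E3)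
    {t₀ t₁ t₂ : ι → ℝ} {y : ι → E3}
    (h : ∀ᶠ i in U, IsMCF (M i) (K i) ∧ t₀ i ∈ Icc (t₁ i) (t₂ i) ∧ Icc (t₁ i) (t₂ i) ⊆ K i ∧
      (∀ s ∈ Icc (t₁ i) (t₂ i), ∀ z ∈ M i s, ‖z - x‖ ≤ r → TwoPt (M i s) z r C) ∧
      y i ∈ M i (t₀ i) ∧ ‖y i - x‖ ≤ ρ) :
    ∃ (e : E3) (J : P2 →L[ℝ] E3) (pr : E3 →L[ℝ] P2) (f : ι → P2 × ℝ → ℝ), Frame e J pr ∧
      ∀ᶠ i in U, ∃ O : Set (P2 × ℝ), IsOpen O ∧ ContDiffOn ℝ ∞ (f i) O ∧
        cyl (pr (y i - x)) (t₀ i) (t₁ i) (t₂ i) ρ ⊆ O ∧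
        ∀ p ∈ cyl (pr (y i - x)) (t₀ i) (t₁ i) (t₂ i) ρ, GEq (f i) p ∧ ‖gx (f i) p‖ ≤ 1 ∧
          ‖hx (f i) p‖ ≤ 16 * C ∧ |f i p| ≤ 3 * ρ ∧
          ∀ z : ℝ, |z| ≤ 6 * ρ → (x + J p.1 + z • e ∈ M i p.2 ↔ z = f i p) := by
  classical
  obtain ⟨e, he, hlim⟩ := (isCompact_sphere (0 : E3) 1).ultrafilter_le_nhds
    (U.map fun i => nu (M i (t₀ i)) (y i)) (by
      rw [le_principal_iff, Ultrafilter.mem_coe, Ultrafilter.mem_map]
      exact h.mono fun i hi => mem_sphere_zero_iff_norm.2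
        ((hi.1.isSurf (hi.2.2.1 hi.2.1)).norm_nu hi.2.2.2.2.1))
  have hlim' : Tendsto (fun i => nu (M i (t₀ i)) (y i)) U (𝓝 e) := hlim
  obtain ⟨J, pr, F⟩ := exists_frame (mem_sphere_zero_iff_norm.1 he)
  have h1 : ∀ᶠ i in U, 16 / 17 ≤ ⟪nu (M i (t₀ i)) (y i), e⟫ ^ 2 := by
    have := (hlim'.inner (𝕜 := ℝ) (tendsto_const_nhds (x := e))).pow 2
    rw [F.inner_n] at this
    exact this.eventually_const_le (by norm_num)
  let P : ι → (P2 × ℝ → ℝ) → Prop := fun i f => ∃ O : Set (P2 × ℝ), IsOpen O ∧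
    ContDiffOn ℝ ∞ f O ∧ cyl (pr (y i - x)) (t₀ i) (t₁ i) (t₂ i) ρ ⊆ O ∧
    ∀ p ∈ cyl (pr (y i - x)) (t₀ i) (t₁ i) (t₂ i) ρ, GEq f p ∧ ‖gx f p‖ ≤ 1 ∧
      ‖hx f p‖ ≤ 16 * C ∧ |f p| ≤ 3 * ρ ∧
      ∀ z : ℝ, |z| ≤ 6 * ρ → (x + J p.1 + z • e ∈ M i p.2 ↔ z = f p)
  have h2 : ∀ᶠ i in U, ∃ f, P i f := by
    filter_upwards [h, h1] with i hi hi1
    have e1 : x + J (pr (y i - x)) + ⟪e, y i - x⟫ • e = y i := by
      rw [add_assoc, F.decomp, add_sub_cancel]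
    refine exists_cyl graph_proof hC hρ hρr hρC hi.1 x F hi.2.1 hi.2.2.1 hi.2.2.2.1
      (z₀ := ⟪e, y i - x⟫) ((F.norm_pr_le _).trans hi.2.2.2.2.2) ?_ (e1.symm ▸ hi.2.2.2.2.1)
      (e1.symm ▸ hi1)
    refine (abs_real_inner_le_norm _ _).trans ?_
    rw [F.unit, one_mul]
    exact hi.2.2.2.2.2
  refine ⟨e, J, pr, fun i => if hi : ∃ f, P i f then hi.choose else 0, F, h2.mono fun i hi => ?_⟩
  simp only [dif_pos hi]
  exact hi.choose_spec

lemma twoPt_mono' {N : Set E3} {x : E3} {r r' C C' : ℝ} (h : TwoPt N x r C) (hr : r' ≤ r)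
    (hC : C ≤ C') : TwoPt N x r' C' := fun y hy h1 =>
  (h y hy (h1.trans hr)).trans (mul_le_mul_of_nonneg_right hC (sq_nonneg _))

lemma exists_rho {r C : ℝ} (hr : 0 < r) (hC : 1 ≤ C) :
    ∃ ρ : ℝ, 0 < ρ ∧ 10 * ρ ≤ r ∧ 600 * (C * ρ) ≤ 1 ∧ ρ ≤ 1 := by
  have h1 : min (r / 10) (1 / (600 * C)) ≤ 1 / (600 * C) := min_le_right _ _
  have h2 : 0 < min (r / 10) (1 / (600 * C)) := lt_min (by positivity) (by positivity)
  rw [le_div_iff₀ (by positivity)] at h1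
  exact ⟨_, h2, by linarith [min_le_left (r / 10) (1 / (600 * C))], by linarith, by nlinarith⟩

/-- the limit of smoothly converging flows is a flow -/
theorem _root_.Vale.Agent.P218FT.SLim.isMCF {U : Filter ι} [U.NeBot] {M : ι → ℝ → Set E3}
    {K : ι → Set ℝ} {L : ℝ → Set E3} {I : Set ℝ} (h : SLim U M L I) (hI : IsOpen I)
    (hM : ∀ᶠ i in U, IsMCF (M i) (K i)) (hK : ∀ t ∈ I, ∀ᶠ i in U, t ∈ K i) : IsMCF L I := by
  refine ⟨hI, fun t ht x hx => ?_, fun t ht x hx => ?_⟩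
  · obtain ⟨W, hW, h1⟩ := h.out t ht x hx
    filter_upwards [interior_mem_nhds.2 hW,
      continuous_fst.continuousAt.eventually (hI.mem_nhds ht)] with q hq hqI hqL
    obtain ⟨y, y1, y2⟩ := (h.slice_const hqI).exists_seq hqL
    have h2 : Tendsto (fun i => (q.1, y i)) U (𝓝 q) := tendsto_const_nhds.prodMk_nhds y1
    obtain ⟨i, a1, a2, a3⟩ :=
      (h1.and (y2.and (h2.eventually (mem_interior_iff_mem_nhds.1 hq)))).exists
    exact a1 _ a3 a2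
  · obtain ⟨W, w, v, h1, h2, h3, h4, h5, h6, h7, h8⟩ := h.loc t ht x hx
    refine ⟨v, h4, h6, mem_of_superset (h1.mem_nhds h2) h7, ?_⟩
    obtain ⟨y, y1, y2⟩ := (h.slice_const ht).exists_seq hx
    have a1 : Tendsto (fun i => (t, y i)) U (𝓝 (t, x)) := tendsto_const_nhds.prodMk_nhds y1
    have a2 := (h5.fderiv h1).tendsto_comp h1 h2 a1
    have eg : ∀ (u : ℝ × E3 → ℝ), ContDiff ℝ ∞ u → ∀ z : E3, gradient (sl u t) z =
        rz ((fderiv ℝ u (t, z)).comp (ContinuousLinearMap.inr ℝ ℝ E3)) := fun u hu z => by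
      rw [gradient_eq_rz, ← fderiv_sl hu]
    have a3 : Tendsto (fun i => gradient (sl (w i) t) (y i)) U (𝓝 (gradient (sl v t) x)) := by
      simp only [eg _ (h3 _), eg _ h4]
      have : Continuous fun A : ℝ × E3 →L[ℝ] ℝ => rz (A.comp (ContinuousLinearMap.inr ℝ ℝ E3)) :=
        rz.continuous.comp (continuous_id.clm_comp continuous_const)
      exact (this.tendsto _).comp a2
    have a4 : Tendsto (fun i => fderiv ℝ (w i) (t, y i) (1, 0)) U (𝓝 (fderiv ℝ v (t, x) (1, 0))) :=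
      ((ContinuousLinearMap.apply ℝ ℝ ((1 : ℝ), (0 : E3))).continuous.tendsto _).comp a2
    have a5 := (a3.inner (𝕜 := ℝ) ((h.slice_const ht).tendsto_Hv hx y1 y2)).neg
    rw [deriv_time h4]
    refine tendsto_nhds_unique a4 (a5.congr' ?_)
    filter_upwards [hM, hK t ht, y2, h8, a3.eventually_ne h6, a1.eventually (h1.mem_nhds h2)]
      with i b1 b2 b3 b4 b5 b6
    rw [← deriv_time (h3 i)]
    exact (b1.eqn_of_isEqnT b2 b3 ⟨h3 i, b5, mem_of_superset (h1.mem_nhds b6) b4⟩).symm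

lemma decomp' {e : E3} {J : P2 →L[ℝ] E3} {pr : E3 →L[ℝ] P2} (F : Frame e J pr) (x y : E3) :
    x + J (pr (y - x)) + ⟪e, y - x⟫ • e = y := by
  rw [add_assoc, F.decomp, add_sub_cancel]

lemma abs_inner_le {e : E3} {J : P2 →L[ℝ] E3} {pr : E3 →L[ℝ] P2} (F : Frame e J pr) (y : E3) :
    |⟪e, y⟫| ≤ ‖y‖ := by
  simpa [F.unit] using abs_real_inner_le_norm e y

/-- the local structure of the limit set -/
lemma comp_loc (U : Ultrafilter ι) {M : ι → ℝ → Set E3} {K : ι → Set ℝ} {t : ℝ} {x : E3}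
    {r C : ℝ} (hr : 0 < r) (hC : 1 ≤ C)
    (hM : ∀ᶠ i in U, IsMCF (M i) (K i) ∧ Icc (t - r) (t + r) ⊆ K i ∧
      ∀ s ∈ Icc (t - r) (t + r), ∀ z ∈ M i s, ‖z - x‖ ≤ r → TwoPt (M i s) z r C)
    (hx : ∀ W ∈ 𝓝 (t, x), ∀ᶠ i in U, ∃ p ∈ W, p.2 ∈ M i p.1) :
    ∃ (W : Set (ℝ × E3)) (w : ι → ℝ × E3 → ℝ) (v : ℝ × E3 → ℝ),
      IsOpen W ∧ (t, x) ∈ W ∧ (∀ i, ContDiff ℝ ∞ (w i)) ∧ ContDiff ℝ ∞ v ∧ CInf U W w v ∧
      gradient (fun y => v (t, y)) x ≠ 0 ∧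
      (∀ p ∈ W, (∀ V ∈ 𝓝 p, ∀ᶠ i in U, ∃ q ∈ V, q.2 ∈ M i q.1) ↔ v p = 0) ∧
      ∀ᶠ i in U, ∀ p ∈ W, p.2 ∈ M i p.1 ↔ w i p = 0 := by
  classical
  obtain ⟨ρ, hρ, hρr, hρC, hρ1⟩ := exists_rho hr hC
  have hρ2 : ρ ^ 2 ≤ ρ := by nlinarith
  have hρ3 : 0 < ρ ^ 2 := by positivity
  have h1 := hx _ (closedBall_mem_nhds (t, x) (half_pos hρ3))
  let p : ι → ℝ × E3 := fun i =>
    if hi : ∃ p ∈ closedBall (t, x) (ρ ^ 2 / 2), p.2 ∈ M i p.1 then hi.choose else (t, x)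
  have hp : ∀ᶠ i in U, |(p i).1 - t| ≤ ρ ^ 2 / 2 ∧ ‖(p i).2 - x‖ ≤ ρ ^ 2 / 2 ∧
      (p i).2 ∈ M i (p i).1 := h1.mono fun i hi => by
    have := hi.choose_spec
    have h2 := (closedBall_prod_same t x (ρ ^ 2 / 2)).symm.subset this.1
    simp only [p, dif_pos hi]
    exact ⟨mem_closedBall_iff_norm.1 h2.1, mem_closedBall_iff_norm.1 h2.2, this.2⟩
  obtain ⟨e, J, pr, f, F, hf⟩ := exists_graphs U (M := M) (K := K) (by linarith : 0 < C) hρ hρr hρC x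
    (t₀ := fun i => (p i).1) (t₁ := fun _ => t - r) (t₂ := fun _ => t + r) (y := fun i => (p i).2)
    (by
      filter_upwards [hM, hp] with i a1 a2
      have := abs_le.1 a2.1
      exact ⟨a1.1, ⟨by linarith, by linarith⟩, a1.2.1, a1.2.2, a2.2.2, by linarith [a2.2.1]⟩)
  let D : Set (P2 × ℝ) := ball 0 (ρ / 4) ×ˢ ball t (ρ ^ 2 / 4)
  have hD : IsOpen D := isOpen_ball.prod isOpen_ball
  have hsub : ∀ᶠ i in U, ∀ q ∈ D, closedBall q.1 (ρ / 4) ×ˢ Icc (q.2 - (ρ / 4) ^ 2) q.2 ⊆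
      cyl (pr ((p i).2 - x)) (p i).1 (t - r) (t + r) ρ := by
    filter_upwards [hp] with i hi q hq a ha
    have b1 := mem_ball_zero_iff.1 hq.1
    have b2 := abs_lt.1 (mem_ball_iff_norm.1 hq.2)
    have b3 := mem_closedBall_iff_norm.1 ha.1
    have b4 := (F.norm_pr_le _).trans hi.2.1
    have b5 := abs_le.1 hi.1
    have b6 := ha.2.1
    have b7 := ha.2.2
    refine ⟨mem_closedBall_iff_norm.2 ?_, ⟨by linarith, by linarith⟩,
      mem_closedBall_iff_norm.2 (abs_le.2 ⟨by linarith, by linarith⟩)⟩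
    have c1 := norm_sub_le a.1 (pr ((p i).2 - x))
    have c2 := norm_le_insert' a.1 q.1
    linarith
  have hself : ∀ q : P2 × ℝ, q ∈ closedBall q.1 (ρ / 4) ×ˢ Icc (q.2 - (ρ / 4) ^ 2) q.2 := fun q =>
    ⟨mem_closedBall_self (by positivity), by linarith [sq_nonneg (ρ / 4)], le_rfl⟩
  have hbd : ∀ k, Bd k U D f := by
    refine Bd.of_forall ?_ fun j => ?_
    · filter_upwards [hf, hsub] with i ⟨O, a1, a2, a3, _⟩ a5
      exact a2.mono fun q hq => a3 (a5 q hq (hself q))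
    rcases Nat.eq_zero_or_pos j with rfl | hj
    · refine ⟨3 * ρ, ?_⟩
      filter_upwards [hf, hsub] with i ⟨O, _, _, _, a4⟩ a5 q hq
      rw [norm_iteratedFDeriv_zero]
      exact (a4 q (a5 q hq (hself q))).2.2.2.1
    · obtain ⟨B, hB⟩ := Int.int_proof j (16 * C) (ρ / 4) hj (by positivity)
      refine ⟨B, ?_⟩
      filter_upwards [hf, hsub] with i ⟨O, a1, a2, a3, a4⟩ a5 q hq
      exact hB (f i) O q.1 q.2 a1 a2 ((a5 q hq).trans a3) fun a ha =>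
        ⟨(a4 a (a5 q hq ha)).1, (a4 a (a5 q hq ha)).2.1.trans (by linarith),
          (a4 a (a5 q hq ha)).2.2.1⟩
  obtain ⟨f₀, hf₀⟩ := exists_cinf U hD ((convex_ball _ _).prod (convex_ball _ _))
    (isBounded_ball.prod isBounded_ball) hbd
  have hball : ∀ q ∈ ball (t, x) (ρ ^ 2 / 4), (pr (q.2 - x), q.1) ∈ D ∧ |⟪e, q.2 - x⟫| ≤ 6 * ρ := by
    intro q hq
    rw [← ball_prod_same] at hq
    have b1 := mem_ball_iff_norm.1 hq.2
    exact ⟨⟨mem_ball_zero_iff.2 ((F.norm_pr_le _).trans_lt (by linarith)), hq.1⟩,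
      (abs_inner_le F _).trans (by linarith)⟩
  obtain ⟨δ, w, v, hδ, a1, a2, a3, a4, a5, a6⟩ := exists_equations hD hf₀
    (A := fun q : ℝ × E3 => (pr (q.2 - x), q.1)) (by fun_prop)
    (ℓ := fun q : ℝ × E3 => ⟪e, q.2 - x⟫) (contDiff_const.inner ℝ (by fun_prop))
    (q₀ := (t, x)) (by positivity : 0 < ρ ^ 2 / 4) fun q hq => (hball q hq).1
  have hgr : ∀ᶠ i in U, ∀ q ∈ D, ∀ z : ℝ, |z| ≤ 6 * ρ →
      (x + J q.1 + z • e ∈ M i q.2 ↔ z = f i q) := by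
    filter_upwards [hf, hsub] with i ⟨O, _, _, _, b4⟩ b5 q hq
    exact (b4 q (b5 q hq (hself q))).2.2.2.2
  have hfb : ∀ᶠ i in U, ∀ q ∈ D, |f i q| ≤ 3 * ρ := by
    filter_upwards [hf, hsub] with i ⟨O, _, _, _, b4⟩ b5 q hq
    exact (b4 q (b5 q hq (hself q))).2.2.2.1
  have hiff : ∀ᶠ i in U, ∀ q ∈ ball (t, x) δ, q.2 ∈ M i q.1 ↔ w i q = 0 := by
    filter_upwards [hgr, a5] with i b1 b2 q hq
    have b3 := b1 _ (hball q (a1 hq)).1 _ (hball q (a1 hq)).2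
    rw [decomp' F] at b3
    rw [b2 q hq, sub_eq_zero]
    exact b3
  refine ⟨ball (t, x) δ, w, v, isOpen_ball, mem_ball_self hδ, a2, a3, a4, ?_,
    fun q hq => ⟨fun hL => ?_, fun h0 V hV => ?_⟩, hiff⟩
  · refine grad_ne_zero (e := e) (c := f₀ (0, t)) ((contDiff_sl a3 t).differentiable (by simp) x) ?_
    have b1 : Tendsto (fun s : ℝ => (t, x + s • e)) (𝓝 0) (𝓝 (t, x)) :=
      Continuous.tendsto' (by fun_prop) _ _ (by simp)
    filter_upwards [b1.eventually (ball_mem_nhds _ hδ)] with s hs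
    rw [a6 _ hs]
    simp [F.pr_n, real_inner_smul_right, F.unit]
  · refine zero_of_approx a4 isOpen_ball hq fun V hV => ?_
    filter_upwards [hL V hV, hiff] with i ⟨a, b1, b2⟩ b3
    exact ⟨a, b1, fun b4 => (b3 a b4).1 b2⟩
  · have b0 := (hball q (a1 hq)).1
    have b1 : f₀ (pr (q.2 - x), q.1) = ⟪e, q.2 - x⟫ := by
      rw [a6 q hq, sub_eq_zero] at h0
      exact h0.symm
    have b2 : Tendsto (fun i => (q.1, x + J (pr (q.2 - x)) + f i (pr (q.2 - x), q.1) • e)) U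
        (𝓝 q) := by
      have := tendsto_const_nhds (x := q.1) |>.prodMk_nhds
        (((hf₀.tendsto b0).smul_const e).const_add (x + J (pr (q.2 - x))))
      rwa [b1, decomp' F] at this
    filter_upwards [b2.eventually hV, hgr, hfb] with i c1 c2 c3
    exact ⟨_, c1, (c2 _ b0 _ ((c3 _ b0).trans (by linarith))).2 rfl⟩

/-- **Compactness** of flows with locally uniform two-point bounds -/
theorem comp_proof : CompStmt := by
  intro ι U M K I hI hM hK hT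
  let L : ℝ → Set E3 := fun t => {x | ∀ W ∈ 𝓝 (t, x), ∀ᶠ i in U, ∃ p ∈ W, p.2 ∈ M i p.1}
  have hS : SLim U M L I := by
    refine ⟨fun t _ x hx => ?_, fun t ht x hx => ?_⟩
    · have hx' : ¬ ∀ W ∈ 𝓝 (t, x), ∀ᶠ i in U, ∃ p ∈ W, p.2 ∈ M i p.1 := hx
      push Not at hx'
      obtain ⟨W, hW, h1⟩ := hx'
      exact ⟨W, hW, h1⟩
    · obtain ⟨W, hW, r, C, hr, h1⟩ := hT t ht x
      obtain ⟨V, hV, h2⟩ := hK t ht
      obtain ⟨r₁, hr₁, h3⟩ := nhds_basis_closedBall.mem_iff.1 hW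
      obtain ⟨r₂, hr₂, h4⟩ := nhds_basis_closedBall.mem_iff.1 hV
      refine comp_loc U (K := K) (r := min r (min r₁ r₂)) (C := max C 1)
        (lt_min hr (lt_min hr₁ hr₂)) (le_max_right _ _) ?_ hx
      have m1 : min r (min r₁ r₂) ≤ r₁ := (min_le_right _ _).trans (min_le_left _ _)
      have m2 : min r (min r₁ r₂) ≤ r₂ := (min_le_right _ _).trans (min_le_right _ _)
      filter_upwards [hM, h1, h2] with i a1 a2 a3
      rw [← Real.closedBall_eq_Icc]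
      refine ⟨a1, ((closedBall_subset_closedBall m2).trans h4).trans a3, fun s hs z hz hzx =>
        twoPt_mono' (a2 (s, z) (h3 ?_) hz) (min_le_left _ _) (le_max_left _ _)⟩
      rw [← closedBall_prod_same]
      exact ⟨closedBall_subset_closedBall m1 hs, mem_closedBall_iff_norm.2 (hzx.trans m1)⟩
  refine ⟨L, hS.isMCF hI hM fun t ht => ?_, hS⟩
  obtain ⟨V, hV, h2⟩ := hK t ht
  exact h2.mono fun i hi => hi (mem_of_mem_nhds hV)

/-- local compactness at the top of backward cylinders -/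
theorem locComp_proof : P218F.Ends.LocCompStmt := by
  classical
  intro ι U M K t x r C hr hM hx
  obtain ⟨ρ, hρ, hρr, hρC, -⟩ := exists_rho hr (le_max_right C 1)
  have h1 := hx _ (half_pos hρ)
  let y : ι → E3 := fun i => if hi : ∃ y ∈ M i (t i), ‖y - x‖ < ρ / 2 then hi.choose else x
  have hy : ∀ᶠ i in U, y i ∈ M i (t i) ∧ ‖y i - x‖ < ρ / 2 := h1.mono fun i hi => by
    simp only [y, dif_pos hi]
    exact hi.choose_spec
  obtain ⟨e, J, pr, f, F, hf⟩ := exists_graphs U (M := M) (K := K)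
    (lt_of_lt_of_le one_pos (le_max_right C 1)) hρ hρr hρC x (t₀ := t)
    (t₁ := fun i => t i - r ^ 2) (t₂ := t) (y := y) (by
      filter_upwards [hM, hy] with i a1 a2
      exact ⟨a1.1, ⟨by linarith [sq_nonneg r], le_rfl⟩, a1.2.1, fun s hs z hz hzx =>
        twoPt_mono' (a1.2.2 s hs z hz hzx) le_rfl (le_max_left _ _), a2.1, by linarith [a2.2]⟩)
  have hsub : ∀ᶠ i in U, ∀ ξ ∈ ball (0 : P2) (ρ / 4),
      closedBall ξ (ρ / 4) ×ˢ Icc (t i - (ρ / 4) ^ 2) (t i) ⊆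
        cyl (pr (y i - x)) (t i) (t i - r ^ 2) (t i) ρ := by
    filter_upwards [hy] with i hi ξ hξ a ha
    have b1 := mem_ball_zero_iff.1 hξ
    have b3 := mem_closedBall_iff_norm.1 ha.1
    have b4 := (F.norm_pr_le _).trans hi.2.le
    have b6 := ha.2.1
    have b7 := ha.2.2
    refine ⟨mem_closedBall_iff_norm.2 ?_, ⟨by nlinarith, b7⟩,
      mem_closedBall_iff_norm.2 (abs_le.2 ⟨by nlinarith, by nlinarith⟩)⟩
    have c1 := norm_sub_le a.1 (pr (y i - x))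
    have c2 := norm_le_insert' a.1 ξ
    linarith
  have hself : ∀ (ξ : P2) (s : ℝ), (ξ, s) ∈ closedBall ξ (ρ / 4) ×ˢ Icc (s - (ρ / 4) ^ 2) s :=
    fun ξ s => ⟨mem_closedBall_self (by positivity), by linarith [sq_nonneg (ρ / 4)], le_rfl⟩
  have hbd : ∀ k, Bd k U (ball (0 : P2) (ρ / 4)) fun i ξ => f i (ξ, t i) := by
    refine Bd.of_forall ?_ fun j => ?_
    · filter_upwards [hf, hsub] with i ⟨O, a1, a2, a3, _⟩ a5
      exact a2.comp (contDiff_id.prodMk contDiff_const).contDiffOn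
        fun ξ hξ => a3 (a5 ξ hξ (hself ξ _))
    rcases Nat.eq_zero_or_pos j with rfl | hj
    · refine ⟨3 * ρ, ?_⟩
      filter_upwards [hf, hsub] with i ⟨O, _, _, _, a4⟩ a5 ξ hξ
      rw [norm_iteratedFDeriv_zero]
      exact (a4 _ (a5 ξ hξ (hself ξ _))).2.2.2.1
    · obtain ⟨B, hB⟩ := Int.int_proof j (16 * max C 1) (ρ / 4) hj (by positivity)
      refine ⟨B, ?_⟩
      filter_upwards [hf, hsub] with i ⟨O, a1, a2, a3, a4⟩ a5 ξ hξ
      refine (P218F.GI.norm_iter_slice ((a2.contDiffAt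
        (a1.mem_nhds (a3 (a5 ξ hξ (hself ξ _))))).of_le (le_inf j))).trans ?_
      exact hB (f i) O ξ (t i) a1 a2 ((a5 ξ hξ).trans a3) fun a ha =>
        ⟨(a4 a (a5 ξ hξ ha)).1, (a4 a (a5 ξ hξ ha)).2.1.trans (by linarith [le_max_right C 1]),
          (a4 a (a5 ξ hξ ha)).2.2.1⟩
  obtain ⟨f₀, hf₀⟩ := exists_cinf U isOpen_ball (convex_ball _ _) isBounded_ball hbd
  have hball : ∀ q ∈ ball x (ρ / 4), pr (q - x) ∈ ball (0 : P2) (ρ / 4) ∧ |⟪e, q - x⟫| ≤ 6 * ρ := by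
    intro q hq
    have b1 := mem_ball_iff_norm.1 hq
    exact ⟨mem_ball_zero_iff.2 ((F.norm_pr_le _).trans_lt b1),
      (abs_inner_le F _).trans (by linarith)⟩
  obtain ⟨δ, w, v, hδ, a1, a2, a3, a4, a5, a6⟩ := exists_equations isOpen_ball hf₀
    (A := fun q : E3 => pr (q - x)) (by fun_prop)
    (ℓ := fun q : E3 => ⟪e, q - x⟫) (contDiff_const.inner ℝ (by fun_prop))
    (q₀ := x) (by positivity : 0 < ρ / 4) fun q hq => (hball q hq).1
  have hiff : ∀ᶠ i in U, ∀ q ∈ ball x δ, q ∈ M i (t i) ↔ w i q = 0 := by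
    filter_upwards [hf, hsub, a5] with i ⟨O, _, _, _, b4⟩ b5 b2 q hq
    have b3 := (b4 _ (b5 _ (hball q (a1 hq)).1 (hself _ _))).2.2.2.2 _ (hball q (a1 hq)).2
    rw [decomp' F] at b3
    rw [b2 q hq, sub_eq_zero]
    exact b3
  refine ⟨ball x δ, w, v, isOpen_ball, mem_ball_self hδ, a2, a3, a4, ?_, ?_, hiff⟩
  · refine grad_ne_zero (e := e) (c := f₀ 0) (a3.differentiable (by simp) x) ?_
    have b1 : Tendsto (fun s : ℝ => x + s • e) (𝓝 0) (𝓝 x) :=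
      Continuous.tendsto' (by fun_prop) _ _ (by simp)
    filter_upwards [b1.eventually (ball_mem_nhds _ hδ)] with s hs
    rw [a6 _ hs]
    simp [F.pr_n, real_inner_smul_right, F.unit]
  · refine zero_of_approx a4 isOpen_ball (mem_ball_self hδ) fun V hV => ?_
    obtain ⟨ε, hε, hεV⟩ := Metric.mem_nhds_iff.1 hV
    filter_upwards [hx ε hε, hiff] with i ⟨a, b1, b2⟩ b3
    exact ⟨a, hεV (mem_ball_iff_norm.2 b2), fun b4 => (b3 a b4).1 b1⟩

theorem slice_proof : P218F.Ends.SliceStmt := fun _ _ _ _ _ h _ ht => h.slice_const ht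

theorem impl_proof : P218F.Ends.ImplStmt := by
  intro ι U W w v Ξ q₀ τ₀ hW hc hΞ h0 hτ₀ hv hd
  obtain ⟨δ₁, hδ₁, h1⟩ := Metric.mem_nhds_iff.1
    (hΞ.continuous.continuousAt.preimage_mem_nhds (hW.mem_nhds h0))
  have hδ₀ : 0 < min δ₁ τ₀ := lt_min hδ₁ hτ₀
  have hm : ∀ q ∈ ball ((q₀, 0) : (ℝ × ℝ) × ℝ) (min δ₁ τ₀), Ξ q ∈ W :=
    fun q hq => h1 (ball_subset_ball (min_le_left _ _) hq)
  rcases U.eq_or_neBot with rfl | hU
  · refine ⟨min δ₁ τ₀, min δ₁ τ₀ / 2, fun _ _ => 0, hδ₀, half_pos hδ₀,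
      (half_le_self hδ₀.le).trans (min_le_right _ _), fun q hq t ht => hm _ ?_,
      cinf_fixed contDiff_const isBounded_ball, eventually_bot⟩
    rw [← ball_prod_same]
    exact ⟨hq, mem_ball_zero_iff.2 (ht.trans_lt (half_lt_self hδ₀))⟩
  have h2 := hc.comp (cinf_fixed hΞ isBounded_ball) hW isOpen_ball (convex_ball _ _) isBounded_ball
    (Eventually.of_forall fun _ => hm) hm
  have h3 : fderiv ℝ (fun q => v (Ξ q)) (q₀, 0) (0, 1) ≠ 0 := by
    have := ((hc.smooth_lim.contDiffAt (hW.mem_nhds h0)).differentiableAt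
      (by simp)).hasFDerivAt.comp _ (hΞ.differentiable (by simp) (q₀, 0)).hasFDerivAt
    rw [show (fun q => v (Ξ q)) = v ∘ Ξ from rfl, this.fderiv]
    exact hd
  obtain ⟨δ, τ, u, u₀, hδ, hτ, a1, a2, -, a4, a5⟩ :=
    impl isOpen_ball h2 (mem_ball_self hδ₀) hv.self_of_nhds h3
  obtain ⟨δ₂, hδ₂, h4⟩ := Metric.eventually_nhds_iff_ball.1 hv
  have hs : ball q₀ (min δ δ₂) ⊆ ball q₀ δ := ball_subset_ball (min_le_left _ _)
  have hτ' : τ ≤ τ₀ := by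
    have b1 := a1 (mk_mem_prod (mem_ball_self hδ) (show τ ∈ closedBall (0 : ℝ) τ from
      mem_closedBall_zero_iff.2 (Real.norm_of_nonneg hτ.le).le))
    rw [← ball_prod_same] at b1
    have b2 := mem_ball_zero_iff.1 b1.2
    rw [Real.norm_of_nonneg hτ.le] at b2
    exact b2.le.trans (min_le_right _ _)
  refine ⟨min δ δ₂, τ, u, lt_min hδ hδ₂, hτ, hτ', fun q hq t ht =>
    hm _ (a1 (mk_mem_prod (hs hq) (mem_closedBall_zero_iff.2 ht))),
    (a2.mono hs).congr isOpen_ball (Eventually.of_forall fun _ _ _ => rfl) fun q hq => ?_,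
    a5.mono fun i hi q hq t ht => (hi q (hs hq)).2 t (mem_closedBall_zero_iff.2 ht)⟩
  exact (((a4 q (hs hq)).2 0 (mem_closedBall_self hτ.le)).1
    (h4 q (ball_subset_ball (min_le_right _ _) hq))).symm

end Vale.Agent.P218FT.Conv
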