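import Vale.Agent.P218FT.Spec2
import Mathlib.Analysis.SpecificLimits.Normed
import Mathlib.Analysis.SpecialFunctions.Exponential
import Mathlib.Topology.Algebra.InfiniteSum.Real

/-! Gaussian integrals under an area ratio bound. -/

open MeasureTheory Set Filter Topology Metric
open scoped ENNReal NNReal RealInnerProductSpace ContDiff

namespace Vale.Agent.P218FT

theorem gk_pos {σ : ℝ} (hσ : 0 < σ) (z : E3) : 0 < gk σ z := by
  unfold gk
  have := Real.pi_pos
  positivity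

theorem gk_nonneg {σ : ℝ} (hσ : 0 ≤ σ) (z : E3) : 0 ≤ gk σ z := by
  unfold gk
  have := Real.pi_pos
  positivity

theorem gk_le {σ : ℝ} (hσ : 0 < σ) (z : E3) : gk σ z ≤ (4 * Real.pi * σ)⁻¹ := by
  unfold gk
  have := Real.pi_pos
  have h : Real.exp (-‖z‖ ^ 2 / (4 * σ)) ≤ 1 := by
    apply Real.exp_le_one_iff.mpr
    apply div_nonpos_of_nonpos_of_nonneg
    · nlinarith [sq_nonneg ‖z‖]
    · positivity
  calc (4 * Real.pi * σ)⁻¹ * Real.exp (-‖z‖ ^ 2 / (4 * σ)) ≤ (4 * Real.pi * σ)⁻¹ * 1 := by gcongr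
    _ = _ := mul_one _

theorem continuous_gk (σ : ℝ) : Continuous (gk σ) := by
  unfold gk
  fun_prop

theorem gk_neg (σ : ℝ) (z : E3) : gk σ (-z) = gk σ z := by simp [gk]

theorem gk_anti {σ : ℝ} (hσ : 0 < σ) {z w : E3} (h : ‖z‖ ≤ ‖w‖) : gk σ w ≤ gk σ z := by
  unfold gk
  have := Real.pi_pos
  have h2 : ‖z‖ ^ 2 ≤ ‖w‖ ^ 2 := by gcongr
  have : -‖w‖ ^ 2 / (4 * σ) ≤ -‖z‖ ^ 2 / (4 * σ) := by
    apply div_le_div_of_nonneg_right _ (by positivity)
    linarith
  gcongr

theorem AreaRatio.mono {D D' : ℝ} {N : Set E3} (h : AreaRatio D N) (hD : D ≤ D') :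
    AreaRatio D' N := fun p r hr =>
  (h p r hr).trans (ENNReal.ofReal_le_ofReal (by gcongr))

theorem AreaRatio.ball_lt_top {D : ℝ} {N : Set E3} (h : AreaRatio D N) (p : E3) (r : ℝ) :
    area N (ball p r) < ⊤ := by
  by_cases hr : 0 < r
  · exact (h p r hr).trans_lt ENNReal.ofReal_lt_top
  · rw [ball_eq_empty.mpr (not_lt.mp hr)]; simp

theorem AreaRatio.locFin {D : ℝ} {N : Set E3} (h : AreaRatio D N) :
    IsLocallyFiniteMeasure (area N) :=
  ⟨fun x => ⟨ball x 1, ball_mem_nhds x one_pos, h.ball_lt_top x 1⟩⟩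

/-- the coefficients of the annular decomposition -/
noncomputable def gcoef (k : ℕ) : ℝ := (4 * Real.pi)⁻¹ * (((k : ℝ) + 1) ^ 2 * Real.exp (-(k : ℝ) ^ 2 / 4))

theorem gcoef_pos (k : ℕ) : 0 < gcoef k := by
  unfold gcoef
  have := Real.pi_pos
  positivity

theorem summable_gcoef : Summable gcoef := by
  unfold gcoef
  apply Summable.mul_left
  have h1 : Summable fun k : ℕ => ((k + 1 : ℕ) : ℝ) ^ 2 * Real.exp (-1 * ((k + 1 : ℕ) : ℝ)) :=
    (summable_nat_add_iff 1).mpr (Real.summable_pow_mul_exp_neg_nat_mul 2 one_pos)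
  refine Summable.of_nonneg_of_le (fun k => by positivity) (fun k => ?_) (h1.mul_left (Real.exp 2))
  have h2 : Real.exp (-(k : ℝ) ^ 2 / 4) ≤ Real.exp 2 * Real.exp (-1 * ((k + 1 : ℕ) : ℝ)) := by
    rw [← Real.exp_add]
    apply Real.exp_le_exp.mpr
    push_cast
    nlinarith [sq_nonneg ((k : ℝ) - 2)]
  calc ((k : ℝ) + 1) ^ 2 * Real.exp (-(k : ℝ) ^ 2 / 4)
      ≤ ((k : ℝ) + 1) ^ 2 * (Real.exp 2 * Real.exp (-1 * ((k + 1 : ℕ) : ℝ))) := by gcongr
    _ = _ := by push_cast; ring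

theorem lintegral_gk_compl {D : ℝ} (hD : 0 ≤ D) {N : Set E3} (h : AreaRatio D N) (y : E3) {r : ℝ}
    (hr : 0 < r) (n : ℕ) :
    ∫⁻ x in (ball y (n * r))ᶜ, ENNReal.ofReal (gk (r ^ 2) (x - y)) ∂(area N) ≤
      ENNReal.ofReal ((∑' k, gcoef (k + n)) * D) := by
  set A : ℕ → Set E3 := fun k => ball y (((k + n : ℕ) + 1) * r) \ ball y ((k + n : ℕ) * r) with hA
  have hsub : (ball y (n * r))ᶜ ⊆ ⋃ k, A k := by
    intro x hx
    simp only [mem_compl_iff, mem_ball, not_lt] at hx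
    have hd : (n : ℝ) ≤ dist x y / r := by rwa [le_div_iff₀ hr]
    have hn : n ≤ ⌊dist x y / r⌋₊ := Nat.le_floor hd
    refine mem_iUnion.mpr ⟨⌊dist x y / r⌋₊ - n, ?_⟩
    have e1 : ⌊dist x y / r⌋₊ - n + n = ⌊dist x y / r⌋₊ := Nat.sub_add_cancel hn
    simp only [hA, e1, Set.mem_sdiff, mem_ball, not_lt]
    constructor
    · have := Nat.lt_floor_add_one (dist x y / r)
      rwa [div_lt_iff₀ hr] at this
    · have := Nat.floor_le (show 0 ≤ dist x y / r by positivity)
      rwa [le_div_iff₀ hr] at this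
  have hk : ∀ k, ∫⁻ x in A k, ENNReal.ofReal (gk (r ^ 2) (x - y)) ∂(area N) ≤
      ENNReal.ofReal (gcoef (k + n) * D) := by
    intro k
    have hm : MeasurableSet (A k) := measurableSet_ball.diff measurableSet_ball
    set j : ℝ := ((k + n : ℕ) : ℝ) with hj
    have hj0 : 0 ≤ j := Nat.cast_nonneg _
    have hb : ∀ x ∈ A k, ENNReal.ofReal (gk (r ^ 2) (x - y)) ≤
        ENNReal.ofReal ((4 * Real.pi * r ^ 2)⁻¹ * Real.exp (-j ^ 2 / 4)) := by
      intro x hx
      apply ENNReal.ofReal_le_ofReal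
      have h1 : j * r ≤ ‖x - y‖ := by
        have := hx.2
        simp only [mem_ball, not_lt, dist_eq_norm] at this
        exact this
      unfold gk
      have := Real.pi_pos
      have h2 : -‖x - y‖ ^ 2 / (4 * r ^ 2) ≤ -j ^ 2 / 4 := by
        rw [div_le_div_iff₀ (by positivity) (by positivity)]
        have : (j * r) ^ 2 ≤ ‖x - y‖ ^ 2 := by gcongr
        nlinarith
      gcongr
    calc ∫⁻ x in A k, ENNReal.ofReal (gk (r ^ 2) (x - y)) ∂(area N)
        ≤ ∫⁻ _x in A k, ENNReal.ofReal ((4 * Real.pi * r ^ 2)⁻¹ * Real.exp (-j ^ 2 / 4))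
            ∂(area N) := setLIntegral_mono' hm hb
      _ = ENNReal.ofReal ((4 * Real.pi * r ^ 2)⁻¹ * Real.exp (-j ^ 2 / 4)) * area N (A k) := by
          rw [setLIntegral_const]
      _ ≤ ENNReal.ofReal ((4 * Real.pi * r ^ 2)⁻¹ * Real.exp (-j ^ 2 / 4)) *
            ENNReal.ofReal (D * ((j + 1) * r) ^ 2) := by
          gcongr
          exact (measure_mono sdiff_subset).trans (h y _ (by positivity))
      _ = ENNReal.ofReal (gcoef (k + n) * D) := by
          have := Real.pi_pos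
          rw [← ENNReal.ofReal_mul (by positivity)]
          congr 1
          unfold gcoef
          rw [← hj]
          field_simp
  have hs : Summable fun k => gcoef (k + n) := (summable_nat_add_iff n).mpr summable_gcoef
  calc ∫⁻ x in (ball y (n * r))ᶜ, ENNReal.ofReal (gk (r ^ 2) (x - y)) ∂(area N)
      ≤ ∫⁻ x in ⋃ k, A k, ENNReal.ofReal (gk (r ^ 2) (x - y)) ∂(area N) :=
        lintegral_mono_set hsub
    _ ≤ ∑' k, ∫⁻ x in A k, ENNReal.ofReal (gk (r ^ 2) (x - y)) ∂(area N) :=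
        lintegral_iUnion_le _ _
    _ ≤ ∑' k, ENNReal.ofReal (gcoef (k + n) * D) := ENNReal.tsum_le_tsum hk
    _ = ENNReal.ofReal ((∑' k, gcoef (k + n)) * D) := by
        rw [← tsum_mul_right, ENNReal.ofReal_tsum_of_nonneg
          (fun k => mul_nonneg (gcoef_pos _).le hD) (hs.mul_right D)]

theorem lintegral_gk_le {D : ℝ} (hD : 0 ≤ D) {N : Set E3} (h : AreaRatio D N) (y : E3) {σ : ℝ}
    (hσ : 0 < σ) :
    ∫⁻ x, ENNReal.ofReal (gk σ (x - y)) ∂(area N) ≤ ENNReal.ofReal ((∑' k, gcoef k) * D) := by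
  have := lintegral_gk_compl hD h y (Real.sqrt_pos.mpr hσ) 0
  simpa [Real.sq_sqrt hσ.le] using this

theorem integrable_gk {D : ℝ} {N : Set E3} (h : AreaRatio D N) (y : E3) {σ : ℝ}
    (hσ : 0 < σ) : Integrable (fun x => gk σ (x - y)) (area N) := by
  have hc : Continuous fun x : E3 => gk σ (x - y) := (continuous_gk σ).comp (by fun_prop)
  refine ⟨hc.aestronglyMeasurable, ?_⟩
  rw [hasFiniteIntegral_iff_ofReal (Eventually.of_forall fun x => (gk_pos hσ _).le)]
  exact (lintegral_gk_le (le_max_right D 0) (h.mono (le_max_left D 0)) y hσ).trans_lt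
    ENNReal.ofReal_lt_top

theorem gauss_proof : GaussStmt := by
  have hC : 0 < ∑' k, gcoef k := summable_gcoef.tsum_pos (fun k => (gcoef_pos k).le) 0 (gcoef_pos 0)
  refine ⟨∑' k, gcoef k, hC, fun D hD => ⟨fun N h y σ hσ => ⟨integrable_gk h y hσ, ?_⟩, ?_⟩⟩
  · have hc : Continuous fun x : E3 => gk σ (x - y) := (continuous_gk σ).comp (by fun_prop)
    rw [integral_eq_lintegral_of_nonneg_ae (Eventually.of_forall fun x => (gk_pos hσ _).le)
      hc.aestronglyMeasurable]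
    exact ENNReal.toReal_le_of_le_ofReal (by positivity) (lintegral_gk_le hD h y hσ)
  · intro η hη
    have ht : Tendsto (fun n => (∑' k, gcoef (k + n)) * D) atTop (𝓝 (0 * D)) :=
      (tendsto_sum_nat_add gcoef).mul_const D
    rw [zero_mul] at ht
    obtain ⟨n, hn, hn1⟩ := ((ht.eventually (ge_mem_nhds hη)).and (eventually_ge_atTop 1)).exists
    refine ⟨n, by exact_mod_cast hn1, fun N h y r hr => ?_⟩
    have hc : Continuous fun x : E3 => gk (r ^ 2) (x - y) := (continuous_gk _).comp (by fun_prop)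
    rw [integral_eq_lintegral_of_nonneg_ae
      (Eventually.of_forall fun x => (gk_pos (by positivity) _).le) hc.aestronglyMeasurable]
    exact ENNReal.toReal_le_of_le_ofReal hη.le
      ((lintegral_gk_compl hD h y hr n).trans (ENNReal.ofReal_le_ofReal hn))

end Vale.Agent.P218FT
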