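import Vale.Agent.P218FT.TFinal
import Vale.Agent.P218FT.ConvE

/-! **Block T**: smooth multiplicity-one convergence of the rescaled flows. -/

namespace Vale.Agent.P218FT

theorem conv_all : ConvStmt := conv_of_comp Conv.comp_proof

end Vale.Agent.P218FT
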