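import Vale.Agent.P218FT.Huisken2
import Vale.Agent.P218FT.Chart
import Vale.Agent.P218FS.Spec
import Mathlib.Analysis.SpecialFunctions.Gaussian.FourierTransform

/-! Huisken's monotonicity formula and its consequences. -/

open MeasureTheory Set Filter Topology Metric
open scoped ENNReal NNReal RealInnerProductSpace ContDiff

namespace Vale.Agent.P218FT.Hu

variable {M : ℝ → Set E3} {I : Set ℝ}

theorem ec_mono {s : ℝ} (hs : 0 ≤ s) (z : E3) : Monotone fun n : ℕ => ec ((n : ℝ) + 1) s z := by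
  intro i j hij
  have h1 : (i : ℝ) ≤ j := by exact_mod_cast hij
  have h2 : cu ((i : ℝ) + 1) s (‖z‖ ^ 2) ≤ cu ((j : ℝ) + 1) s (‖z‖ ^ 2) := by
    unfold cu
    gcongr
  exact pow_le_pow_left₀ (le_max_right _ _) (max_le_max h2 le_rfl) 3

theorem tendsto_ec (s : ℝ) (z : E3) :
    Tendsto (fun n : ℕ => ec ((n : ℝ) + 1) s z) atTop (𝓝 1) := by
  have h1 : Tendsto (fun n : ℕ => ((n : ℝ) + 1) ^ 2) atTop atTop :=
    (tendsto_pow_atTop two_ne_zero).comp
      (tendsto_atTop_add_const_right _ 1 tendsto_natCast_atTop_atTop)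
  have h2 := ((tendsto_const_nhds (x := (1 : ℝ))).sub
    ((tendsto_const_nhds (x := ‖z‖ ^ 2 + 4 * s)).div_atTop h1))
  have h3 := (h2.max (tendsto_const_nhds (x := (0 : ℝ)))).pow 3
  simpa [ec, cu] using h3

theorem integrable_mul_ec {N : Set E3} (hN : IsClosed N) [IsLocallyFiniteMeasure (area N)]
    {h : E3 → ℝ} (hc : ContinuousOn h N) (y : E3) {R s : ℝ} (hR : 0 < R) (hs : 0 ≤ s) :
    Integrable (fun x => h x * ec R s (x - y)) (area N) := by
  have h1 : Continuous fun x : E3 => ec R s (x - y) :=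
    (continuous_ec R).comp (f := fun x : E3 => (s, x - y)) (by fun_prop)
  exact integrable_of_cts hN (hc.mul h1.continuousOn) (y := y) (R := R + 2) fun x _ hx =>
    mul_eq_zero_of_right _ (ec_zero hR (by linarith) hx)

theorem lim_ec {N : Set E3} (hN : IsClosed N) [IsLocallyFiniteMeasure (area N)]
    {h : E3 → ℝ} (hc : ContinuousOn h N) (h0 : ∀ x, 0 ≤ h x) (y : E3) {s : ℝ} (hs : 0 ≤ s) :
    (Monotone fun n : ℕ => ENNReal.ofReal (∫ x, h x * ec ((n : ℝ) + 1) s (x - y) ∂(area N))) ∧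
    Tendsto (fun n : ℕ => ENNReal.ofReal (∫ x, h x * ec ((n : ℝ) + 1) s (x - y) ∂(area N))) atTop
      (𝓝 (∫⁻ x, ENNReal.ofReal (h x) ∂(area N))) := by
  have hi : ∀ n : ℕ, Integrable (fun x => h x * ec ((n : ℝ) + 1) s (x - y)) (area N) := fun n =>
    integrable_mul_ec hN hc y (by positivity) hs
  have hm : ∀ x, Monotone fun n : ℕ => h x * ec ((n : ℝ) + 1) s (x - y) := fun x i j hij =>
    mul_le_mul_of_nonneg_left (ec_mono hs _ hij) (h0 x)
  refine ⟨fun i j hij => ENNReal.ofReal_le_ofReal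
    (integral_mono (hi i) (hi j) fun x => hm x hij), ?_⟩
  have e : ∀ n : ℕ, ENNReal.ofReal (∫ x, h x * ec ((n : ℝ) + 1) s (x - y) ∂(area N)) =
      ∫⁻ x, ENNReal.ofReal (h x * ec ((n : ℝ) + 1) s (x - y)) ∂(area N) := fun n =>
    ofReal_integral_eq_lintegral_ofReal (hi n)
      (Eventually.of_forall fun x => mul_nonneg (h0 x) (ec_nonneg _ _ _))
  simp only [e]
  refine lintegral_tendsto_of_tendsto_of_monotone (fun n => (hi n).1.aemeasurable.ennreal_ofReal)
    (Eventually.of_forall fun x i j hij => ENNReal.ofReal_le_ofReal (hm x hij))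
    (Eventually.of_forall fun x => ENNReal.tendsto_ofReal ?_)
  simpa using (tendsto_ec s (x - y)).const_mul (h x)

theorem gA_sqrt (N : Set E3) (y : E3) {σ : ℝ} (hσ : 0 < σ) :
    gA N y √σ = ∫ x, gk σ (x - y) ∂(area N) := by
  unfold gA
  rw [Real.sq_sqrt hσ.le]

theorem WW_nonneg (M : ℝ → Set E3) (y : E3) {t₀ : ℝ} (a R : ℝ) {t : ℝ} (ht : t < t₀) :
    0 ≤ WW M y t₀ a R t :=
  integral_nonneg fun x => mul_nonneg (sq_nonneg _) (FF_nonneg y a R (p := (t, x)) ht)

theorem int_FF_le {D : ℝ} {N : Set E3} (hA : AreaRatio D N) (y : E3)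
    {t₀ a : ℝ} (R : ℝ) (ha : a < t₀) :
    ∫ x, FF y t₀ a R (a, x) ∂(area N) ≤ ∫ x, gk (t₀ - a) (x - y) ∂(area N) := by
  have h0 : 0 < t₀ - a := sub_pos.mpr ha
  refine integral_mono_of_nonneg (Eventually.of_forall fun x => FF_nonneg y a R (p := (a, x)) ha)
    (integrable_gk hA y h0) (Eventually.of_forall fun x => ?_)
  exact mul_le_of_le_one_right (gk_pos h0 _).le (ec_le_one R (sub_self a).ge _)

theorem integrable_FF {N : Set E3} (hN : IsClosed N) [IsLocallyFiniteMeasure (area N)] (y : E3)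
    (t₀ : ℝ) {a b R : ℝ} (hR : 0 < R) (hab : a ≤ b) :
    Integrable (fun x => FF y t₀ a R (b, x)) (area N) := by
  have h1 : Continuous fun x : E3 => gk (t₀ - b) (x - y) := (continuous_gk _).comp (by fun_prop)
  have h2 := integrable_mul_ec hN h1.continuousOn y hR (sub_nonneg.mpr hab)
  simpa only [FF] using h2

/-- **Huisken's monotonicity formula.** -/
theorem huisken_proof (hF : FVStmt) (hC : ContStmt) (hE : EVStmt) : HuiskenStmt := by
  intro D M I hM hA y t₀ a b hab hb hI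
  have hJ := mcf_mono hM (hM.isOpen.inter isOpen_Iio) (inter_subset_left (t := Iio t₀))
  have hbI : b ∈ I := hI ⟨hab, le_rfl⟩
  have haI : a ∈ I := hI ⟨le_rfl, hab⟩
  have hb0 : 0 < t₀ - b := sub_pos.mpr hb
  have ha0 : 0 < t₀ - a := by linarith
  have hgk : ∀ σ : ℝ, Continuous fun x : E3 => gk σ (x - y) := fun σ =>
    (continuous_gk σ).comp (by fun_prop)
  -- the value at the final time
  have := (hA b hbI).locFin
  have h1 := (lim_ec (isSurf_of_mcf hM hbI).1 (hgk (t₀ - b)).continuousOn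
    (fun x => (gk_pos hb0 _).le) y (sub_nonneg.mpr hab)).2
  rw [← ofReal_integral_eq_lintegral_ofReal (integrable_gk (hA b hbI) y hb0)
    (Eventually.of_forall fun x => (gk_pos hb0 _).le), ← gA_sqrt _ _ hb0] at h1
  -- the dissipation
  have h2 : ∀ t ∈ Icc a b, (Monotone fun n : ℕ => ENNReal.ofReal (WW M y t₀ a ((n : ℝ) + 1) t)) ∧
      Tendsto (fun n : ℕ => ENNReal.ofReal (WW M y t₀ a ((n : ℝ) + 1) t)) atTop
        (𝓝 (∫⁻ x, ENNReal.ofReal (‖relV (M t) y (t₀ - t) x‖ ^ 2 * gk (t₀ - t) (x - y))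
          ∂(area (M t)))) := by
    intro t ht
    have ht0 : t < t₀ := ht.2.trans_lt hb
    have := (hA t (hI ht)).locFin
    have h := lim_ec (isSurf_of_mcf hM (hI ht)).1
      (h := fun x => ‖relV (M t) y (t₀ - t) x‖ ^ 2 * gk (t₀ - t) (x - y))
      (((slice (continuousOn_relV hJ y t₀ fun _ h => h.2) ⟨hI ht, ht0⟩).norm.pow 2).mul
        (hgk (t₀ - t)).continuousOn)
      (fun x => mul_nonneg (sq_nonneg _) (gk_pos (sub_pos.mpr ht0) _).le) y (sub_nonneg.mpr ht.1)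
    simpa only [WW, FF, mul_assoc] using h
  have hW : ∀ n : ℕ, ContinuousOn (WW M y t₀ a ((n : ℝ) + 1)) (Icc a b) := fun n =>
    continuousOn_WW hC hM y (by positivity) hb hI
  have h3 := lintegral_tendsto_of_tendsto_of_monotone (μ := volume.restrict (Icc a b))
    (fun n => ((hW n).aemeasurable measurableSet_Icc).ennreal_ofReal)
    ((ae_restrict_mem measurableSet_Icc).mono fun t ht => (h2 t ht).1)
    ((ae_restrict_mem measurableSet_Icc).mono fun t ht => (h2 t ht).2)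
  refine le_of_tendsto' (h1.add h3) fun n => ?_
  have hR : (0 : ℝ) < (n : ℝ) + 1 := by positivity
  have h4 := local_mono Chart.locFin_proof hF hC hE hM y hR hab hb hI
  have h5 := int_FF_le (hA a haI) y ((n : ℝ) + 1) (hab.trans_lt hb)
  have h6 : 0 ≤ᵐ[volume.restrict (Icc a b)] WW M y t₀ a ((n : ℝ) + 1) :=
    (ae_restrict_mem measurableSet_Icc).mono fun t ht => WW_nonneg M y a _ (ht.2.trans_lt hb)
  rw [← ofReal_integral_eq_lintegral_ofReal (hW n).integrableOn_Icc h6,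
    ← ENNReal.ofReal_add (integral_nonneg fun x => mul_nonneg (gk_pos hb0 _).le (ec_nonneg _ _ _))
      (integral_nonneg_of_ae h6), gA_sqrt _ _ ha0, integral_Icc_eq_integral_Ioc,
    ← intervalIntegral.integral_of_le hab]
  exact ENNReal.ofReal_le_ofReal (h4.trans h5)

theorem gA_nonneg (N : Set E3) (y : E3) (r : ℝ) : 0 ≤ gA N y r :=
  integral_nonneg fun _ => gk_nonneg (sq_nonneg r) _

/-- the Gaussian area decreases along the flow -/
theorem gA_anti (hH : HuiskenStmt) {D : ℝ} (hM : IsMCF M I) (hA : ∀ t ∈ I, AreaRatio D (M t))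
    (y : E3) {t₀ a b : ℝ} (hab : a ≤ b) (hb : b < t₀) (hI : Icc a b ⊆ I) :
    gA (M b) y √(t₀ - b) ≤ gA (M a) y √(t₀ - a) :=
  (ENNReal.ofReal_le_ofReal_iff (gA_nonneg _ _ _)).mp
    (le_self_add.trans (hH D M I hM hA y t₀ a b hab hb hI))

/-- the density ratios increase with the scale -/
theorem dens_mono (hH : HuiskenStmt) {D : ℝ} (hM : IsMCF M I) (hA : ∀ t ∈ I, AreaRatio D (M t))
    (y : E3) (t : ℝ) {r₁ r₂ : ℝ} (h1 : 0 < r₁) (h12 : r₁ ≤ r₂)
    (hI : Icc (t - r₂ ^ 2) (t - r₁ ^ 2) ⊆ I) : dens M y t r₁ ≤ dens M y t r₂ := by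
  have h3 : r₁ ^ 2 ≤ r₂ ^ 2 := by gcongr
  have h := gA_anti hH hM hA y (t₀ := t) (a := t - r₂ ^ 2) (b := t - r₁ ^ 2) (by linarith)
    (by nlinarith) hI
  rwa [sub_sub_cancel, sub_sub_cancel, Real.sqrt_sq h1.le, Real.sqrt_sq (h1.le.trans h12)] at h

/-- the dissipation is bounded by the drop of the Gaussian area -/
theorem energy_le (hH : HuiskenStmt) {D : ℝ} (hM : IsMCF M I) (hA : ∀ t ∈ I, AreaRatio D (M t))
    (y : E3) {t₀ a b η : ℝ} (hab : a ≤ b) (hb : b < t₀) (hI : Icc a b ⊆ I)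
    (h : gA (M a) y √(t₀ - a) ≤ gA (M b) y √(t₀ - b) + η) :
    ∫⁻ t in Icc a b, ∫⁻ x, ENNReal.ofReal (‖relV (M t) y (t₀ - t) x‖ ^ 2 * gk (t₀ - t) (x - y))
      ∂(area (M t)) ≤ ENNReal.ofReal η := by
  have h1 := (hH D M I hM hA y t₀ a b hab hb hI).trans
    ((ENNReal.ofReal_le_ofReal h).trans ENNReal.ofReal_add_le)
  exact (ENNReal.add_le_add_iff_left ENNReal.ofReal_ne_top).mp h1

theorem norm_Hv_sq_le (N : Set E3) (y : E3) {σ : ℝ} (hσ : 0 < σ) (x : E3) :
    ‖Hv N x‖ ^ 2 ≤ 2 * ‖relV N y σ x‖ ^ 2 + ‖x - y‖ ^ 2 / (2 * σ ^ 2) := by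
  have h1 : ‖((2 * σ)⁻¹ * ⟪x - y, nu N x⟫) • nu N x‖ ≤ ‖x - y‖ / (2 * σ) := by
    have h2 := abs_real_inner_le_norm (x - y) (nu N x)
    have h3 := norm_nu_le N x
    have h4 : |⟪x - y, nu N x⟫| ≤ ‖x - y‖ := h2.trans (mul_le_of_le_one_right (norm_nonneg _) h3)
    rw [norm_smul, Real.norm_eq_abs, abs_mul, abs_of_pos (by positivity : 0 < (2 * σ)⁻¹),
      div_eq_inv_mul]
    exact (mul_le_of_le_one_right (by positivity) h3).trans (by gcongr)
  have h2 : ‖Hv N x‖ ≤ ‖relV N y σ x‖ + ‖x - y‖ / (2 * σ) := by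
    have : Hv N x = relV N y σ x - ((2 * σ)⁻¹ * ⟪x - y, nu N x⟫) • nu N x := by
      unfold relV
      rw [add_sub_cancel_right]
    rw [this]
    exact (norm_sub_le _ _).trans (by gcongr)
  have h3 : ‖Hv N x‖ ^ 2 ≤ (‖relV N y σ x‖ + ‖x - y‖ / (2 * σ)) ^ 2 := by gcongr
  have h4 : ‖x - y‖ ^ 2 / (2 * σ ^ 2) = 2 * (‖x - y‖ / (2 * σ)) ^ 2 := by field_simp
  rw [h4]
  nlinarith [sq_nonneg (‖relV N y σ x‖ - ‖x - y‖ / (2 * σ))]

/-- the Gaussian area about `(x₀, b)` is a Cauchy function at `b` -/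
theorem gA_cauchy (hH : HuiskenStmt) {D a b : ℝ} (hab : a < b) (hM : IsMCF M (Ioo a b))
    (hA : ∀ t ∈ Ioo a b, AreaRatio D (M t)) (x₀ : E3) {η : ℝ} (hη : 0 < η) :
    ∃ t₁ ∈ Ioo a b, ∀ s t, t₁ ≤ s → s ≤ t → t < b →
      gA (M s) x₀ √(b - s) ≤ gA (M t) x₀ √(b - t) + η := by
  set θ : ℝ → ℝ := fun t => gA (M t) x₀ √(b - t) with hθ
  have hne : (θ '' Ioo a b).Nonempty := (nonempty_Ioo.mpr hab).image θ
  have hbd : BddBelow (θ '' Ioo a b) := ⟨0, by rintro _ ⟨t, -, rfl⟩; exact gA_nonneg _ _ _⟩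
  obtain ⟨_, ⟨t₁, ht₁, rfl⟩, h1⟩ := exists_lt_of_csInf_lt hne (lt_add_of_pos_right _ hη)
  refine ⟨t₁, ht₁, fun s t hs hst ht => ?_⟩
  have h2 : θ s ≤ θ t₁ := gA_anti hH hM hA x₀ hs (hst.trans_lt ht) fun u hu =>
    ⟨ht₁.1.trans_le hu.1, hu.2.trans_lt (hst.trans_lt ht)⟩
  have h3 : sInf (θ '' Ioo a b) ≤ θ t := csInf_le hbd ⟨t, ⟨ht₁.1.trans_le (hs.trans hst), ht⟩, rfl⟩
  change θ s ≤ θ t + η
  linarith

theorem diss_proof (hH : HuiskenStmt) : DissStmt := by
  intro D M a b hab hM hA x₀ R hR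
  refine ⟨R ^ 2 * 4096 ^ 2, by positivity, fun δ hδ => ?_⟩
  have hπ := Real.pi_pos
  set c : ℝ := (8 * Real.pi)⁻¹ * Real.exp (-(1024 * R ^ 2)) with hc
  have hc0 : 0 < c := by positivity
  obtain ⟨t₁, ht₁, hcau⟩ := gA_cauchy hH hab hM hA x₀ (η := δ * c / 2) (by positivity)
  have hev : ∀ᶠ lam : ℝ in 𝓝 0, t₁ < b - 2 * lam ^ 2 := by
    have : Continuous fun lam : ℝ => b - 2 * lam ^ 2 := by fun_prop
    exact this.continuousAt.eventually (lt_mem_nhds (by simpa using ht₁.2))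
  filter_upwards [self_mem_nhdsWithin, mem_nhdsWithin_of_mem_nhds hev] with lam hl h1
  have hl0 : 0 < lam := hl
  have hl2 : 0 < lam ^ 2 := by positivity
  have h2 : b - 2 * lam ^ 2 ≤ b - lam ^ 2 / 4096 := by linarith
  have h3 : b - lam ^ 2 / 4096 < b := by linarith
  have hE := energy_le hH hM hA x₀ h2 h3
    (fun u hu => ⟨ht₁.1.trans (h1.trans_le hu.1), hu.2.trans_lt h3⟩) (hcau _ _ h1.le h2 h3)
  have hK : 0 ≤ 2 * lam ^ 2 / c := by positivity
  have hpt : ∀ t ∈ Icc (b - 2 * lam ^ 2) (b - lam ^ 2 / 4096), ∀ x ∈ ball x₀ (R * lam),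
      ‖Hv (M t) x‖ ^ 2 - R ^ 2 * 4096 ^ 2 / lam ^ 2 ≤
        2 * lam ^ 2 / c * (‖relV (M t) x₀ (b - t) x‖ ^ 2 * gk (b - t) (x - x₀)) := by
    intro t ht x hx
    have hσ1 : lam ^ 2 / 4096 ≤ b - t := by linarith [ht.2]
    have hσ2 : b - t ≤ 2 * lam ^ 2 := by linarith [ht.1]
    have hσ : 0 < b - t := lt_of_lt_of_le (by positivity) hσ1
    rw [mem_ball, dist_eq_norm] at hx
    have hx2 : ‖x - x₀‖ ^ 2 ≤ (R * lam) ^ 2 := by gcongr
    have h4 := norm_Hv_sq_le (M t) x₀ hσ x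
    have h5 : ‖x - x₀‖ ^ 2 / (2 * (b - t) ^ 2) ≤ R ^ 2 * 4096 ^ 2 / lam ^ 2 := by
      calc ‖x - x₀‖ ^ 2 / (2 * (b - t) ^ 2) ≤ (R * lam) ^ 2 / (1 * (lam ^ 2 / 4096) ^ 2) := by
            gcongr; norm_num
        _ = R ^ 2 * 4096 ^ 2 / lam ^ 2 := by field_simp
    have h6 : c / lam ^ 2 ≤ gk (b - t) (x - x₀) := by
      have e : c / lam ^ 2 = (4 * Real.pi * (2 * lam ^ 2))⁻¹ * Real.exp (-(1024 * R ^ 2)) := by
        rw [hc]; field_simp; norm_num
      have h7 : -(1024 * R ^ 2) ≤ -‖x - x₀‖ ^ 2 / (4 * (b - t)) := by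
        rw [le_div_iff₀ (by positivity)]
        nlinarith [mul_le_mul_of_nonneg_left hσ1 (sq_nonneg R)]
      rw [e]
      unfold gk
      gcongr
    calc ‖Hv (M t) x‖ ^ 2 - R ^ 2 * 4096 ^ 2 / lam ^ 2 ≤ 2 * ‖relV (M t) x₀ (b - t) x‖ ^ 2 := by
          linarith
      _ = 2 * lam ^ 2 / c * (‖relV (M t) x₀ (b - t) x‖ ^ 2 * (c / lam ^ 2)) := by field_simp
      _ ≤ _ := by gcongr
  calc diss M (R ^ 2 * 4096 ^ 2 / lam ^ 2) x₀ (R * lam) (b - 2 * lam ^ 2) (b - lam ^ 2 / 4096)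
      ≤ ∫⁻ t in Icc (b - 2 * lam ^ 2) (b - lam ^ 2 / 4096), ENNReal.ofReal (2 * lam ^ 2 / c) *
          ∫⁻ x, ENNReal.ofReal (‖relV (M t) x₀ (b - t) x‖ ^ 2 * gk (b - t) (x - x₀))
            ∂(area (M t)) := by
        refine setLIntegral_mono' measurableSet_Icc fun t ht => ?_
        rw [← lintegral_const_mul' _ _ ENNReal.ofReal_ne_top]
        refine (setLIntegral_mono' measurableSet_ball fun x hx => ?_).trans
          (setLIntegral_le_lintegral _ _)
        rw [← ENNReal.ofReal_mul hK]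
        exact ENNReal.ofReal_le_ofReal (hpt t ht x hx)
    _ ≤ ENNReal.ofReal (2 * lam ^ 2 / c) * ENNReal.ofReal (δ * c / 2) := by
        rw [lintegral_const_mul' _ _ ENNReal.ofReal_ne_top]
        gcongr
    _ = ENNReal.ofReal (δ * lam ^ 2) := by
        rw [← ENNReal.ofReal_mul hK]
        congr 1
        field_simp

/-! ### area ratios -/

/-- area ratio bounds propagate along the flow -/
theorem ratio_prop (hF : FVStmt) (hC : ContStmt) (hE : EVStmt) : ∃ C : ℝ, 0 < C ∧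
    ∀ (M : ℝ → Set E3) (I : Set ℝ), IsMCF M I → ∀ D a b : ℝ, 0 ≤ D → a ≤ b → Icc a b ⊆ I →
      AreaRatio D (M a) → AreaRatio (C * D) (M b) := by
  obtain ⟨C₀, hC₀, hG⟩ := gauss_proof
  have hπ := Real.pi_pos
  refine ⟨32 * Real.pi * Real.exp (1 / 4) * C₀, by positivity,
    fun M I hM D a b hD hab hI hA p r hr => ?_⟩
  have hbI : b ∈ I := hI ⟨hab, le_rfl⟩
  have haI : a ∈ I := hI ⟨le_rfl, hab⟩
  have hN := isSurf_of_mcf hM hbI
  have := Chart.locFin_proof _ hN
  have hba : 0 ≤ b - a := sub_nonneg.mpr hab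
  have hQ : 0 < 2 * (r ^ 2 + 4 * (b - a)) := by positivity
  obtain ⟨R, hR, hR2⟩ : ∃ R : ℝ, 0 < R ∧ R ^ 2 = 2 * (r ^ 2 + 4 * (b - a)) :=
    ⟨_, Real.sqrt_pos.mpr hQ, Real.sq_sqrt hQ.le⟩
  have hb : b < b + r ^ 2 := lt_add_of_pos_right _ (by positivity)
  have h1 := local_mono Chart.locFin_proof hF hC hE hM p hR hab hb hI
  have h2 := int_FF_le hA p R (hab.trans_lt hb)
  have h3 := ((hG D hD).1 _ hA p _ (sub_pos.mpr (hab.trans_lt hb))).2
  have h4 : 0 ≤ ∫ t in a..b, WW M p (b + r ^ 2) a R t :=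
    intervalIntegral.integral_nonneg hab fun t ht => WW_nonneg M p a _ (ht.2.trans_lt hb)
  have h5 : ∫ x, FF p (b + r ^ 2) a R (b, x) ∂(area (M b)) ≤
      C₀ * D := by linarith
  have hi : Integrable (fun x => FF p (b + r ^ 2) a R (b, x))
      (area (M b)) :=
    integrable_FF hN.1 p _ hR hab
  set c : ℝ := (4 * Real.pi * r ^ 2)⁻¹ * Real.exp (-(1 / 4)) * (1 / 2) ^ 3 with hc
  have hc0 : 0 < c := by positivity
  have h6 : ∀ x ∈ ball p r, c ≤ FF p (b + r ^ 2) a R (b, x) := by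
    intro x hx
    rw [mem_ball, dist_eq_norm] at hx
    have hx2 : ‖x - p‖ ^ 2 ≤ r ^ 2 := by gcongr
    have h7 : -(1 / 4) ≤ -‖x - p‖ ^ 2 / (4 * r ^ 2) := by
      rw [le_div_iff₀ (by positivity)]
      linarith
    have h8 : 1 / 2 ≤ cu R (b - a) (‖x - p‖ ^ 2) := by
      unfold cu
      rw [hR2]
      have : (‖x - p‖ ^ 2 + 4 * (b - a)) / (2 * (r ^ 2 + 4 * (b - a))) ≤ 1 / 2 := by
        rw [div_le_iff₀ hQ]
        linarith
      linarith
    have h9 := h8.trans (le_max_left _ 0)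
    simp only [FF, gk, ec, add_sub_cancel_left, hc]
    gcongr
  have h10 : ENNReal.ofReal c * area (M b) (ball p r) ≤ ENNReal.ofReal (C₀ * D) := by
    rw [← setLIntegral_const]
    refine (setLIntegral_mono' measurableSet_ball fun x hx =>
      ENNReal.ofReal_le_ofReal (h6 x hx)).trans ((setLIntegral_le_lintegral _ _).trans ?_)
    rw [← ofReal_integral_eq_lintegral_ofReal hi
      (Eventually.of_forall fun x => FF_nonneg p a _ (p := (b, x)) hb)]
    exact ENNReal.ofReal_le_ofReal h5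
  have e : C₀ * D = c * (32 * Real.pi * Real.exp (1 / 4) * C₀ * D * r ^ 2) := by
    rw [hc, Real.exp_neg]
    field_simp
    ring
  rw [e, ENNReal.ofReal_mul hc0.le] at h10
  exact (ENNReal.mul_le_mul_iff_right (ENNReal.ofReal_pos.mpr hc0).ne' ENNReal.ofReal_ne_top).mp h10

/-- a compact surface has bounded area ratios -/
theorem exists_ratio {N : Set E3} (hN : IsSurf N) (hK : IsCompact N) :
    ∃ D : ℝ, 0 ≤ D ∧ AreaRatio D N := by
  have key : ∃ D : ℝ, 0 ≤ D ∧ ∀ (p : E3) (r : ℝ), 0 < r →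
      area N (N ∩ ball p r) ≤ ENNReal.ofReal (D * r ^ 2) := by
    refine hK.induction_on (p := fun A => ∃ D : ℝ, 0 ≤ D ∧ ∀ (p : E3) (r : ℝ), 0 < r →
      area N (A ∩ ball p r) ≤ ENNReal.ofReal (D * r ^ 2)) ⟨0, le_rfl, by simp⟩ ?_ ?_ ?_
    · rintro A B hAB ⟨D, hD, h⟩
      exact ⟨D, hD, fun p r hr => (measure_mono (inter_subset_inter_left _ hAB)).trans (h p r hr)⟩
    · rintro A B ⟨D, hD, h⟩ ⟨D', hD', h'⟩
      refine ⟨D + D', by positivity, fun p r hr => ?_⟩
      rw [union_inter_distrib_right, add_mul, ENNReal.ofReal_add (by positivity) (by positivity)]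
      exact (measure_union_le _ _).trans (add_le_add (h p r hr) (h' p r hr))
    · intro x hx
      obtain ⟨J, pr, h, U, hxU, C, -⟩ := Chart.exists_chart_tangent hN hx
      have hj := Chart.continuous_jac (C.smooth.of_le one_le_inf)
      obtain ⟨K, hK⟩ := (isCompact_closedBall (pr x) 1).exists_bound_of_continuousOn hj.continuousOn
      have hK0 : 0 ≤ K := (norm_nonneg _).trans (hK _ (mem_closedBall_self zero_le_one))
      refine ⟨N ∩ U ∩ ball x 1, inter_mem (inter_mem self_mem_nhdsWithin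
        (mem_nhdsWithin_of_mem_nhds (C.isOpen.mem_nhds hxU)))
        (mem_nhdsWithin_of_mem_nhds (ball_mem_nhds x one_pos)), K * Real.pi,
        by have := Real.pi_pos; positivity, fun p r hr => ?_⟩
      have hm : MeasurableSet (N ∩ U ∩ ball x 1 ∩ ball p r) :=
        ((hN.1.measurableSet.inter C.isOpen.measurableSet).inter measurableSet_ball).inter
          measurableSet_ball
      have hS : N ∩ U ∩ ball x 1 ∩ ball p r ⊆ N ∩ U := fun y hy => hy.1.1
      have hd : ∀ y z : E3, dist (pr y) (pr z) ≤ dist y z := fun y z => by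
        rw [dist_eq_norm, dist_eq_norm, ← map_sub]
        exact C.frame.norm_pr_le _
      rw [C.measure_eq hS hm]
      calc ∫⁻ u in pr '' (N ∩ U ∩ ball x 1 ∩ ball p r), ENNReal.ofReal (Chart.jac h u)
          ≤ ∫⁻ _u in pr '' (N ∩ U ∩ ball x 1 ∩ ball p r), ENNReal.ofReal K := by
            refine setLIntegral_mono' (C.measurableSet_image hS hm) ?_
            rintro _ ⟨y, hy, rfl⟩
            refine ENNReal.ofReal_le_ofReal ((le_abs_self _).trans (hK _ ?_))
            exact (hd y x).trans (le_of_lt hy.1.2)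
        _ ≤ ENNReal.ofReal K * volume (ball (pr p) r) := by
            rw [setLIntegral_const]
            gcongr
            rintro _ ⟨y, hy, rfl⟩
            exact (hd y p).trans_lt hy.2
        _ = ENNReal.ofReal (K * Real.pi * r ^ 2) := by
            rw [EuclideanSpace.volume_ball_fin_two, ← ENNReal.ofReal_pow hr.le,
              ← ENNReal.ofReal_mul (by positivity), ← ENNReal.ofReal_mul hK0]
            congr 1
            ring
  obtain ⟨D, hD, h⟩ := key
  refine ⟨D, hD, fun p r hr => ?_⟩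
  rw [Chart.area_apply hN, inter_comm]
  exact h p r hr

theorem ratio_proof (hF : FVStmt) (hC : ContStmt) (hE : EVStmt) : P218FS.RatioStmt := by
  intro M a b hM a' ha'
  obtain ⟨C, -, h⟩ := ratio_prop hF hC hE
  obtain ⟨R, hR⟩ := hM.bdd
  have hN := isSurf_of_mcf hM.mcf ha'
  obtain ⟨D, hD, hA⟩ := exists_ratio hN
    ((isCompact_closedBall 0 R).of_isClosed_subset hN.1 (hR a' ha'))
  exact ⟨C * D, fun t ht => h M _ hM.mcf D a' t hD ht.1.le
    (fun u hu => ⟨ha'.1.trans_le hu.1, hu.2.trans_lt ht.2⟩) hA⟩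

/-! ### the Gaussian density of a smooth point -/

theorem integral_plane :
    ∫ v : Chart.E2, (4 * Real.pi)⁻¹ * Real.exp (-(1 / 4) * ‖v‖ ^ 2) = 1 := by
  have hπ := Real.pi_pos
  rw [integral_const_mul, GaussianFourier.integral_rexp_neg_mul_sq_norm (by norm_num)]
  simp
  field_simp

/-- a space-time chart over the tangent plane -/
theorem exists_st_chart (hM : IsMCF M I) {t : ℝ} (ht : t ∈ I) {x : E3} (hx : x ∈ M t) :
    ∃ (J : Chart.E2 →L[ℝ] E3) (pr : E3 →L[ℝ] Chart.E2) (h : ℝ × Chart.E2 → ℝ) (δ : ℝ),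
      0 < δ ∧ ContDiff ℝ ∞ h ∧ gradient (fun u => h (t, u)) (pr x) = 0 ∧
      ∀ s, |s - t| < δ → s ∈ I ∧
        Chart.IsChart (M s) (nu (M t) x) J pr (fun u => h (s, u)) (ball x δ) := by
  have hN := isSurf_of_mcf hM ht
  obtain ⟨J, pr, F⟩ := Chart.exists_frame (norm_nu hN hx)
  obtain ⟨w, hw, hg, he, -⟩ := hM.loc t ht x hx
  have hc : Continuous fun y : E3 => ((t, y) : ℝ × E3) := by fun_prop
  have hE : IsEqn (M t) x fun y => w (t, y) :=
    ⟨hw.comp (by fun_prop), hg, (hc.tendsto x).eventually he⟩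
  have hn : fderiv ℝ w (t, x) (0, nu (M t) x) ≠ 0 := by
    have h1 : fderiv ℝ w (t, x) (0, nu (M t) x) =
        ⟪gradient (fun y => w (t, y)) x, nu (M t) x⟫ := by
      rw [inner_grad, fderiv_slice hw (t, x)]
      rfl
    obtain ⟨ε, hε, h2, -⟩ := hE.nu_sh hx
    rw [h1, h2, real_inner_smul_right, inner_grad_nuw hg]
    refine mul_ne_zero ?_ (norm_ne_zero_iff.mpr hg)
    rcases hε with rfl | rfl <;> norm_num
  obtain ⟨h, hh, hev⟩ := F.exists_graph hw (he.self_of_nhds.mp hx) hn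
  have hI : ∀ᶠ q : ℝ × E3 in 𝓝 (t, x), q.1 ∈ I :=
    (continuous_fst.tendsto ((t, x) : ℝ × E3)).eventually (hM.isOpen.mem_nhds ht)
  obtain ⟨δ, hδ, hb⟩ := Metric.eventually_nhds_iff.mp ((he.and hev).and hI)
  have hd : ∀ s y, |s - t| < δ → y ∈ ball x δ → dist ((s, y) : ℝ × E3) (t, x) < δ :=
    fun s y hs hy => by
      rw [Prod.dist_eq]
      exact max_lt hs hy
  have hC : ∀ s, |s - t| < δ → s ∈ I ∧
      Chart.IsChart (M s) (nu (M t) x) J pr (fun u => h (s, u)) (ball x δ) := fun s hs =>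
    ⟨(hb (hd s x hs (mem_ball_self hδ))).2, F, hh.comp (by fun_prop), isOpen_ball, fun y hy =>
      (hb (hd s y hs hy)).1.1.trans (hb (hd s y hs hy)).1.2⟩
  refine ⟨J, pr, h, δ, hδ, hh, ?_, hC⟩
  have h3 := (hC t (by simpa using hδ)).2.abs_inner_nu hN hx (mem_ball_self hδ)
  rw [real_inner_self_eq_norm_sq, norm_nu hN hx] at h3
  have h4 : Chart.jac (fun u => h (t, u)) (pr x) = 1 := by
    rw [← inv_inj, ← h3]; norm_num
  have h5 := Chart.jac_sq (fun u => h (t, u)) (pr x)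
  rw [h4] at h5
  have h6 : ‖gradient (fun u => h (t, u)) (pr x)‖ ^ 2 = 0 := by linarith
  exact norm_eq_zero.mp (pow_eq_zero_iff two_ne_zero |>.mp h6)

theorem continuous_jac2 {h : ℝ × Chart.E2 → ℝ} (hh : ContDiff ℝ ∞ h) :
    Continuous fun q : ℝ × Chart.E2 => Chart.jac (fun u => h (q.1, u)) q.2 := by
  have e : ∀ q : ℝ × Chart.E2, Chart.jac (fun u => h (q.1, u)) q.2 =
      √(1 + ‖(fderiv ℝ h q).comp (ContinuousLinearMap.inr ℝ ℝ Chart.E2)‖ ^ 2) := by
    intro q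
    have h1 : HasFDerivAt h (fderiv ℝ h q) (q.1, q.2) :=
      (hh.differentiable (by simp) q).hasFDerivAt
    have h2 := (h1.comp q.2 (hasFDerivAt_prodMk_right q.1 q.2)).fderiv
    rw [← h2, ← Chart.norm_gradient, ← Real.sqrt_sq (Chart.jac_pos _ _).le, Chart.jac_sq]
    rfl
  simp only [e]
  exact (continuous_const.add
    (((hh.continuous_fderiv (by simp)).clm_comp continuous_const).norm.pow 2)).sqrt

/-- the part of the Gaussian integral inside the chart tends to one -/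
theorem main_part {t : ℝ} {x n : E3} {J : Chart.E2 →L[ℝ] E3} {pr : E3 →L[ℝ] Chart.E2}
    {h : ℝ × Chart.E2 → ℝ} {δ : ℝ} (hδ : 0 < δ) (hh : ContDiff ℝ ∞ h) (hx : x ∈ M t)
    (h0 : gradient (fun u => h (t, u)) (pr x) = 0)
    (hC : ∀ s, |s - t| < δ → IsClosed (M s) ∧
      Chart.IsChart (M s) n J pr (fun u => h (s, u)) (ball x δ)) :
    Tendsto (fun r : ℝ => ∫ y in M (t - r ^ 2) ∩ ball x δ, gk (r ^ 2) (y - x)
      ∂(area (M (t - r ^ 2)))) (𝓝[>] 0) (𝓝 1) := by
  have hπ := Real.pi_pos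
  have Ct := (hC t (by simpa using hδ)).2
  have F := Ct.frame
  have hj := continuous_jac2 hh
  obtain ⟨K, hK⟩ := (isCompact_closedBall ((t, pr x) : ℝ × Chart.E2) δ).exists_bound_of_continuousOn
    hj.continuousOn
  have hK0 : 0 ≤ K := (norm_nonneg _).trans (hK _ (mem_closedBall_self hδ.le))
  have hsm : ∀ᶠ r : ℝ in 𝓝[>] 0, 0 < r ∧ |t - r ^ 2 - t| < δ := by
    have : Continuous fun r : ℝ => |t - r ^ 2 - t| := by fun_prop
    exact eventually_mem_nhdsWithin.and
      (mem_nhdsWithin_of_mem_nhds (this.continuousAt.eventually (gt_mem_nhds (by simpa using hδ))))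
  have hxx : Chart.gr n J (fun u => h (t, u)) (pr x) = x := Ct.gr_pr hx (mem_ball_self hδ)
  -- the rescaled integrand
  set G : ℝ → Chart.E2 → ℝ := fun r v => (pr '' (M (t - r ^ 2) ∩ ball x δ)).indicator
    (fun u => Chart.jac (fun u => h (t - r ^ 2, u)) u * ((4 * Real.pi)⁻¹ *
      Real.exp (-‖Chart.gr n J (fun u => h (t - r ^ 2, u)) u - x‖ ^ 2 / (4 * r ^ 2))))
      (pr x + r • v) with hG
  have hnorm : ∀ (r : ℝ) (v : Chart.E2),
      ‖Chart.gr n J (fun u => h (t - r ^ 2, u)) (pr x + r • v) - x‖ ^ 2 =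
        r ^ 2 * ‖v‖ ^ 2 + (h (t - r ^ 2, pr x + r • v) - h (t, pr x)) ^ 2 := by
    intro r v
    have e : Chart.gr n J (fun u => h (t - r ^ 2, u)) (pr x + r • v) - x =
        J (r • v) + (h (t - r ^ 2, pr x + r • v) - h (t, pr x)) • n := by
      conv_lhs => rw [← hxx, F.pr_gr]
      simp only [Chart.gr, map_add, sub_smul]
      abel
    rw [e, F.norm_sq_add, norm_smul, mul_pow, Real.norm_eq_abs, sq_abs]
  have hmeas : ∀ r : ℝ, |t - r ^ 2 - t| < δ → MeasurableSet (M (t - r ^ 2) ∩ ball x δ) :=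
    fun r hr => (hC _ hr).1.measurableSet.inter measurableSet_ball
  have heq : ∀ᶠ r : ℝ in 𝓝[>] 0, ∫ v, G r v =
      ∫ y in M (t - r ^ 2) ∩ ball x δ, gk (r ^ 2) (y - x) ∂(area (M (t - r ^ 2))) := by
    filter_upwards [hsm] with r ⟨hr, hr'⟩
    have C := (hC _ hr').2
    rw [C.integral Subset.rfl (hmeas r hr'),
      ← integral_indicator (C.measurableSet_image Subset.rfl (hmeas r hr'))]
    set g : Chart.E2 → ℝ := (pr '' (M (t - r ^ 2) ∩ ball x δ)).indicator
      (fun u => Chart.jac (fun u => h (t - r ^ 2, u)) u * ((4 * Real.pi)⁻¹ *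
        Real.exp (-‖Chart.gr n J (fun u => h (t - r ^ 2, u)) u - x‖ ^ 2 / (4 * r ^ 2)))) with hg
    have e1 : ∫ v, G r v = (r ^ 2)⁻¹ * ∫ u, g u := by
      have := Measure.integral_comp_smul (volume : Measure Chart.E2) (fun u => g (pr x + u)) r
      rw [integral_add_left_eq_self] at this
      simp only [finrank_euclideanSpace, Fintype.card_fin, smul_eq_mul] at this
      rw [abs_of_pos (by positivity)] at this
      exact this
    rw [e1, ← integral_const_mul]
    refine integral_congr_ae (Eventually.of_forall fun u => ?_)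
    by_cases hu : u ∈ pr '' (M (t - r ^ 2) ∩ ball x δ)
    · simp only [hg, indicator_of_mem hu, gk, smul_eq_mul]
      field_simp
    · simp only [hg, indicator_of_notMem hu, mul_zero]
  refine Tendsto.congr' heq ?_
  rw [← integral_plane]
  have hint : Integrable fun v : Chart.E2 => (4 * Real.pi)⁻¹ * Real.exp (-(1 / 4) * ‖v‖ ^ 2) :=
    Integrable.of_integral_ne_zero (by rw [integral_plane]; norm_num)
  refine tendsto_integral_filter_of_dominated_convergence
    (fun v => K * ((4 * Real.pi)⁻¹ * Real.exp (-(1 / 4) * ‖v‖ ^ 2))) ?_ ?_ (hint.const_mul K) ?_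
  · filter_upwards [hsm] with r ⟨hr, hr'⟩
    have C := (hC _ hr').2
    have h1 : Continuous fun u => Chart.jac (fun u => h (t - r ^ 2, u)) u * ((4 * Real.pi)⁻¹ *
        Real.exp (-‖Chart.gr n J (fun u => h (t - r ^ 2, u)) u - x‖ ^ 2 / (4 * r ^ 2))) := by
      have h2 := C.continuous_gr
      have h3 := Chart.continuous_jac (C.smooth.of_le one_le_inf)
      fun_prop
    have h4 : Measurable fun v : Chart.E2 => pr x + r • v := by fun_prop
    exact ((h1.measurable.indicator (C.measurableSet_image Subset.rfl (hmeas r hr'))).comp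
      h4).aestronglyMeasurable
  · filter_upwards [hsm] with r ⟨hr, hr'⟩
    refine Eventually.of_forall fun v => ?_
    by_cases hu : pr x + r • v ∈ pr '' (M (t - r ^ 2) ∩ ball x δ)
    · simp only [hG, indicator_of_mem hu]
      obtain ⟨y, hy, hyv⟩ := hu
      have h1 : ((t - r ^ 2, pr x + r • v) : ℝ × Chart.E2) ∈ closedBall (t, pr x) δ := by
        rw [mem_closedBall, Prod.dist_eq, ← hyv]
        refine max_le hr'.le ?_
        rw [dist_eq_norm, ← map_sub]
        exact (F.norm_pr_le _).trans (le_of_lt (mem_ball_iff_norm.mp hy.2))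
      have h2 := (le_abs_self _).trans (hK _ h1)
      have h3 : -‖Chart.gr n J (fun u => h (t - r ^ 2, u)) (pr x + r • v) - x‖ ^ 2 / (4 * r ^ 2) ≤
          -(1 / 4) * ‖v‖ ^ 2 := by
        rw [hnorm, div_le_iff₀ (by positivity)]
        nlinarith [sq_nonneg (h (t - r ^ 2, pr x + r • v) - h (t, pr x))]
      have h4 := Chart.jac_pos (fun u => h (t - r ^ 2, u)) (pr x + r • v)
      rw [Real.norm_of_nonneg (by positivity)]
      gcongr
    · simp only [hG, indicator_of_notMem hu, norm_zero]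
      positivity
  · refine Eventually.of_forall fun v => ?_
    have hp : Tendsto (fun r : ℝ => ((t - r ^ 2, pr x + r • v) : ℝ × Chart.E2)) (𝓝 0)
        (𝓝 (t, pr x)) := by
      have : Continuous fun r : ℝ => ((t - r ^ 2, pr x + r • v) : ℝ × Chart.E2) := by fun_prop
      simpa using this.tendsto 0
    have hgr : Tendsto (fun r : ℝ => Chart.gr n J (fun u => h (t - r ^ 2, u)) (pr x + r • v))
        (𝓝 0) (𝓝 x) := by
      have : Continuous fun q : ℝ × Chart.E2 => J q.2 + h q • n := by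
        have := hh.continuous
        fun_prop
      have h1 := (this.tendsto (t, pr x)).comp hp
      have h2 : J (pr x) + h (t, pr x) • n = x := hxx
      rw [h2] at h1
      exact h1
    have hd : HasDerivAt (fun r : ℝ => h (t - r ^ 2, pr x + r • v)) 0 0 := by
      have h1 : HasDerivAt (fun r : ℝ => ((t - r ^ 2, pr x + r • v) : ℝ × Chart.E2)) (0, v) 0 := by
        refine HasDerivAt.prodMk ?_ ?_
        · simpa using (hasDerivAt_pow 2 (0 : ℝ)).const_sub t
        · simpa using ((hasDerivAt_id (0 : ℝ)).smul_const v).const_add (pr x)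
      have h2 : HasFDerivAt h (fderiv ℝ h (t, pr x)) (t, pr x) :=
        (hh.differentiable (by simp) _).hasFDerivAt
      have h3 := (h2.comp (pr x) (hasFDerivAt_prodMk_right t (pr x))).fderiv
      have h4 : fderiv ℝ h (t, pr x) (0, v) = 0 := by
        have h5 := Chart.inner_gradient (fun u => h (t, u)) (pr x) v
        rw [h0, inner_zero_left] at h5
        exact (congrArg (fun L => L v) h3).symm.trans h5.symm
      have h6 := HasFDerivAt.comp_hasDerivAt_of_eq (0 : ℝ) h2 h1 (by simp)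
      rwa [h4] at h6
    have hs : Tendsto (fun r : ℝ => (h (t - r ^ 2, pr x + r • v) - h (t, pr x)) / r) (𝓝[>] 0)
        (𝓝 0) := by
      have := hd.tendsto_slope_zero_right
      simpa [div_eq_inv_mul] using this
    have hlim : Tendsto (fun r : ℝ => Chart.jac (fun u => h (t - r ^ 2, u)) (pr x + r • v) *
        ((4 * Real.pi)⁻¹ * Real.exp (-(1 / 4) * ‖v‖ ^ 2 -
          ((h (t - r ^ 2, pr x + r • v) - h (t, pr x)) / r) ^ 2 / 4))) (𝓝[>] 0)
        (𝓝 (Chart.jac (fun u => h (t, u)) (pr x) *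
          ((4 * Real.pi)⁻¹ * Real.exp (-(1 / 4) * ‖v‖ ^ 2 - 0 ^ 2 / 4)))) :=
      (((hj.tendsto (t, pr x)).comp hp).mono_left nhdsWithin_le_nhds).mul
        (((tendsto_const_nhds.sub ((hs.pow 2).div_const 4)).rexp).const_mul _)
    have hj1 : Chart.jac (fun u => h (t, u)) (pr x) = 1 := by
      rw [← Real.sqrt_sq (Chart.jac_pos _ _).le, Chart.jac_sq, h0]
      simp
    rw [hj1, one_mul, zero_pow two_ne_zero, zero_div, sub_zero] at hlim
    refine hlim.congr' ?_
    filter_upwards [hsm, mem_nhdsWithin_of_mem_nhds (hgr.eventually (ball_mem_nhds x hδ))]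
      with r ⟨hr, hr'⟩ hb
    have C := (hC _ hr').2
    have hu : pr x + r • v ∈ pr '' (M (t - r ^ 2) ∩ ball x δ) :=
      ⟨_, ⟨C.gr_mem hb, hb⟩, F.pr_gr _ _⟩
    simp only [hG, indicator_of_mem hu, hnorm]
    congr 3
    field_simp
    ring

theorem dens_proof : DensStmt := by
  intro D M I hM hA t ht x hx
  obtain ⟨J, pr, h, δ, hδ, hh, h0, hC⟩ := exists_st_chart hM ht hx
  have hmain := main_part hδ hh hx h0 fun s hs => ⟨(isSurf_of_mcf hM (hC s hs).1).1, (hC s hs).2⟩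
  have hsm : ∀ᶠ r : ℝ in 𝓝[>] 0, 0 < r ∧ t - r ^ 2 ∈ I := by
    have : Continuous fun r : ℝ => t - r ^ 2 := by fun_prop
    exact eventually_mem_nhdsWithin.and (mem_nhdsWithin_of_mem_nhds
      (this.continuousAt.eventually (hM.isOpen.mem_nhds (by simpa using ht))))
  have htail : Tendsto (fun r : ℝ => ∫ y in (M (t - r ^ 2) ∩ ball x δ)ᶜ, gk (r ^ 2) (y - x)
      ∂(area (M (t - r ^ 2)))) (𝓝[>] 0) (𝓝 0) := by
    rw [Metric.tendsto_nhds]
    intro η hη
    obtain ⟨C₀, -, hG⟩ := gauss_proof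
    obtain ⟨ρ, hρ, hρ'⟩ := (hG (max D 0) (le_max_right _ _)).2 (η / 2) (by positivity)
    have h1 : ∀ᶠ r : ℝ in 𝓝 0, ρ * r < δ := by
      have : Continuous fun r : ℝ => ρ * r := by fun_prop
      exact this.continuousAt.eventually (gt_mem_nhds (by simpa using hδ))
    filter_upwards [hsm, mem_nhdsWithin_of_mem_nhds h1] with r ⟨hr, hI⟩ h1
    have h2 := hρ' _ ((hA _ hI).mono (le_max_left _ _)) x r hr
    have hp : ∀ y : E3, 0 ≤ gk (r ^ 2) (y - x) := fun y => gk_nonneg (sq_nonneg r) _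
    rw [dist_zero_right, Real.norm_of_nonneg (integral_nonneg hp)]
    refine lt_of_le_of_lt (le_trans (setIntegral_mono_set
      (integrable_gk (hA _ hI) x (by positivity)).integrableOn (Eventually.of_forall hp) ?_) h2)
      (by linarith)
    filter_upwards [ae_mem (isSurf_of_mcf hM hI).1] with y hy h3 h4
    exact h3 ⟨hy, ball_subset_ball h1.le h4⟩
  have := hmain.add htail
  rw [add_zero] at this
  refine this.congr' ?_
  filter_upwards [hsm] with r ⟨hr, hI⟩
  exact integral_add_compl ((isSurf_of_mcf hM hI).1.measurableSet.inter measurableSet_ball)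
    (integrable_gk (hA _ hI) x (by positivity))

/-- the density ratios at a point of the flow are at least one -/
theorem one_le_dens (hH : HuiskenStmt) {D : ℝ} (hM : IsMCF M I)
    (hA : ∀ t ∈ I, AreaRatio D (M t)) {t r : ℝ} {x : E3} (hr : 0 < r)
    (hI : Icc (t - r ^ 2) t ⊆ I) (hx : x ∈ M t) : 1 ≤ dens M x t r := by
  refine le_of_tendsto (dens_proof D M I hM hA t (hI ⟨by nlinarith, le_rfl⟩) x hx) ?_
  filter_upwards [Ioo_mem_nhdsGT hr] with s hs
  exact dens_mono hH hM hA x t hs.1 hs.2.le fun u hu => hI ⟨hu.1, hu.2.trans (by nlinarith)⟩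

end Vale.Agent.P218FT.Hu
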