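import Vale.Agent.P218FT.Huisken1
import Vale.Agent.P218FT.Local

/-! The local monotonicity formula with Ecker's cutoff function. -/

open MeasureTheory Set Filter Topology Metric
open scoped ENNReal NNReal RealInnerProductSpace ContDiff

namespace Vale.Agent.P218FT.Hu

/-! ### continuity along the track -/

/-- the spatial gradient -/
noncomputable def sg (w : ℝ × E3 → ℝ) (p : ℝ × E3) : E3 :=
  rz ((fderiv ℝ w p).comp (ContinuousLinearMap.inr ℝ ℝ E3))

theorem fderiv_slice {G : Type*} [NormedAddCommGroup G] [NormedSpace ℝ G] {w : ℝ × E3 → G}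
    (hw : ContDiff ℝ ∞ w) (p : ℝ × E3) :
    fderiv ℝ (fun y => w (p.1, y)) p.2 = (fderiv ℝ w p).comp (ContinuousLinearMap.inr ℝ ℝ E3) := by
  have h1 : HasFDerivAt w (fderiv ℝ w p) (p.1, p.2) :=
    (hw.differentiable (by simp) p).hasFDerivAt
  exact (h1.comp p.2 (hasFDerivAt_prodMk_right p.1 p.2)).fderiv

theorem gradient_slice {w : ℝ × E3 → ℝ} (hw : ContDiff ℝ ∞ w) (t : ℝ) :
    gradient (fun y => w (t, y)) = fun y => sg w (t, y) := by
  funext y
  rw [gradient_eq_rz]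
  exact congrArg rz (fderiv_slice hw (t, y))

theorem contDiff_sg {w : ℝ × E3 → ℝ} (hw : ContDiff ℝ ∞ w) : ContDiff ℝ ∞ (sg w) :=
  rz.contDiff.comp ((hw.fderiv_right (m := ∞) (by simp)).clm_comp contDiff_const)

theorem continuousAt_nuw {w : ℝ × E3 → ℝ} (hw : ContDiff ℝ ∞ w) {p : ℝ × E3} (hp : sg w p ≠ 0) :
    ContinuousAt (fun q : ℝ × E3 => nuw (fun y => w (q.1, y)) q.2) p := by
  have hc := (contDiff_sg hw).continuous
  simp only [nuw, gradient_slice hw]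
  exact (hc.norm.continuousAt.inv₀ (norm_ne_zero_iff.mpr hp)).smul hc.continuousAt

theorem continuousAt_shw {w : ℝ × E3 → ℝ} (hw : ContDiff ℝ ∞ w) {p : ℝ × E3} (hp : sg w p ≠ 0) :
    ContinuousAt (fun q : ℝ × E3 => shw (fun y => w (q.1, y)) q.2) p := by
  have hc := (contDiff_sg hw).continuous
  have h1 := continuous_pt.continuousAt.comp (continuousAt_nuw hw hp)
  have h2 : Continuous fun q : ℝ × E3 =>
      (fderiv ℝ (sg w) q).comp (ContinuousLinearMap.inr ℝ ℝ E3) :=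
    ((contDiff_sg hw).continuous_fderiv (by simp)).clm_comp continuous_const
  have e : ∀ q : ℝ × E3, fderiv ℝ (gradient fun y => w (q.1, y)) q.2 =
      (fderiv ℝ (sg w) q).comp (ContinuousLinearMap.inr ℝ ℝ E3) := fun q => by
    rw [gradient_slice hw]
    exact fderiv_slice (contDiff_sg hw) q
  simp only [shw, e]
  simp only [gradient_slice hw]
  exact (hc.norm.continuousAt.inv₀ (norm_ne_zero_iff.mpr hp)).neg.smul
    (h1.clm_comp (h2.continuousAt.clm_comp h1))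

variable {M : ℝ → Set E3} {I : Set ℝ}

/-- a local equation in space-time is a local equation of the nearby time slices -/
theorem exists_eqn (hM : IsMCF M I) {p : ℝ × E3} (hp : p ∈ track M I) :
    ∃ w : ℝ × E3 → ℝ, ContDiff ℝ ∞ w ∧ sg w p ≠ 0 ∧
      ∀ᶠ q : ℝ × E3 in 𝓝 p, IsEqn (M q.1) q.2 fun y => w (q.1, y) := by
  obtain ⟨w, hw, hg, he, -⟩ := hM.loc p.1 hp.1 p.2 hp.2
  rw [gradient_slice hw] at hg
  refine ⟨w, hw, hg, ?_⟩
  have h1 : ∀ᶠ q in 𝓝 p, sg w q ≠ 0 := (contDiff_sg hw).continuous.continuousAt.eventually_ne hg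
  filter_upwards [h1, he.eventually_nhds] with q h1 h2
  have hc : Continuous fun y : E3 => ((q.1, y) : ℝ × E3) := by fun_prop
  refine ⟨hw.comp (by fun_prop), ?_, (hc.tendsto q.2).eventually h2⟩
  rw [gradient_slice hw]
  exact h1

theorem continuousOn_Hv (hM : IsMCF M I) :
    ContinuousOn (fun p : ℝ × E3 => Hv (M p.1) p.2) (track M I) := by
  intro p hp
  obtain ⟨w, hw, hg, he⟩ := exists_eqn hM hp
  have h := (continuous_tr.continuousAt.comp (continuousAt_shw hw hg)).smul (continuousAt_nuw hw hg)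
  refine h.continuousWithinAt.congr_of_eventuallyEq ?_ (he.self_of_nhds.Hv_eq hp.2)
  filter_upwards [self_mem_nhdsWithin, mem_nhdsWithin_of_mem_nhds he] with q h1 h2
  exact h2.Hv_eq h1.2

theorem continuousOn_pt (hM : IsMCF M I) :
    ContinuousOn (fun p : ℝ × E3 => pt (nu (M p.1) p.2)) (track M I) := by
  intro p hp
  obtain ⟨w, hw, hg, he⟩ := exists_eqn hM hp
  have h := continuous_pt.continuousAt.comp (continuousAt_nuw hw hg)
  refine h.continuousWithinAt.congr_of_eventuallyEq ?_ (he.self_of_nhds.pt_eq hp.2)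
  filter_upwards [self_mem_nhdsWithin, mem_nhdsWithin_of_mem_nhds he] with q h1 h2
  exact h2.pt_eq h1.2

theorem relV_eq (N : Set E3) (y : E3) (σ : ℝ) (x : E3) :
    relV N y σ x = Hv N x + (2 * σ)⁻¹ • ((x - y) - pt (nu N x) (x - y)) := by
  unfold relV
  rw [pt_apply, sub_sub_cancel, smul_smul, real_inner_comm]

theorem continuousOn_relV (hM : IsMCF M I) (y : E3) (t₀ : ℝ) (hI : ∀ t ∈ I, t < t₀) :
    ContinuousOn (fun p : ℝ × E3 => relV (M p.1) y (t₀ - p.1) p.2) (track M I) := by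
  simp only [relV_eq]
  have h1 : Continuous fun p : ℝ × E3 => p.2 - y := by fun_prop
  have h2 : Continuous fun p : ℝ × E3 => 2 * (t₀ - p.1) := by fun_prop
  refine (continuousOn_Hv hM).add (ContinuousOn.smul (h2.continuousOn.inv₀ ?_)
    (h1.continuousOn.sub ((continuousOn_pt hM).clm_apply h1.continuousOn)))
  intro p hp
  have := hI p.1 hp.1
  have : 0 < t₀ - p.1 := by linarith
  positivity

theorem slice {X : Type*} [TopologicalSpace X] {g : ℝ × E3 → X} (hg : ContinuousOn g (track M I))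
    {t : ℝ} (ht : t ∈ I) : ContinuousOn (fun x => g (t, x)) (M t) :=
  hg.comp (by fun_prop) fun _ hx => ⟨ht, hx⟩

theorem tang_sq {N : Set E3} {x : E3} (hn : ‖nu N x‖ = 1) (v : E3) :
    ‖v‖ ^ 2 - ⟪v, nu N x⟫ ^ 2 = ‖pt (nu N x) v‖ ^ 2 := by
  rw [norm_pt_sq hn, real_inner_comm]

/-! ### the cutoff -/

/-- the argument of the cutoff function -/
noncomputable def cu (R s ρ : ℝ) : ℝ := 1 - (ρ + 4 * s) / R ^ 2

/-- Ecker's cutoff function -/
noncomputable def ec (R s : ℝ) (z : E3) : ℝ := max (cu R s (‖z‖ ^ 2)) 0 ^ 3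

theorem ec_nonneg (R s : ℝ) (z : E3) : 0 ≤ ec R s z := pow_nonneg (le_max_right _ _) 3

theorem ec_le_one (R : ℝ) {s : ℝ} (hs : 0 ≤ s) (z : E3) : ec R s z ≤ 1 := by
  apply pow_le_one₀ (le_max_right _ _)
  refine max_le ?_ zero_le_one
  unfold cu
  have : 0 ≤ (‖z‖ ^ 2 + 4 * s) / R ^ 2 := by positivity
  linarith

theorem max_cu_zero {R s : ℝ} (hR : 0 < R) (hs : -1 ≤ s) {z : E3} (hz : R + 2 ≤ ‖z‖) :
    max (cu R s (‖z‖ ^ 2)) 0 = 0 := by
  apply max_eq_right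
  unfold cu
  have h1 : (R + 2) ^ 2 ≤ ‖z‖ ^ 2 := by gcongr
  have h2 : 1 ≤ (‖z‖ ^ 2 + 4 * s) / R ^ 2 := by
    rw [le_div_iff₀ (by positivity)]
    nlinarith
  linarith

theorem ec_zero {R s : ℝ} (hR : 0 < R) (hs : -1 ≤ s) {z : E3} (hz : R + 2 ≤ ‖z‖) :
    ec R s z = 0 := by
  unfold ec
  rw [max_cu_zero hR hs hz]; simp

theorem continuous_ec (R : ℝ) : Continuous fun p : ℝ × E3 => ec R p.1 p.2 := by
  unfold ec cu
  fun_prop

theorem hasDerivAt_cu (R : ℝ) {s ρ : ℝ → ℝ} {s' ρ' u : ℝ} (hs : HasDerivAt s s' u)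
    (hρ : HasDerivAt ρ ρ' u) :
    HasDerivAt (fun u => cu R (s u) (ρ u)) (-((ρ' + 4 * s') / R ^ 2)) u :=
  ((hρ.fun_add (hs.const_mul 4)).div_const (R ^ 2)).const_sub 1

/-- the test function -/
noncomputable def FF (y : E3) (t₀ a R : ℝ) (p : ℝ × E3) : ℝ :=
  gk (t₀ - p.1) (p.2 - y) * ec R (p.1 - a) (p.2 - y)

/-- the coefficient of the radial vector field -/
noncomputable def qq (σ s R ρ : ℝ) : ℝ :=
  kk σ ρ * (-max (cu R s ρ) 0 ^ 3 / (2 * σ) + 6 * max (cu R s ρ) 0 ^ 2 / R ^ 2)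

theorem hasDerivAt_qq {σ : ℝ} (hσ : 0 < σ) (s : ℝ) {R : ℝ} (hR : 0 < R) (ρ : ℝ) :
    HasDerivAt (qq σ s R)
      (kk σ ρ * (max (cu R s ρ) 0 ^ 3 / (8 * σ ^ 2) - 12 * max (cu R s ρ) 0 / R ^ 4)) ρ := by
  have h1 := hasDerivAt_kk (hasDerivAt_const ρ σ) (hasDerivAt_id ρ) hσ
  have h2 := hasDerivAt_cu R (hasDerivAt_const ρ s) (hasDerivAt_id ρ)
  have h3 := (hasDerivAt_pos3 _).comp ρ h2
  have h4 := (hasDerivAt_pos2 _).comp ρ h2
  have h5 := h1.fun_mul ((h3.fun_neg.div_const (2 * σ)).fun_add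
    ((h4.const_mul 6).div_const (R ^ 2)))
  refine HasDerivAt.congr_deriv h5 ?_
  simp only [Function.comp_apply, id]
  field_simp
  ring

theorem contDiff_qq {σ : ℝ} (hσ : 0 < σ) (s R : ℝ) : ContDiff ℝ 1 (qq σ s R) := by
  have h1 : ContDiff ℝ 1 fun ρ => kk σ ρ :=
    contDiffOn_univ.mp (contDiffOn_kk contDiffOn_const contDiffOn_id fun _ _ => hσ)
  have h2 : ContDiff ℝ 1 fun ρ => cu R s ρ := by
    unfold cu
    exact contDiff_const.sub ((contDiff_id.add contDiff_const).div_const _)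
  exact h1.mul (((contDiff_pos3.comp h2).neg.div_const _).add
    ((contDiff_const.mul (contDiff_pos2.comp h2)).div_const _))

theorem contDiffOn_FF (y : E3) (t₀ a R : ℝ) {J : Set ℝ} (hJ : ∀ t ∈ J, t < t₀) :
    ContDiffOn ℝ 1 (FF y t₀ a R) (J ×ˢ univ) := by
  have h0 : ContDiff ℝ 1 fun p : ℝ × E3 => ‖p.2 - y‖ ^ 2 :=
    (contDiff_snd.sub contDiff_const).norm_sq ℝ
  have h1 : ContDiffOn ℝ 1 (fun p : ℝ × E3 => kk (t₀ - p.1) (‖p.2 - y‖ ^ 2)) (J ×ˢ univ) :=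
    contDiffOn_kk (contDiff_const.sub contDiff_fst).contDiffOn h0.contDiffOn
      fun p hp => sub_pos.mpr (hJ _ hp.1)
  have h2 : ContDiff ℝ 1 fun p : ℝ × E3 => cu R (p.1 - a) (‖p.2 - y‖ ^ 2) := by
    unfold cu
    exact contDiff_const.sub
      ((h0.add (contDiff_const.mul (contDiff_fst.sub contDiff_const))).div_const _)
  exact h1.mul (contDiff_pos3.comp h2).contDiffOn

theorem fderiv_FF (y : E3) {t₀ : ℝ} (a R : ℝ) {t : ℝ} (ht : t < t₀) (x v : E3) :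
    fderiv ℝ (FF y t₀ a R) (t, x) (1, v) = kk (t₀ - t) (‖x - y‖ ^ 2) *
      ((1 / (t₀ - t) - ⟪x - y, v⟫ / (2 * (t₀ - t)) - ‖x - y‖ ^ 2 / (4 * (t₀ - t) ^ 2)) *
          max (cu R (t - a) (‖x - y‖ ^ 2)) 0 ^ 3 -
        3 * max (cu R (t - a) (‖x - y‖ ^ 2)) 0 ^ 2 * ((2 * ⟪x - y, v⟫ + 4) / R ^ 2)) := by
  have hd : DifferentiableAt ℝ (FF y t₀ a R) (t, x) :=
    ((contDiffOn_FF y t₀ a R (J := Iio t₀) fun _ h => h).contDiffAt
      ((isOpen_Iio.prod isOpen_univ).mem_nhds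
        (mk_mem_prod (mem_Iio.mpr ht) (mem_univ _)))).differentiableAt one_ne_zero
  have hl : HasDerivAt (fun u : ℝ => FF y t₀ a R ((t, x) + u • ((1 : ℝ), v)))
      (fderiv ℝ (FF y t₀ a R) (t, x) (1, v)) 0 := hd.hasFDerivAt.hasLineDerivAt _
  have hσ : HasDerivAt (fun u : ℝ => t₀ - (t + u * 1)) (-1) 0 := by
    simpa using (((hasDerivAt_id (0 : ℝ)).mul_const 1).const_add t).const_sub t₀
  have hs : HasDerivAt (fun u : ℝ => t + u * 1 - a) 1 0 := by
    simpa using (((hasDerivAt_id (0 : ℝ)).mul_const 1).const_add t).sub_const a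
  have hz : HasDerivAt (fun u : ℝ => x + u • v - y) v 0 := by
    simpa using (((hasDerivAt_id (0 : ℝ)).smul_const v).const_add x).sub_const y
  have hρ := hz.norm_sq
  have h1 := hasDerivAt_kk hσ hρ (by simpa using ht)
  have h3 := (hasDerivAt_pos3 _).comp (0 : ℝ) (hasDerivAt_cu R hs hρ)
  have h5 := h1.fun_mul h3
  refine (hl.unique h5).trans ?_
  have h0 : 0 < t₀ - t := sub_pos.mpr ht
  simp only [Function.comp_apply, zero_mul, add_zero, zero_smul]
  field_simp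
  ring

/-- the pointwise identity behind the monotonicity formula -/
theorem pointwise {N : Set E3} {x : E3} (hn : ‖nu N x‖ = 1) (y : E3) {t₀ : ℝ} (a : ℝ) {R : ℝ}
    (hR : 0 < R) {t : ℝ} (ht : t < t₀) :
    fderiv ℝ (FF y t₀ a R) (t, x) (1, Hv N x) - ‖Hv N x‖ ^ 2 * FF y t₀ a R (t, x) =
      -(‖relV N y (t₀ - t) x‖ ^ 2 * FF y t₀ a R (t, x)) -
        24 * kk (t₀ - t) (‖x - y‖ ^ 2) * max (cu R (t - a) (‖x - y‖ ^ 2)) 0 *
          ‖pt (nu N x) (x - y)‖ ^ 2 / R ^ 4 -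
        divT N (fun x => qq (t₀ - t) (t - a) R (‖x - y‖ ^ 2) • (x - y)) x -
        ⟪qq (t₀ - t) (t - a) R (‖x - y‖ ^ 2) • (x - y), Hv N x⟫ := by
  have h0 : 0 < t₀ - t := sub_pos.mpr ht
  rw [fderiv_FF y a R ht, divT_radial (hasDerivAt_qq h0 _ hR _) hn, ← tang_sq hn]
  have e1 : ‖Hv N x‖ ^ 2 = tr (sh N x) ^ 2 := by
    unfold Hv
    rw [norm_smul, hn, mul_one, Real.norm_eq_abs, sq_abs]
  have e2 : ‖relV N y (t₀ - t) x‖ ^ 2 =
      (tr (sh N x) + (2 * (t₀ - t))⁻¹ * ⟪x - y, nu N x⟫) ^ 2 := by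
    unfold relV Hv
    rw [← add_smul, norm_smul, hn, mul_one, Real.norm_eq_abs, sq_abs]
  have e3 : ⟪x - y, Hv N x⟫ = tr (sh N x) * ⟪x - y, nu N x⟫ := by
    unfold Hv
    rw [real_inner_smul_right]
  rw [real_inner_smul_left, e1, e2, e3]
  simp only [FF, ec, gk_eq, qq]
  field_simp
  ring

theorem FF_nonneg (y : E3) {t₀ : ℝ} (a R : ℝ) {p : ℝ × E3} (hp : p.1 < t₀) :
    0 ≤ FF y t₀ a R p :=
  mul_nonneg (gk_pos (sub_pos.mpr hp) _).le (ec_nonneg _ _ _)

theorem FF_zero {y : E3} {t₀ a R : ℝ} (hR : 0 < R) {p : ℝ × E3} (hp : a - 1 ≤ p.1)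
    (hz : R + 2 ≤ ‖p.2 - y‖) : FF y t₀ a R p = 0 := by
  unfold FF
  rw [ec_zero hR (by linarith) hz, mul_zero]

theorem far {x y : E3} {R : ℝ} (h : ‖y‖ + R ≤ ‖x‖) : R ≤ ‖x - y‖ := by
  have := norm_sub_norm_le x y
  linarith

theorem continuousOn_W (hM : IsMCF M I) (y : E3) {t₀ : ℝ} (a R : ℝ) (hI : ∀ t ∈ I, t < t₀) :
    ContinuousOn (fun p : ℝ × E3 => ‖relV (M p.1) y (t₀ - p.1) p.2‖ ^ 2 * FF y t₀ a R p)
      (track M I) :=
  ((continuousOn_relV hM y t₀ hI).norm.pow 2).mul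
    ((contDiffOn_FF y t₀ a R hI).continuousOn.mono fun _ hp => ⟨hp.1, mem_univ _⟩)

theorem integral_four {μ : Measure E3} {f g h k : E3 → ℝ} (hf : Integrable f μ)
    (hg : Integrable g μ) (hh : Integrable h μ) (hk : Integrable k μ) :
    ∫ x, (-f x - g x - h x - k x) ∂μ =
      -∫ x, f x ∂μ - ∫ x, g x ∂μ - ∫ x, h x ∂μ - ∫ x, k x ∂μ := by
  have h1 := integral_sub ((hf.neg.sub hg).sub hh) hk
  have h2 := integral_sub (hf.neg.sub hg) hh
  have h3 := integral_sub hf.neg hg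
  simp only [Pi.sub_apply, Pi.neg_apply, integral_neg] at h1 h2 h3
  rw [h1, h2, h3]

/-- the derivative of the localised Gaussian integral -/
theorem deriv_le (hL : LocFinStmt) (hF : FVStmt) (hM : IsMCF M I) (y : E3) {t₀ a R : ℝ}
    (hR : 0 < R) (hI : ∀ t ∈ I, a - 1 ≤ t ∧ t < t₀) {t : ℝ} (ht : t ∈ I) :
    ∫ x, (fderiv ℝ (FF y t₀ a R) (t, x) (1, Hv (M t) x) - ‖Hv (M t) x‖ ^ 2 * FF y t₀ a R (t, x))
      ∂(area (M t)) ≤
      -∫ x, ‖relV (M t) y (t₀ - t) x‖ ^ 2 * FF y t₀ a R (t, x) ∂(area (M t)) := by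
  have hN := isSurf_of_mcf hM ht
  have := hL _ hN
  have ht0 := (hI t ht).2
  have h0 : 0 < t₀ - t := sub_pos.mpr ht0
  have hs : -1 ≤ t - a := by linarith [(hI t ht).1]
  have hq := contDiff_qq h0 (t - a) R
  have hz : ContDiff ℝ 1 fun x : E3 => x - y := contDiff_id.sub contDiff_const
  have hq0 : ∀ x : E3, R + 2 ≤ ‖x - y‖ → qq (t₀ - t) (t - a) R (‖x - y‖ ^ 2) = 0 := fun x hx => by
    simp [qq, max_cu_zero hR hs hx]
  have hX : ContDiff ℝ 1 fun x : E3 => qq (t₀ - t) (t - a) R (‖x - y‖ ^ 2) • (x - y) :=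
    (hq.comp (hz.norm_sq ℝ)).smul hz
  have hXc : HasCompactSupport fun x : E3 => qq (t₀ - t) (t - a) R (‖x - y‖ ^ 2) • (x - y) := by
    refine HasCompactSupport.intro (isCompact_closedBall y (R + 2)) fun x hx => ?_
    rw [mem_closedBall, dist_eq_norm, not_le] at hx
    rw [hq0 x hx.le, zero_smul]
  have hfv := hF _ hN _ hX hXc
  have hk : Continuous fun x : E3 => kk (t₀ - t) (‖x - y‖ ^ 2) :=
    (continuous_gk (t₀ - t)).comp hz.continuous
  have hm : Continuous fun x : E3 => max (cu R (t - a) (‖x - y‖ ^ 2)) 0 := by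
    unfold cu
    fun_prop
  have hP : ContinuousOn (fun x => ‖pt (nu (M t) x) (x - y)‖ ^ 2) (M t) :=
    ((slice (continuousOn_pt hM) ht).clm_apply hz.continuous.continuousOn).norm.pow 2
  have i1 : Integrable (fun x => ‖relV (M t) y (t₀ - t) x‖ ^ 2 * FF y t₀ a R (t, x))
      (area (M t)) :=
    integrable_of_cts hN.1 (slice (continuousOn_W hM y a R fun s hs => (hI s hs).2) ht)
      (y := y) (R := R + 2) fun x _ hx =>
        mul_eq_zero_of_right _ (FF_zero (p := (t, x)) hR (hI t ht).1 hx)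
  have i2 : Integrable (fun x => 24 * kk (t₀ - t) (‖x - y‖ ^ 2) *
      max (cu R (t - a) (‖x - y‖ ^ 2)) 0 * ‖pt (nu (M t) x) (x - y)‖ ^ 2 / R ^ 4) (area (M t)) :=
    integrable_of_cts hN.1
      ((((continuous_const.mul hk).mul hm).continuousOn.mul hP).div_const _)
      (y := y) (R := R + 2) fun x _ hx => by simp [max_cu_zero hR hs hx]
  have i3 : Integrable (divT (M t) fun x => qq (t₀ - t) (t - a) R (‖x - y‖ ^ 2) • (x - y))
      (area (M t)) := by
    have hc : ContinuousOn (fun x : E3 => 2 * qq (t₀ - t) (t - a) R (‖x - y‖ ^ 2) +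
        2 * (kk (t₀ - t) (‖x - y‖ ^ 2) * (max (cu R (t - a) (‖x - y‖ ^ 2)) 0 ^ 3 /
          (8 * (t₀ - t) ^ 2) - 12 * max (cu R (t - a) (‖x - y‖ ^ 2)) 0 / R ^ 4)) *
          ‖pt (nu (M t) x) (x - y)‖ ^ 2) (M t) :=
      (continuous_const.mul (hq.continuous.comp (hz.continuous.norm.pow 2))).continuousOn.add
        ((continuous_const.mul (hk.mul (((hm.pow 3).div_const _).sub
          ((continuous_const.mul hm).div_const _)))).continuousOn.mul hP)
    refine (integrable_of_cts hN.1 hc (y := y) (R := R + 2) fun x _ hx => by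
      simp [hq0 x hx, max_cu_zero hR hs hx]).congr ?_
    filter_upwards [ae_mem hN.1] with x hx
    rw [divT_radial (hasDerivAt_qq h0 _ hR _) (norm_nu hN hx), tang_sq (norm_nu hN hx)]
  have i4 : Integrable (fun x => ⟪qq (t₀ - t) (t - a) R (‖x - y‖ ^ 2) • (x - y), Hv (M t) x⟫)
      (area (M t)) :=
    integrable_of_cts hN.1 (hX.continuous.continuousOn.inner (slice (continuousOn_Hv hM) ht))
      (y := y) (R := R + 2) fun x _ hx => by simp [hq0 x hx]
  rw [integral_congr_ae ((ae_mem hN.1).mono fun x hx =>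
    pointwise (norm_nu hN hx) y a hR ht0), integral_four i1 i2 i3 i4, hfv]
  have h2 : 0 ≤ ∫ x, 24 * kk (t₀ - t) (‖x - y‖ ^ 2) * max (cu R (t - a) (‖x - y‖ ^ 2)) 0 *
      ‖pt (nu (M t) x) (x - y)‖ ^ 2 / R ^ 4 ∂(area (M t)) := by
    refine integral_nonneg fun x => ?_
    have := kk_pos h0 (‖x - y‖ ^ 2)
    have := le_max_right (cu R (t - a) (‖x - y‖ ^ 2)) 0
    positivity
  linarith

/-- the localised dissipation at time `t` -/
noncomputable def WW (M : ℝ → Set E3) (y : E3) (t₀ a R t : ℝ) : ℝ :=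
  ∫ x, ‖relV (M t) y (t₀ - t) x‖ ^ 2 * FF y t₀ a R (t, x) ∂(area (M t))

theorem continuousOn_WW (hC : ContStmt) (hM : IsMCF M I) (y : E3) {t₀ a b R : ℝ} (hR : 0 < R)
    (hb : b < t₀) (hI : Icc a b ⊆ I) : ContinuousOn (WW M y t₀ a R) (Icc a b) := by
  have hJ := mcf_mono hM (hM.isOpen.inter isOpen_Ioo) (inter_subset_left (t := Ioo (a - 1) t₀))
  refine (cont_loc hC hJ (continuousOn_W hJ y a R fun t ht => ht.2.2) (R := ‖y‖ + (R + 2))
    fun p hp hx => by rw [FF_zero hR hp.2.1.le (far hx), mul_zero]).mono fun t ht => ?_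
  exact ⟨hI ht, by linarith [ht.1], by linarith [ht.2]⟩

/-- **Local monotonicity formula.** -/
theorem local_mono (hL : LocFinStmt) (hF : FVStmt) (hC : ContStmt) (hE : EVStmt)
    (hM : IsMCF M I) (y : E3) {t₀ a b R : ℝ} (hR : 0 < R) (hab : a ≤ b) (hb : b < t₀)
    (hI : Icc a b ⊆ I) :
    ∫ x, FF y t₀ a R (b, x) ∂(area (M b)) + ∫ t in a..b, WW M y t₀ a R t ≤
      ∫ x, FF y t₀ a R (a, x) ∂(area (M a)) := by
  have hJ := mcf_mono hM (hM.isOpen.inter isOpen_Ioo) (inter_subset_left (t := Ioo (a - 1) t₀))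
  have hsub : Icc a b ⊆ I ∩ Ioo (a - 1) t₀ := fun t ht =>
    ⟨hI ht, by linarith [ht.1], by linarith [ht.2]⟩
  have hd := fun t (ht : t ∈ Icc a b) => ev_loc hE hJ
    (contDiffOn_FF y t₀ a R fun t ht => ht.2.2) (R := ‖y‖ + (R + 2))
    (fun p hp hx => FF_zero hR hp.2.1.le (far hx)) (hsub ht)
  have h := intervalIntegral.sub_le_integral_of_hasDeriv_right_of_le hab
    (fun t ht => (hd t ht).continuousAt.continuousWithinAt)
    (fun t ht => (hd t (Ioo_subset_Icc_self ht)).hasDerivWithinAt)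
    (φ := fun t => -WW M y t₀ a R t)
    (continuousOn_WW hC hM y hR hb hI).neg.integrableOn_Icc
    (fun t ht => deriv_le hL hF hJ y hR (fun s hs => ⟨hs.2.1.le, hs.2.2⟩)
      (hsub (Ioo_subset_Icc_self ht)))
  rw [intervalIntegral.integral_neg] at h
  linarith

end Vale.Agent.P218FT.Hu
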