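import Vale.Agent.P218FT.ConvA
import Vale.Agent.P218FT.Huisken2
import Vale.Agent.P218FT.Local2
import Vale.Agent.P218FT.Scale

/-! Smooth convergence of surfaces: slices, rescalings, geometric quantities and integrals. -/

open MeasureTheory Set Filter Topology Metric
open scoped ENNReal NNReal RealInnerProductSpace ContDiff

namespace Vale.Agent.P218FT.Conv

section General

variable {ι κ E F G : Type} [NormedAddCommGroup E] [NormedSpace ℝ E]
  [NormedAddCommGroup F] [NormedSpace ℝ F] [NormedAddCommGroup G] [NormedSpace ℝ G]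
  {U : Filter ι} {V : Filter κ} {W : Set E}

/-- change of the index -/
lemma _root_.Vale.Agent.P218FT.CInf.reindex {f : ι → E → F} {g : E → F} (h : CInf U W f g)
    {φ : κ → ι} (hφ : Tendsto φ V U) : CInf V W (fun k => f (φ k)) g :=
  ⟨hφ.eventually h.smooth, h.smooth_lim, fun k u hu => hφ.eventually (h.conv k u hu), h.bdd⟩

/-- composition with affine maps with converging parameters -/
lemma cinf_comp_affine [FiniteDimensional ℝ E] [FiniteDimensional ℝ F] [FiniteDimensional ℝ G]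
    {O : Set F} {φ : ι → F → G} {ψ : F → G} (hφ : CInf U O φ ψ) (hψ : ContDiff ℝ ∞ ψ)
    (hO : IsOpen O) {a : ι → F} {a₀ : F} {L : ι → E →L[ℝ] F} {L₀ : E →L[ℝ] F}
    (ha : Tendsto a U (𝓝 a₀)) (hL : Tendsto L U (𝓝 L₀)) {x : E} {r : ℝ}
    (hm : ∀ᶠ i in U, ∀ y ∈ ball x r, a i + L i y ∈ O) (hm' : ∀ y ∈ ball x r, a₀ + L₀ y ∈ O) :
    CInf U (ball x r) (fun i y => φ i (a i + L i y)) fun y => ψ (a₀ + L₀ y) := by
  rcases U.eq_or_neBot with rfl | hU
  · have h := cinf_fixed (U := (⊥ : Filter ι)) (W := ball x r)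
      (hψ.comp (contDiff_const.add L₀.contDiff : ContDiff ℝ ∞ fun y => a₀ + L₀ y)) isBounded_ball
    exact ⟨eventually_bot, h.smooth_lim, fun _ _ _ => eventually_bot, h.bdd⟩
  · exact hφ.comp (cinf_affine ha hL isOpen_ball (convex_ball x r) isBounded_ball) hO isOpen_ball
      (convex_ball x r) isBounded_ball hm hm'

/-- affine maps with converging parameters map a small ball into a given neighbourhood -/
lemma exists_ball_affine {O : Set F} {a : ι → F} {a₀ : F} {L : ι → E →L[ℝ] F} {L₀ : E →L[ℝ] F}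
    (ha : Tendsto a U (𝓝 a₀)) (hL : Tendsto L U (𝓝 L₀)) {x : E} (hO : O ∈ 𝓝 (a₀ + L₀ x)) :
    ∃ r : ℝ, 0 < r ∧ (∀ᶠ i in U, ∀ y ∈ ball x r, a i + L i y ∈ O) ∧
      ∀ y ∈ ball x r, a₀ + L₀ y ∈ O := by
  have hc : Continuous fun q : (F × (E →L[ℝ] F)) × E => q.1.1 + q.1.2 q.2 :=
    continuous_fst.fst.add (continuous_fst.snd.clm_apply continuous_snd)
  have h1 := (hc.tendsto ((a₀, L₀), x)).eventually hO
  rw [nhds_prod_eq, eventually_prod_iff] at h1
  obtain ⟨p, hp, q, hq, h⟩ := h1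
  obtain ⟨r, hr, hb⟩ := Metric.eventually_nhds_iff_ball.mp hq
  exact ⟨r, hr, ((ha.prodMk_nhds hL).eventually hp).mono fun i hi y hy => h hi (hb y hy),
    fun y hy => h hp.self_of_nhds (hb y hy)⟩

/-- joint convergence gives convergence of the integrals over a compact set -/
lemma tendsto_setIntegral_of_joint {X : Type} [PseudoMetricSpace X] [MeasurableSpace X]
    [OpensMeasurableSpace X] [T2Space X] {μ : Measure X} [IsFiniteMeasureOnCompacts μ]
    {K : Set X} (hK : IsCompact K) {f : ι → X → ℝ} {g : X → ℝ}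
    (hf : ∀ᶠ i in U, ContinuousOn (f i) K) (hg : ∀ x ∈ K, ContinuousAt g x)
    (h : ∀ x ∈ K, Tendsto (fun p : ι × X => f p.1 p.2) (U ×ˢ 𝓝 x) (𝓝 (g x))) :
    Tendsto (fun i => ∫ x in K, f i x ∂μ) U (𝓝 (∫ x in K, g x ∂μ)) := by
  rw [Metric.tendsto_nhds]
  intro ε hε
  have hm : 0 ≤ μ.real K := measureReal_nonneg
  have hη : 0 < ε / (μ.real K + 1) := by positivity
  have h1 : {p : ι × X | ‖f p.1 p.2 - g p.2‖ ≤ ε / (μ.real K + 1)} ∈ U ×ˢ 𝓝ˢ K := by
    refine hK.mem_prod_nhdsSet_of_forall fun x hx => ?_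
    have h2 := ((h x hx).sub ((hg x hx).tendsto.comp tendsto_snd)).norm
    rw [sub_self, norm_zero] at h2
    exact h2.eventually (ge_mem_nhds hη)
  obtain ⟨A, hA, B, hB, hAB⟩ := mem_prod_iff.mp h1
  have hg' : IntegrableOn g K μ :=
    (continuousOn_of_forall_continuousAt hg).integrableOn_compact hK
  filter_upwards [hA, hf] with i hi hc
  rw [dist_eq_norm, ← integral_sub (hc.integrableOn_compact hK) hg']
  refine (norm_setIntegral_le_of_norm_le_const hK.measure_lt_top fun x hx =>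
    hAB (mk_mem_prod hi (subset_of_mem_nhdsSet hB hx))).trans_lt ?_
  rw [div_mul_eq_mul_div, div_lt_iff₀ (by positivity)]
  nlinarith

end General

variable {ι κ : Type} {U : Filter ι} {V : Filter κ} {N : ι → Set E3} {S : Set E3}

/-! ### elementary operations -/

lemma _root_.Vale.Agent.P218FT.SLimS.reindex (h : SLimS U N S) {φ : κ → ι} (hφ : Tendsto φ V U) :
    SLimS V (fun k => N (φ k)) S := by
  refine ⟨fun x hx => ?_, fun x hx => ?_⟩
  · obtain ⟨W, hW, h1⟩ := h.out x hx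
    exact ⟨W, hW, hφ.eventually h1⟩
  · obtain ⟨W, w, v, h1, h2, h3, h4, h5, h6, h7, h8⟩ := h.loc x hx
    exact ⟨W, fun k => w (φ k), v, h1, h2, fun k => h3 _, h4, h5.reindex hφ, h6, h7,
      hφ.eventually h8⟩

lemma _root_.Vale.Agent.P218FT.SLim.reindex {M : ι → ℝ → Set E3} {L : ℝ → Set E3} {I : Set ℝ}
    (h : SLim U M L I) {φ : κ → ι} (hφ : Tendsto φ V U) : SLim V (fun k => M (φ k)) L I := by
  refine ⟨fun t ht x hx => ?_, fun t ht x hx => ?_⟩
  · obtain ⟨W, hW, h1⟩ := h.out t ht x hx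
    exact ⟨W, hW, hφ.eventually h1⟩
  · obtain ⟨W, w, v, h1, h2, h3, h4, h5, h6, h7, h8⟩ := h.loc t ht x hx
    exact ⟨W, fun k => w (φ k), v, h1, h2, fun k => h3 _, h4, h5.reindex hφ, h6, h7,
      hφ.eventually h8⟩

lemma _root_.Vale.Agent.P218FT.SLimS.congr {N' : ι → Set E3} (h : SLimS U N S)
    (e : ∀ᶠ i in U, N i = N' i) : SLimS U N' S := by
  refine ⟨fun x hx => ?_, fun x hx => ?_⟩
  · obtain ⟨W, hW, h1⟩ := h.out x hx
    refine ⟨W, hW, ?_⟩
    filter_upwards [h1, e] with i h1 e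
    rwa [← e]
  · obtain ⟨W, w, v, h1, h2, h3, h4, h5, h6, h7, h8⟩ := h.loc x hx
    refine ⟨W, w, v, h1, h2, h3, h4, h5, h6, h7, ?_⟩
    filter_upwards [h8, e] with i h8 e
    rwa [← e]

/-- the constant family -/
lemma slimS_const (hS : IsSurf S) (U : Filter ι) : SLimS U (fun _ => S) S := by
  refine ⟨fun x hx => ⟨Sᶜ, hS.1.isOpen_compl.mem_nhds hx, Eventually.of_forall fun _ _ h => h⟩,
    fun x hx => ?_⟩
  obtain ⟨w, hw, hg, he⟩ := hS.2 x hx
  obtain ⟨r, hr, hb⟩ := Metric.eventually_nhds_iff_ball.mp he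
  exact ⟨ball x r, fun _ => w, w, isOpen_ball, mem_ball_self hr, fun _ => hw, hw,
    cinf_fixed hw isBounded_ball, hg, hb, Eventually.of_forall fun _ => hb⟩

/-- time slices of converging flows, at converging times -/
theorem _root_.Vale.Agent.P218FT.SLim.slice {M : ι → ℝ → Set E3} {L : ℝ → Set E3} {I : Set ℝ}
    (h : SLim U M L I) {τ : ι → ℝ} {t : ℝ} (hτ : Tendsto τ U (𝓝 t)) (ht : t ∈ I) :
    SLimS U (fun i => M i (τ i)) (L t) := by
  have ha : Tendsto (fun i => ((τ i, 0) : ℝ × E3)) U (𝓝 (t, 0)) := hτ.prodMk_nhds tendsto_const_nhds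
  have hL : Tendsto (fun _ : ι => ContinuousLinearMap.inr ℝ ℝ E3) U (𝓝 _) := tendsto_const_nhds
  have e : ∀ (s : ℝ) (y : E3), ((s, 0) : ℝ × E3) + ContinuousLinearMap.inr ℝ ℝ E3 y = (s, y) :=
    fun s y => by simp
  refine ⟨fun x hx => ?_, fun x hx => ?_⟩
  · obtain ⟨W, hW, h1⟩ := h.out t ht x hx
    obtain ⟨r, hr, h2, -⟩ := exists_ball_affine ha hL (x := x) (by rw [e]; exact hW)
    refine ⟨ball x r, ball_mem_nhds x hr, ?_⟩
    filter_upwards [h1, h2] with i h1 h2 y hy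
    exact h1 (τ i, y) (e (τ i) y ▸ h2 y hy)
  · obtain ⟨W, w, v, h1, h2, h3, h4, h5, h6, h7, h8⟩ := h.loc t ht x hx
    obtain ⟨r, hr, h9, h10⟩ := exists_ball_affine ha hL (x := x)
      (by rw [e]; exact h1.mem_nhds h2)
    have h11 := cinf_comp_affine h5 h4 h1 ha hL h9 h10
    simp only [e] at h9 h10 h11
    refine ⟨ball x r, fun i y => w i (τ i, y), fun y => v (t, y), isOpen_ball, mem_ball_self hr,
      fun i => (h3 i).comp (by fun_prop), h4.comp (by fun_prop), h11, h6,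
      fun y hy => h7 _ (h10 y hy), ?_⟩
    filter_upwards [h8, h9] with i h8 h9 y hy
    exact h8 _ (h9 y hy)

theorem _root_.Vale.Agent.P218FT.SLim.slice_const {M : ι → ℝ → Set E3} {L : ℝ → Set E3}
    {I : Set ℝ} (h : SLim U M L I) {t : ℝ} (ht : t ∈ I) : SLimS U (fun i => M i t) (L t) :=
  h.slice tendsto_const_nhds ht

/-- images under converging invertible affine maps -/
theorem _root_.Vale.Agent.P218FT.SLimS.affine (h : SLimS U N S) {a : ι → E3} {a₀ : E3}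
    {L : ι → E3 →L[ℝ] E3} {L₀ : E3 →L[ℝ] E3} (ha : Tendsto a U (𝓝 a₀)) (hL : Tendsto L U (𝓝 L₀))
    (hs : Function.Surjective L₀) :
    SLimS U (fun i => {y | a i + L i y ∈ N i}) {y | a₀ + L₀ y ∈ S} := by
  refine ⟨fun x hx => ?_, fun x hx => ?_⟩
  · obtain ⟨W, hW, h1⟩ := h.out _ hx
    obtain ⟨r, hr, h2, -⟩ := exists_ball_affine ha hL hW
    refine ⟨ball x r, ball_mem_nhds x hr, ?_⟩
    filter_upwards [h1, h2] with i h1 h2 y hy
    exact h1 _ (h2 y hy)
  · obtain ⟨W, w, v, h1, h2, h3, h4, h5, h6, h7, h8⟩ := h.loc _ hx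
    obtain ⟨r, hr, h9, h10⟩ := exists_ball_affine ha hL (h1.mem_nhds h2)
    refine ⟨ball x r, fun i y => w i (a i + L i y), fun y => v (a₀ + L₀ y), isOpen_ball,
      mem_ball_self hr, fun i => (h3 i).comp (contDiff_const.add (L i).contDiff),
      h4.comp (contDiff_const.add L₀.contDiff), cinf_comp_affine h5 h4 h1 ha hL h9 h10, ?_,
      fun y hy => h7 _ (h10 y hy), ?_⟩
    · intro h0
      apply h6
      obtain ⟨z, hz⟩ := hs (gradient v (a₀ + L₀ x))
      have h11 := ((h4.differentiable (by simp) (a₀ + L₀ x)).hasFDerivAt.comp x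
        (L₀.hasFDerivAt.const_add a₀)).fderiv
      have h12 := inner_grad (fun y => v (a₀ + L₀ y)) x z
      rw [h0, inner_zero_left] at h12
      have h13 : fderiv ℝ v (a₀ + L₀ x) (L₀ z) = 0 :=
        (congrArg (fun T => T z) h11).symm.trans h12.symm
      rwa [← inner_grad, hz, inner_self_eq_zero] at h13
    · filter_upwards [h8, h9] with i h8 h9 y hy
      exact h8 _ (h9 y hy)

theorem _root_.Vale.Agent.P218FT.SLimS.scale (h : SLimS U N S) {lam : ι → ℝ} {lam₀ : ℝ}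
    {x : ι → E3} {x₀ : E3} (hl : Tendsto lam U (𝓝 lam₀)) (h0 : lam₀ ≠ 0)
    (hx : Tendsto x U (𝓝 x₀)) :
    SLimS U (fun i => scaleSet (lam i) (x i) (N i)) (scaleSet lam₀ x₀ S) :=
  h.affine (L := fun i => (lam i)⁻¹ • ContinuousLinearMap.id ℝ E3)
    (L₀ := lam₀⁻¹ • ContinuousLinearMap.id ℝ E3) hx ((hl.inv₀ h0).smul_const _)
    fun y => ⟨lam₀ • y, by simp [smul_smul, mul_inv_cancel₀ h0]⟩

theorem _root_.Vale.Agent.P218FT.SLimS.translate (h : SLimS U N S) {x : ι → E3} {x₀ : E3}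
    (hx : Tendsto x U (𝓝 x₀)) : SLimS U (fun i => {y | x i + y ∈ N i}) {y | x₀ + y ∈ S} :=
  h.affine (L := fun _ => ContinuousLinearMap.id ℝ E3) hx tendsto_const_nhds
    Function.surjective_id

/-- limits of points of the surfaces lie on the limit -/
theorem _root_.Vale.Agent.P218FT.SLimS.mem_of_tendsto (h : SLimS U N S) {y : ι → E3} {x : E3}
    (hy : Tendsto y U (𝓝 x)) (hN : ∃ᶠ i in U, y i ∈ N i) : x ∈ S := by
  by_contra hx
  obtain ⟨W, hW, h1⟩ := h.out x hx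
  obtain ⟨i, h2, h3, h4⟩ := (hN.and_eventually (h1.and (hy.eventually hW))).exists
  exact h3 _ h4 h2

lemma fderiv_grad {f : E3 → ℝ} (hf : ContDiff ℝ ∞ f) (x : E3) :
    fderiv ℝ (gradient f) x = rz.comp (fderiv ℝ (fderiv ℝ f) x) := by
  rw [gradient_eq_rz]
  exact (rz.hasFDerivAt.comp x
    ((hf.fderiv_right (m := ∞) (by simp)).differentiable (by simp) x).hasFDerivAt).fderiv

lemma tendsto_grad {W : Set E3} {w : ι → E3 → ℝ} {v : E3 → ℝ} (h : CInf U W w v) (hW : IsOpen W)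
    {x : E3} (hx : x ∈ W) {y : ι → E3} (hy : Tendsto y U (𝓝 x)) :
    Tendsto (fun i => gradient (w i) (y i)) U (𝓝 (gradient v x)) :=
  (rz.continuous.tendsto _).comp ((h.fderiv hW).tendsto_comp hW hx hy)

/-- convergence, at converging points, of all quantities which do not depend on the sign of the
normal -/
theorem _root_.Vale.Agent.P218FT.SLimS.tendsto_even (h : SLimS U N S) {Y : Type}
    [TopologicalSpace Y] {Φ : E3 × (E3 →L[ℝ] E3) → Y} (hΦ : Continuous Φ)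
    (he : ∀ n A, Φ (-n, -A) = Φ (n, A)) {y : ι → E3} {x : E3} (hx : x ∈ S)
    (hy : Tendsto y U (𝓝 x)) (hN : ∀ᶠ i in U, y i ∈ N i) :
    Tendsto (fun i => Φ (nu (N i) (y i), sh (N i) (y i))) U (𝓝 (Φ (nu S x, sh S x))) := by
  obtain ⟨W, w, v, h1, h2, h3, h4, h5, h6, h7, h8⟩ := h.loc x hx
  have key : ∀ {T : Set E3} {z : E3} {f : E3 → ℝ}, IsEqn T z f → z ∈ T →
      Φ (nu T z, sh T z) = Φ (nuw f z, shw f z) := by
    intro T z f hf hz
    obtain ⟨ε, hε, e1, e2⟩ := hf.nu_sh hz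
    rcases hε with rfl | rfl
    · rw [e1, e2, one_smul, one_smul]
    · rw [e1, e2, neg_one_smul ℝ (nuw f z), neg_one_smul ℝ (shw f z), he]
  have hp := tendsto_grad h5 h1 h2 hy
  have hA : Tendsto (fun i => fderiv ℝ (gradient (w i)) (y i)) U
      (𝓝 (fderiv ℝ (gradient v) x)) := by
    simp only [fderiv_grad (h3 _), fderiv_grad h4]
    exact ((continuous_const.clm_comp continuous_id).tendsto _).comp
      (((h5.fderiv h1).fderiv h1).tendsto_comp h1 h2 hy)
  have hn0 : ‖gradient v x‖ ≠ 0 := norm_ne_zero_iff.mpr h6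
  have hn : Tendsto (fun i => nuw (w i) (y i)) U (𝓝 (nuw v x)) := (hp.norm.inv₀ hn0).smul hp
  have hP := (continuous_pt.tendsto _).comp hn
  have hc : Continuous fun q : (E3 →L[ℝ] E3) × (E3 →L[ℝ] E3) => q.1.comp (q.2.comp q.1) :=
    continuous_fst.clm_comp (continuous_snd.clm_comp continuous_fst)
  have hs : Tendsto (fun i => shw (w i) (y i)) U (𝓝 (shw v x)) :=
    (hp.norm.inv₀ hn0).neg.smul ((hc.tendsto _).comp (hP.prodMk_nhds hA))
  rw [key ⟨h4, h6, mem_of_superset (h1.mem_nhds h2) h7⟩ hx]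
  refine ((hΦ.tendsto _).comp (hn.prodMk_nhds hs)).congr' ?_
  filter_upwards [h8, hN, hp.eventually_ne h6, hy.eventually (h1.mem_nhds h2)] with i a1 a2 a3 a4
  exact (key ⟨h3 i, a3, mem_of_superset (h1.mem_nhds a4) a1⟩ a2).symm

/-- the position, the tangent projection, the mean curvature vector and `|A|²` -/
noncomputable def geo (N : Set E3) (x : E3) : E3 × (E3 →L[ℝ] E3) × E3 × ℝ :=
  (x, pt (nu N x), Hv N x, a2 N x)

lemma geo_fst (N : Set E3) (x : E3) : (geo N x).1 = x := rfl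

theorem _root_.Vale.Agent.P218FT.SLimS.tendsto_pt (h : SLimS U N S) {y : ι → E3} {x : E3}
    (hx : x ∈ S) (hy : Tendsto y U (𝓝 x)) (hN : ∀ᶠ i in U, y i ∈ N i) :
    Tendsto (fun i => pt (nu (N i) (y i))) U (𝓝 (pt (nu S x))) :=
  h.tendsto_even (Φ := fun q => pt q.1) (continuous_pt.comp continuous_fst)
    (fun n _ => pt_neg n) hx hy hN

theorem _root_.Vale.Agent.P218FT.SLimS.tendsto_Hv (h : SLimS U N S) {y : ι → E3} {x : E3}
    (hx : x ∈ S) (hy : Tendsto y U (𝓝 x)) (hN : ∀ᶠ i in U, y i ∈ N i) :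
    Tendsto (fun i => Hv (N i) (y i)) U (𝓝 (Hv S x)) := by
  refine h.tendsto_even (Φ := fun q => tr q.2 • q.1)
    ((continuous_tr.comp continuous_snd).smul continuous_fst) (fun n A => ?_) hx hy hN
  have e : tr (-A) = -tr A := by rw [← neg_one_smul ℝ A, tr_smul]; ring
  simp [e]

theorem _root_.Vale.Agent.P218FT.SLimS.tendsto_a2 (h : SLimS U N S) {y : ι → E3} {x : E3}
    (hx : x ∈ S) (hy : Tendsto y U (𝓝 x)) (hN : ∀ᶠ i in U, y i ∈ N i) :
    Tendsto (fun i => a2 (N i) (y i)) U (𝓝 (a2 S x)) :=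
  h.tendsto_even (Φ := fun q => tr (q.2.comp q.2))
    (continuous_tr.comp (continuous_snd.clm_comp continuous_snd)) (fun n A => by simp) hx hy hN

theorem _root_.Vale.Agent.P218FT.SLimS.tendsto_geo (h : SLimS U N S) {y : ι → E3} {x : E3}
    (hx : x ∈ S) (hy : Tendsto y U (𝓝 x)) (hN : ∀ᶠ i in U, y i ∈ N i) :
    Tendsto (fun i => geo (N i) (y i)) U (𝓝 (geo S x)) :=
  hy.prodMk_nhds ((h.tendsto_pt hx hy hN).prodMk_nhds
    ((h.tendsto_Hv hx hy hN).prodMk_nhds (h.tendsto_a2 hx hy hN)))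

theorem continuousOn_geo (hS : IsSurf S) : ContinuousOn (geo S) S := fun x hx =>
  (slimS_const hS (𝓝[S] x)).tendsto_geo hx (tendsto_id.mono_left nhdsWithin_le_nhds)
    self_mem_nhdsWithin

/-! ### graphs over a fixed disc -/

/-- in the box of radius `δ` and height `ρ` about `x`, the set `T` is the graph of `h` -/
structure Box (T : Set E3) (n : E3) (pr : E3 →L[ℝ] Chart.E2) (x : E3) (δ ρ : ℝ)
    (h : Chart.E2 → ℝ) : Prop where
  smooth : ContDiffOn ℝ ∞ h (ball (pr x) δ)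
  range : ∀ u ∈ ball (pr x) δ, h u ∈ ball ⟪n, x⟫ ρ
  iff : ∀ y, pr y ∈ ball (pr x) δ → ⟪n, y⟫ ∈ closedBall ⟪n, x⟫ ρ → (y ∈ T ↔ ⟪n, y⟫ = h (pr y))

variable {n : E3} {J : Chart.E2 →L[ℝ] E3} {pr : E3 →L[ℝ] Chart.E2}

lemma Box.gr_mem {T : Set E3} {x : E3} {δ ρ : ℝ} {h : Chart.E2 → ℝ} (B : Box T n pr x δ ρ h)
    (F : Chart.Frame n J pr) {u : Chart.E2} (hu : u ∈ ball (pr x) δ) : Chart.gr n J h u ∈ T := by
  refine (B.iff _ ?_ ?_).mpr ?_
  · rwa [F.pr_gr]
  · rw [F.inner_gr]; exact ball_subset_closedBall (B.range u hu)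
  · rw [F.pr_gr, F.inner_gr]

lemma Box.integral {T : Set E3} {x : E3} {δ ρ : ℝ} {h : Chart.E2 → ℝ} (B : Box T n pr x δ ρ h)
    (F : Chart.Frame n J pr) (hT : MeasurableSet T) {r : ℝ} (h1 : r < δ) (h2 : r ≤ ρ)
    {g : E3 → ℝ} (hg : ∀ y, r ≤ ‖y - x‖ → g y = 0) :
    ∫ y, g y ∂(area T) = ∫ u in closedBall (pr x) r, Chart.jac h u * g (Chart.gr n J h u) := by
  have hs : closedBall (pr x) r ⊆ ball (pr x) δ := closedBall_subset_ball h1
  have := F.integral_graph isOpen_ball (B.smooth.of_le one_le_inf) measurableSet_closedBall hs g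
  simp only [smul_eq_mul] at this
  rw [← this]
  refine setIntegral_eq_of_subset_of_forall_sdiff_eq_zero hT ?_ fun y hy => ?_
  · rintro _ ⟨u, hu, rfl⟩
    exact B.gr_mem F (hs hu)
  · by_contra h0
    have h3 : ‖y - x‖ ≤ r := (not_le.mp fun h => h0 (hg y h)).le
    have h4 : pr y ∈ closedBall (pr x) r := by
      rw [mem_closedBall, dist_eq_norm, ← map_sub]
      exact (F.norm_pr_le _).trans h3
    have h5 : ⟪n, y⟫ ∈ closedBall ⟪n, x⟫ ρ := by
      rw [mem_closedBall, Real.dist_eq, ← inner_sub_right]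
      refine (abs_real_inner_le_norm _ _).trans ?_
      rw [F.unit, one_mul]
      exact h3.trans h2
    exact hy.2 ⟨pr y, h4, F.gr_pr ((B.iff y (hs h4) h5).mp hy.1).symm⟩

/-- near a point of the limit, the surfaces are graphs over a fixed disc, in every direction which
is transversal to the limit -/
theorem _root_.Vale.Agent.P218FT.SLimS.exists_box [U.NeBot] (h : SLimS U N S) {x : E3}
    (hx : x ∈ S) (F : Chart.Frame n J pr) (hn : ⟪nu S x, n⟫ ≠ 0) :
    ∃ (δ ρ : ℝ) (f : ι → Chart.E2 → ℝ) (f₀ : Chart.E2 → ℝ), 0 < δ ∧ 0 < ρ ∧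
      CInf U (ball (pr x) δ) f f₀ ∧ f₀ (pr x) = ⟪n, x⟫ ∧ Box S n pr x δ ρ f₀ ∧
      ∀ᶠ i in U, Box (N i) n pr x δ ρ (f i) := by
  obtain ⟨W, w, v, h1, h2, h3, h4, h5, h6, h7, h8⟩ := h.loc x hx
  let T : Chart.E2 × ℝ →L[ℝ] E3 := J.coprod ((ContinuousLinearMap.id ℝ ℝ).smulRight n)
  have hT : ∀ y : E3, (0 : E3) + T (pr y, ⟪n, y⟫) = y := fun y => by
    rw [zero_add]; exact F.decomp y
  have ha : Tendsto (fun _ : ι => (0 : E3)) U (𝓝 0) := tendsto_const_nhds
  have hL : Tendsto (fun _ : ι => T) U (𝓝 T) := tendsto_const_nhds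
  obtain ⟨r, hr, h9, h10⟩ := exists_ball_affine ha hL (x := (pr x, ⟪n, x⟫))
    (by rw [hT]; exact h1.mem_nhds h2)
  have hd : fderiv ℝ (fun q => v (0 + T q)) (pr x, ⟪n, x⟫) (0, 1) ≠ 0 := by
    have e1 := ((h4.differentiable (by simp) (0 + T (pr x, ⟪n, x⟫))).hasFDerivAt.comp
      ((pr x, ⟪n, x⟫) : Chart.E2 × ℝ) (f := fun q => 0 + T q) (T.hasFDerivAt.const_add 0)).fderiv
    have e2 : T (0, 1) = n := by simp [T]
    have e3 : fderiv ℝ (fun q => v (0 + T q)) (pr x, ⟪n, x⟫) (0, 1) = ⟪gradient v x, n⟫ := by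
      refine (congrArg (fun A => A (0, 1)) e1).trans ?_
      simp only [ContinuousLinearMap.comp_apply, e2, hT, inner_grad]
    have hE : IsEqn S x v := ⟨h4, h6, mem_of_superset (h1.mem_nhds h2) h7⟩
    obtain ⟨ε, -, e4, -⟩ := hE.nu_sh hx
    rw [e3]
    intro h0
    apply hn
    rw [e4, nuw, real_inner_smul_left, real_inner_smul_left, h0, mul_zero, mul_zero]
  obtain ⟨δ, ρ, f, f₀, hδ, hρ, hsub, hc, hf0, b1, b2⟩ := impl isOpen_ball
    (cinf_comp_affine h5 h4 h1 ha hL h9 h10) (mem_ball_self hr)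
    (by rw [hT]; exact (h7 x h2).mp hx) hd
  have hW : ∀ y : E3, pr y ∈ ball (pr x) δ → ⟪n, y⟫ ∈ closedBall ⟪n, x⟫ ρ → y ∈ W :=
    fun y a1 a2 => hT y ▸ h10 _ (hsub (mk_mem_prod a1 a2))
  refine ⟨δ, ρ, f, f₀, hδ, hρ, hc, hf0, ⟨hc.smooth_lim, fun u hu => (b1 u hu).1, fun y a1 a2 => ?_⟩,
    ?_⟩
  · rw [h7 y (hW y a1 a2), ← (b1 _ a1).2 _ a2, hT]
  · filter_upwards [hc.smooth, b2, h8] with i c1 c2 c3
    refine ⟨c1, fun u hu => (c2 u hu).1, fun y a1 a2 => ?_⟩
    rw [c3 y (hW y a1 a2), ← (c2 _ a1).2 _ a2, hT]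

lemma _root_.Vale.Agent.P218FT.SLimS.norm_nu (h : SLimS U N S) {x : E3} (hx : x ∈ S) :
    ‖nu S x‖ = 1 := by
  obtain ⟨W, w, v, h1, h2, -, h4, -, h6, h7, -⟩ := h.loc x hx
  have hE : IsEqn S x v := ⟨h4, h6, mem_of_superset (h1.mem_nhds h2) h7⟩
  exact norm_nuw hE.isEqn_eqn.2.1

lemma tendsto_gr {W : Set Chart.E2} {f : ι → Chart.E2 → ℝ} {f₀ : Chart.E2 → ℝ}
    (h : CInf U W f f₀) (hW : IsOpen W) {u₀ : Chart.E2} (hu₀ : u₀ ∈ W) {u : ι → Chart.E2}
    (hu : Tendsto u U (𝓝 u₀)) :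
    Tendsto (fun i => Chart.gr n J (f i) (u i)) U (𝓝 (Chart.gr n J f₀ u₀)) :=
  ((J.continuous.tendsto _).comp hu).add ((h.tendsto_comp hW hu₀ hu).smul_const n)

lemma jac_eq (f : Chart.E2 → ℝ) (u : Chart.E2) : Chart.jac f u = √(1 + ‖fderiv ℝ f u‖ ^ 2) := by
  rw [← Chart.norm_gradient, ← Chart.jac_sq, Real.sqrt_sq (Chart.jac_pos _ _).le]

lemma tendsto_jac {W : Set Chart.E2} {f : ι → Chart.E2 → ℝ} {f₀ : Chart.E2 → ℝ}
    (h : CInf U W f f₀) (hW : IsOpen W) {u₀ : Chart.E2} (hu₀ : u₀ ∈ W) {u : ι → Chart.E2}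
    (hu : Tendsto u U (𝓝 u₀)) :
    Tendsto (fun i => Chart.jac (f i) (u i)) U (𝓝 (Chart.jac f₀ u₀)) := by
  simp only [jac_eq]
  exact ((((h.fderiv hW).tendsto_comp hW hu₀ hu).norm.pow 2).const_add 1).sqrt

/-- every point of the limit is a limit of points of the surfaces -/
theorem _root_.Vale.Agent.P218FT.SLimS.exists_seq (h : SLimS U N S) {x : E3} (hx : x ∈ S) :
    ∃ y : ι → E3, Tendsto y U (𝓝 x) ∧ ∀ᶠ i in U, y i ∈ N i := by
  rcases U.eq_or_neBot with rfl | hU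
  · exact ⟨fun _ => x, tendsto_bot, eventually_bot⟩
  obtain ⟨J, pr, F⟩ := Chart.exists_frame (h.norm_nu hx)
  obtain ⟨δ, ρ, f, f₀, hδ, -, hc, h0, -, hB⟩ := h.exists_box hx F (by rw [F.inner_n]; norm_num)
  refine ⟨fun i => Chart.gr (nu S x) J (f i) (pr x), ?_,
    hB.mono fun i B => B.gr_mem F (mem_ball_self hδ)⟩
  have := tendsto_gr (n := nu S x) (J := J) hc isOpen_ball (mem_ball_self hδ) tendsto_const_nhds
  rwa [F.gr_pr h0] at this

theorem _root_.Vale.Agent.P218FT.SLimS.unique [U.NeBot] {S' : Set E3} (h : SLimS U N S)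
    (h' : SLimS U N S') : S = S' := by
  have key : ∀ {A B : Set E3}, SLimS U N A → SLimS U N B → A ⊆ B := fun a b x hx =>
    let ⟨_, h1, h2⟩ := a.exists_seq hx
    b.mem_of_tendsto h1 h2.frequently
  exact (key h h').antisymm (key h' h)

theorem _root_.Vale.Agent.P218FT.SLimS.isSurf [U.NeBot] (h : SLimS U N S) : IsSurf S := by
  constructor
  · rw [← isOpen_compl_iff, isOpen_iff_mem_nhds]
    intro x hx
    obtain ⟨W, hW, h1⟩ := h.out x hx
    filter_upwards [interior_mem_nhds.mpr hW] with z hz hzS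
    obtain ⟨y, h2, h3⟩ := h.exists_seq hzS
    obtain ⟨i, a1, a2, a3⟩ :=
      (h1.and (h3.and (h2.eventually (isOpen_interior.mem_nhds hz)))).exists
    exact a1 _ (interior_subset a3) a2
  · intro x hx
    obtain ⟨W, w, v, h1, h2, -, h4, -, h6, h7, -⟩ := h.loc x hx
    exact ⟨v, h4, h6, mem_of_superset (h1.mem_nhds h2) h7⟩

/-- two-point bounds pass to the limit -/
theorem _root_.Vale.Agent.P218FT.SLimS.twoPt [U.NeBot] (h : SLimS U N S) {x : E3} (hx : x ∈ S)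
    {W : Set E3} (hW : W ∈ 𝓝 x) {r r' C : ℝ} (hr : r' < r) (hN : ∀ᶠ i in U, IsSurf (N i))
    (hT : ∀ᶠ i in U, ∀ z ∈ W, z ∈ N i → TwoPt (N i) z r C) : TwoPt S x r' C := by
  intro y hy hyx
  obtain ⟨a, a1, a2⟩ := h.exists_seq hx
  obtain ⟨b, b1, b2⟩ := h.exists_seq hy
  have e : ∀ (m v : E3), ‖m‖ = 1 → |⟪v, m⟫| = ‖v - pt m v‖ := fun m v hm => by
    rw [pt_apply, sub_sub_cancel, norm_smul, hm, mul_one, real_inner_comm, Real.norm_eq_abs]
  have hP := h.tendsto_pt hx a1 a2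
  have hc : Continuous fun q : (E3 →L[ℝ] E3) × E3 => q.1 q.2 :=
    continuous_fst.clm_apply continuous_snd
  have hd := b1.sub a1
  have h0 := (hc.tendsto (pt (nu S x), y - x)).comp (hP.prodMk_nhds hd)
  have h1 := (hd.sub h0).norm
  rw [e _ _ (h.norm_nu hx)]
  refine le_of_tendsto_of_tendsto h1 ((hd.norm.pow 2).const_mul C) ?_
  filter_upwards [a2, b2, hN, hT, a1.eventually hW,
    hd.norm.eventually (gt_mem_nhds (hyx.trans_lt hr))] with i c1 c2 c3 c4 c5 c6
  have := c4 _ c5 c1 _ c2 c6.le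
  rw [e _ _ (c3.norm_nu c1)] at this
  simpa only [Function.comp_apply] using this

/-! ### integrals -/

lemma integrable_geo (hS : IsSurf S) {Φ : E3 × (E3 →L[ℝ] E3) × E3 × ℝ → ℝ} (hΦ : Continuous Φ)
    {p : E3} {R : ℝ} (h0 : ∀ q, R ≤ ‖q.1 - p‖ → Φ q = 0) :
    Integrable (fun x => Φ (geo S x)) (area S) := by
  have := Chart.locFin_proof S hS
  exact Hu.integrable_of_cts hS.1 (hΦ.comp_continuousOn (continuousOn_geo hS)) (y := p) (R := R)
    fun x _ hx => h0 (geo S x) hx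

/-- integrals of functions supported near a point -/
lemma exists_local [U.NeBot] (hN : ∀ᶠ i in U, IsSurf (N i)) (hS : IsSurf S) (h : SLimS U N S)
    (x : E3) : ∃ r : ℝ, 0 < r ∧ ∀ Φ : E3 × (E3 →L[ℝ] E3) × E3 × ℝ → ℝ, Continuous Φ →
      (∀ q, r ≤ ‖q.1 - x‖ → Φ q = 0) →
      Tendsto (fun i => ∫ y, Φ (geo (N i) y) ∂(area (N i))) U
        (𝓝 (∫ y, Φ (geo S y) ∂(area S))) := by
  by_cases hx : x ∈ S
  · obtain ⟨J, pr, F⟩ := Chart.exists_frame (hS.norm_nu hx)
    obtain ⟨δ, ρ, f, f₀, hδ, hρ, hc, -, B₀, hB⟩ :=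
      h.exists_box hx F (by rw [F.inner_n]; norm_num)
    have h1 : min (δ / 2) ρ < δ := (min_le_left _ _).trans_lt (by linarith)
    refine ⟨min (δ / 2) ρ, by positivity, fun Φ hΦ h0 => ?_⟩
    have hs : closedBall (pr x) (min (δ / 2) ρ) ⊆ ball (pr x) δ := closedBall_subset_ball h1
    rw [B₀.integral F hS.1.measurableSet h1 (min_le_right _ _) (g := fun y => Φ (geo S y))
      fun y hy => h0 (geo S y) hy]
    have hcont : ∀ {T : Set E3} {g : Chart.E2 → ℝ}, IsSurf T → Box T (nu S x) pr x δ ρ g →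
        ContinuousOn (fun u => Chart.jac g u * Φ (geo T (Chart.gr (nu S x) J g u)))
          (ball (pr x) δ) := by
      intro T g hT B
      refine ContinuousOn.mul ?_ (hΦ.comp_continuousOn ((continuousOn_geo hT).comp
        (Chart.contDiffOn_gr B.smooth).continuousOn fun u hu => B.gr_mem F hu))
      rw [show Chart.jac g = fun u => √(1 + ‖fderiv ℝ g u‖ ^ 2) from funext (jac_eq g)]
      exact (continuousOn_const.add
        ((B.smooth.continuousOn_fderiv_of_isOpen isOpen_ball one_le_inf).norm.pow 2)).sqrt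
    refine (tendsto_setIntegral_of_joint (isCompact_closedBall _ _)
      (f := fun i u => Chart.jac (f i) u * Φ (geo (N i) (Chart.gr (nu S x) J (f i) u))) ?_
      (fun u hu => (hcont hS B₀).continuousAt (isOpen_ball.mem_nhds (hs hu)))
      fun u hu => ?_).congr' ?_
    · filter_upwards [hN, hB] with i a1 a2 using (hcont a1 a2).mono hs
    · have hc' := hc.reindex (tendsto_fst (f := U) (g := 𝓝 u))
      refine (tendsto_jac hc' isOpen_ball (hs hu) tendsto_snd).mul ((hΦ.tendsto _).comp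
        ((h.reindex (tendsto_fst (f := U) (g := 𝓝 u))).tendsto_geo (B₀.gr_mem F (hs hu))
          (tendsto_gr hc' isOpen_ball (hs hu) tendsto_snd) ?_))
      filter_upwards [hB.prod_mk (isOpen_ball.mem_nhds (hs hu))] with p hp
      exact hp.1.gr_mem F hp.2
    · filter_upwards [hN, hB] with i a1 a2
      exact (a2.integral F a1.1.measurableSet h1 (min_le_right _ _)
        (g := fun y => Φ (geo (N i) y)) fun y hy => h0 (geo (N i) y) hy).symm
  · obtain ⟨W, hW, h1⟩ := h.out x hx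
    obtain ⟨r, hr, hb⟩ := Metric.mem_nhds_iff.mp (inter_mem hW (hS.1.isOpen_compl.mem_nhds hx))
    refine ⟨r, hr, fun Φ _ h0 => ?_⟩
    have key : ∀ T : Set E3, IsClosed T → (∀ y ∈ ball x r, y ∉ T) →
        ∫ y, Φ (geo T y) ∂(area T) = 0 := fun T hT h2 =>
      integral_eq_zero_of_ae ((Hu.ae_mem hT).mono fun y hy => h0 (geo T y)
        (not_lt.mp fun h3 => h2 y (mem_ball_iff_norm.mpr h3) hy))
    rw [key S hS.1 fun y hy => (hb hy).2]
    refine tendsto_const_nhds.congr' ?_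
    filter_upwards [hN, h1] with i a1 a2
    exact (key _ a1.1 fun y hy => a2 y (hb hy).1).symm

theorem _root_.Vale.Agent.P218FT.SLimS.tendsto_integral (h : SLimS U N S)
    (hN : ∀ᶠ i in U, IsSurf (N i)) (hS : IsSurf S) {Φ : E3 × (E3 →L[ℝ] E3) × E3 × ℝ → ℝ}
    (hΦ : Continuous Φ) {p : E3} {R : ℝ} (h0 : ∀ q, R ≤ ‖q.1 - p‖ → Φ q = 0) :
    Tendsto (fun i => ∫ y, Φ (geo (N i) y) ∂(area (N i))) U (𝓝 (∫ y, Φ (geo S y) ∂(area S))) := by
  rcases U.eq_or_neBot with rfl | hU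
  · exact tendsto_bot
  have key : ∃ ψ : E3 → ℝ, Continuous ψ ∧ (∀ y ∈ closedBall p R, ψ y = 1) ∧
      ∀ Φ : E3 × (E3 →L[ℝ] E3) × E3 × ℝ → ℝ, Continuous Φ → (∀ q, R ≤ ‖q.1 - p‖ → Φ q = 0) →
        Tendsto (fun i => ∫ y, ψ y * Φ (geo (N i) y) ∂(area (N i))) U
          (𝓝 (∫ y, ψ y * Φ (geo S y) ∂(area S))) := by
    refine (isCompact_closedBall p R).induction_on (p := fun A => ∃ ψ : E3 → ℝ, Continuous ψ ∧
      (∀ y ∈ A, ψ y = 1) ∧ ∀ Φ : E3 × (E3 →L[ℝ] E3) × E3 × ℝ → ℝ, Continuous Φ →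
        (∀ q, R ≤ ‖q.1 - p‖ → Φ q = 0) →
        Tendsto (fun i => ∫ y, ψ y * Φ (geo (N i) y) ∂(area (N i))) U
          (𝓝 (∫ y, ψ y * Φ (geo S y) ∂(area S)))) ?_ ?_ ?_ ?_
    · exact ⟨fun _ => 0, continuous_const, by simp, fun Φ _ _ => by simp⟩
    · rintro A B hAB ⟨ψ, h1, h2, h3⟩
      exact ⟨ψ, h1, fun y hy => h2 y (hAB hy), h3⟩
    · rintro A B ⟨ψ₁, a1, a2, a3⟩ ⟨ψ₂, b1, b2, b3⟩
      refine ⟨fun y => ψ₁ y + ψ₂ y * (1 - ψ₁ y), by fun_prop, ?_, fun Φ hΦ h0 => ?_⟩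
      · rintro y (hy | hy)
        · simp [a2 y hy]
        · simp [b2 y hy]
      · have e : ∀ T : Set E3, IsSurf T → ∫ y, ψ₁ y * Φ (geo T y) ∂(area T) +
            ∫ y, ψ₂ y * ((1 - ψ₁ y) * Φ (geo T y)) ∂(area T) =
            ∫ y, (ψ₁ y + ψ₂ y * (1 - ψ₁ y)) * Φ (geo T y) ∂(area T) := by
          intro T hT
          have i1 := integrable_geo hT (Φ := fun q => ψ₁ q.1 * Φ q) (by fun_prop) (p := p) (R := R)
            fun q hq => by simp only [h0 q hq, mul_zero]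
          have i2 := integrable_geo hT (Φ := fun q => ψ₂ q.1 * ((1 - ψ₁ q.1) * Φ q)) (by fun_prop)
            (p := p) (R := R) fun q hq => by simp only [h0 q hq, mul_zero]
          refine (integral_add i1 i2).symm.trans (integral_congr_ae (Eventually.of_forall
            fun y => ?_))
          simp only [geo]
          ring
        rw [← e S hS]
        refine ((a3 Φ hΦ h0).add (b3 (fun q => (1 - ψ₁ q.1) * Φ q) (by fun_prop) fun q hq => by
          simp only [h0 q hq, mul_zero])).congr' ?_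
        filter_upwards [hN] with i hi using e _ hi
    · intro x _
      obtain ⟨r, hr, hx⟩ := exists_local hN hS h x
      let c : ContDiffBump x := ⟨r / 2, r, half_pos hr, half_lt_self hr⟩
      refine ⟨closedBall x (r / 2), mem_nhdsWithin_of_mem_nhds (closedBall_mem_nhds x (half_pos hr)),
        c, c.continuous, fun y hy => c.one_of_mem_closedBall hy, fun Φ hΦ _ => ?_⟩
      exact hx (fun q => c q.1 * Φ q) ((c.continuous.comp continuous_fst).mul hΦ) fun q hq =>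
        mul_eq_zero_of_left (c.zero_of_le_dist (by rwa [dist_eq_norm])) _
  obtain ⟨ψ, -, h2, h3⟩ := key
  have e : ∀ (T : Set E3) (y : E3), ψ y * Φ (geo T y) = Φ (geo T y) := fun T y => by
    by_cases hy : y ∈ closedBall p R
    · rw [h2 y hy, one_mul]
    · rw [mem_closedBall, dist_eq_norm, not_le] at hy
      rw [h0 (geo T y) hy.le, mul_zero]
  simpa only [e] using h3 Φ hΦ h0

theorem slimInt_proof : SLimIntStmt := fun _ _ _ _ hN hS h _ R hΦ h0 =>
  h.tendsto_integral hN hS hΦ (p := 0) (R := R) fun q hq => h0 q (by rwa [sub_zero] at hq)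

/-- weak convergence of the area measures -/
theorem _root_.Vale.Agent.P218FT.SLimS.tendsto_area (h : SLimS U N S)
    (hN : ∀ᶠ i in U, IsSurf (N i)) (hS : IsSurf S) {φ : E3 → ℝ} (hφ : Continuous φ)
    (hc : HasCompactSupport φ) :
    Tendsto (fun i => ∫ y, φ y ∂(area (N i))) U (𝓝 (∫ y, φ y ∂(area S))) := by
  obtain ⟨R, hR⟩ := hc.isCompact.isBounded.subset_ball 0
  exact h.tendsto_integral hN hS (Φ := fun q => φ q.1) (hφ.comp continuous_fst) (p := 0) (R := R)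
    fun q hq => image_eq_zero_of_notMem_tsupport fun h1 =>
      absurd (mem_ball_iff_norm.mp (hR h1)) (not_lt.mpr hq)

/-- a continuous cutoff function, equal to one on `B(p, r')` and to zero outside `B(p, r)` -/
noncomputable def cut (p : E3) (r' r : ℝ) (x : E3) : ℝ := max 0 (min 1 ((r - ‖x - p‖) / (r - r')))

lemma continuous_cut (p : E3) (r' r : ℝ) : Continuous (cut p r' r) := by
  unfold cut
  fun_prop

lemma cut_nonneg (p : E3) (r' r : ℝ) (x : E3) : 0 ≤ cut p r' r x := le_max_left _ _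

lemma cut_le_one (p : E3) (r' r : ℝ) (x : E3) : cut p r' r x ≤ 1 :=
  max_le zero_le_one (min_le_left _ _)

lemma cut_zero {p : E3} {r' r : ℝ} (h : r' < r) {x : E3} (hx : r ≤ ‖x - p‖) : cut p r' r x = 0 :=
  max_eq_left ((min_le_right _ _).trans
    (div_nonpos_of_nonpos_of_nonneg (by linarith) (by linarith)))

lemma cut_one {p : E3} {r' r : ℝ} (h : r' < r) {x : E3} (hx : ‖x - p‖ ≤ r') : cut p r' r x = 1 := by
  unfold cut
  rw [min_eq_left ((one_le_div (by linarith)).mpr (by linarith)), max_eq_right zero_le_one]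

/-- the integral against the cutoff function -/
noncomputable def cint (G : E3 × (E3 →L[ℝ] E3) × E3 × ℝ → ℝ) (T : Set E3) (p : E3) (r' r : ℝ) :
    ℝ≥0∞ := ENNReal.ofReal (∫ x, cut p r' r x * max (G (geo T x)) 0 ∂(area T))

section Cut

variable {G : E3 × (E3 →L[ℝ] E3) × E3 × ℝ → ℝ} {p : E3} {r' r : ℝ}

lemma cint_eq (hS : IsSurf S) (hG : Continuous G) (h : r' < r) : cint G S p r' r =
    ∫⁻ x, ENNReal.ofReal (cut p r' r x) * ENNReal.ofReal (G (geo S x)) ∂(area S) := by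
  have hc := continuous_cut p r' r
  have i1 := integrable_geo hS (Φ := fun q => cut p r' r q.1 * max (G q) 0) (by fun_prop) (p := p)
    (R := r) fun q hq => mul_eq_zero_of_left (cut_zero h hq) _
  refine (ofReal_integral_eq_lintegral_ofReal i1 (Eventually.of_forall fun x =>
    mul_nonneg (cut_nonneg _ _ _ _) (le_max_right _ _))).trans (lintegral_congr fun x => ?_)
  rw [ENNReal.ofReal_mul (cut_nonneg _ _ _ _), ENNReal.ofReal_max]
  simp [geo]

lemma le_cint (hS : IsSurf S) (hG : Continuous G) (h : r' < r) :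
    ∫⁻ x in ball p r', ENNReal.ofReal (G (geo S x)) ∂(area S) ≤ cint G S p r' r := by
  rw [cint_eq hS hG h]
  refine (setLIntegral_mono' measurableSet_ball fun x hx => ?_).trans
    (setLIntegral_le_lintegral _ _)
  rw [cut_one h (mem_ball_iff_norm.mp hx).le, ENNReal.ofReal_one, one_mul]

lemma cint_le (hS : IsSurf S) (hG : Continuous G) (h : r' < r) :
    cint G S p r' r ≤ ∫⁻ x in ball p r, ENNReal.ofReal (G (geo S x)) ∂(area S) := by
  rw [cint_eq hS hG h, ← lintegral_indicator measurableSet_ball]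
  refine lintegral_mono fun x => ?_
  by_cases hx : x ∈ ball p r
  · rw [indicator_of_mem hx]
    exact mul_le_of_le_one_left' (ENNReal.ofReal_le_one.mpr (cut_le_one _ _ _ _))
  · rw [cut_zero h (not_lt.mp fun h1 => hx (mem_ball_iff_norm.mpr h1))]
    simp

lemma tendsto_cint (h : SLimS U N S) (hN : ∀ᶠ i in U, IsSurf (N i)) (hS : IsSurf S)
    (hG : Continuous G) (hr : r' < r) :
    Tendsto (fun i => cint G (N i) p r' r) U (𝓝 (cint G S p r' r)) := by
  have hc := continuous_cut p r' r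
  exact ENNReal.tendsto_ofReal (h.tendsto_integral hN hS
    (Φ := fun q => cut p r' r q.1 * max (G q) 0) (by fun_prop) (p := p) (R := r)
    fun q hq => mul_eq_zero_of_left (cut_zero hr hq) _)

lemma lintegral_ball_le {μ : Measure E3} {f : E3 → ℝ≥0∞} {c : ℝ≥0∞} (hr : 0 < r)
    (h : ∀ s, 0 < s → s < r → ∫⁻ x in ball p s, f x ∂μ ≤ c) : ∫⁻ x in ball p r, f x ∂μ ≤ c := by
  obtain ⟨u, hu, hu', hl⟩ := exists_seq_strictMono_tendsto' hr
  have e : ball p r = ⋃ k, ball p (u k) := by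
    refine Subset.antisymm (fun x hx => ?_) (iUnion_subset fun k => ball_subset_ball (hu' k).2.le)
    obtain ⟨k, hk⟩ := (hl.eventually (lt_mem_nhds (mem_ball.mp hx))).exists
    exact mem_iUnion.mpr ⟨k, hk⟩
  have hm : Monotone fun k => ball p (u k) := fun a b hab => ball_subset_ball (hu.monotone hab)
  rw [e, setLIntegral_iUnion_of_directed _ hm.directed_le]
  exact iSup_le fun k => h _ (hu' k).1 (hu' k).2

end Cut

theorem _root_.Vale.Agent.P218FT.SLimS.ratio [U.NeBot] (h : SLimS U N S)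
    (hN : ∀ᶠ i in U, IsSurf (N i)) {D : ℝ} (hA : ∀ᶠ i in U, AreaRatio D (N i)) :
    AreaRatio D S := by
  intro p r hr
  have hG : Continuous fun _ : E3 × (E3 →L[ℝ] E3) × E3 × ℝ => (1 : ℝ) := continuous_const
  rw [← setLIntegral_one]
  refine lintegral_ball_le hr fun s _ hs => ?_
  have h1 := le_cint (p := p) h.isSurf hG hs
  rw [ENNReal.ofReal_one] at h1
  refine h1.trans (le_of_tendsto (tendsto_cint h hN h.isSurf hG hs) ?_)
  filter_upwards [hN, hA] with i a1 a2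
  refine (cint_le a1 hG hs).trans ?_
  rw [ENNReal.ofReal_one, setLIntegral_one]
  exact a2 p r hr

theorem _root_.Vale.Agent.P218FT.SLimS.lgb [U.NeBot] (h : SLimS U N S)
    (hN : ∀ᶠ i in U, IsSurf (N i)) {G : ℝ} (hG : ∀ᶠ i in U, LGB G (N i)) : LGB G S := by
  intro p r hr
  have c1 : Continuous fun q : E3 × (E3 →L[ℝ] E3) × E3 × ℝ => q.2.2.2 := by fun_prop
  have c2 : Continuous fun q : E3 × (E3 →L[ℝ] E3) × E3 × ℝ => ‖q.2.2.1‖ ^ 2 := by fun_prop
  refine lintegral_ball_le hr fun s hs0 hs => ?_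
  have s1 : s < (s + r) / 2 := by linarith
  have s2 : 2 * ((s + r) / 2) < 2 * r := by linarith
  refine (le_cint (p := p) h.isSurf c1 s1).trans (le_trans (le_of_tendsto_of_tendsto
    (tendsto_cint h hN h.isSurf c1 s1) (ENNReal.Tendsto.const_mul (a := ENNReal.ofReal G)
      ((tendsto_cint (p := p) h hN h.isSurf c2 s2).const_add 1) (Or.inr ENNReal.ofReal_ne_top)) ?_)
    ?_)
  · filter_upwards [hN, hG] with i a1 a2
    refine (cint_le a1 c1 s1).trans ((a2 p _ (by linarith)).trans ?_)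
    gcongr
    exact le_cint a1 c2 s2
  · gcongr
    exact cint_le h.isSurf c2 s2

lemma tendsto_gA_fixed [U.NeBot] (h : SLimS U N S) (hN : ∀ᶠ i in U, IsSurf (N i)) {D : ℝ}
    (hA : ∀ᶠ i in U, AreaRatio D (N i)) : Tendsto (fun i => gA (N i) 0 1) U (𝓝 (gA S 0 1)) := by
  rw [Metric.tendsto_nhds]
  intro ε hε
  obtain ⟨C₀, -, hG⟩ := gauss_proof
  obtain ⟨ρ, hρ, hρ'⟩ := (hG (max D 0) (le_max_right _ _)).2 (ε / 3) (by positivity)
  have hc := continuous_cut 0 ρ (ρ + 1)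
  have hk := continuous_gk (1 ^ 2)
  have hlt : ρ < ρ + 1 := lt_add_one ρ
  have key : ∀ T : Set E3, AreaRatio D T →
      |gA T 0 1 - ∫ x, cut 0 ρ (ρ + 1) x * gk (1 ^ 2) (x - 0) ∂(area T)| ≤ ε / 3 := by
    intro T hT
    have i1 := integrable_gk hT 0 (σ := 1 ^ 2) (by norm_num)
    have hp : ∀ x : E3, 0 ≤ gk (1 ^ 2) (x - 0) := fun x => gk_nonneg (by norm_num) _
    have i2 : Integrable (fun x => cut 0 ρ (ρ + 1) x * gk (1 ^ 2) (x - 0)) (area T) :=
      i1.bdd_mul hc.aestronglyMeasurable (c := 1) (Eventually.of_forall fun x => by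
        rw [Real.norm_of_nonneg (cut_nonneg _ _ _ _)]; exact cut_le_one _ _ _ _)
    have h1 := hρ' T (hT.mono (le_max_left _ _)) 0 1 one_pos
    rw [mul_one, ← integral_indicator measurableSet_ball.compl] at h1
    have h2 : ∀ x, 0 ≤ gk (1 ^ 2) (x - 0) - cut 0 ρ (ρ + 1) x * gk (1 ^ 2) (x - 0) := fun x =>
      sub_nonneg.mpr (mul_le_of_le_one_left (hp x) (cut_le_one _ _ _ _))
    rw [gA, ← integral_sub i1 i2, abs_of_nonneg (integral_nonneg h2)]
    refine (integral_mono (i1.sub i2) (i1.indicator measurableSet_ball.compl) fun x => ?_).trans h1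
    by_cases hx : x ∈ ball (0 : E3) ρ
    · rw [indicator_of_notMem (not_not.mpr hx)]
      simp only [Pi.sub_apply, cut_one hlt (mem_ball_iff_norm.mp hx).le, one_mul, sub_self, le_refl]
    · rw [indicator_of_mem (show x ∈ (ball (0 : E3) ρ)ᶜ from hx)]
      exact sub_le_self _ (mul_nonneg (cut_nonneg _ _ _ _) (hp x))
  have h1 := h.tendsto_integral hN h.isSurf
    (Φ := fun q => cut 0 ρ (ρ + 1) q.1 * gk (1 ^ 2) (q.1 - 0)) (by fun_prop) (p := 0) (R := ρ + 1)
    fun q hq => mul_eq_zero_of_left (cut_zero hlt hq) _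
  filter_upwards [hA, Metric.tendsto_nhds.mp h1 (ε / 3) (by positivity)] with i a1 a2
  have h2 := abs_le.mp (key _ a1)
  have h3 := abs_le.mp (key _ (h.ratio hN hA))
  rw [Real.dist_eq, abs_lt] at a2 ⊢
  simp only [geo] at a2
  constructor <;> linarith [h2.1, h2.2, h3.1, h3.2, a2.1, a2.2]

/-- convergence of Gaussian areas -/
theorem _root_.Vale.Agent.P218FT.SLimS.tendsto_gA (h : SLimS U N S)
    (hN : ∀ᶠ i in U, IsSurf (N i)) {D : ℝ} (hA : ∀ᶠ i in U, AreaRatio D (N i)) {y : ι → E3}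
    {y₀ : E3} {r : ι → ℝ} {r₀ : ℝ} (hy : Tendsto y U (𝓝 y₀)) (hr : Tendsto r U (𝓝 r₀))
    (h0 : 0 < r₀) : Tendsto (fun i => gA (N i) (y i) (r i)) U (𝓝 (gA S y₀ r₀)) := by
  rcases U.eq_or_neBot with rfl | hU
  · exact tendsto_bot
  have hp : ∀ᶠ i in U, 0 < r i := hr.eventually (lt_mem_nhds h0)
  have h1 := tendsto_gA_fixed (h.scale (hr.inv₀ h0.ne') (inv_ne_zero h0.ne') hy)
    (by filter_upwards [hN, hp] with i a1 a2 using a1.scale (inv_pos.mpr a2).ne' _) (D := D)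
    (by filter_upwards [hA, hp] with i a1 a2 using a1.scale (inv_pos.mpr a2) _)
  rw [gA_zoom h0, smul_zero, add_zero, one_mul] at h1
  refine h1.congr' ?_
  filter_upwards [hp] with i hi
  rw [gA_zoom hi, smul_zero, add_zero, one_mul]

end Vale.Agent.P218FT.Conv
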