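import Vale.Agent.P218FT.ConvSpec
import Vale.Agent.P218FT.Chart
import Mathlib.Analysis.Calculus.ContDiff.Bounds
import Mathlib.Analysis.Calculus.UniformLimitsDeriv
import Mathlib.LinearAlgebra.Multilinear.FiniteDimensional
import Mathlib.Analysis.Calculus.Deriv.MeanValue

/-! Families of smooth functions with uniformly bounded derivatives, smooth convergence, and the
implicit function theorem for smoothly converging families. -/

open Set Filter Topology Metric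
open scoped ContDiff

namespace Vale.Agent.P218FT.Conv

set_option linter.unusedSectionVars false

variable {ι E F G H : Type} [NormedAddCommGroup E] [NormedSpace ℝ E]
  [NormedAddCommGroup F] [NormedSpace ℝ F] [NormedAddCommGroup G] [NormedSpace ℝ G]
  [NormedAddCommGroup H] [NormedSpace ℝ H] {U : Filter ι} {W : Set E} {k : ℕ}

lemma le_inf (j : ℕ) : (j : WithTop ℕ∞) ≤ ∞ := mod_cast le_top

lemma lt_inf (j : ℕ) : (j : WithTop ℕ∞) < ∞ := by
  exact_mod_cast ENat.natCast_lt_top j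

/-- eventually along `U`, the `f i` are smooth on `W` with bounded derivatives up to order `k` -/
structure Bd (k : ℕ) (U : Filter ι) (W : Set E) (f : ι → E → F) : Prop where
  sm : ∀ᶠ i in U, ContDiffOn ℝ ∞ (f i) W
  bd : ∃ C : ℝ, ∀ᶠ i in U, ∀ j ≤ k, ∀ x ∈ W, ‖iteratedFDeriv ℝ j (f i) x‖ ≤ C

namespace Bd

variable {f g : ι → E → F}

lemma bd0 (h : Bd k U W f) :
    ∃ C : ℝ, 1 ≤ C ∧ ∀ᶠ i in U, ∀ j ≤ k, ∀ x ∈ W, ‖iteratedFDeriv ℝ j (f i) x‖ ≤ C :=
  let ⟨C, hC⟩ := h.bd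
  ⟨max C 1, le_max_right _ _, hC.mono fun _ hi j hj x hx => (hi j hj x hx).trans (le_max_left _ _)⟩

lemma mono {l : ℕ} (hl : l ≤ k) (h : Bd k U W f) : Bd l U W f :=
  ⟨h.sm, h.bd.imp fun _ hC => hC.mono fun _ hi j hj => hi j (hj.trans hl)⟩

lemma mono_set {W' : Set E} (hW : W' ⊆ W) (h : Bd k U W f) : Bd k U W' f :=
  ⟨h.sm.mono fun _ hi => hi.mono hW,
    h.bd.imp fun _ hC => hC.mono fun _ hi j hj x hx => hi j hj x (hW hx)⟩

lemma mono_filter {U' : Filter ι} (hU : U' ≤ U) (h : Bd k U W f) : Bd k U' W f :=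
  ⟨hU h.sm, h.bd.imp fun _ hC => hU hC⟩

lemma congr (hW : IsOpen W) (h : Bd k U W f) (e : ∀ᶠ i in U, ∀ x ∈ W, f i x = g i x) :
    Bd k U W g := by
  refine ⟨?_, h.bd.imp fun C hC => ?_⟩
  · filter_upwards [h.sm, e] with i h1 h2
    exact h1.congr fun x hx => (h2 x hx).symm
  · filter_upwards [hC, e] with i h1 h2 j hj x hx
    have : f i =ᶠ[𝓝 x] g i := mem_of_superset (hW.mem_nhds hx) h2
    rw [← (this.iteratedFDeriv ℝ j).eq_of_nhds]
    exact h1 j hj x hx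

lemma of_forall (hs : ∀ᶠ i in U, ContDiffOn ℝ ∞ (f i) W)
    (h : ∀ j : ℕ, ∃ C : ℝ, ∀ᶠ i in U, ∀ x ∈ W, ‖iteratedFDeriv ℝ j (f i) x‖ ≤ C) (k : ℕ) :
    Bd k U W f := by
  choose C hC using h
  refine ⟨hs, ∑ a ∈ Finset.range (k + 1), |C a|, ?_⟩
  have : ∀ᶠ i in U, ∀ j ∈ Finset.range (k + 1), ∀ x ∈ W, ‖iteratedFDeriv ℝ j (f i) x‖ ≤ C j :=
    (eventually_all_finset _).2 fun j _ => hC j
  filter_upwards [this] with i hi j hj x hx
  have hj' : j ∈ Finset.range (k + 1) := Finset.mem_range.2 (by omega)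
  exact (hi j hj' x hx).trans ((le_abs_self _).trans
    (Finset.single_le_sum (f := fun a => |C a|) (fun _ _ => abs_nonneg _) hj'))

lemma const {c : ι → F} {C : ℝ} (h : ∀ᶠ i in U, ‖c i‖ ≤ C) : Bd k U W fun i _ => c i := by
  refine ⟨Eventually.of_forall fun _ => contDiffOn_const, max C 0, h.mono fun i hi j _ x _ => ?_⟩
  cases j with
  | zero => rw [norm_iteratedFDeriv_zero]; exact hi.trans (le_max_left _ _)
  | succ j =>
    rw [iteratedFDeriv_const_of_ne (Nat.succ_ne_zero j)]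
    simp

/-- a fixed smooth function on a set with compact closure -/
lemma fixed {V Q : Set E} {φ : E → F} (hV : IsOpen V) (hQ : IsCompact Q) (hQV : Q ⊆ V)
    (hWQ : W ⊆ Q) (hφ : ContDiffOn ℝ ∞ φ V) : Bd k U W fun _ => φ := by
  refine of_forall (Eventually.of_forall fun _ => hφ.mono (hWQ.trans hQV)) (fun j => ?_) k
  obtain ⟨C, hC⟩ := hQ.exists_bound_of_continuousOn
    ((hφ.continuousOn_iteratedFDerivWithin (le_inf j) hV.uniqueDiffOn).mono hQV)
  refine ⟨C, Eventually.of_forall fun _ x hx => ?_⟩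
  rw [← iteratedFDerivWithin_of_isOpen j hV (hQV (hWQ hx))]
  exact hC x (hWQ hx)

lemma fixed' [FiniteDimensional ℝ E] {φ : E → F} (hW : Bornology.IsBounded W)
    (hφ : ContDiff ℝ ∞ φ) : Bd k U W fun _ => φ :=
  fixed isOpen_univ hW.isCompact_closure (subset_univ _) subset_closure hφ.contDiffOn

lemma add (hW : IsOpen W) (hf : Bd k U W f) (hg : Bd k U W g) :
    Bd k U W fun i x => f i x + g i x := by
  obtain ⟨A, hA⟩ := hf.bd
  obtain ⟨B, hB⟩ := hg.bd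
  refine ⟨?_, A + B, ?_⟩
  · filter_upwards [hf.sm, hg.sm] with i h1 h2 using h1.add h2
  · filter_upwards [hf.sm, hg.sm, hA, hB] with i h1 h2 hA hB j hj x hx
    rw [fun_iteratedFDeriv_add_apply ((h1.contDiffAt (hW.mem_nhds hx)).of_le (le_inf j))
      ((h2.contDiffAt (hW.mem_nhds hx)).of_le (le_inf j))]
    exact norm_add_le_of_le (hA j hj x hx) (hB j hj x hx)

lemma bilin (L : F →L[ℝ] G →L[ℝ] H) {g : ι → E → G} (hW : IsOpen W) (hf : Bd k U W f)
    (hg : Bd k U W g) : Bd k U W fun i x => L (f i x) (g i x) := by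
  obtain ⟨A, A1, hA⟩ := bd0 hf
  obtain ⟨B, B1, hB⟩ := bd0 hg
  refine ⟨?_, ‖L‖ * (2 ^ k * (A * B)), ?_⟩
  · filter_upwards [hf.sm, hg.sm] with i h1 h2
    exact (L.contDiff.comp_contDiffOn h1).clm_apply h2
  filter_upwards [hf.sm, hg.sm, hA, hB] with i h1 h2 hA hB j hj x hx
  rw [← iteratedFDerivWithin_of_isOpen j hW hx]
  refine (L.norm_iteratedFDerivWithin_le_of_bilinear h1 h2 hW.uniqueDiffOn hx
    (le_inf j)).trans (mul_le_mul_of_nonneg_left ?_ L.opNorm_nonneg)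
  calc _ ≤ ∑ a ∈ Finset.range (j + 1), (j.choose a : ℝ) * (A * B) :=
        Finset.sum_le_sum fun a ha => by
          rw [iteratedFDerivWithin_of_isOpen _ hW hx, iteratedFDerivWithin_of_isOpen _ hW hx,
            mul_assoc]
          have := Finset.mem_range.1 ha
          exact mul_le_mul_of_nonneg_left (mul_le_mul (hA a (by omega) x hx)
            (hB _ (by omega) x hx) (norm_nonneg _) (by positivity)) (Nat.cast_nonneg _)
    _ = 2 ^ j * (A * B) := by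
        rw [← Finset.sum_mul, ← Nat.cast_sum, Nat.sum_range_choose]
        push_cast
        rfl
    _ ≤ _ := mul_le_mul_of_nonneg_right (pow_le_pow_right₀ one_le_two hj) (by positivity)

/-- composition; the derivatives of the outer functions are only bounded on `Q` -/
lemma comp_aux {V Q : Set F} {φ : ι → F → G} (hW : IsOpen W) (hV : IsOpen V) (hQV : Q ⊆ V)
    (hφ : ∀ᶠ i in U, ContDiffOn ℝ ∞ (φ i) V) (hb : Bd k U Q φ) (hf : Bd k U W f)
    (hm : ∀ᶠ i in U, ∀ x ∈ W, f i x ∈ Q) : Bd k U W fun i x => φ i (f i x) := by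
  obtain ⟨A, A1, hA⟩ := bd0 hf
  obtain ⟨B, B1, hB⟩ := bd0 hb
  refine ⟨?_, k.factorial * B * A ^ k, ?_⟩
  · filter_upwards [hφ, hf.sm, hm] with i h1 h2 h3
    exact h1.comp h2 fun x hx => hQV (h3 x hx)
  filter_upwards [hφ, hf.sm, hm, hA, hB] with i h1 h2 h3 hA hB j hj x hx
  rw [← iteratedFDerivWithin_of_isOpen j hW hx]
  refine (norm_iteratedFDerivWithin_comp_le h1 h2 (le_inf j) hV.uniqueDiffOn
    hW.uniqueDiffOn (fun x hx => hQV (h3 x hx)) hx (C := B) (D := A) (fun a ha => ?_)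
    fun a a1 ha => ?_).trans ?_
  · rw [iteratedFDerivWithin_of_isOpen _ hV (hQV (h3 x hx))]
    exact hB a (ha.trans hj) _ (h3 x hx)
  · rw [iteratedFDerivWithin_of_isOpen _ hW hx]
    exact (hA a (ha.trans hj) x hx).trans (le_self_pow₀ A1 (by omega))
  · gcongr

lemma comp {V : Set F} {φ : ι → F → G} (hW : IsOpen W) (hV : IsOpen V) (hφ : Bd k U V φ)
    (hf : Bd k U W f) (hm : ∀ᶠ i in U, ∀ x ∈ W, f i x ∈ V) : Bd k U W fun i x => φ i (f i x) :=
  comp_aux hW hV subset_rfl hφ.sm hφ hf hm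

/-- composition with a fixed function which is smooth near a compact set -/
lemma comp_fixed {V Q : Set F} {φ : F → G} (hW : IsOpen W) (hV : IsOpen V) (hQ : IsCompact Q)
    (hQV : Q ⊆ V) (hφ : ContDiffOn ℝ ∞ φ V) (hf : Bd k U W f)
    (hm : ∀ᶠ i in U, ∀ x ∈ W, f i x ∈ Q) : Bd k U W fun i x => φ (f i x) :=
  comp_aux (φ := fun _ => φ) hW hV hQV (Eventually.of_forall fun _ => hφ)
    (fixed hV hQ hQV subset_rfl hφ) hf hm

lemma norm_le (hf : Bd k U W f) : ∃ C : ℝ, ∀ᶠ i in U, ∀ x ∈ W, ‖f i x‖ ≤ C :=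
  hf.bd.imp fun _ hC => hC.mono fun _ hi x hx =>
    norm_iteratedFDeriv_zero.symm.trans_le (hi 0 (Nat.zero_le _) x hx)

/-- composition with a fixed globally smooth function -/
lemma comp_smooth [FiniteDimensional ℝ F] {φ : F → G} (hW : IsOpen W) (hφ : ContDiff ℝ ∞ φ)
    (hf : Bd k U W f) : Bd k U W fun i x => φ (f i x) := by
  obtain ⟨C, hC⟩ := hf.norm_le
  exact comp_fixed hW isOpen_univ (isCompact_closedBall 0 C) (subset_univ _) hφ.contDiffOn hf
    (hC.mono fun i hi x hx => mem_closedBall_zero_iff.2 (hi x hx))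

lemma clm (L : F →L[ℝ] G) (hW : IsOpen W) (hf : Bd k U W f) :
    Bd k U W fun i x => L (f i x) := by
  have := bilin ((ContinuousLinearMap.lsmul ℝ ℝ).flip.comp L) hW hf
    (const (c := fun _ => (1 : ℝ)) (C := 1) (Eventually.of_forall fun _ => by simp))
  simpa using this

lemma prodMk {g : ι → E → G} (hW : IsOpen W) (hf : Bd k U W f) (hg : Bd k U W g) :
    Bd k U W fun i x => (f i x, g i x) := by
  have := add hW (clm (ContinuousLinearMap.inl ℝ F G) hW hf) (clm (ContinuousLinearMap.inr ℝ F G) hW hg)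
  simpa using this

lemma der (hW : IsOpen W) (hf : Bd (k + 1) U W f) : Bd k U W fun i => fderiv ℝ (f i) :=
  ⟨hf.sm.mono fun _ hi => hi.fderiv_of_isOpen hW le_rfl, hf.bd.imp fun _ hC =>
    hC.mono fun i hi j hj x hx => by
      rw [norm_iteratedFDeriv_fderiv]
      exact hi _ (by omega) x hx⟩

lemma of_der {C : ℝ} (hs : ∀ᶠ i in U, ContDiffOn ℝ ∞ (f i) W)
    (h0 : ∀ᶠ i in U, ∀ x ∈ W, ‖f i x‖ ≤ C) (hf : Bd k U W fun i => fderiv ℝ (f i)) :
    Bd (k + 1) U W f := by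
  obtain ⟨A, hA⟩ := hf.bd
  refine ⟨hs, max C A, ?_⟩
  filter_upwards [h0, hA] with i h0 hA j hj x hx
  cases j with
  | zero => exact le_max_of_le_left (norm_iteratedFDeriv_zero.trans_le (h0 x hx))
  | succ j =>
    exact le_max_of_le_right (norm_iteratedFDeriv_fderiv.symm.trans_le (hA j (by omega) x hx))

lemma lip (hW : IsOpen W) (hc : Convex ℝ W) (hf : Bd (k + 1) U W f) :
    ∃ C : ℝ, 0 ≤ C ∧ ∀ᶠ i in U, ∀ x ∈ W, ∀ y ∈ W,
      ‖iteratedFDeriv ℝ k (f i) x - iteratedFDeriv ℝ k (f i) y‖ ≤ C * ‖x - y‖ := by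
  obtain ⟨C, C1, hC⟩ := bd0 hf
  refine ⟨C, by positivity, ?_⟩
  filter_upwards [hC, hf.sm] with i h1 h2 x hx y hy
  refine hc.norm_image_sub_le_of_norm_fderiv_le (𝕜 := ℝ) (fun z hz => ?_) (fun z hz => ?_) hy hx
  · exact (h2.contDiffAt (hW.mem_nhds hz)).differentiableAt_iteratedFDeriv (lt_inf k)
  · rw [norm_fderiv_iteratedFDeriv]
    exact h1 _ le_rfl z hz

end Bd

/-- pointwise convergence of an equi-Lipschitz family is uniform on totally bounded sets -/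
lemma tendstoUniformlyOn_of_lip [U.NeBot] {a : ι → E → F} {b : E → F} {C : ℝ} (hC : 0 ≤ C)
    (hW : TotallyBounded W) (hl : ∀ᶠ i in U, ∀ x ∈ W, ∀ y ∈ W, ‖a i x - a i y‖ ≤ C * ‖x - y‖)
    (hp : ∀ x ∈ W, Tendsto (fun i => a i x) U (𝓝 (b x))) : TendstoUniformlyOn a b U W := by
  have hb : ∀ x ∈ W, ∀ y ∈ W, ‖b x - b y‖ ≤ C * ‖x - y‖ := fun x hx y hy =>
    le_of_tendsto ((hp x hx).sub (hp y hy)).norm (hl.mono fun i hi => hi x hx y hy)
  rw [Metric.tendstoUniformlyOn_iff]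
  intro ε hε
  obtain ⟨t, htW, htf, hcov⟩ := Metric.finite_approx_of_totallyBounded hW (ε / (3 * (C + 1)))
    (by positivity)
  have h1 : ∀ᶠ i in U, ∀ y ∈ t, dist (a i y) (b y) < ε / 3 :=
    (eventually_all_finite htf).2 fun y hy =>
      Metric.tendsto_nhds.1 (hp y (htW hy)) _ (by positivity)
  filter_upwards [h1, hl] with i h1 h2 x hx
  obtain ⟨y, hy, hxy⟩ := mem_iUnion₂.1 (hcov hx)
  have e1 : C * ‖x - y‖ ≤ ε / 3 := by
    have h3 : ‖x - y‖ ≤ ε / (3 * (C + 1)) := (mem_ball_iff_norm.1 hxy).le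
    calc C * ‖x - y‖ ≤ (C + 1) * (ε / (3 * (C + 1))) :=
          mul_le_mul (by linarith) h3 (norm_nonneg _) (by positivity)
      _ = ε / 3 := by field_simp
  have e2 := hb x hx y (htW hy)
  have e3 := h2 x hx y (htW hy)
  have e4 := h1 y hy
  rw [dist_eq_norm] at e4 ⊢
  have e5 : b x - a i x = (b x - b y) - (a i y - b y) - (a i x - a i y) := by abel
  rw [e5]
  have e6 := norm_sub_le ((b x - b y) - (a i y - b y)) (a i x - a i y)
  have e7 := norm_sub_le (b x - b y) (a i y - b y)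
  linarith

lemma finiteDimensional_cml [FiniteDimensional ℝ E] [FiniteDimensional ℝ F] (k : ℕ) :
    FiniteDimensional ℝ (ContinuousMultilinearMap ℝ (fun _ : Fin k => E) F) :=
  FiniteDimensional.of_injective
    (ContinuousMultilinearMap.toMultilinearMapLinear (R' := ℝ) (A := ℝ) (M₁ := fun _ : Fin k => E)
      (M₂ := F)) ContinuousMultilinearMap.toMultilinearMap_injective

/-- **Arzelà-Ascoli** along an ultrafilter -/
theorem exists_cinf [FiniteDimensional ℝ E] [FiniteDimensional ℝ F] (U : Ultrafilter ι)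
    (hW : IsOpen W) (hc : Convex ℝ W) (hb : Bornology.IsBounded W) {f : ι → E → F}
    (hf : ∀ k, Bd k U W f) : ∃ g : E → F, CInf U W f g := by
  have hex : ∀ (k : ℕ) (x : E), ∃ p : ContinuousMultilinearMap ℝ (fun _ : Fin k => E) F, x ∈ W →
      Tendsto (fun i => iteratedFDeriv ℝ k (f i) x) U (𝓝 p) := by
    intro k x
    by_cases hx : x ∈ W
    · have := finiteDimensional_cml (E := E) (F := F) k
      have : ProperSpace (ContinuousMultilinearMap ℝ (fun _ : Fin k => E) F) :=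
        FiniteDimensional.proper_real _
      obtain ⟨C, hC⟩ := (hf k).bd
      obtain ⟨p, -, hp⟩ := (isCompact_closedBall
        (0 : ContinuousMultilinearMap ℝ (fun _ : Fin k => E) F) C).ultrafilter_le_nhds
        (U.map fun i => iteratedFDeriv ℝ k (f i) x) (by
          rw [le_principal_iff, Ultrafilter.mem_coe, Ultrafilter.mem_map]
          exact hC.mono fun i hi => mem_closedBall_zero_iff.2 (hi k le_rfl x hx))
      exact ⟨p, fun _ => hp⟩
    · exact ⟨0, fun h => absurd h hx⟩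
  choose p hp using hex
  have hu : ∀ k, TendstoUniformlyOn (fun i => iteratedFDeriv ℝ k (f i)) (p k) U W := by
    intro k
    obtain ⟨C, hC, hl⟩ := (hf (k + 1)).lip hW hc
    exact tendstoUniformlyOn_of_lip hC (hb.isCompact_closure.totallyBounded.subset subset_closure) hl
      fun x hx => hp k x hx
  let g : E → F := fun x => (p 0 x).curry0
  have hT : HasFTaylorSeriesUpToOn ∞ g (fun x k => p k x) W := by
    refine (hasFTaylorSeriesUpToOn_top_iff' le_rfl).2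
      ⟨fun _ _ => rfl, fun m x hx => HasFDerivAt.hasFDerivWithinAt ?_⟩
    let L := continuousMultilinearCurryLeftEquiv ℝ (fun _ : Fin (m + 1) => E) F
    have h1 : TendstoUniformlyOn (fun i y => L (iteratedFDeriv ℝ (m + 1) (f i) y))
        (fun y => L (p (m + 1) y)) U W :=
      L.isometry.uniformContinuous.comp_tendstoUniformlyOn (hu (m + 1))
    refine hasFDerivAt_of_tendstoUniformlyOnFilter (l := (U : Filter ι))
      (f := fun i => iteratedFDeriv ℝ m (f i))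
      (f' := fun i y => L (iteratedFDeriv ℝ (m + 1) (f i) y)) (g' := fun y => L (p (m + 1) y))
      ?_ ?_ ?_
    · exact h1.tendstoUniformlyOnFilter.mono_right (le_principal_iff.2 (hW.mem_nhds hx))
    · filter_upwards [(hf 0).sm.prod_mk (hW.eventually_mem hx)] with q hq
      exact ((hq.1.contDiffAt (hW.mem_nhds hq.2)).differentiableAt_iteratedFDeriv
        (lt_inf m)).hasFDerivAt
    · filter_upwards [hW.mem_nhds hx] with y hy using hp m y hy
  have he : ∀ k, ∀ x ∈ W, p k x = iteratedFDeriv ℝ k g x := fun k x hx => by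
    rw [← iteratedFDerivWithin_of_isOpen k hW hx]
    exact hT.eq_iteratedFDerivWithin_of_uniqueDiffOn (le_inf k) hW.uniqueDiffOn hx
  refine ⟨g, (hf 0).sm, hT.contDiffOn, fun k => (hu k).congr_right (he k), fun k => ?_⟩
  obtain ⟨C, hC⟩ := (hf k).bd
  refine ⟨C, fun x hx => ?_⟩
  rw [← he k x hx]
  exact le_of_tendsto (hp k x hx).norm (hC.mono fun i hi => hi k le_rfl x hx)

section CInfLemmas

variable {f : ι → E → F} {g : E → F}

lemma _root_.Vale.Agent.P218FT.CInf.mono {W' : Set E} (h : CInf U W f g) (hW : W' ⊆ W) :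
    CInf U W' f g :=
  ⟨h.smooth.mono fun _ hi => hi.mono hW, h.smooth_lim.mono hW, fun k => (h.conv k).mono hW,
    fun k => (h.bdd k).imp fun _ hC x hx => hC x (hW hx)⟩

lemma _root_.Vale.Agent.P218FT.CInf.mono_filter {U' : Filter ι} (h : CInf U W f g) (hU : U' ≤ U) :
    CInf U' W f g :=
  ⟨hU h.smooth, h.smooth_lim, fun k u hu => hU (h.conv k u hu), h.bdd⟩

lemma _root_.Vale.Agent.P218FT.CInf.bd (h : CInf U W f g) (k : ℕ) : Bd k U W f := by
  refine Bd.of_forall h.smooth (fun j => ?_) k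
  obtain ⟨C, hC⟩ := h.bdd j
  refine ⟨C + 1, ?_⟩
  filter_upwards [Metric.tendstoUniformlyOn_iff.1 (h.conv j) 1 one_pos] with i hi x hx
  have h1 := hi x hx
  rw [dist_eq_norm'] at h1
  have h2 := norm_le_insert' (iteratedFDeriv ℝ j (f i) x) (iteratedFDeriv ℝ j g x)
  linarith [hC x hx]

lemma _root_.Vale.Agent.P218FT.CInf.bd_lim (h : CInf U W f g) {κ : Type} (V : Filter κ) (k : ℕ) :
    Bd k V W fun _ => g :=
  Bd.of_forall (Eventually.of_forall fun _ => h.smooth_lim)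
    (fun j => (h.bdd j).imp fun _ hC => Eventually.of_forall fun _ => hC) k

lemma _root_.Vale.Agent.P218FT.CInf.unif (h : CInf U W f g) : TendstoUniformlyOn f g U W := by
  have := (continuousMultilinearCurryFin0 ℝ E F).isometry.uniformContinuous.comp_tendstoUniformlyOn
    (h.conv 0)
  exact this

lemma _root_.Vale.Agent.P218FT.CInf.tendsto (h : CInf U W f g) {x : E} (hx : x ∈ W) :
    Tendsto (fun i => f i x) U (𝓝 (g x)) := h.unif.tendsto_at hx

/-- values at moving points -/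
lemma _root_.Vale.Agent.P218FT.CInf.tendsto_comp (h : CInf U W f g) (hW : IsOpen W) {x : E}
    (hx : x ∈ W) {y : ι → E} (hy : Tendsto y U (𝓝 x)) :
    Tendsto (fun i => f i (y i)) U (𝓝 (g x)) :=
  h.unif.tendsto_comp (h.smooth_lim.continuousOn x hx)
    (tendsto_nhdsWithin_iff.2 ⟨hy, hy.eventually (hW.mem_nhds hx)⟩)

lemma _root_.Vale.Agent.P218FT.CInf.fderiv (h : CInf U W f g) (hW : IsOpen W) :
    CInf U W (fun i => fderiv ℝ (f i)) (fderiv ℝ g) := by
  refine ⟨h.smooth.mono fun _ hi => hi.fderiv_of_isOpen hW le_rfl,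
    h.smooth_lim.fderiv_of_isOpen hW le_rfl, fun k => ?_, fun k => (h.bdd (k + 1)).imp
      fun C hC x hx => norm_iteratedFDeriv_fderiv.trans_le (hC x hx)⟩
  have := (continuousMultilinearCurryRightEquiv' ℝ k E F).isometry.uniformContinuous
    |>.comp_tendstoUniformlyOn (h.conv (k + 1))
  have e : ∀ φ : E → F, (continuousMultilinearCurryRightEquiv' ℝ k E F) ∘ iteratedFDeriv ℝ (k + 1) φ
      = iteratedFDeriv ℝ k (_root_.fderiv ℝ φ) := fun φ => by
    funext x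
    rw [Function.comp_apply, iteratedFDeriv_succ_eq_comp_right, Function.comp_apply,
      LinearIsometryEquiv.apply_symm_apply]
  simpa only [e] using this

lemma _root_.Vale.Agent.P218FT.CInf.congr {f' : ι → E → F} {g' : E → F} (h : CInf U W f g)
    (hW : IsOpen W) (e : ∀ᶠ i in U, ∀ x ∈ W, f i x = f' i x) (e' : ∀ x ∈ W, g x = g' x) :
    CInf U W f' g' := by
  have key : ∀ (a b : E → F), (∀ x ∈ W, a x = b x) → ∀ k, ∀ x ∈ W,
      iteratedFDeriv ℝ k a x = iteratedFDeriv ℝ k b x := fun a b hab k x hx => by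
    have : a =ᶠ[𝓝 x] b := mem_of_superset (hW.mem_nhds hx) hab
    exact (this.iteratedFDeriv ℝ k).eq_of_nhds
  refine ⟨?_, h.smooth_lim.congr fun x hx => (e' x hx).symm, fun k => ?_, fun k =>
    (h.bdd k).imp fun C hC x hx => key _ _ e' k x hx ▸ hC x hx⟩
  · filter_upwards [h.smooth, e] with i h1 h2
    exact h1.congr fun x hx => (h2 x hx).symm
  · exact ((h.conv k).congr (e.mono fun i hi => key _ _ hi k)).congr_right (key _ _ e' k)

lemma cinf_const (hg : ContDiffOn ℝ ∞ g W) (hb : ∀ k : ℕ, ∃ C : ℝ, ∀ x ∈ W,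
    ‖iteratedFDeriv ℝ k g x‖ ≤ C) : CInf U W (fun _ => g) g :=
  ⟨Eventually.of_forall fun _ => hg, hg, fun _ _ hu =>
    Eventually.of_forall fun _ _ _ => refl_mem_uniformity hu, hb⟩

/-- uniform bounds of all derivatives and pointwise convergence give smooth convergence -/
theorem cinf_of_tendsto [FiniteDimensional ℝ E] [FiniteDimensional ℝ F] [U.NeBot] (hW : IsOpen W)
    (hc : Convex ℝ W) (hb : Bornology.IsBounded W) (hf : ∀ k, Bd k U W f)
    (hp : ∀ x ∈ W, Tendsto (fun i => f i x) U (𝓝 (g x))) : CInf U W f g := by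
  have key : ∀ U' : Ultrafilter ι, ↑U' ≤ U → CInf U' W f g := by
    intro U' hU'
    obtain ⟨g', hg'⟩ := exists_cinf U' hW hc hb fun k => (hf k).mono_filter hU'
    exact hg'.congr hW (Eventually.of_forall fun _ _ _ => rfl) fun x hx =>
      tendsto_nhds_unique (hg'.tendsto hx) ((hp x hx).mono_left hU')
  have h0 := key _ (Ultrafilter.of_le U)
  exact ⟨(hf 0).sm, h0.smooth_lim, fun k u hu =>
    mem_iff_ultrafilter.2 fun U' hU' => (key U' hU').conv k u hu, h0.bdd⟩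

/-- smooth convergence is stable under composition -/
theorem _root_.Vale.Agent.P218FT.CInf.comp [FiniteDimensional ℝ E] [FiniteDimensional ℝ G]
    [U.NeBot] {V : Set F} {φ : ι → F → G} {ψ : F → G} (hφ : CInf U V φ ψ) (hf : CInf U W f g)
    (hV : IsOpen V) (hW : IsOpen W) (hc : Convex ℝ W) (hb : Bornology.IsBounded W)
    (hm : ∀ᶠ i in U, ∀ x ∈ W, f i x ∈ V) (hm' : ∀ x ∈ W, g x ∈ V) :
    CInf U W (fun i x => φ i (f i x)) fun x => ψ (g x) :=
  cinf_of_tendsto hW hc hb (fun k => (hφ.bd k).comp hW hV (hf.bd k) hm) fun x hx =>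
    hφ.tendsto_comp hV (hm' x hx) (hf.tendsto hx)

/-- composition with a fixed smooth function -/
theorem _root_.Vale.Agent.P218FT.CInf.comp_smooth [FiniteDimensional ℝ E] [FiniteDimensional ℝ F]
    [FiniteDimensional ℝ G] [U.NeBot] {φ : F → G} (hφ : ContDiff ℝ ∞ φ) (hf : CInf U W f g)
    (hW : IsOpen W) (hc : Convex ℝ W) (hb : Bornology.IsBounded W) :
    CInf U W (fun i x => φ (f i x)) fun x => φ (g x) :=
  cinf_of_tendsto hW hc hb (fun k => (hf.bd k).comp_smooth hW hφ) fun _ hx =>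
    (hφ.continuous.tendsto _).comp (hf.tendsto hx)

theorem _root_.Vale.Agent.P218FT.CInf.prodMk [FiniteDimensional ℝ E] [FiniteDimensional ℝ F]
    [FiniteDimensional ℝ G] [U.NeBot] {f' : ι → E → G} {g' : E → G} (hf : CInf U W f g)
    (hf' : CInf U W f' g') (hW : IsOpen W) (hc : Convex ℝ W) (hb : Bornology.IsBounded W) :
    CInf U W (fun i x => (f i x, f' i x)) fun x => (g x, g' x) :=
  cinf_of_tendsto hW hc hb (fun k => (hf.bd k).prodMk hW (hf'.bd k)) fun _ hx =>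
    (hf.tendsto hx).prodMk_nhds (hf'.tendsto hx)

lemma cinf_fixed [FiniteDimensional ℝ E] (hg : ContDiff ℝ ∞ g) (hb : Bornology.IsBounded W) :
    CInf U W (fun _ => g) g := by
  refine cinf_const hg.contDiffOn fun k => ?_
  obtain ⟨C, hC⟩ := (Bd.fixed' (ι := Unit) (U := ⊤) (k := k) hb hg).bd
  exact ⟨C, eventually_top.1 hC () k le_rfl⟩

/-- affine maps with converging parameters -/
lemma cinf_affine [FiniteDimensional ℝ E] [FiniteDimensional ℝ F] [U.NeBot] {a : ι → F} {a₀ : F}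
    {L : ι → E →L[ℝ] F} {L₀ : E →L[ℝ] F} (ha : Tendsto a U (𝓝 a₀)) (hL : Tendsto L U (𝓝 L₀))
    (hW : IsOpen W) (hc : Convex ℝ W) (hb : Bornology.IsBounded W) :
    CInf U W (fun i x => a i + L i x) fun x => a₀ + L₀ x := by
  refine cinf_of_tendsto hW hc hb (fun k => ?_) fun x _ =>
    ha.add (((ContinuousLinearMap.apply ℝ F x).continuous.tendsto L₀).comp hL)
  refine Bd.add hW (Bd.const (C := ‖a₀‖ + 1) (ha.norm.eventually_le_const (by linarith))) ?_
  exact Bd.bilin (ContinuousLinearMap.id ℝ (E →L[ℝ] F)) hW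
    (Bd.const (C := ‖L₀‖ + 1) (hL.norm.eventually_le_const (by linarith)))
    (Bd.fixed' hb contDiff_id)

end CInfLemmas

section Implicit

variable {Z : Type} [NormedAddCommGroup Z] [NormedSpace ℝ Z] [FiniteDimensional ℝ Z]

/-- solving a scalar equation which is monotone in the last variable -/
lemma solve {φ : Z × ℝ → ℝ} {W : Set (Z × ℝ)} (hW : IsOpen W) (hφ : ContDiffOn ℝ ∞ φ W)
    {D : Set Z} (hD : IsOpen D) {a b c : ℝ} (hab : a ≤ b) (hsub : D ×ˢ Icc a b ⊆ W)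
    (hpos : ∀ v ∈ D ×ˢ Icc a b, 0 < c * fderiv ℝ φ v (0, 1))
    (ha : ∀ ξ ∈ D, c * φ (ξ, a) < 0) (hb : ∀ ξ ∈ D, 0 < c * φ (ξ, b)) :
    ∃ h : Z → ℝ, ContDiffOn ℝ ∞ h D ∧ ∀ ξ ∈ D, h ξ ∈ Ioo a b ∧
      (∀ z ∈ Icc a b, φ (ξ, z) = 0 ↔ z = h ξ) ∧
      fderiv ℝ h ξ = -((fderiv ℝ φ (ξ, h ξ) (0, 1))⁻¹ •
        (fderiv ℝ φ (ξ, h ξ)).comp (ContinuousLinearMap.inl ℝ Z ℝ)) := by
  have : CompleteSpace Z := FiniteDimensional.complete ℝ Z
  have pn : (∞ : ℕ∞ω) ≠ 0 := by simp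
  have hcd : ∀ v ∈ W, ContDiffAt ℝ ∞ φ v := fun v hv => hφ.contDiffAt (hW.mem_nhds hv)
  have hd : ∀ ξ ∈ D, ∀ z ∈ Icc a b,
      HasDerivAt (fun z => c * φ (ξ, z)) (c * fderiv ℝ φ (ξ, z) (0, 1)) z := by
    intro ξ hξ z hz
    have h1 := ((hcd _ (hsub (mk_mem_prod hξ hz))).differentiableAt pn).hasFDerivAt
    have h2 : HasDerivAt (fun z : ℝ => (ξ, z)) ((0 : Z), (1 : ℝ)) z :=
      (hasDerivAt_const z ξ).prodMk (hasDerivAt_id z)
    exact (h1.comp_hasDerivAt z h2).const_mul c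
  have hcont : ∀ ξ ∈ D, ContinuousOn (fun z => c * φ (ξ, z)) (Icc a b) := fun ξ hξ z hz =>
    (hd ξ hξ z hz).continuousAt.continuousWithinAt
  have hmono : ∀ ξ ∈ D, StrictMonoOn (fun z => c * φ (ξ, z)) (Icc a b) := fun ξ hξ =>
    strictMonoOn_of_deriv_pos (convex_Icc a b) (hcont ξ hξ) fun z hz => by
      have hz' : z ∈ Icc a b := interior_subset hz
      rw [(hd ξ hξ z hz').deriv]
      exact hpos _ (mk_mem_prod hξ hz')
  have hex : ∀ ξ, ∃ z, ξ ∈ D → z ∈ Ioo a b ∧ c * φ (ξ, z) = 0 := by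
    intro ξ
    by_cases hξ : ξ ∈ D
    · obtain ⟨z, hz, h0⟩ := intermediate_value_Ioo hab (hcont ξ hξ) ⟨ha ξ hξ, hb ξ hξ⟩
      exact ⟨z, fun _ => ⟨hz, h0⟩⟩
    · exact ⟨0, fun h => absurd h hξ⟩
  choose h hh using hex
  have hiff : ∀ ξ ∈ D, ∀ z ∈ Icc a b, φ (ξ, z) = 0 ↔ z = h ξ := by
    intro ξ hξ z hz
    have hc : c ≠ 0 := by
      rintro rfl
      simpa using ha ξ hξ
    constructor
    · intro h0
      refine (hmono ξ hξ).injOn hz (Ioo_subset_Icc_self (hh ξ hξ).1) ?_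
      simp only [h0, mul_zero, (hh ξ hξ).2]
    · rintro rfl
      exact (mul_eq_zero.1 (hh ξ hξ).2).resolve_left hc
  have hne : ∀ ξ ∈ D, fderiv ℝ φ (ξ, h ξ) (0, 1) ≠ 0 := by
    intro ξ hξ h0
    have := hpos _ (mk_mem_prod hξ (Ioo_subset_Icc_self (hh ξ hξ).1))
    rw [h0, mul_zero] at this
    exact lt_irrefl _ this
  have hsm : ∀ ξ ∈ D, ContDiffAt ℝ ∞ h ξ := by
    intro ξ hξ
    have hI := Ioo_subset_Icc_self (hh ξ hξ).1
    have hinv : (fderiv ℝ φ (ξ, h ξ) ∘L .inr ℝ Z ℝ).IsInvertible := by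
      refine ⟨ContinuousLinearEquiv.unitsEquivAut ℝ (Units.mk0 _ (hne ξ hξ)), ?_⟩
      ext
      simp
    let ψ := (hcd _ (hsub (mk_mem_prod hξ hI))).implicitFunction pn hinv
    have a0 : ψ ξ = h ξ := ContDiffAt.implicitFunction_apply_self (u := (ξ, h ξ)) _ _ _
    have a1 : ContDiffAt ℝ ∞ ψ ξ := ContDiffAt.contDiffAt_implicitFunction (u := (ξ, h ξ)) _ _ _
    have a2 : ∀ᶠ y in 𝓝 ξ, φ (y, ψ y) = φ (ξ, h ξ) :=
      ContDiffAt.eventually_apply_implicitFunction (u := (ξ, h ξ)) _ _ _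
    have a3 : ∀ᶠ y in 𝓝 ξ, ψ y ∈ Ioo a b :=
      a1.continuousAt.eventually (isOpen_Ioo.mem_nhds (a0 ▸ (hh ξ hξ).1))
    refine a1.congr_of_eventuallyEq ?_
    filter_upwards [a2, a3, hD.mem_nhds hξ] with y h1 h2 h3
    exact ((hiff y h3 _ (Ioo_subset_Icc_self h2)).1 (h1.trans ((hiff ξ hξ _ hI).2 rfl))).symm
  refine ⟨h, fun ξ hξ => (hsm ξ hξ).contDiffWithinAt, fun ξ hξ =>
    ⟨(hh ξ hξ).1, hiff ξ hξ, ?_⟩⟩
  have hI := Ioo_subset_Icc_self (hh ξ hξ).1
  have h1 := ((hcd _ (hsub (mk_mem_prod hξ hI))).differentiableAt pn).hasFDerivAt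
  have h2 := ((hsm ξ hξ).differentiableAt pn).hasFDerivAt
  have h3 := HasFDerivAt.comp ξ (f := fun y => (y, h y)) h1 ((hasFDerivAt_id ξ).prodMk h2)
  have h4 : (φ ∘ fun y => (y, h y)) =ᶠ[𝓝 ξ] fun _ => 0 := by
    filter_upwards [hD.mem_nhds hξ] with y hy
    exact (hiff y hy _ (Ioo_subset_Icc_self (hh y hy).1)).2 rfl
  have h5 := h3.unique ((hasFDerivAt_const (0 : ℝ) ξ).congr_of_eventuallyEq h4)
  ext v
  have h6 := congrArg (fun L : Z →L[ℝ] ℝ => L v) h5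
  have h7 : ((v, fderiv ℝ h ξ v) : Z × ℝ) = (v, 0) + fderiv ℝ h ξ v • ((0 : Z), (1 : ℝ)) := by
    simp
  simp only [ContinuousLinearMap.comp_apply, ContinuousLinearMap.prod_apply,
    ContinuousLinearMap.id_apply, _root_.zero_apply] at h6
  rw [h7, map_add, map_smul, smul_eq_mul] at h6
  have h8 := hne ξ hξ
  simp only [_root_.neg_apply, _root_.smul_apply, ContinuousLinearMap.comp_apply,
    ContinuousLinearMap.inl_apply, smul_eq_mul]
  field_simp
  linarith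

/-- the derivative of an implicit function in terms of the derivative of the equation -/
noncomputable def impD (Z : Type) [NormedAddCommGroup Z] [NormedSpace ℝ Z]
    (A : Z × ℝ →L[ℝ] ℝ) : Z →L[ℝ] ℝ :=
  -((A (0, 1))⁻¹ • A.comp (ContinuousLinearMap.inl ℝ Z ℝ))

lemma contDiffOn_impD : ContDiffOn ℝ ∞ (impD Z) {A | A (0, 1) ≠ 0} := by
  have h1 : ContDiff ℝ ∞ fun A : Z × ℝ →L[ℝ] ℝ => A (0, 1) := contDiff_id.clm_apply contDiff_const
  have h2 : ContDiff ℝ ∞ fun A : Z × ℝ →L[ℝ] ℝ => A.comp (ContinuousLinearMap.inl ℝ Z ℝ) :=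
    contDiff_id.clm_comp contDiff_const
  exact ((h1.contDiffOn.inv fun A hA => hA).smul h2.contDiffOn).neg

/-- bounds for the derivatives of implicit functions -/
lemma bd_implicit {f : ι → Z × ℝ → ℝ} {h : ι → Z → ℝ} {D : Set Z} {a b κ : ℝ} (hκ : 0 < κ)
    (hD : IsOpen D) (hDb : Bornology.IsBounded D) (hf : ∀ k, Bd k U (D ×ˢ Ioo a b) f)
    (hpos : ∀ᶠ i in U, ∀ v ∈ D ×ˢ Ioo a b, κ ≤ |fderiv ℝ (f i) v (0, 1)|)
    (hh : ∀ᶠ i in U, ContDiffOn ℝ ∞ (h i) D ∧ ∀ ξ ∈ D, h i ξ ∈ Ioo a b ∧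
      fderiv ℝ (h i) ξ = impD Z (fderiv ℝ (f i) (ξ, h i ξ))) (k : ℕ) : Bd k U D h := by
  have hO : IsOpen (D ×ˢ Ioo a b) := hD.prod isOpen_Ioo
  have h0 : ∀ᶠ i in U, ∀ ξ ∈ D, ‖h i ξ‖ ≤ max |a| |b| := hh.mono fun i hi ξ hξ =>
    abs_le_max_abs_abs (hi.2 ξ hξ).1.1.le (hi.2 ξ hξ).1.2.le
  have hG : ∀ k, Bd k U (D ×ˢ Ioo a b) fun i v => impD Z (fderiv ℝ (f i) v) := by
    intro k
    have h1 := (hf (k + 1)).der hO
    obtain ⟨C, hC⟩ := h1.norm_le
    have hcont : Continuous fun A : Z × ℝ →L[ℝ] ℝ => A (0, 1) := by fun_prop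
    refine Bd.comp_fixed (Q := closedBall 0 C ∩ {A : Z × ℝ →L[ℝ] ℝ | κ ≤ |A (0, 1)|}) hO
      (isOpen_ne_fun hcont continuous_const)
      ((isCompact_closedBall 0 C).inter_right (isClosed_le continuous_const hcont.abs))
      (fun A hA => abs_pos.1 (hκ.trans_le (show κ ≤ |A (0, 1)| from hA.2))) contDiffOn_impD h1 ?_
    filter_upwards [hC, hpos] with i h1 h2 v hv
    exact ⟨mem_closedBall_zero_iff.2 (h1 v hv), h2 v hv⟩
  induction k with
  | zero =>
    refine ⟨hh.mono fun i hi => hi.1, max |a| |b|, h0.mono fun i hi j hj ξ hξ => ?_⟩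
    obtain rfl : j = 0 := by omega
    exact norm_iteratedFDeriv_zero.trans_le (hi ξ hξ)
  | succ k ih =>
    refine Bd.of_der (hh.mono fun i hi => hi.1) h0 ?_
    have h1 : Bd k U D fun i ξ => (ξ, h i ξ) := (Bd.fixed' hDb contDiff_id).prodMk hD ih
    refine ((hG k).comp hD hO h1 (hh.mono fun i hi ξ hξ => mk_mem_prod hξ (hi.2 ξ hξ).1)).congr hD
      (hh.mono fun i hi ξ hξ => (hi.2 ξ hξ).2.symm)

/-- **Implicit functions** of a smoothly converging family of equations -/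
theorem impl [U.NeBot] {W : Set (Z × ℝ)} (hW : IsOpen W) {f : ι → Z × ℝ → ℝ} {g : Z × ℝ → ℝ}
    (hf : CInf U W f g) {v : Z × ℝ} (hv : v ∈ W) (h0 : g v = 0) (hd : fderiv ℝ g v (0, 1) ≠ 0) :
    ∃ (δ ρ : ℝ) (h : ι → Z → ℝ) (h₀ : Z → ℝ), 0 < δ ∧ 0 < ρ ∧
      ball v.1 δ ×ˢ closedBall v.2 ρ ⊆ W ∧ CInf U (ball v.1 δ) h h₀ ∧ h₀ v.1 = v.2 ∧
      (∀ ξ ∈ ball v.1 δ, h₀ ξ ∈ ball v.2 ρ ∧
        ∀ z ∈ closedBall v.2 ρ, g (ξ, z) = 0 ↔ z = h₀ ξ) ∧
      ∀ᶠ i in U, ∀ ξ ∈ ball v.1 δ, h i ξ ∈ ball v.2 ρ ∧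
        ∀ z ∈ closedBall v.2 ρ, f i (ξ, z) = 0 ↔ z = h i ξ := by
  classical
  have pn : (∞ : ℕ∞ω) ≠ 0 := by simp
  set c := fderiv ℝ g v (0, 1) with hc
  have hc2 : 0 < c * c := mul_self_pos.2 hd
  have hcont : ContinuousAt (fun q => c * fderiv ℝ g q (0, 1)) v :=
    continuousAt_const.mul ((((hf.smooth_lim.continuousOn_fderiv_of_isOpen hW (by simp)) v
      hv).continuousAt (hW.mem_nhds hv)).clm_apply continuousAt_const)
  have h1 : ∀ᶠ q in 𝓝 v, q ∈ W ∧ c * c / 2 < c * fderiv ℝ g q (0, 1) :=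
    (hW.eventually_mem hv).and (hcont.eventually (lt_mem_nhds (by
      show c * c / 2 < c * c
      linarith)))
  obtain ⟨ρ, hρ, hb⟩ := nhds_basis_closedBall.eventually_iff.1 h1
  have hI : closedBall v.2 ρ = Icc (v.2 - ρ) (v.2 + ρ) := Real.closedBall_eq_Icc
  have hI' : ball v.2 ρ = Ioo (v.2 - ρ) (v.2 + ρ) := Real.ball_eq_Ioo _ _
  have hbox : ∀ ξ ∈ closedBall v.1 ρ, ∀ z ∈ Icc (v.2 - ρ) (v.2 + ρ), (ξ, z) ∈ closedBall v ρ := by
    intro ξ hξ z hz
    rw [← closedBall_prod_same]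
    exact mk_mem_prod hξ (hI ▸ hz)
  have hab : v.2 - ρ ≤ v.2 + ρ := by linarith
  have hgc : ∀ q ∈ W, ContinuousAt g q := fun q hq =>
    (hf.smooth_lim.continuousOn q hq).continuousAt (hW.mem_nhds hq)
  have hmono : StrictMonoOn (fun z => c * g (v.1, z)) (Icc (v.2 - ρ) (v.2 + ρ)) := by
    have hd : ∀ z ∈ Icc (v.2 - ρ) (v.2 + ρ),
        HasDerivAt (fun z => c * g (v.1, z)) (c * fderiv ℝ g (v.1, z) (0, 1)) z := by
      intro z hz
      have h1 := ((hf.smooth_lim.contDiffAt (hW.mem_nhds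
        (hb (hbox _ (mem_closedBall_self hρ.le) z hz)).1)).differentiableAt pn).hasFDerivAt
      have h2 : HasDerivAt (fun z : ℝ => (v.1, z)) ((0 : Z), (1 : ℝ)) z :=
        (hasDerivAt_const z v.1).prodMk (hasDerivAt_id z)
      exact (h1.comp_hasDerivAt z h2).const_mul c
    refine strictMonoOn_of_deriv_pos (convex_Icc _ _)
      (fun z hz => (hd z hz).continuousAt.continuousWithinAt) fun z hz => ?_
    have hz' := interior_subset hz
    rw [(hd z hz').deriv]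
    exact lt_trans (by linarith) (hb (hbox _ (mem_closedBall_self hρ.le) z hz')).2
  have hm : v.2 ∈ Icc (v.2 - ρ) (v.2 + ρ) := ⟨by linarith, by linarith⟩
  have ha0 : c * g (v.1, v.2 - ρ) < 0 := by
    have := hmono (left_mem_Icc.2 hab) hm (by linarith)
    simpa [h0] using this
  have hb0 : 0 < c * g (v.1, v.2 + ρ) := by
    have := hmono hm (right_mem_Icc.2 hab) (by linarith)
    simpa [h0] using this
  obtain ⟨η, hη, hη1, hη2⟩ : ∃ η : ℝ, 0 < η ∧ c * g (v.1, v.2 - ρ) < -η ∧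
      η < c * g (v.1, v.2 + ρ) :=
    ⟨min (-(c * g (v.1, v.2 - ρ))) (c * g (v.1, v.2 + ρ)) / 2,
      half_pos (lt_min (by linarith) hb0),
      by linarith [min_le_left (-(c * g (v.1, v.2 - ρ))) (c * g (v.1, v.2 + ρ))],
      by linarith [min_le_right (-(c * g (v.1, v.2 - ρ))) (c * g (v.1, v.2 + ρ))]⟩
  have hca : ∀ z ∈ Icc (v.2 - ρ) (v.2 + ρ), ContinuousAt (fun ξ => c * g (ξ, z)) v.1 :=
    fun z hz => continuousAt_const.mul (ContinuousAt.comp (f := fun ξ : Z => (ξ, z))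
      (hgc _ (hb (hbox _ (mem_closedBall_self hρ.le) z hz)).1)
      (continuousAt_id.prodMk continuousAt_const))
  have h2 : ∀ᶠ ξ in 𝓝 v.1, ξ ∈ closedBall v.1 ρ ∧ c * g (ξ, v.2 - ρ) < -η ∧
      η < c * g (ξ, v.2 + ρ) :=
    (closedBall_mem_nhds _ hρ : _ ∈ _) |> fun h => Eventually.and h
      (((hca _ (left_mem_Icc.2 hab)).eventually (gt_mem_nhds hη1)).and
        ((hca _ (right_mem_Icc.2 hab)).eventually (lt_mem_nhds hη2)))
  obtain ⟨δ, hδ, hD⟩ := Metric.eventually_nhds_iff_ball.1 h2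
  have hsub' : ∀ q ∈ ball v.1 δ ×ˢ Icc (v.2 - ρ) (v.2 + ρ), q ∈ closedBall v ρ :=
    fun q hq => hbox _ (hD _ hq.1).1 _ hq.2
  have hsub : ball v.1 δ ×ˢ Icc (v.2 - ρ) (v.2 + ρ) ⊆ W := fun q hq => (hb (hsub' q hq)).1
  obtain ⟨h₀, -, hs₀⟩ := solve hW hf.smooth_lim isOpen_ball hab hsub (c := c)
    (fun q hq => lt_trans (by linarith) (hb (hsub' q hq)).2)
    (fun ξ hξ => by linarith [(hD ξ hξ).2.1]) fun ξ hξ => by linarith [(hD ξ hξ).2.2]
  have hcp : 0 < |c| := abs_pos.2 hd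
  have e0 : ∀ᶠ i in U, ∀ q ∈ W, |c * f i q - c * g q| < η := by
    filter_upwards [Metric.tendstoUniformlyOn_iff.1 hf.unif (η / |c|) (by positivity)]
      with i hi q hq
    have := hi q hq
    rw [dist_comm, Real.dist_eq, lt_div_iff₀ hcp] at this
    rw [← mul_sub, abs_mul, mul_comm]
    exact this
  have e1 : ∀ᶠ i in U, ∀ q ∈ ball v.1 δ ×ˢ Icc (v.2 - ρ) (v.2 + ρ),
      c * c / 4 < c * fderiv ℝ (f i) q (0, 1) := by
    filter_upwards [Metric.tendstoUniformlyOn_iff.1 (hf.fderiv hW).unif (|c| / 4) (by positivity)]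
      with i hi q hq
    have a1 := hi q (hsub hq)
    rw [dist_eq_norm] at a1
    have a2 := (fderiv ℝ g q - fderiv ℝ (f i) q).le_opNorm ((0 : Z), (1 : ℝ))
    rw [Prod.norm_mk, norm_zero, norm_one, max_eq_right zero_le_one, mul_one, _root_.sub_apply,
      Real.norm_eq_abs] at a2
    have a3 : |c * (fderiv ℝ g q (0, 1) - fderiv ℝ (f i) q (0, 1))| ≤ c * c / 4 := by
      rw [abs_mul, ← abs_mul_abs_self c]
      nlinarith
    have a4 := (hb (hsub' q hq)).2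
    have a5 := (abs_le.1 a3).2
    rw [mul_sub] at a5
    linarith
  let P : ι → (Z → ℝ) → Prop := fun i h => ContDiffOn ℝ ∞ h (ball v.1 δ) ∧ ∀ ξ ∈ ball v.1 δ,
    h ξ ∈ Ioo (v.2 - ρ) (v.2 + ρ) ∧ (∀ z ∈ Icc (v.2 - ρ) (v.2 + ρ), f i (ξ, z) = 0 ↔ z = h ξ) ∧
      fderiv ℝ h ξ = impD Z (fderiv ℝ (f i) (ξ, h ξ))
  have hex : ∀ᶠ i in U, ∃ h, P i h := by
    filter_upwards [hf.smooth, e0, e1] with i a1 a2 a3
    refine solve hW a1 isOpen_ball hab hsub (c := c)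
      (fun q hq => lt_trans (by linarith) (a3 q hq)) (fun ξ hξ => ?_) fun ξ hξ => ?_
    · have := (abs_lt.1 (a2 _ (hsub (mk_mem_prod hξ (left_mem_Icc.2 hab))))).2
      linarith [(hD ξ hξ).2.1]
    · have := (abs_lt.1 (a2 _ (hsub (mk_mem_prod hξ (right_mem_Icc.2 hab))))).1
      linarith [(hD ξ hξ).2.2]
  let h : ι → Z → ℝ := fun i => if hi : ∃ h, P i h then hi.choose else 0
  have hP : ∀ᶠ i in U, P i (h i) := hex.mono fun i hi => by
    simp only [h, dif_pos hi]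
    exact hi.choose_spec
  have hsubO : ball v.1 δ ×ˢ Ioo (v.2 - ρ) (v.2 + ρ) ⊆ ball v.1 δ ×ˢ Icc (v.2 - ρ) (v.2 + ρ) :=
    prod_mono subset_rfl Ioo_subset_Icc_self
  have hbd : ∀ k, Bd k U (ball v.1 δ) h := by
    refine bd_implicit (f := f) (κ := |c| / 4) (by positivity) isOpen_ball isBounded_ball
      (fun k => (hf.bd k).mono_set (hsubO.trans hsub)) ?_
      (hP.mono fun i hi => ⟨hi.1, fun ξ hξ => ⟨(hi.2 ξ hξ).1, (hi.2 ξ hξ).2.2⟩⟩)
    filter_upwards [e1] with i hi q hq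
    have a1 := hi q (hsubO hq)
    have a2 := le_abs_self (c * fderiv ℝ (f i) q (0, 1))
    rw [abs_mul] at a2
    rw [← abs_mul_abs_self c] at a1
    by_contra hlt
    push Not at hlt
    nlinarith
  have hten : ∀ ξ ∈ ball v.1 δ, Tendsto (fun i => h i ξ) U (𝓝 (h₀ ξ)) := by
    intro ξ hξ
    refine (tendsto_iff_ultrafilter _ _ _).2 fun U' hU' => ?_
    obtain ⟨z, hz, hlim⟩ := isCompact_Icc.ultrafilter_le_nhds (U'.map fun i => h i ξ) (by
      rw [le_principal_iff, Ultrafilter.mem_coe, Ultrafilter.mem_map]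
      exact hU' (hP.mono fun i hi => Ioo_subset_Icc_self (hi.2 ξ hξ).1))
    have hlim' : Tendsto (fun i => h i ξ) U' (𝓝 z) := hlim
    have a1 := (hf.mono_filter hU').tendsto_comp hW (hsub (mk_mem_prod hξ hz))
      (tendsto_const_nhds.prodMk_nhds hlim')
    have a2 : ∀ᶠ i in (U' : Filter ι), f i (ξ, h i ξ) = 0 := hU' (hP.mono fun i hi =>
      ((hi.2 ξ hξ).2.1 _ (Ioo_subset_Icc_self (hi.2 ξ hξ).1)).2 rfl)
    have a3 : g (ξ, z) = 0 := tendsto_nhds_unique a1 (tendsto_const_nhds.congr' (a2.mono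
      fun i hi => hi.symm))
    rwa [← ((hs₀ ξ hξ).2.1 z hz).1 a3]
  refine ⟨δ, ρ, h, h₀, hδ, hρ, hI ▸ hsub,
    cinf_of_tendsto isOpen_ball (convex_ball _ _) isBounded_ball hbd hten,
    (((hs₀ _ (mem_ball_self hδ)).2.1 _ hm).1 h0).symm, fun ξ hξ => ?_, ?_⟩
  · rw [hI, hI']
    exact ⟨(hs₀ ξ hξ).1, (hs₀ ξ hξ).2.1⟩
  · rw [hI, hI']
    exact hP.mono fun i hi ξ hξ => ⟨(hi.2 ξ hξ).1, (hi.2 ξ hξ).2.1⟩

end Implicit

end Vale.Agent.P218FT.Conv
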