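import Vale.Agent.P218FT.ConvSpec
import Vale.Agent.P218FT.Scale
import Vale.Agent.P218FT.Local2
import Vale.Agent.P218FT.Huisken3
import Vale.Agent.P218FT.EVMain
import Mathlib.Analysis.ODE.ExistUnique
import Mathlib.Topology.Order.Monotone

/-! Block T: the limit of the rescaled flows is self-similar. -/

open MeasureTheory Set Filter Topology Metric
open scoped ENNReal NNReal RealInnerProductSpace ContDiff

namespace Vale.Agent.P218FT.Conv

/-- what is used about smooth limits of surfaces -/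
def BStmt : Prop :=
  (∀ (ι : Type) (U : Ultrafilter ι) (M : ι → ℝ → Set E3) (L : ℝ → Set E3) (I : Set ℝ),
    SLim U M L I → ∀ t ∈ I, SLimS U (fun i => M i t) (L t)) ∧
  ∀ (ι : Type) (U : Ultrafilter ι) (N : ι → Set E3) (S : Set E3), (∀ᶠ i in U, IsSurf (N i)) →
    IsSurf S → SLimS U N S →
    (∀ D : ℝ, (∀ᶠ i in U, AreaRatio D (N i)) → AreaRatio D S ∧ ∀ (y : E3) (r : ℝ), 0 < r →
      Tendsto (fun i => gA (N i) y r) U (𝓝 (gA S y r))) ∧
    ∀ G : ℝ, (∀ᶠ i in U, LGB G (N i)) → LGB G S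

/-- An integral curve of a vector field which is tangent to a hypersurface stays in it. -/
theorem stay_of_tangent {E : Type*} [NormedAddCommGroup E] [NormedSpace ℝ E] [CompleteSpace E]
    {w : E → ℝ} {Z : E → E} {A : Set E} {γ : ℝ → E} {t : ℝ} (hw : ContDiff ℝ 2 w)
    (hZ : ContDiffAt ℝ 1 Z (γ t)) {v : E} (hv : fderiv ℝ w (γ t) v ≠ 0)
    (hA : ∀ᶠ q in 𝓝 (γ t), q ∈ A ↔ w q = 0) (hp : γ t ∈ A)
    (ht : ∀ᶠ q in 𝓝 (γ t), q ∈ A → fderiv ℝ w q (Z q) = 0)
    (hγ : ∀ᶠ s in 𝓝 t, HasDerivAt γ (Z (γ s)) s) : ∀ᶠ s in 𝓝 t, γ s ∈ A := by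
  have hD : ContDiff ℝ 1 (fderiv ℝ w) := hw.fderiv_right (by norm_num)
  have h1 : ContDiff ℝ 1 fun q => fderiv ℝ w q v := hD.clm_apply contDiff_const
  have hY : ContDiffAt ℝ 1 (fun q => Z q - (fderiv ℝ w q (Z q) / fderiv ℝ w q v) • v) (γ t) :=
    hZ.sub (((hD.contDiffAt.clm_apply hZ).div h1.contDiffAt hv).smul contDiffAt_const)
  obtain ⟨α, α0, ε, ε0, hα⟩ := hY.exists_forall_mem_closedBall_exists_eq_forall_mem_Ioo_hasDerivAt₀ t
  have tI : t ∈ Ioo (t - ε) (t + ε) := ⟨by linarith, by linarith⟩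
  have αc : Tendsto α (𝓝 t) (𝓝 (γ t)) := by
    rw [← α0]
    exact (hα t tI).continuousAt
  obtain ⟨l, u, h0, hI⟩ := mem_nhds_iff_exists_Ioo_subset.1
    ((αc.eventually ((hA.and ht).and (h1.continuous.continuousAt.eventually_ne hv))).and
      (Ioo_mem_nhds tI.1 tI.2))
  have dW := hw.differentiable (by norm_num)
  have h2 : ∀ s ∈ Ioo l u, α s ∈ A := fun s hs => by
    have h3 := (convex_Ioo l u).norm_image_sub_le_of_norm_hasDerivWithin_le (C := 0)
      (f := fun s => w (α s)) (f' := fun _ => 0) (fun r hr => by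
        have h4 := (dW (α r)).hasFDerivAt.comp_hasDerivAt r (hα r (hI hr).2)
        rw [map_sub, map_smul, smul_eq_mul, div_mul_cancel₀ _ (hI hr).1.2, sub_self] at h4
        exact h4.hasDerivWithinAt) (fun _ _ => by simp) h0 hs
    rw [α0, hA.self_of_nhds.1 hp, sub_zero, zero_mul] at h3
    exact (hI hs).1.1.1.2 (norm_le_zero_iff.1 h3)
  obtain ⟨K, V, hV, hK⟩ := hZ.exists_lipschitzOnWith
  have key := ODE_solution_unique_of_eventually (v := fun _ => Z) (s := fun _ => V) (K := K)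
    (f := γ) (g := α) (Eventually.of_forall fun _ => hK)
    (hγ.and (hγ.self_of_nhds.continuousAt hV))
    (by
      filter_upwards [Ioo_mem_nhds h0.1 h0.2, αc.eventually hV] with s hs h5
      have h4 := hα s (hI hs).2
      rw [(hI hs).1.1.2 (h2 s hs), zero_div, zero_smul, sub_zero] at h4
      exact ⟨h4, h5⟩) α0.symm
  filter_upwards [key, Ioo_mem_nhds h0.1 h0.2] with s h3 hs
  rw [h3]
  exact h2 s hs

variable {M L L' : ℝ → Set E3} {I : Set ℝ}

theorem ev_eq (hI : IsOpen I) (e : ∀ t ∈ I, L t = L' t) {t : ℝ} (ht : t ∈ I) (x : E3) :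
    ∀ᶠ p : ℝ × E3 in 𝓝 (t, x), L p.1 = L' p.1 :=
  (continuous_fst.tendsto (t, x)).eventually (Filter.eventually_of_mem (hI.mem_nhds ht) e)

theorem _root_.Vale.Agent.P218FT.IsMCF.congr (h : IsMCF L I) (e : ∀ t ∈ I, L t = L' t) :
    IsMCF L' I := by
  refine ⟨h.isOpen, fun t ht x hx => ?_, fun t ht x hx => ?_⟩
  · filter_upwards [h.closed t ht x (by rwa [e t ht]), ev_eq h.isOpen e ht x] with p h1 h2
    rwa [← h2]
  · obtain ⟨w, h1, h2, h3, h4⟩ := h.loc t ht x (by rwa [e t ht])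
    refine ⟨w, h1, h2, ?_, by rwa [← e t ht]⟩
    filter_upwards [h3, ev_eq h.isOpen e ht x] with p h5 h6
    rwa [← h6]

theorem _root_.Vale.Agent.P218FT.SLim.congr {ι : Type} {U : Filter ι} {M : ι → ℝ → Set E3}
    (h : SLim U M L I) (hI : IsOpen I) (e : ∀ t ∈ I, L t = L' t) : SLim U M L' I := by
  refine ⟨fun t ht x hx => h.out t ht x (by rwa [e t ht]), fun t ht x hx => ?_⟩
  obtain ⟨W, w, v, h1, h2, h3, h4, h5, h6, h7, h8⟩ := h.loc t ht x (by rwa [e t ht])
  refine ⟨W ∩ I ×ˢ univ, w, v, h1.inter (hI.prod isOpen_univ), ⟨h2, ht, trivial⟩, h3, h4,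
    ⟨h5.smooth.mono fun _ hi => hi.mono inter_subset_left, h5.smooth_lim.mono inter_subset_left,
      fun k => (h5.conv k).mono inter_subset_left,
      fun k => (h5.bdd k).imp fun _ hC x hx => hC x hx.1⟩, h6, fun p hp => ?_,
    h8.mono fun i hi p hp => hi p hp.1⟩
  rw [← e p.1 hp.2.1]
  exact h7 p hp.1

/-- a nonnegative continuous function with zero integral vanishes on the surface -/
theorem eq_zero_of_integral {N : Set E3} (hN : IsSurf N) {g : E3 → ℝ} (hg : ContinuousOn g N)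
    (h0 : ∀ x, 0 ≤ g x) (hi : Integrable g (area N)) (h : ∫ x, g x ∂(area N) = 0) {x : E3}
    (hx : x ∈ N) : g x = 0 := by
  by_contra hne
  have hpos : 0 < g x := lt_of_le_of_ne (h0 x) (Ne.symm hne)
  have h1 : ∀ᶠ y in 𝓝 x, y ∈ N → 0 < g y :=
    eventually_nhdsWithin_iff.1 ((hg x hx).eventually (lt_mem_nhds hpos))
  obtain ⟨ε, ε0, hε⟩ := Metric.eventually_nhds_iff_ball.1 h1
  obtain ⟨r, hr, r0, rε⟩ := ((Chart.lower_proof N hN x hx).and (Ioo_mem_nhdsGT ε0)).exists
  have h2 := (integral_eq_zero_iff_of_nonneg h0 hi).1 h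
  have h3 : area N (ball x r) = 0 := by
    refine measure_mono_null_ae ?_ (measure_empty (μ := area N))
    filter_upwards [h2, Hu.ae_mem hN.1] with y h4 h5 h6
    exact (hε y (ball_subset_ball rε.le h6) h5).ne' h4
  rw [h3, nonpos_iff_eq_zero, ENNReal.ofReal_eq_zero] at hr
  exact absurd hr (not_le.2 (by positivity))

/-- If the Gaussian area about `(0, 0)` is constant, the flow moves by scaling. -/
theorem relV_eq_zero {D Θ : ℝ} (hL : IsMCF L (Iio 0)) (hA : ∀ t ∈ Iio (0 : ℝ), AreaRatio D (L t))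
    (hΘ : ∀ s < 0, gA (L s) 0 √(0 - s) = Θ) {s : ℝ} (hs : s < 0) {x : E3} (hx : x ∈ L s) :
    relV (L s) 0 (0 - s) x = 0 := by
  have hsub : Icc (2 * s) (s / 2) ⊆ Iio 0 := fun t ht => by
    have := ht.2
    change t < 0
    linarith
  have hH := Hu.huisken_proof fv_proof cont_proof ev_proof D L _ hL hA 0 0 (2 * s) (s / 2)
    (by linarith) (by linarith) hsub
  rw [hΘ _ (by linarith), hΘ _ (by linarith)] at hH
  have h0 := nonpos_iff_eq_zero.1 ((ENNReal.add_le_add_iff_left ENNReal.ofReal_ne_top).1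
    (hH.trans (add_zero _).ge))
  set R : ℝ := ‖x‖ + 1 with hR
  have R0 : 0 < R := by positivity
  let g : ℝ × E3 → ℝ := fun p =>
    ‖relV (L p.1) 0 (0 - p.1) p.2‖ ^ 2 * gk (0 - p.1) (p.2 - 0) * max (1 - ‖p.2‖ / R) 0
  have gc : ContinuousOn g (track L (Iio 0)) := by
    refine (((Hu.continuousOn_relV hL 0 0 fun t ht => ht).norm.pow 2).mul ?_).mul (by fun_prop)
    unfold gk
    refine ContinuousOn.mul (ContinuousOn.inv₀ (by fun_prop) fun p hp => ?_)
      (ContinuousOn.rexp (ContinuousOn.div (by fun_prop) (by fun_prop) fun p hp => ?_))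
    · have h1 : p.1 < 0 := hp.1
      have := Real.pi_pos
      exact (mul_pos (by positivity) (by linarith)).ne'
    · have h1 : p.1 < 0 := hp.1
      exact (mul_pos (by norm_num) (by linarith)).ne'
  have gz : ∀ p : ℝ × E3, R ≤ ‖p.2‖ → g p = 0 := fun p hp => by
    simp only [g]
    rw [max_eq_right (sub_nonpos.2 ((one_le_div R0).2 hp)), mul_zero]
  have g0 : ∀ t < 0, ∀ y, 0 ≤ g (t, y) := fun t ht y =>
    mul_nonneg (mul_nonneg (sq_nonneg _) (gk_nonneg (by linarith) _)) (le_max_right _ _)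
  have gi : ∀ t < 0, Integrable (fun y => g (t, y)) (area (L t)) := fun t ht => by
    have := (hA t ht).locFin
    exact Hu.integrable_of_cts (hL.isSurf ht).1 (Hu.slice gc ht) (y := 0) (R := R)
      fun y _ hy => gz (t, y) (by simpa using hy)
  have Gc := (cont_proof L _ hL g R gc gz).mono hsub
  have h1 : ∫⁻ t in Icc (2 * s) (s / 2), ENNReal.ofReal (∫ y, g (t, y) ∂(area (L t))) = 0 := by
    refine nonpos_iff_eq_zero.1 (le_of_le_of_eq (setLIntegral_mono' measurableSet_Icc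
      fun t ht => ?_) h0)
    rw [ofReal_integral_eq_lintegral_ofReal (gi t (hsub ht))
      (Eventually.of_forall (g0 t (hsub ht)))]
    refine lintegral_mono fun y => ENNReal.ofReal_le_ofReal ?_
    refine mul_le_of_le_one_right (mul_nonneg (sq_nonneg _) (gk_nonneg ?_ _)) ?_
    · have : t < 0 := hsub ht
      change 0 ≤ 0 - t
      linarith
    · exact max_le (sub_le_self _ (by positivity)) zero_le_one
  have h2 := (lintegral_eq_zero_iff' (Gc.aemeasurable measurableSet_Icc).ennreal_ofReal).1 h1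
  have h3 : (fun t => ∫ y, g (t, y) ∂(area (L t))) =ᵐ[volume.restrict (Icc (2 * s) (s / 2))]
      fun _ => 0 := by
    filter_upwards [h2, ae_restrict_mem measurableSet_Icc] with t h4 ht
    exact le_antisymm (ENNReal.ofReal_eq_zero.1 h4) (integral_nonneg (g0 t (hsub ht)))
  have h4 := Measure.eqOn_Icc_of_ae_eq volume (by linarith : 2 * s ≠ s / 2) h3 Gc
    continuousOn_const (⟨by linarith, by linarith⟩ : s ∈ Icc (2 * s) (s / 2))
  have h5 := eq_zero_of_integral (hL.isSurf hs) (Hu.slice gc hs) (g0 s hs) (gi s hs) h4 hx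
  have h6 : 0 < max (1 - ‖x‖ / R) 0 :=
    lt_max_of_lt_left (sub_pos.2 ((div_lt_one R0).2 (by linarith)))
  have h7 := (mul_eq_zero.1 ((mul_eq_zero.1 h5).resolve_right h6.ne')).resolve_right
    (gk_pos (by linarith) _).ne'
  exact norm_eq_zero.1 (pow_eq_zero_iff two_ne_zero |>.1 h7)

/-- A flow which moves by scaling is self-similar. -/
theorem self_similar (hL : IsMCF L (Iio 0))
    (h : ∀ s < 0, ∀ x ∈ L s, relV (L s) 0 (0 - s) x = 0) {s : ℝ} (hs : s < 0) :
    L s = ssFlow (L (-1)) s := by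
  have key : ∀ y : E3, ∀ s < 0, √(-s) • y ∈ L s → ∀ t < 0, √(-t) • y ∈ L t := by
    intro y s hs hy t ht
    let γ : ℝ → ℝ × E3 := fun r => (r, √(-r) • y)
    have γc : Continuous γ := by fun_prop
    have loc : ∀ r < 0, √(-r) • y ∈ L r → ∀ᶠ u in 𝓝 r, √(-u) • y ∈ L u := fun r hr hm => by
      obtain ⟨w, hw, -⟩ := hL.exists_eqnT hr hm
      have hneg : ∀ᶠ q : ℝ × E3 in 𝓝 (γ r), q.1 < 0 :=
        (continuous_fst.tendsto (γ r)).eventually (gt_mem_nhds hr)
      refine stay_of_tangent (A := {q : ℝ × E3 | q.2 ∈ L q.1}) (γ := γ)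
        (Z := fun q => (1, (2 * q.1)⁻¹ • q.2)) (hw.1.of_le two_le_inf) ?_
        (v := (0, gradient (sl w r) (√(-r) • y))) ?_ hw.2.2 hm ?_ ?_
      · exact contDiffAt_const.prodMk ((((contDiffAt_const.mul contDiffAt_fst)).inv
          (mul_ne_zero two_ne_zero hr.ne)).smul contDiffAt_snd)
      · rw [fderiv_apply_prod hw.1, zero_mul, zero_add]
        exact fun h0 => hw.2.1 (inner_self_eq_zero.1 h0)
      · filter_upwards [hw.eventually, hneg] with q hq h0 hm
        have h1 := hL.eqn_of_isEqnT h0 hm hq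
        have h2 := h q.1 h0 q.2 hm
        obtain ⟨ε, hε, h3, -⟩ := hq.isEqn.nu_sh hm
        rw [relV, h3, sub_zero, real_inner_smul_right, smul_smul] at h2
        change fderiv ℝ w (q.1, q.2) _ = 0
        rw [fderiv_apply_prod hw.1, h1, eq_neg_of_add_eq_zero_left h2, inner_neg_right,
          real_inner_smul_right, real_inner_smul_right, inner_grad_nuw hq.2.1]
        have h4 : ⟪gradient (sl w q.1) q.2, q.2⟫ =
            ‖gradient (sl w q.1) q.2‖ * ⟪q.2, nuw (sl w q.1) q.2⟫ := by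
          conv_lhs => rw [grad_eq_smul_nuw hq.2.1]
          rw [real_inner_smul_left, real_inner_comm]
        rw [h4]
        have h5 := sign_mul_self hε
        rw [zero_sub, mul_neg 2, inv_neg]
        linear_combination
          -((2 * q.1)⁻¹ * ⟪q.2, nuw (sl w q.1) q.2⟫ * ‖gradient (sl w q.1) q.2‖) * h5
      · filter_upwards [gt_mem_nhds hr] with u hu
        have h1 : √(-u) ≠ 0 := (Real.sqrt_pos.2 (neg_pos.2 hu)).ne'
        have h2 := ((hasDerivAt_neg' u).sqrt (neg_pos.2 hu).ne').smul_const y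
        refine ((hasDerivAt_id' u).prodMk h2).congr_deriv ?_
        simp only [γ, smul_smul]
        congr 2
        have h3 := Real.mul_self_sqrt (neg_pos.2 hu).le
        have h4 := hu.ne
        field_simp
        linarith
    have h1 := isPreconnected_Iio.subset_of_closure_inter_subset
      (u := {r | ∀ᶠ u in 𝓝 r, √(-u) • y ∈ L u}) isOpen_setOfPred_eventually_nhds
      ⟨s, hs, loc s hs hy⟩ fun r hr => loc r hr.2 (by
        by_contra hn
        have h2 := (γc.tendsto r).eventually (hL.closed r hr.2 _ hn)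
        obtain ⟨u, h3, h4⟩ := ((mem_closure_iff_frequently.1 hr.1).and_eventually h2).exists
        exact h4 h3.self_of_nhds)
    exact (h1 ht).self_of_nhds
  have h1 : √(-s) ≠ 0 := (Real.sqrt_pos.2 (neg_pos.2 hs)).ne'
  ext x
  rw [ssFlow, mem_scaleSet, zero_add]
  refine ⟨fun hx => ?_, fun hx => ?_⟩
  · simpa using key ((√(-s))⁻¹ • x) s hs (by rwa [smul_inv_smul₀ h1]) (-1) (by norm_num)
  · have := key ((√(-s))⁻¹ • x) (-1) (by norm_num) (by simpa using hx) s hs
    rwa [smul_inv_smul₀ h1] at this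

theorem twoPt_mono {N : Set E3} {x : E3} {r r' C C' : ℝ} (h : TwoPt N x r C) (hr : r' ≤ r)
    (hC : C ≤ C') : TwoPt N x r' C' := fun y hy h1 =>
  (h y hy (h1.trans hr)).trans (mul_le_mul_of_nonneg_right hC (sq_nonneg _))

theorem ev_time {ι : Type} {U : Filter ι} {lam : ι → ℝ} (hl : Tendsto lam U atTop) {a b : ℝ}
    (hab : a < b) (s : ℝ) : ∀ᶠ i in U, 0 < lam i ∧ ∀ u, s ≤ u → a < b + u / lam i ^ 2 := by
  have h1 : Tendsto (fun i => b + s / lam i ^ 2) U (𝓝 (b + 0)) :=
    tendsto_const_nhds.add (tendsto_const_nhds.div_atTop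
      ((tendsto_pow_atTop two_ne_zero).comp hl))
  rw [add_zero] at h1
  filter_upwards [hl.eventually_gt_atTop 0, h1.eventually (lt_mem_nhds hab)] with i h2 h3
  exact ⟨h2, fun u hu => h3.trans_le ((Sc.tup_le_tup h2).2 hu)⟩

theorem tup_lt {lam b s : ℝ} (hl : 0 < lam) (hs : s < 0) : b + s / lam ^ 2 < b :=
  add_lt_iff_neg_left.2 (div_neg_of_neg_of_pos hs (by positivity))

theorem sqrt_tup {lam b s : ℝ} (hl : 0 < lam) : √(b - (b + s / lam ^ 2)) = √(-s) / lam := by
  rw [sub_add_cancel_left, ← neg_div, Real.sqrt_div' _ (by positivity), Real.sqrt_sq hl.le]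

/-- **Block T** from the compactness theorem and the two-point bounds. -/
theorem conv_of (hC : CompStmt) (hB : BStmt) (hT : T1Stmt) : ConvStmt := by
  intro D G M a b hab hM x₀ ι U lam hl
  have hH := Hu.huisken_proof fv_proof cont_proof ev_proof
  have hin : ∀ s < 0, ∀ᶠ i in (U : Filter ι), 0 < lam i ∧ s ∈ scaleInt (lam i) b (Ioo a b) :=
    fun s hs => (ev_time hl hab s).mono fun i hi => ⟨hi.1, hi.2 s le_rfl, tup_lt hi.1 hs⟩
  obtain ⟨L, hL, hS⟩ := hC ι U (fun i => scaleFlow (lam i) x₀ b M)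
    (fun i => scaleInt (lam i) b (Ioo a b)) (Iio 0) isOpen_Iio
    ((hl.eventually_gt_atTop 0).mono fun i hi => hM.mcf.scale hi x₀ b)
    (fun t ht => by
      have ht' : t < 0 := ht
      refine ⟨Ioo (2 * t) 0, Ioo_mem_nhds (by linarith) ht', ?_⟩
      filter_upwards [ev_time hl hab (2 * t)] with i hi u hu
      exact ⟨hi.2 u hu.1.le, tup_lt hi.1 hu.2⟩)
    (fun t ht x => by
      have ht' : t < 0 := ht
      have q0 : 0 < √(-(t / 2)) := Real.sqrt_pos.2 (by linarith)
      obtain ⟨r, C, t₁, r0, C0, h1, h2⟩ := hT D G M a b hab hM x₀ ((‖x‖ + 1) / √(-(t / 2)))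
      refine ⟨Ioo (2 * t) (t / 2) ×ˢ ball x 1, prod_mem_nhds (Ioo_mem_nhds (by linarith)
        (by linarith)) (ball_mem_nhds x one_pos), r * √(-(t / 2)), C / √(-(t / 2)),
        by positivity, ?_⟩
      filter_upwards [ev_time hl h1 (2 * t)] with i hi p hp hm
      have l0 := hi.1
      have hq : √(-(t / 2)) ≤ √(-p.1) := Real.sqrt_le_sqrt (by linarith [hp.1.2])
      have hy : ‖p.2‖ ≤ ‖x‖ + 1 := by
        have h3 := mem_ball_iff_norm.1 hp.2
        linarith [norm_le_norm_add_norm_sub' p.2 x, norm_sub_rev p.2 x]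
      have h3 := h2 (b + p.1 / lam i ^ 2) ⟨hi.2 _ hp.1.1.le, tup_lt l0 (by linarith [hp.1.2])⟩
        _ hm (by
          rw [add_sub_cancel_left, norm_smul, norm_inv, Real.norm_eq_abs, abs_of_pos l0,
            sqrt_tup l0, ← mul_div_assoc, inv_mul_eq_div]
          refine div_le_div_of_nonneg_right (hy.trans ?_) l0.le
          rw [div_mul_eq_mul_div, le_div_iff₀ q0]
          exact mul_le_mul_of_nonneg_left hq (by positivity))
      rw [sqrt_tup l0] at h3
      refine (twoPt_scale l0 hm _ _).2 (twoPt_mono h3 ?_ ?_)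
      · rw [mul_div_assoc]
        gcongr
      · rw [div_div_eq_mul_div, div_mul_eq_mul_div]
        gcongr)
  have hsl := fun s (hs : s < 0) => hB.2 ι U _ _
    ((hin s hs).mono fun i hi => (hM.mcf.scale hi.1 x₀ b).isSurf hi.2) (hL.isSurf hs)
    (hB.1 ι U _ L _ hS s hs)
  have hA := fun s (hs : s < 0) => (hsl s hs).1 D
    ((hin s hs).mono fun i hi => (hM.scale hi.1 x₀ b).ratio s hi.2)
  have hG := fun s (hs : s < 0) => (hsl s hs).2 G
    ((hin s hs).mono fun i hi => (hM.scale hi.1 x₀ b).lgb s hi.2)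
  have q0 : 0 < √(b - a) := Real.sqrt_pos.2 (sub_pos.2 hab)
  have hmono : MonotoneOn (fun r => dens M x₀ b r) (Ioo 0 √(b - a)) := fun r hr r' hr' h =>
    Hu.dens_mono hH hM.mcf hM.ratio x₀ b hr.1 h fun u hu => by
      have h1 := (Real.lt_sqrt hr'.1.le).1 hr'.2
      have h2 := pow_pos hr.1 2
      exact ⟨by linarith [hu.1], by linarith [hu.2]⟩
  have hΘ := hmono.tendsto_nhdsWithin_Ioo_right (nonempty_Ioo.2 q0)
    ⟨0, by rintro _ ⟨r, -, rfl⟩; exact Hu.gA_nonneg _ _ _⟩
  set Θ := sInf ((fun r => dens M x₀ b r) '' Ioo 0 √(b - a))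
  have hc : ∀ s < 0, gA (L s) 0 √(0 - s) = Θ := fun s hs => by
    have s0 : 0 < √(0 - s) := Real.sqrt_pos.2 (by linarith)
    refine tendsto_nhds_unique ((hA s hs).2 0 _ s0) ?_
    have h1 : Tendsto (fun i => √(0 - s) / lam i) U (𝓝[>] 0) :=
      tendsto_nhdsWithin_iff.2 ⟨tendsto_const_nhds.div_atTop hl,
        (hl.eventually_gt_atTop 0).mono fun i hi => div_pos s0 hi⟩
    refine (hΘ.comp h1).congr' ?_
    filter_upwards [hl.eventually_gt_atTop 0] with i hi
    rw [scaleFlow_apply, gA_scale hi, Function.comp_apply, dens, div_pow,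
      Real.sq_sqrt (by linarith), smul_zero, add_zero, zero_sub, neg_div, sub_neg_eq_add]
  have hV := fun s hs x hx => relV_eq_zero hL (fun t ht => (hA t ht).1) hc (s := s) hs (x := x) hx
  have hss := fun s (hs : s ∈ Iio (0 : ℝ)) => self_similar hL hV (s := s) hs
  have m1 : (-1 : ℝ) < 0 := by norm_num
  refine ⟨L (-1), ⟨hL.isSurf m1, fun x hx => by simpa using hV (-1) m1 x hx⟩,
    ⟨hL.congr hss, fun t ht => hss t ht ▸ (hA t ht).1, fun t ht => hss t ht ▸ hG t ht⟩,
    hS.congr isOpen_Iio hss, ?_⟩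
  have := hc (-1) m1
  rw [zero_sub, neg_neg, Real.sqrt_one] at this
  rwa [this]

end Vale.Agent.P218FT.Conv
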