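import Vale.Agent.P218FT.Gauss
import Mathlib.MeasureTheory.Integral.IntervalIntegral.FundThmCalculus
import Mathlib.Analysis.Calculus.FDeriv.Measurable
import Mathlib.Analysis.Calculus.ContDiff.Comp
import Mathlib.Analysis.Calculus.ContDiff.Operations

/-! Integrals change little in time when the dissipation is small. -/

open MeasureTheory Set Filter Topology Metric
open scoped ENNReal NNReal RealInnerProductSpace ContDiff

namespace Vale.Agent.P218FT

theorem Test.nonneg {ζ : E3 → ℝ} {p : E3} {R K : ℝ} (h : Test ζ p R K) : 0 ≤ K :=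
  (abs_nonneg _).trans (h.b0 0)

theorem Test.continuous {ζ : E3 → ℝ} {p : E3} {R K : ℝ} (h : Test ζ p R K) : Continuous ζ :=
  h.smooth.continuous

/-- the derivative of a test function vanishes outside the open ball -/
theorem Test.fderiv_eq_zero {ζ : E3 → ℝ} {p : E3} {R K : ℝ} (h : Test ζ p R K) (hR : 0 < R)
    {x : E3} (hx : R ≤ ‖x - p‖) : fderiv ℝ ζ x = 0 := by
  have hc : Continuous (fderiv ℝ ζ) := h.smooth.continuous_fderiv one_ne_zero
  have hU : ∀ y ∈ {y : E3 | R < ‖y - p‖}, fderiv ℝ ζ y = 0 := by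
    intro y hy
    have ho : IsOpen {y : E3 | R < ‖y - p‖} := isOpen_lt continuous_const (by fun_prop)
    have : ζ =ᶠ[𝓝 y] fun _ => 0 := by
      filter_upwards [ho.mem_nhds hy] with z hz using h.supp z (le_of_lt hz)
    rw [this.fderiv_eq]
    simp
  have hcl : x ∈ closure {y : E3 | R < ‖y - p‖} := by
    have ht : Tendsto (fun s : ℝ => x + s • (x - p)) (𝓝[>] 0) (𝓝 x) := by
      have : Continuous fun s : ℝ => x + s • (x - p) := by fun_prop
      have h2 := this.tendsto 0
      simp only [zero_smul, add_zero] at h2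
      exact h2.mono_left nhdsWithin_le_nhds
    refine mem_closure_of_tendsto ht ?_
    filter_upwards [self_mem_nhdsWithin] with s hs
    have hs0 : (0 : ℝ) < s := hs
    have e : x + s • (x - p) - p = (1 + s) • (x - p) := by
      rw [add_smul, one_smul]; abel
    show R < ‖x + s • (x - p) - p‖
    rw [e, norm_smul, Real.norm_eq_abs, abs_of_pos (by linarith)]
    nlinarith
  exact (isClosed_eq hc continuous_const).closure_subset_iff.mpr hU hcl

theorem Test.hasCompactSupport {ζ : E3 → ℝ} {p : E3} {R K : ℝ} (h : Test ζ p R K) :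
    HasCompactSupport ζ := by
  refine HasCompactSupport.intro (isCompact_closedBall p R) fun x hx => h.supp x ?_
  simp only [mem_closedBall, not_le, dist_eq_norm] at hx
  exact hx.le

theorem Test.integrable {ζ : E3 → ℝ} {p : E3} {R K : ℝ} (h : Test ζ p R K) {D : ℝ} {N : Set E3}
    (hN : AreaRatio D N) : Integrable ζ (area N) := by
  have := hN.locFin
  exact h.continuous.integrable_of_hasCompactSupport h.hasCompactSupport

/-- translates of test functions -/
theorem Test.translate {ζ : E3 → ℝ} {p : E3} {R K : ℝ} (h : Test ζ p R K) (b : E3) :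
    Test (fun x => ζ (x - b)) (p + b) R K where
  smooth := h.smooth.comp (contDiff_id.sub contDiff_const)
  supp x hx := h.supp _ (by rwa [show x - b - p = x - (p + b) by abel])
  b0 x := h.b0 _
  b1 x := by
    have hd : HasFDerivAt (fun x => ζ (x - b)) (fderiv ℝ ζ (x - b)) x := by
      have h1 := ((h.smooth.differentiable one_ne_zero) (x - b)).hasFDerivAt
      have h2 : HasFDerivAt (fun x : E3 => x - b) (ContinuousLinearMap.id ℝ E3) x :=
        (hasFDerivAt_id x).sub_const b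
      have h3 := HasFDerivAt.comp x (g := ζ) (f := fun x : E3 => x - b) h1 h2
      rw [ContinuousLinearMap.comp_id] at h3
      exact h3
    rw [hd.fderiv]
    exact h.b1 _

theorem Test.mono {ζ : E3 → ℝ} {p q : E3} {R R' K K' : ℝ} (h : Test ζ p R K)
    (hR : R + ‖q - p‖ ≤ R') (hK : K ≤ K') : Test ζ q R' K' where
  smooth := h.smooth
  supp x hx := h.supp x (by
    have : ‖x - q‖ ≤ ‖x - p‖ + ‖q - p‖ := by
      calc ‖x - q‖ = ‖(x - p) - (q - p)‖ := by congr 1; abel
        _ ≤ _ := norm_sub_le _ _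
    linarith)
  b0 x := (h.b0 x).trans hK
  b1 x := (h.b1 x).trans hK

theorem static_aux (hEV : EVStmt) (D : ℝ) (hD : 0 ≤ D) (M : ℝ → Set E3) (I : Set ℝ)
    (hM : IsMCF M I) (hA : ∀ t ∈ I, AreaRatio D (M t))
    (ζ : E3 → ℝ) (p : E3) (R K a b α d : ℝ) (hR : 0 < R) (hζ : Test ζ p R K) (hab : a ≤ b)
    (hI : Icc a b ⊆ I) (hα : 0 < α) (hd : 0 ≤ d) (hdiss : diss M 0 p R a b ≤ ENNReal.ofReal d) :
    |∫ x, ζ x ∂(area (M b)) - ∫ x, ζ x ∂(area (M a))|
      ≤ K * (α * (D * R ^ 2) * (b - a) + (1 + α⁻¹) * d) := by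
  have hK := hζ.nonneg
  set g : ℝ → ℝ := fun s => ∫ x, ζ x ∂(area (M s)) with hg
  have hf : ContDiff ℝ 1 (fun q : ℝ × E3 => ζ q.2) := hζ.smooth.comp contDiff_snd
  have hsupp : ∀ q : ℝ × E3, R + ‖p‖ ≤ ‖q.2‖ → (fun q : ℝ × E3 => ζ q.2) q = 0 := by
    intro q hq
    apply hζ.supp
    have : ‖q.2‖ ≤ ‖q.2 - p‖ + ‖p‖ := by
      calc ‖q.2‖ = ‖(q.2 - p) + p‖ := by rw [sub_add_cancel]
        _ ≤ _ := norm_add_le _ _
    linarith
  have hfd : ∀ (t : ℝ) (x v : E3),
      fderiv ℝ (fun q : ℝ × E3 => ζ q.2) (t, x) (1, v) = fderiv ℝ ζ x v := by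
    intro t x v
    have h1 := ((hζ.smooth.differentiable one_ne_zero) x).hasFDerivAt
    have h2 : HasFDerivAt (fun q : ℝ × E3 => ζ q.2)
        ((fderiv ℝ ζ x).comp (ContinuousLinearMap.snd ℝ ℝ E3)) (t, x) :=
      HasFDerivAt.comp (t, x) (g := ζ) (f := Prod.snd) h1 hasFDerivAt_snd
    rw [h2.fderiv]
    simp
  have hder : ∀ t ∈ I, HasDerivAt g
      (∫ x, (fderiv ℝ ζ x (Hv (M t) x) - ‖Hv (M t) x‖ ^ 2 * ζ x) ∂(area (M t))) t := by
    intro t ht
    have := hEV M I hM (fun q : ℝ × E3 => ζ q.2) (R + ‖p‖) hf hsupp t ht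
    simpa only [hfd] using this
  set F : ℝ → ℝ≥0∞ := fun t =>
    ∫⁻ x in ball p R, ENNReal.ofReal (‖Hv (M t) x‖ ^ 2 - 0) ∂(area (M t)) with hF
  have hb : ∀ t ∈ Icc a b, ‖deriv g t‖ₑ ≤
      ENNReal.ofReal (K * (α * (D * R ^ 2))) + ENNReal.ofReal (K * (1 + α⁻¹)) * F t := by
    intro t ht
    rw [(hder t (hI ht)).deriv]
    have hpt : ∀ x, ‖fderiv ℝ ζ x (Hv (M t) x) - ‖Hv (M t) x‖ ^ 2 * ζ x‖ₑ ≤
        (ball p R).indicator (fun x => ENNReal.ofReal (K * α) +
          ENNReal.ofReal (K * (1 + α⁻¹)) * ENNReal.ofReal (‖Hv (M t) x‖ ^ 2 - 0)) x := by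
      intro x
      by_cases hx : x ∈ ball p R
      · rw [indicator_of_mem hx, ← ENNReal.ofReal_mul (by positivity),
          ← ENNReal.ofReal_add (by positivity) (by rw [sub_zero]; positivity), ← ofReal_norm]
        apply ENNReal.ofReal_le_ofReal
        set h := ‖Hv (M t) x‖ with hh
        have hh0 : 0 ≤ h := norm_nonneg _
        have e1 : ‖fderiv ℝ ζ x (Hv (M t) x)‖ ≤ K * h :=
          ((fderiv ℝ ζ x).le_opNorm _).trans (by gcongr; exact hζ.b1 x)
        have e2 : ‖h ^ 2 * ζ x‖ ≤ h ^ 2 * K := by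
          rw [norm_mul, Real.norm_eq_abs, Real.norm_eq_abs, abs_of_nonneg (by positivity)]
          gcongr
          exact hζ.b0 x
        have e3 : h ≤ α + α⁻¹ * h ^ 2 := by
          have : α + α⁻¹ * h ^ 2 - h = α⁻¹ * ((α - h / 2) ^ 2 + 3 / 4 * h ^ 2) := by
            field_simp
            ring
          have h4 : 0 ≤ α⁻¹ * ((α - h / 2) ^ 2 + 3 / 4 * h ^ 2) := by positivity
          linarith
        calc ‖fderiv ℝ ζ x (Hv (M t) x) - h ^ 2 * ζ x‖
            ≤ ‖fderiv ℝ ζ x (Hv (M t) x)‖ + ‖h ^ 2 * ζ x‖ := norm_sub_le _ _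
          _ ≤ K * (α + α⁻¹ * h ^ 2) + h ^ 2 * K := by
              gcongr
              exact e1.trans (by gcongr)
          _ = K * α + K * (1 + α⁻¹) * (h ^ 2 - 0) := by ring
      · rw [indicator_of_notMem hx]
        have hx' : R ≤ ‖x - p‖ := by simpa [mem_ball, dist_eq_norm] using hx
        rw [hζ.fderiv_eq_zero hR hx', hζ.supp x hx']
        simp
    calc ‖∫ x, (fderiv ℝ ζ x (Hv (M t) x) - ‖Hv (M t) x‖ ^ 2 * ζ x) ∂(area (M t))‖ₑ
        ≤ ∫⁻ x, ‖fderiv ℝ ζ x (Hv (M t) x) - ‖Hv (M t) x‖ ^ 2 * ζ x‖ₑ ∂(area (M t)) :=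
          enorm_integral_le_lintegral_enorm _
      _ ≤ ∫⁻ x, (ball p R).indicator (fun x => ENNReal.ofReal (K * α) +
            ENNReal.ofReal (K * (1 + α⁻¹)) * ENNReal.ofReal (‖Hv (M t) x‖ ^ 2 - 0)) x
            ∂(area (M t)) := lintegral_mono hpt
      _ = ENNReal.ofReal (K * α) * area (M t) (ball p R) +
            ENNReal.ofReal (K * (1 + α⁻¹)) * F t := by
          rw [lintegral_indicator measurableSet_ball, lintegral_add_left measurable_const,
            setLIntegral_const, lintegral_const_mul' _ _ ENNReal.ofReal_ne_top]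
      _ ≤ ENNReal.ofReal (K * α) * ENNReal.ofReal (D * R ^ 2) +
            ENNReal.ofReal (K * (1 + α⁻¹)) * F t := by
          gcongr
          exact hA t (hI ht) p R hR
      _ = _ := by rw [← ENNReal.ofReal_mul (by positivity), mul_assoc]
  have hl : ∫⁻ t in Icc a b, ‖deriv g t‖ₑ ≤
      ENNReal.ofReal (K * (α * (D * R ^ 2) * (b - a) + (1 + α⁻¹) * d)) := by
    calc ∫⁻ t in Icc a b, ‖deriv g t‖ₑ
        ≤ ∫⁻ t in Icc a b, (ENNReal.ofReal (K * (α * (D * R ^ 2))) +
            ENNReal.ofReal (K * (1 + α⁻¹)) * F t) := setLIntegral_mono' measurableSet_Icc hb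
      _ = ENNReal.ofReal (K * (α * (D * R ^ 2))) * ENNReal.ofReal (b - a) +
            ENNReal.ofReal (K * (1 + α⁻¹)) * diss M 0 p R a b := by
          rw [lintegral_add_left measurable_const, setLIntegral_const,
            lintegral_const_mul' _ _ ENNReal.ofReal_ne_top, Real.volume_Icc]
          rfl
      _ ≤ ENNReal.ofReal (K * (α * (D * R ^ 2))) * ENNReal.ofReal (b - a) +
            ENNReal.ofReal (K * (1 + α⁻¹)) * ENNReal.ofReal d := by gcongr
      _ = _ := by
          have hba : 0 ≤ b - a := sub_nonneg.mpr hab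
          rw [← ENNReal.ofReal_mul (by positivity), ← ENNReal.ofReal_mul (by positivity),
            ← ENNReal.ofReal_add (by positivity) (by positivity)]
          congr 1
          ring
  have hint : IntegrableOn (deriv g) (Icc a b) :=
    ⟨(measurable_deriv g).aestronglyMeasurable, hl.trans_lt ENNReal.ofReal_lt_top⟩
  have hii : IntervalIntegrable (deriv g) volume a b :=
    (intervalIntegrable_iff_integrableOn_Icc_of_le hab).mpr hint
  have hftc : ∫ t in a..b, deriv g t = g b - g a := by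
    apply intervalIntegral.integral_eq_sub_of_hasDerivAt _ hii
    intro t ht
    rw [uIcc_of_le hab] at ht
    exact (hder t (hI ht)).differentiableAt.hasDerivAt
  have hba : 0 ≤ b - a := sub_nonneg.mpr hab
  change |g b - g a| ≤ _
  rw [← hftc, intervalIntegral.integral_of_le hab, ← integral_Icc_eq_integral_Ioc,
    ← Real.norm_eq_abs]
  have h1 : ‖∫ t in Icc a b, deriv g t‖ₑ ≤ _ := (enorm_integral_le_lintegral_enorm _).trans hl
  rw [← ofReal_norm] at h1
  exact (ENNReal.ofReal_le_ofReal_iff (by positivity)).mp h1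

theorem static_proof (hEV : EVStmt) : StaticStmt :=
  fun D hD M I hM hA ζ p R K a b α d hR hζ hab hI hα hd hdiss =>
    static_aux hEV D hD M I hM hA ζ p R K a b α d hR hζ hab hI hα hd hdiss

end Vale.Agent.P218FT
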