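import Vale.Agent.P218FT.Local
import Vale.Agent.P218FT.Static
import Mathlib.Analysis.Calculus.Deriv.Inv

/-! Local facts used for the blocks NC, Trans and Fin: derivative of the unit normal, continuity
of the sign-invariant quantities along a surface, tangential derivatives, integrability. -/

open MeasureTheory Set Filter Topology Metric Asymptotics
open scoped ENNReal NNReal RealInnerProductSpace ContDiff

namespace Vale.Agent.P218FT.NC

lemma hasFDerivAt_nuw {w : E3 → ℝ} (hw : ContDiff ℝ ∞ w) {x : E3} (hg : gradient w x ≠ 0) :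
    HasFDerivAt (nuw w) (‖gradient w x‖⁻¹ • (pt (nuw w x)).comp (fderiv ℝ (gradient w) x)) x := by
  set H := fderiv ℝ (gradient w) x with hH
  have h1 : HasFDerivAt (gradient w) H x :=
    ((contDiff_grad hw).differentiable (by simp) x).hasFDerivAt
  have hn : ‖gradient w x‖ ≠ 0 := norm_ne_zero_iff.2 hg
  have h2 := h1.norm_sq
  have h3 := h2.sqrt (by positivity)
  simp only [Real.sqrt_sq (norm_nonneg _)] at h3
  have h4 := (hasDerivAt_inv hn).comp_hasFDerivAt x h3
  have h5 := h4.smul h1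
  refine (h5.congr_fderiv ?_).congr_of_eventuallyEq (Eventually.of_forall fun y => rfl)
  ext1 v
  simp only [Function.comp, add_apply, smul_apply, ContinuousLinearMap.comp_apply, pt_apply, nuw,
    ContinuousLinearMap.smulRight_apply, innerSL_apply_apply, real_inner_smul_left, smul_eq_mul,
    smul_sub, smul_smul, nsmul_eq_mul, Nat.cast_ofNat]
  rw [sub_eq_add_neg, ← neg_smul]
  congr 2
  field_simp

lemma contDiffAt_nuw {w : E3 → ℝ} (hw : ContDiff ℝ ∞ w) {x : E3} (hg : gradient w x ≠ 0) :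
    ContDiffAt ℝ ∞ (nuw w) x := by
  have h1 := (contDiff_grad hw).contDiffAt (x := x)
  exact ((h1.norm ℝ hg).inv (norm_ne_zero_iff.2 hg)).smul h1

lemma continuousAt_nuw {w : E3 → ℝ} (hw : ContDiff ℝ ∞ w) {x : E3} (hg : gradient w x ≠ 0) :
    ContinuousAt (nuw w) x := (contDiffAt_nuw hw hg).continuousAt

lemma continuousAt_shw {w : E3 → ℝ} (hw : ContDiff ℝ ∞ w) {x : E3} (hg : gradient w x ≠ 0) :
    ContinuousAt (shw w) x := by
  have h1 : ContinuousAt (gradient w) x := (contDiff_grad hw).continuous.continuousAt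
  have h2 : ContinuousAt (fderiv ℝ (gradient w)) x :=
    ((contDiff_grad hw).continuous_fderiv (by simp)).continuousAt
  have h3 : ContinuousAt (fun y => pt (nuw w y)) x :=
    continuous_pt.continuousAt.comp (continuousAt_nuw hw hg)
  exact (h1.norm.inv₀ (norm_ne_zero_iff.2 hg)).neg.smul (h3.clm_comp (h2.clm_comp h3))

/-- the derivative of the normal in a tangent direction is minus the shape operator -/
lemma fderiv_nuw {w : E3 → ℝ} (hw : ContDiff ℝ ∞ w) {x : E3} (hg : gradient w x ≠ 0) {v : E3}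
    (hv : ⟪nuw w x, v⟫ = 0) : fderiv ℝ (nuw w) x v = -shw w x v := by
  rw [(hasFDerivAt_nuw hw hg).fderiv]
  simp [shw, pt_of_orth hv]

variable {N : Set E3}

/-- continuity along the surface of a quantity which does not depend on the local equation -/
lemma contOn_of_loc {β : Type*} [TopologicalSpace β] (hN : IsSurf N) {f : E3 → β}
    {F : (E3 → ℝ) → E3 → β} (h1 : ∀ x ∈ N, ∀ w, IsEqn N x w → f x = F w x)
    (h2 : ∀ x w, IsEqn N x w → ContinuousAt (F w) x) : ContinuousOn f N := by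
  intro x hx
  have hw := hN.isEqn hx
  refine (h2 x _ hw).continuousWithinAt.congr_of_eventuallyEq ?_ (h1 x hx _ hw)
  filter_upwards [self_mem_nhdsWithin, nhdsWithin_le_nhds hw.eventually] with y hy hy'
    using h1 y hy _ hy'

lemma contOn_theta (hN : IsSurf N) (e : E3) : ContinuousOn (fun x => ⟪nu N x, e⟫ ^ 2) N :=
  contOn_of_loc hN (F := fun w x => ⟪nuw w x, e⟫ ^ 2) (fun _ hx _ hw => hw.inner_sq_eq hx e)
    fun _ _ hw => ((continuousAt_nuw hw.1 hw.2.1).inner continuousAt_const).pow 2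

lemma contOn_pt (hN : IsSurf N) : ContinuousOn (fun x => pt (nu N x)) N :=
  contOn_of_loc hN (F := fun w x => pt (nuw w x)) (fun _ hx _ hw => hw.pt_eq hx)
    fun _ _ hw => continuous_pt.continuousAt.comp (continuousAt_nuw hw.1 hw.2.1)

lemma contOn_a2 (hN : IsSurf N) : ContinuousOn (a2 N) N :=
  contOn_of_loc hN (F := fun w x => tr ((shw w x).comp (shw w x))) (fun _ hx _ hw => hw.a2_eq hx)
    fun _ _ hw => continuous_tr.continuousAt.comp
      ((continuousAt_shw hw.1 hw.2.1).clm_comp (continuousAt_shw hw.1 hw.2.1))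

lemma contOn_Hv (hN : IsSurf N) : ContinuousOn (Hv N) N :=
  contOn_of_loc hN (F := fun w x => tr (shw w x) • nuw w x) (fun _ hx _ hw => hw.Hv_eq hx)
    fun _ _ hw => (continuous_tr.continuousAt.comp (continuousAt_shw hw.1 hw.2.1)).smul
      (continuousAt_nuw hw.1 hw.2.1)

/-- tangential derivatives only depend on the values on the surface -/
lemma fderiv_tangent {F : Type*} [NormedAddCommGroup F] [NormedSpace ℝ F] (hN : IsSurf N) {x : E3}
    (hx : x ∈ N) {f g : E3 → F} (hf : DifferentiableAt ℝ f x) (hg : DifferentiableAt ℝ g x)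
    (hfg : ∀ᶠ y in 𝓝 x, y ∈ N → f y = g y) {a : E3} (ha : ⟪nu N x, a⟫ = 0) :
    fderiv ℝ f x a = fderiv ℝ g x a := by
  obtain ⟨p, hp, hj⟩ := hN.jet hx ha
  set k := ⟪sh N x a, a⟫ • nu N x
  have hp0 : p 0 = x := by
    have := hj.isBigO.bound
    obtain ⟨c, hc⟩ := this
    have h0 := hc.self_of_nhds
    simpa [sub_eq_zero] using h0
  have hσ2 : (fun σ : ℝ => σ ^ 2) =o[𝓝 0] fun σ : ℝ => σ := isLittleO_pow_id (by norm_num)
  have hd : HasDerivAt p a 0 := by
    rw [hasDerivAt_iff_isLittleO]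
    have h1 : (fun σ : ℝ => (σ ^ 2 / 2) • k) =o[𝓝 0] fun σ : ℝ => σ := by
      refine IsBigO.trans_isLittleO (IsBigO.of_bound (‖k‖ / 2) (Eventually.of_forall fun σ => ?_)) hσ2
      rw [norm_smul, Real.norm_eq_abs, Real.norm_eq_abs, abs_div, abs_two]
      apply le_of_eq; ring
    refine (((hj.trans hσ2).add h1).congr_left fun σ => ?_).congr_right fun σ => by simp
    rw [hp0, sub_zero]; abel
  have hf' : HasDerivAt (f ∘ p) (fderiv ℝ f x a) 0 := by
    have := hf.hasFDerivAt
    rw [← hp0] at this ⊢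
    exact this.comp_hasDerivAt 0 hd
  have hg' : HasDerivAt (g ∘ p) (fderiv ℝ g x a) 0 := by
    have := hg.hasFDerivAt
    rw [← hp0] at this ⊢
    exact this.comp_hasDerivAt 0 hd
  refine hf'.unique (hg'.congr_of_eventuallyEq ?_)
  filter_upwards [hp, (tendsto_of_jet hj).eventually hfg] with σ h1 h2 using h2 h1

/-- chords are almost tangent -/
lemma chord_tangent {x : E3} {w : E3 → ℝ} (hw : IsEqn N x w) (hx : x ∈ N) {η : ℝ} (hη : 0 < η) :
    ∀ᶠ y in 𝓝 x, y ∈ N → |⟪nuw w x, y - x⟫| ≤ η * ‖y - x‖ := by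
  have hg := hw.2.1
  have hn : 0 < ‖gradient w x‖ := norm_pos_iff.2 hg
  have hd := ((hw.1.differentiable (by simp)) x).hasFDerivAt
  have := (hasFDerivAt_iff_isLittleO.1 hd).bound (mul_pos hη hn)
  filter_upwards [this, hw.2.2] with y h1 h2 hy
  rw [h2.1 hy, hw.zero hx, ← inner_grad, grad_eq_smul_nuw hg, real_inner_smul_left] at h1
  simp only [sub_zero, zero_sub, norm_neg, norm_mul, Real.norm_eq_abs, norm_smul,
    norm_nuw hg, mul_one, abs_norm] at h1
  nlinarith

/-- the normal varies at most like the second fundamental form -/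
lemma chord_nu (hN : IsSurf N) {x : E3} (hx : x ∈ N) {η : ℝ} (hη : 0 < η) :
    ∀ᶠ y in 𝓝 x, y ∈ N → ∀ e : E3, ‖e‖ = 1 →
      |⟪nu N y, e⟫ ^ 2 - ⟪nu N x, e⟫ ^ 2| ≤ 2 * (√(a2 N x) + η) * ‖y - x‖ := by
  have hw := hN.isEqn hx
  set w := eqn N x
  have hg := hw.2.1
  set L := fderiv ℝ (nuw w) x
  have hd : HasFDerivAt (nuw w) L x :=
    ((contDiffAt_nuw hw.1 hg).differentiableAt (by simp)).hasFDerivAt
  have hL : 0 < ‖L‖ + 1 := by positivity
  have h1 := (hasFDerivAt_iff_isLittleO.1 hd).bound (half_pos hη)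
  filter_upwards [h1, chord_tangent hw hx (div_pos (half_pos hη) hL), hw.eventually] with y h1 h2 h3
    hy e he
  have h2 := h2 hy
  have e1 : L (y - x) = -sh N x (y - x) + ⟪nuw w x, y - x⟫ • L (nuw w x) := by
    have : y - x = pt (nuw w x) (y - x) + ⟪nuw w x, y - x⟫ • nuw w x := by rw [pt_apply]; abel
    conv_lhs => rw [this]
    rw [map_add, map_smul, fderiv_nuw hw.1 hg (inner_pt_nrm (norm_nuw hg) _), shw_pt hg]
    rfl
  have e2 : ‖L (y - x)‖ ≤ (√(a2 N x) + η / 2) * ‖y - x‖ := by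
    rw [e1]
    refine (norm_add_le _ _).trans ?_
    rw [norm_neg, norm_smul, Real.norm_eq_abs, add_mul]
    refine add_le_add (hN.norm_sh_apply_le hx _) ?_
    have e3 : ‖L (nuw w x)‖ ≤ ‖L‖ + 1 := by
      have := L.le_opNorm (nuw w x)
      rw [norm_nuw hg] at this; linarith
    calc _ ≤ η / 2 / (‖L‖ + 1) * ‖y - x‖ * (‖L‖ + 1) := by gcongr
      _ = _ := by field_simp
  have e4 : ‖nuw w y - nuw w x‖ ≤ (√(a2 N x) + η) * ‖y - x‖ := by
    have := norm_add_le (nuw w y - nuw w x - L (y - x)) (L (y - x))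
    rw [sub_add_cancel] at this
    nlinarith
  rw [h3.inner_sq_eq hy, show nu N x = nuw w x from rfl, sq_sub_sq, abs_mul, ← inner_add_left,
    ← inner_sub_left]
  have e5 : |⟪nuw w y + nuw w x, e⟫| ≤ 2 := by
    refine (abs_real_inner_le_norm _ _).trans ?_
    have := norm_add_le (nuw w y) (nuw w x)
    rw [norm_nuw hg, norm_nuw h3.2.1] at this
    rw [he]; linarith
  have e6 : |⟪nuw w y - nuw w x, e⟫| ≤ (√(a2 N x) + η) * ‖y - x‖ := by
    refine (abs_real_inner_le_norm _ _).trans ?_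
    rw [he, mul_one]; exact e4
  rw [mul_assoc]
  gcongr

lemma ae_mem (hN : IsSurf N) : ∀ᵐ x ∂(area N), x ∈ N := ae_restrict_mem hN.1.measurableSet

lemma aesm (hN : IsSurf N) {β : Type*} [TopologicalSpace β] [TopologicalSpace.PseudoMetrizableSpace β]
    {f : E3 → β} (hf : ContinuousOn f N) : AEStronglyMeasurable f (area N) :=
  hf.aestronglyMeasurable hN.1.measurableSet

/-- functions which are continuous on the surface and have bounded support are integrable -/
lemma integrable_of_contOn (hN : IsSurf N) {D : ℝ} (hD : AreaRatio D N) {F : Type*}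
    [NormedAddCommGroup F] {f : E3 → F} (hf : ContinuousOn f N) {p : E3} {R : ℝ}
    (hs : ∀ x ∈ N, R ≤ ‖x - p‖ → f x = 0) : Integrable f (area N) := by
  have := hD.locFin
  have hK : IsCompact (N ∩ closedBall p R) := (isCompact_closedBall p R).inter_left hN.1
  have h1 : IntegrableOn f (N ∩ closedBall p R) (area N) :=
    (hf.mono inter_subset_left).integrableOn_compact hK
  refine h1.integrable_of_ae_notMem_eq_zero ?_
  filter_upwards [ae_mem hN] with x hx hx'
  refine hs x hx ?_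
  by_contra h
  exact hx' ⟨hx, by rw [mem_closedBall, dist_eq_norm]; exact (not_le.1 h).le⟩

lemma tr_smulRight (l : E3 →L[ℝ] ℝ) (v : E3) : tr (l.smulRight v) = l v := by
  obtain ⟨a, b, h⟩ := exists_triple (n := EuclideanSpace.single (0 : Fin 3) (1 : ℝ)) (by simp)
  rw [h.tr_eq]
  conv_rhs => rw [h.expand v]
  simp only [ContinuousLinearMap.smulRight_apply, real_inner_smul_left, map_add, map_smul,
    smul_eq_mul, real_inner_comm v]
  ring

/-- first variation for the vector field `Φ • v` -/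
lemma fv_smul (hFV : FVStmt) (hN : IsSurf N) {Φ : E3 → ℝ} (hΦ : ContDiff ℝ 1 Φ)
    (hc : HasCompactSupport Φ) (v : E3) :
    ∫ x, fderiv ℝ Φ x (pt (nu N x) v) ∂(area N) = -∫ x, Φ x * ⟪v, Hv N x⟫ ∂(area N) := by
  have h := hFV N hN (fun x => Φ x • v) (hΦ.smul contDiff_const) (hc.smul_right (f' := fun _ => v))
  simp only [real_inner_smul_left] at h
  rw [← h]
  refine integral_congr_ae (Eventually.of_forall fun x => ?_)
  have hd : fderiv ℝ (fun x => Φ x • v) x = (fderiv ℝ Φ x).smulRight v :=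
    ((hΦ.differentiable one_ne_zero x).hasFDerivAt.smul_const v).fderiv
  simp only [divT, hd, tr_smulRight, pt_apply, map_sub, map_smul, smul_eq_mul,
    ContinuousLinearMap.smulRight_apply, real_inner_smul_left, real_inner_comm v]
  ring

/-- an integral is bounded by a Lebesgue integral over a ball -/
lemma abs_integral_le (hN : IsSurf N) {f g : E3 → ℝ} {p : E3} {R C η : ℝ} (hC : 0 ≤ C) (hη : 0 ≤ η)
    (h1 : ∀ x ∈ N, |f x| ≤ C * g x) (h2 : ∀ x ∈ N, R ≤ ‖x - p‖ → f x = 0)
    (hg : ∫⁻ x in ball p R, ENNReal.ofReal (g x) ∂(area N) ≤ ENNReal.ofReal η) :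
    |∫ x, f x ∂(area N)| ≤ C * η := by
  rw [← Real.norm_eq_abs]
  refine (norm_integral_le_lintegral_norm _).trans ?_
  refine ENNReal.toReal_le_of_le_ofReal (by positivity) ?_
  calc ∫⁻ x, ENNReal.ofReal ‖f x‖ ∂(area N)
      ≤ ∫⁻ x, (ball p R).indicator (fun x => ENNReal.ofReal C * ENNReal.ofReal (g x)) x ∂(area N) := by
        refine lintegral_mono_ae ?_
        filter_upwards [ae_mem hN] with x hx
        by_cases h : x ∈ ball p R
        · rw [indicator_of_mem h, ← ENNReal.ofReal_mul hC]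
          exact ENNReal.ofReal_le_ofReal (h1 x hx)
        · rw [h2 x hx (by simpa [dist_eq_norm] using h)]; simp
    _ = ENNReal.ofReal C * ∫⁻ x in ball p R, ENNReal.ofReal (g x) ∂(area N) := by
        rw [lintegral_indicator measurableSet_ball, lintegral_const_mul' _ _ ENNReal.ofReal_ne_top]
    _ ≤ ENNReal.ofReal (C * η) := by rw [ENNReal.ofReal_mul hC]; gcongr

/-- triangle inequality for the sine of the angle between lines -/
lemma sn_triangle {a b n : E3} (ha : ‖a‖ = 1) (hn : ‖n‖ = 1) :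
    ‖pt a b‖ ≤ ‖pt n b‖ + ‖b‖ * ‖pt a n‖ := by
  have e : pt a b = pt a (pt n b) + ⟪n, b⟫ • pt a n := by
    rw [← map_smul, ← map_add, pt_apply n b, sub_add_cancel]
  rw [e]
  refine (norm_add_le _ _).trans (add_le_add (norm_pt_le ha _) ?_)
  rw [norm_smul, Real.norm_eq_abs]
  have := abs_real_inner_le_norm n b
  rw [hn, one_mul] at this
  gcongr

lemma norm_pt_le_of {a n : E3} (ha : ‖a‖ = 1) (hn : ‖n‖ = 1) {t : ℝ} (ht : 0 ≤ t)
    (h : 1 - ⟪n, a⟫ ^ 2 ≤ t ^ 2) : ‖pt a n‖ ≤ t ∧ ‖pt n a‖ ≤ t := by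
  have h1 := norm_pt_sq ha n
  have h2 := norm_pt_sq hn a
  rw [hn, real_inner_comm] at h1
  rw [ha] at h2
  exact ⟨(sq_le_sq₀ (norm_nonneg _) ht).1 (by linarith), (sq_le_sq₀ (norm_nonneg _) ht).1 (by linarith)⟩

end Vale.Agent.P218FT.NC
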