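import Vale.Agent.P218FT.WCalc
import Vale.Agent.P218FT.Local
import Mathlib.Analysis.Calculus.ContDiff.RCLike

/-! The two-point bound: local finiteness and the graph lemma. -/

open MeasureTheory Set Filter Topology Metric
open scoped ENNReal NNReal RealInnerProductSpace ContDiff

namespace Vale.Agent.P218FT.W

/-- the two-point bound at `x` for all points of `N` -/
def TP (N : Set E3) (x : E3) (C : ℝ) : Prop := ∀ y ∈ N, |⟪y - x, nu N x⟫| ≤ C * ‖y - x‖ ^ 2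

theorem slice_eqn {M : ℝ → Set E3} {w : ℝ × E3 → ℝ} {t : ℝ} {x : E3} (hw : ContDiff ℝ ∞ w)
    (hg : gradient (fun y => w (t, y)) x ≠ 0)
    (he : ∀ᶠ p : ℝ × E3 in 𝓝 (t, x), p.2 ∈ M p.1 ↔ w p = 0) : IsEqn (M t) x fun y => w (t, y) :=
  ⟨hw.comp (contDiff_const.prodMk contDiff_id), hg,
    ((continuous_const.prodMk continuous_id).tendsto x).eventually he⟩

theorem surf {M : ℝ → Set E3} {I : Set ℝ} (hM : IsMCF M I) {t : ℝ} (ht : t ∈ I) : IsSurf (M t) := by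
  refine ⟨?_, fun x hx => ?_⟩
  · rw [← isOpen_compl_iff, isOpen_iff_mem_nhds]
    intro x hx
    exact ((continuous_const.prodMk continuous_id).tendsto x).eventually (hM.closed t ht x hx)
  · obtain ⟨w, hw, hg, he, -⟩ := hM.loc t ht x hx
    exact ⟨_, slice_eqn hw hg he⟩

theorem continuousOn_nu_sq {N : Set E3} (hN : IsSurf N) (e : E3) :
    ContinuousOn (fun x => ⟪nu N x, e⟫ ^ 2) N := by
  intro x hx
  have h := hN.isEqn hx
  set w := eqn N x
  have hc : ContinuousAt (fun y => ⟪nuw w y, e⟫ ^ 2) x := by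
    have hg := (contDiff_grad h.1).continuous
    have h1 : ContinuousAt (fun y => nuw w y) x :=
      (hg.continuousAt.norm.inv₀ (norm_ne_zero_iff.2 h.2.1)).smul hg.continuousAt
    exact (h1.inner (𝕜 := ℝ) continuousAt_const).pow 2
  refine hc.continuousWithinAt.congr_of_eventuallyEq ?_ ?_
  · filter_upwards [self_mem_nhdsWithin, mem_nhdsWithin_of_mem_nhds h.eventually] with y hy hy'
    exact hy'.inner_sq_eq hy e
  · exact h.inner_sq_eq hx e

theorem inner_grad_slice {w : ℝ × E3 → ℝ} (hw : ContDiff ℝ ∞ w) (t : ℝ) (x v : E3) :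
    ⟪gradient (fun y => w (t, y)) x, v⟫ = fderiv ℝ w (t, x) (0, v) := by
  rw [inner_grad]
  have h := ((hw.differentiable (by simp)) (t, x)).hasFDerivAt.comp x
    (hasFDerivAt_prodMk_right (𝕜 := ℝ) t x)
  have : fderiv ℝ (fun y => w (t, y)) x = _ := h.fderiv
  rw [this]; simp

theorem continuous_grad_slice {w : ℝ × E3 → ℝ} (hw : ContDiff ℝ ∞ w) :
    Continuous fun p : ℝ × E3 => gradient (fun y => w (p.1, y)) p.2 := by
  have : (fun p : ℝ × E3 => gradient (fun y => w (p.1, y)) p.2) =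
      fun p => rz ((fderiv ℝ w p).comp (ContinuousLinearMap.inr ℝ ℝ E3)) := by
    funext p
    refine ext_inner_right ℝ fun v => ?_
    rw [inner_grad_slice hw, inner_rz]; simp
  rw [this]
  exact rz.continuous.comp ((hw.continuous_fderiv (by simp)).clm_comp continuous_const)

theorem tp_near {M : ℝ → Set E3} {I : Set ℝ} (hM : IsMCF M I) {p₀ : ℝ × E3} (hp : p₀ ∈ track M I) :
    ∃ C : ℝ, ∀ᶠ p in 𝓝 p₀, p.2 ∈ M p.1 → TP (M p.1) p.2 C := by
  obtain ⟨t₀, x₀⟩ := p₀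
  obtain ⟨w, hw, hg, he, -⟩ := hM.loc t₀ hp.1 x₀ hp.2
  have h1 : ContDiffAt ℝ 1 (fderiv ℝ w) (t₀, x₀) :=
    (hw.fderiv_right (m := 1) (by exact_mod_cast two_le_inf)).contDiffAt
  obtain ⟨K, S, hS, hK⟩ := h1.exists_lipschitzOnWith
  set g := ‖gradient (fun y => w (t₀, y)) x₀‖ with hgdef
  have hg0 : 0 < g := norm_pos_iff.2 hg
  have h2 : ∀ᶠ p : ℝ × E3 in 𝓝 (t₀, x₀), g / 2 < ‖gradient (fun y => w (p.1, y)) p.2‖ :=
    (continuous_grad_slice hw).norm.continuousAt.eventually (lt_mem_nhds (by simp only; linarith))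
  obtain ⟨δ, hδ, hball⟩ := Metric.eventually_nhds_iff_ball.1
    ((he.and he.eventually_nhds).and (h2.and hS))
  refine ⟨max (2 * K / g) (2 / δ), ?_⟩
  filter_upwards [ball_mem_nhds (t₀, x₀) (half_pos hδ)] with p hpb hpM y hy
  obtain ⟨t, x⟩ := p
  have hpb' : (t, x) ∈ ball (t₀, x₀) δ := ball_subset_ball (by linarith) hpb
  obtain ⟨⟨hx0, hx1⟩, hx2, -⟩ := hball _ hpb'
  have hgx : gradient (fun y => w (t, y)) x ≠ 0 := by
    intro h; simp only [h, norm_zero] at hx2; linarith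
  have heq := slice_eqn hw hgx hx1
  by_cases hd : δ / 2 ≤ ‖y - x‖
  · have hn : ‖nu (M t) x‖ = 1 := norm_nuw heq.isEqn_eqn.2.1
    have := abs_real_inner_le_norm (y - x) (nu (M t) x)
    rw [hn, mul_one] at this
    have h3 : 2 / δ * (δ / 2) = 1 := by field_simp
    have h4 : 2 / δ ≤ max (2 * K / g) (2 / δ) := le_max_right _ _
    have h5 : 0 < 2 / δ := by positivity
    calc |⟪y - x, nu (M t) x⟫| ≤ ‖y - x‖ * (2 / δ * (δ / 2)) := by rw [h3, mul_one]; exact this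
      _ ≤ ‖y - x‖ * (max (2 * K / g) (2 / δ) * ‖y - x‖) := by gcongr
      _ = _ := by ring
  push Not at hd
  have hsub : closedBall (t, x) ‖y - x‖ ⊆ ball (t₀, x₀) δ := by
    intro q hq
    rw [mem_closedBall] at hq
    rw [mem_ball] at hpb ⊢
    linarith [dist_triangle q (t, x) (t₀, x₀)]
  have hyb : (t, y) ∈ closedBall (t, x) ‖y - x‖ := by
    simp [dist_eq_norm]
  have h3 := (convex_closedBall (t, x) ‖y - x‖).norm_image_sub_le_of_norm_hasFDerivWithin_le'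
    (f := w) (f' := fderiv ℝ w) (φ := fderiv ℝ w (t, x)) (C := K * ‖y - x‖)
    (fun q _ => ((hw.differentiable (by simp)) q).hasFDerivAt.hasFDerivWithinAt)
    (fun q hq => by
      have := hK.dist_le_mul q (hball q (hsub hq)).2.2 (t, x) (hball _ hpb').2.2
      rw [dist_eq_norm] at this
      exact this.trans (mul_le_mul_of_nonneg_left hq K.2))
    (mem_closedBall_self (norm_nonneg _)) hyb
  rw [(hball _ (hsub hyb)).1.1.1 hy, hx0.1 hpM] at h3
  have h4 : ((t, y) : ℝ × E3) - (t, x) = (0, y - x) := by simp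
  rw [h4, ← inner_grad_slice hw, sub_zero, zero_sub, norm_neg, Real.norm_eq_abs] at h3
  have h5 : ‖((0 : ℝ), y - x)‖ = ‖y - x‖ := by simp
  rw [h5] at h3
  rw [heq.abs_inner_eq hpM, nuw, real_inner_smul_right, abs_mul, abs_inv, abs_norm, real_inner_comm]
  simp only at hx2 ⊢
  have h6 : ‖gradient (fun y => w (t, y)) x‖⁻¹ ≤ (g / 2)⁻¹ := inv_anti₀ (by linarith) hx2.le
  calc _ ≤ (g / 2)⁻¹ * (K * ‖y - x‖ * ‖y - x‖) := by gcongr
    _ = 2 * K / g * ‖y - x‖ ^ 2 := by field_simp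
    _ ≤ _ := by gcongr; exact le_max_left _ _

theorem TP.mono {N : Set E3} {x : E3} {C C' : ℝ} (h : TP N x C) (hC : C ≤ C') : TP N x C' :=
  fun y hy => (h y hy).trans (mul_le_mul_of_nonneg_right hC (sq_nonneg _))

theorem isClosed_track {M : ℝ → Set E3} {I : Set ℝ} (hM : IsMCF M I) {K : Set ℝ} (hK : IsClosed K)
    (hKI : K ⊆ I) : IsClosed {p : ℝ × E3 | p.1 ∈ K ∧ p.2 ∈ M p.1} := by
  rw [← isOpen_compl_iff, isOpen_iff_mem_nhds]
  intro p hp
  by_cases h1 : p.1 ∈ K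
  · have h2 : p.2 ∉ M p.1 := fun h => hp ⟨h1, h⟩
    filter_upwards [hM.closed p.1 (hKI h1) p.2 h2] with q hq h using hq h.2
  · filter_upwards [continuous_fst.continuousAt.eventually (hK.isOpen_compl.mem_nhds h1)] with q hq h
      using hq h.1

/-- the two-point bound holds on compact parts of the track -/
theorem tp_compact {M : ℝ → Set E3} {I : Set ℝ} (hM : IsMCF M I) {a b : ℝ} (hI : Icc a b ⊆ I)
    (x₀ : E3) (R : ℝ) : ∃ C : ℝ, 0 ≤ C ∧ ∀ t ∈ Icc a b, ∀ x ∈ M t, ‖x - x₀‖ ≤ R → TP (M t) x C := by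
  have hK : IsCompact ({p : ℝ × E3 | p.1 ∈ Icc a b ∧ p.2 ∈ M p.1} ∩ Icc a b ×ˢ closedBall x₀ R) :=
    (isCompact_Icc.prod (isCompact_closedBall x₀ R)).inter_left (isClosed_track hM isClosed_Icc hI)
  have : ∃ C : ℝ, 0 ≤ C ∧ ∀ p ∈ ({p : ℝ × E3 | p.1 ∈ Icc a b ∧ p.2 ∈ M p.1} ∩
      Icc a b ×ˢ closedBall x₀ R), p.2 ∈ M p.1 → TP (M p.1) p.2 C := by
    refine hK.induction_on (p := fun S => ∃ C : ℝ, 0 ≤ C ∧ ∀ p ∈ S, p.2 ∈ M p.1 → TP (M p.1) p.2 C)
      ⟨0, le_rfl, by simp⟩ ?_ ?_ ?_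
    · rintro s t hst ⟨C, h0, hC⟩
      exact ⟨C, h0, fun p hp => hC p (hst hp)⟩
    · rintro s t ⟨C, h0, hC⟩ ⟨C', -, hC'⟩
      refine ⟨max C C', le_max_of_le_left h0, ?_⟩
      rintro p (hp | hp) h
      · exact (hC p hp h).mono (le_max_left _ _)
      · exact (hC' p hp h).mono (le_max_right _ _)
    · intro p hp
      obtain ⟨C, hC⟩ := tp_near hM (p₀ := p) ⟨hI hp.1.1, hp.1.2⟩
      exact ⟨_, mem_nhdsWithin_of_mem_nhds hC, max C 0, le_max_right _ _,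
        fun q hq h => (hq h).mono (le_max_left _ _)⟩
  obtain ⟨C, h0, hC⟩ := this
  exact ⟨C, h0, fun t ht x hx hR => hC (t, x) ⟨⟨ht, hx⟩, ht, by simpa [dist_eq_norm] using hR⟩ hx⟩

theorem exists_plane {e : E3} (he : ‖e‖ = 1) : ∃ J : P2 →ₗᵢ[ℝ] E3, (∀ a, ⟪J a, e⟫ = 0) ∧
    ∀ v : E3, ∃ a, J a = pt e v := by
  have he0 : e ≠ 0 := by
    intro h; rw [h, norm_zero] at he; exact zero_ne_one he
  have : Fact (Module.finrank ℝ E3 = 2 + 1) := ⟨by simp⟩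
  let b := OrthonormalBasis.fromOrthogonalSpanSingleton (𝕜 := ℝ) 2 he0
  refine ⟨(ℝ ∙ e)ᗮ.subtypeₗᵢ.comp b.repr.symm.toLinearIsometry, fun a => ?_, fun v => ?_⟩
  · exact Submodule.mem_orthogonal_singleton_iff_inner_left.1 (b.repr.symm a).2
  · refine ⟨b.repr ⟨pt e v, Submodule.mem_orthogonal_singleton_iff_inner_right.2
      (inner_pt_nrm he v)⟩, ?_⟩
    simp

theorem norm_sq_add {J : P2 →ₗᵢ[ℝ] E3} {e : E3} (he : ‖e‖ = 1) (hJ : ∀ a, ⟪J a, e⟫ = 0) (a : P2)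
    (z : ℝ) : ‖J a + z • e‖ ^ 2 = ‖a‖ ^ 2 + z ^ 2 := by
  rw [norm_add_sq_real, real_inner_smul_right, hJ, J.norm_map, norm_smul, he, Real.norm_eq_abs,
    mul_one, sq_abs]
  ring

theorem inner_add_e {J : P2 →ₗᵢ[ℝ] E3} {e : E3} (he : ‖e‖ = 1) (hJ : ∀ a, ⟪J a, e⟫ = 0) (a : P2)
    (z : ℝ) : ⟪J a + z • e, e⟫ = z := by
  rw [inner_add_left, hJ, real_inner_smul_left, real_inner_self_eq_norm_sq, he]; ring

/-- continuation of a graph over a connected set -/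
theorem good_of_conn (hG : GraphStmt) {M : ℝ → Set E3} {I : Set ℝ} (hM : IsMCF M I) (x₀ : E3)
    {J : P2 →ₗᵢ[ℝ] E3} {e : E3} {ρ : ℝ} (he : ‖e‖ = 1) (hJ : ∀ a, ⟪J a, e⟫ = 0)
    {Q : Set (P2 × ℝ)} (hQ : IsPreconnected Q) (hQI : ∀ p ∈ Q, p.2 ∈ I)
    (h : ∀ p ∈ Q, ∀ z : ℝ, |z| ≤ ρ → x₀ + J p.1 + z • e ∈ M p.2 → GoodAt M I x₀ J e ρ p)
    (h0 : ∃ p ∈ Q, GoodAt M I x₀ J e ρ p) : ∀ p ∈ Q, GoodAt M I x₀ J e ρ p := by
  refine hQ.subset_of_closure_inter_subset (hG M I hM x₀ J e ρ he hJ).1 h0 ?_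
  rintro p ⟨hp, hpQ⟩
  by_contra hn
  have hno : ∀ z ∈ Icc (-ρ) ρ, x₀ + J p.1 + z • e ∉ M p.2 := fun z hz hm =>
    hn (h p hpQ z (abs_le.2 hz) hm)
  have hev : ∀ᶠ q : P2 × ℝ in 𝓝 p, ∀ z ∈ Icc (-ρ) ρ, x₀ + J q.1 + z • e ∉ M q.2 := by
    refine isCompact_Icc.eventually_forall_of_forall_eventually fun z hz => ?_
    have hc : Continuous fun q : (P2 × ℝ) × ℝ => ((q.1.2, x₀ + J q.1.1 + q.2 • e) : ℝ × E3) := by
      fun_prop
    exact (hc.tendsto (p, z)).eventually (hM.closed _ (hQI p hpQ) _ (hno z hz))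
  obtain ⟨q, hq, -, z, hz, hm, -⟩ := (mem_closure_iff_frequently.1 hp).and_eventually hev |>.exists
    |>.imp fun q hq => And.symm hq
  exact hq z (abs_le.1 hz.le) hm

theorem height_le {a z : ℝ} (hz : |z| ≤ 1 / 8) (h : |z| ≤ 2 * (a ^ 2 + z ^ 2)) : |z| ≤ 3 * a ^ 2 := by
  rw [← sq_abs z] at h
  nlinarith [abs_nonneg z, sq_nonneg a]

/-- two points on a line which is transversal at the first one are far apart -/
theorem vertical_eq {N : Set E3} {y e : E3} {z : ℝ} (he : ‖e‖ = 1) (hy : TP N y 2)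
    (hz : y + z • e ∈ N) (ht : 1 / 4 ≤ ⟪nu N y, e⟫ ^ 2) (hs : |z| < 1 / 4) : z = 0 := by
  have h := hy _ hz
  rw [add_sub_cancel_left, real_inner_smul_left, norm_smul, he, mul_one, abs_mul, Real.norm_eq_abs,
    real_inner_comm] at h
  have h2 : 1 / 2 ≤ |⟪nu N y, e⟫| := by
    rw [← sq_abs] at ht
    nlinarith [abs_nonneg ⟪nu N y, e⟫]
  by_contra h0
  have : 0 < |z| := abs_pos.2 h0
  nlinarith

theorem tilt_arith {β α z z₁ c d : ℝ} (hβ : 0 < β) (hβ' : β ≤ 1 / 100) (hz : |z| ≤ 3 * β ^ 2)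
    (hz₁ : |z₁| ≤ 3 * α ^ 2) (hα : 0 ≤ α) (hα' : α ≤ β / 2) (hc : c ^ 2 ≤ 1 / 4) (hd : 0 ≤ d)
    (hd' : d ≤ 3 / 2 * β)
    (h : |β / 2 * (1 - c ^ 2) + z₁ * c| ≤ 2 * (β ^ 2 + (-z) ^ 2) + 2 * (d ^ 2 + (z₁ - z) ^ 2)) :
    False := by
  have h5 : |c| ≤ 1 := by
    rw [← sq_le_one_iff_abs_le_one]; linarith
  have h6 : |z₁| ≤ β ^ 2 := by nlinarith
  have h7 : |z₁ * c| ≤ β ^ 2 := by
    rw [abs_mul]; nlinarith [abs_nonneg z₁, abs_nonneg c]
  have h8 : d ^ 2 ≤ (3 / 2 * β) ^ 2 := pow_le_pow_left₀ hd hd' 2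
  have h9 : |z| ≤ β := by nlinarith
  have h10 : |z₁ - z| ≤ β := by nlinarith [abs_sub z₁ z]
  have h11 : (-z) ^ 2 ≤ β ^ 2 := by
    rw [neg_sq, ← sq_abs]; exact pow_le_pow_left₀ (abs_nonneg _) h9 2
  have h12 : (z₁ - z) ^ 2 ≤ β ^ 2 := by
    rw [← sq_abs]; exact pow_le_pow_left₀ (abs_nonneg _) h10 2
  have h13 := (abs_le.1 h).2
  have h14 := (abs_le.1 h7).1
  nlinarith

/-- the graph lemma: there is a point of the surface over every short tangent vector -/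
theorem exists_over (hG : GraphStmt) {M : ℝ → Set E3} {I : Set ℝ} (hM : IsMCF M I) {t : ℝ}
    (ht : t ∈ I) {x : E3} (hx : x ∈ M t) (hTP : ∀ y ∈ M t, ‖y - x‖ ≤ 1 → TP (M t) y 2) {v : E3}
    (hv : ⟪nu (M t) x, v⟫ = 0) (hv' : ‖v‖ ≤ 1 / 100) :
    ∃ z : ℝ, |z| ≤ 3 * ‖v‖ ^ 2 ∧ x + v + z • nu (M t) x ∈ M t := by
  have hS := surf hM ht
  set e := nu (M t) x with hedef
  have he : ‖e‖ = 1 := hS.norm_nu hx
  obtain ⟨J, hJ, hJ'⟩ := exists_plane he
  have hgt : ∀ (a : P2) (z : ℝ), |z| ≤ 1 / 8 → x + J a + z • e ∈ M t → |z| ≤ 3 * ‖a‖ ^ 2 := by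
    intro a z hz hm
    have := hTP x hx (by simp) _ hm
    rw [add_assoc, add_sub_cancel_left, ← hedef, inner_add_e he hJ, norm_sq_add he hJ] at this
    exact height_le hz this
  have hnear : ∀ (a : P2) (z : ℝ), ‖a‖ ≤ 1 / 100 → |z| ≤ 1 / 8 → ‖x + J a + z • e - x‖ ≤ 1 := by
    intro a z ha hz
    rw [add_assoc, add_sub_cancel_left]
    refine (norm_add_le _ _).trans ?_
    rw [J.norm_map, norm_smul, he, Real.norm_eq_abs]
    linarith
  -- graph over a disc on which the tilt is bounded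
  have disc : ∀ a : P2, ‖a‖ ≤ 1 / 100 →
      (∀ (b : P2) (z : ℝ), ‖b‖ ≤ ‖a‖ → |z| ≤ 1 / 8 → x + J b + z • e ∈ M t →
        1 / 4 ≤ ⟪nu (M t) (x + J b + z • e), e⟫ ^ 2) →
      ∃ z : ℝ, |z| ≤ 3 * ‖a‖ ^ 2 ∧ x + J a + z • e ∈ M t := by
    intro a ha htilt
    have key : ∀ p ∈ closedBall (0 : P2) ‖a‖ ×ˢ ({t} : Set ℝ), ∀ z : ℝ, |z| ≤ 1 / 8 →
        x + J p.1 + z • e ∈ M p.2 → GoodAt M I x J e (1 / 8) p := by
      rintro ⟨b, s⟩ ⟨hb, hs⟩ z hz hm
      obtain rfl : s = t := hs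
      have hb' : ‖b‖ ≤ ‖a‖ := by simpa using hb
      have hb2 : ‖b‖ ^ 2 ≤ (1 / 100) ^ 2 := pow_le_pow_left₀ (norm_nonneg _) (hb'.trans ha) 2
      have h1 := hgt b z hz hm
      have h2 := htilt b z hb' hz hm
      refine ⟨ht, z, by linarith, hm, fun h => by simp only at h; rw [h] at h2; norm_num at h2,
        fun z' hz' hm' => ?_⟩
      have h3 := hgt b z' hz' hm'
      have := vertical_eq (z := z' - z) he (hTP _ hm (hnear b z (hb'.trans ha) hz))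
        (by rw [sub_smul, add_add_sub_cancel]; exact hm') h2
        (by linarith [abs_sub z' z])
      linarith
    have := good_of_conn hG hM x he hJ (ρ := 1 / 8)
      ((convex_closedBall (0 : P2) ‖a‖).isPreconnected.prod isPreconnected_singleton)
      (by rintro p ⟨-, hp⟩; rw [mem_singleton_iff.1 hp]; exact ht) key
      ⟨(0, t), ⟨by simp, rfl⟩, key (0, t) ⟨by simp, rfl⟩ 0 (by norm_num) (by simpa using hx)⟩
      (a, t) ⟨by simp, rfl⟩
    obtain ⟨-, z, hz, hm, -⟩ := this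
    exact ⟨z, hgt a z hz.le hm, hm⟩
  -- the set of points with large tilt is empty
  have main : ∀ (b : P2) (z : ℝ), ‖b‖ ≤ 1 / 100 → |z| ≤ 1 / 8 → x + J b + z • e ∈ M t →
      1 / 4 ≤ ⟪nu (M t) (x + J b + z • e), e⟫ ^ 2 := by
    by_contra hcon
    push Not at hcon
    set φ : P2 × ℝ → E3 := fun q => x + J q.1 + q.2 • e with hφ
    have hφc : Continuous φ := by fun_prop
    set B : Set (P2 × ℝ) := (closedBall (0 : P2) (1 / 100) ×ˢ Icc (-(1 / 8) : ℝ) (1 / 8)) ∩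
      φ ⁻¹' (M t ∩ (fun y => ⟪nu (M t) y, e⟫ ^ 2) ⁻¹' Iic (1 / 4)) with hB
    have hBc : IsCompact B := ((isCompact_closedBall _ _).prod isCompact_Icc).inter_right
      (((continuousOn_nu_sq hS e).preimage_isClosed_of_isClosed hS.1 isClosed_Iic).preimage hφc)
    obtain ⟨b₀, z₀, hb₀, hz₀, hm₀, ht₀⟩ := hcon
    obtain ⟨⟨b, z⟩, ⟨⟨hb, hz⟩, hm, htl⟩, hmin⟩ := hBc.exists_isMinOn (f := fun q => ‖q.1‖)
      ⟨(b₀, z₀), ⟨by simpa using hb₀, abs_le.1 hz₀⟩, hm₀, ht₀.le⟩ (by fun_prop)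
    have hb' : ‖b‖ ≤ 1 / 100 := by simpa using hb
    have hz' : |z| ≤ 1 / 8 := abs_le.2 hz
    have hm' : x + J b + z • e ∈ M t := hm
    have htl' : ⟪nu (M t) (x + J b + z • e), e⟫ ^ 2 ≤ 1 / 4 := htl
    have hzb := hgt b z hz' hm'
    set y := x + J b + z • e with hy
    set n := nu (M t) y with hn
    have hn1 : ‖n‖ = 1 := hS.norm_nu hm'
    have hb0 : 0 < ‖b‖ := by
      rcases (norm_nonneg b).eq_or_lt with h | h
      · exfalso
        have hb0 : b = 0 := norm_eq_zero.1 h.symm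
        have hz0 : z = 0 := by
          rw [← h] at hzb
          exact abs_nonpos_iff.1 (by simpa using hzb)
        have : y = x := by simp [hy, hb0, hz0]
        rw [hn, this, ← hedef, real_inner_self_eq_norm_sq, he] at htl'
        norm_num at htl'
      · exact h
    obtain ⟨a₁, ha₁⟩ := hJ' n
    have hna : ‖a₁‖ ^ 2 = 1 - ⟪n, e⟫ ^ 2 := by
      rw [← J.norm_map, ha₁, norm_pt_sq he, hn1, real_inner_comm]; ring
    have hna1 : ‖a₁‖ ≤ 1 := by rw [← J.norm_map, ha₁, ← hn1]; exact norm_pt_le he n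
    set a : P2 := (‖b‖ / 2) • a₁ with ha
    have hal : ‖a‖ ≤ ‖b‖ / 2 := by
      rw [ha, norm_smul, Real.norm_eq_abs, abs_of_pos (by positivity)]
      nlinarith
    obtain ⟨z₁, hz₁, hm₁⟩ := disc a (by linarith) fun b' z' hb'' hz'' hm'' => by
      by_contra hlt
      push Not at hlt
      have := hmin (a := (b', z')) ⟨⟨by simpa using hb''.trans (by linarith), abs_le.1 hz''⟩,
        hm'', hlt.le⟩
      simp only [mem_ofPred_eq] at this
      linarith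
    have hT := hTP y hm' (hnear b z hb' hz')
    have h1 := hT x hx
    have h2 := hT _ hm₁
    have e1 : x - y = J (-b) + (-z) • e := by simp [hy]; abel
    have e2 : x + J a + z₁ • e - y = J (a - b) + (z₁ - z) • e := by
      simp only [hy, map_sub, sub_smul]; abel
    have e3 : x + J a + z₁ • e - y = (x - y) + (J a + z₁ • e) := by abel
    have e4 : ⟪J a, n⟫ = ‖b‖ / 2 * (1 - ⟪n, e⟫ ^ 2) := by
      rw [ha, map_smul, real_inner_smul_left, ha₁, pt_apply, inner_sub_left, real_inner_smul_left,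
        real_inner_self_eq_norm_sq, hn1, real_inner_comm n e]
      ring
    rw [← hn] at h1 h2
    have h3 : |⟪J a + z₁ • e, n⟫| ≤ 2 * ‖x - y‖ ^ 2 + 2 * ‖x + J a + z₁ • e - y‖ ^ 2 := by
      have : ⟪J a + z₁ • e, n⟫ = ⟪x + J a + z₁ • e - y, n⟫ - ⟪x - y, n⟫ := by
        rw [e3, inner_add_left (x - y)]; ring
      rw [this]
      linarith [abs_sub ⟪x + J a + z₁ • e - y, n⟫ ⟪x - y, n⟫]
    rw [e2, e1, norm_sq_add he hJ, norm_sq_add he hJ, inner_add_left, e4, real_inner_smul_left,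
      norm_neg] at h3
    rw [real_inner_comm n e] at h3
    exact tilt_arith hb0 hb' hzb hz₁ (norm_nonneg a) hal htl' (norm_nonneg (a - b))
      (by linarith [norm_sub_le a b]) h3
  obtain ⟨a, ha⟩ := hJ' v
  rw [pt_of_orth hv] at ha
  have hav : ‖a‖ = ‖v‖ := by rw [← ha, J.norm_map]
  obtain ⟨z, hz, hm⟩ := disc a (by linarith) fun b z hb => main b z (by linarith)
  exact ⟨z, by rwa [← hav], by rwa [← ha]⟩

end Vale.Agent.P218FT.W
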