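import Vale.Agent.P218FT.Spec2

/-! The bad point lemma, from its scale-free core. -/

open MeasureTheory Set Filter Topology Metric
open scoped ENNReal NNReal RealInnerProductSpace ContDiff

namespace Vale.Agent.P218FT

/-- the scaling rules used in the bad point lemma -/
def BadScale : Prop :=
  ∀ (D : ℝ) (M : ℝ → Set E3) (I : Set ℝ), IsMCF M I → (∀ t ∈ I, AreaRatio D (M t)) →
    ∀ (ρ : ℝ) (x : E3) (t : ℝ), 0 < ρ → t ∈ I → x ∈ M t → ∃ (M' : ℝ → Set E3),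
      IsMCF M' {s | t + ρ ^ 2 * s ∈ I} ∧ (∀ s, t + ρ ^ 2 * s ∈ I → AreaRatio D (M' s)) ∧
      (0 : E3) ∈ M' 0 ∧ (∀ r, 0 < r → dens M' 0 0 r = dens M x t (ρ * r)) ∧
      (∀ s, Bad (M t) x s → Bad (M' 0) 0 (s / ρ)) ∧
      (∀ Γ : ℝ, 1 ≤ Γ → Icc (t - (Γ * ρ) ^ 2) t ⊆ I →
        potA M' 0 0 Γ (-Γ ^ 2) (-1) = potA M x t (Γ * ρ) (t - (Γ * ρ) ^ 2) (t - ρ ^ 2) ∧
        ENNReal.ofReal (ρ ^ 2) * diss M' 0 0 Γ (-Γ ^ 2) 0 =
          diss M 0 x (Γ * ρ) (t - (Γ * ρ) ^ 2) t)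

theorem whiteAt_mono {D ε ε' r C : ℝ} (h : WhiteAt D ε r C) (hε : ε' ≤ ε) : WhiteAt D ε' r C := by
  intro M I hM hD x₀ t₀ hI hd
  exact h M I hM hD x₀ t₀ hI fun y hy t ht => (hd y hy t ht).trans (by linarith)

theorem bad_of_scale (hsc : BadScale) (hC : BadCoreStmt) (hA : AIStmt) (hW : WhiteStmt)
    (hD : DensStmt) : BadStmt := by
  intro D L
  obtain ⟨ε₀, r, C, hε₀, hr, hCpos, hWh⟩ := hW D
  set ε : ℝ := min ε₀ 1 with hεdef
  have hε : 0 < ε := lt_min hε₀ one_pos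
  have hε1 : ε ≤ 1 := min_le_right _ _
  obtain ⟨σ, R, η, hσ, hR, hη, hcore⟩ :=
    hC D ε r C hε hε1 hr hCpos (whiteAt_mono hWh (min_le_left _ _))
  obtain ⟨Γ, c, hΓ, hc, hAI⟩ := hA D L R η hR hη
  refine ⟨Γ, c, by linarith, hc, ?_⟩
  intro M I hM hAR t x s hx hbad hI
  have hs : 0 < s := by
    obtain ⟨-, y, -, hyx, hys, -⟩ := hbad
    rw [← hys]
    exact norm_pos_iff.2 (sub_ne_zero.2 hyx)
  have hσ0 : 0 < σ := by linarith
  have htI : t ∈ I := hI ⟨by nlinarith [sq_nonneg (Γ * s)], le_rfl⟩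
  set ρ : ℕ → ℝ := fun k => s / σ * (1 / 2) ^ k with hρdef
  have hρpos : ∀ k, 0 < ρ k := fun k => by simp only [hρdef]; positivity
  have hρlim : Tendsto ρ atTop (𝓝[>] 0) := by
    refine tendsto_nhdsWithin_iff.2 ⟨?_, Eventually.of_forall hρpos⟩
    have h := (tendsto_pow_atTop_nhds_zero_of_lt_one (r := (1 / 2 : ℝ)) (by norm_num)
      (by norm_num)).const_mul (s / σ)
    simpa [hρdef] using h
  have hex : ∃ k, dens M x t (ρ k) ≤ 1 + ε / 2 := by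
    have h := ((hD D M I hM hAR t htI x hx).comp hρlim).eventually
      (ge_mem_nhds (show (1 : ℝ) < 1 + ε / 2 by linarith))
    exact h.exists
  classical
  set k := Nat.find hex with hk
  have hk1 : dens M x t (ρ k) ≤ 1 + ε / 2 := Nat.find_spec hex
  have hpow : (1 / 2 : ℝ) ^ k ≤ 1 := pow_le_one₀ (by norm_num) (by norm_num)
  have hρσ : ρ k * σ ≤ s := by
    have : ρ k * σ = s * (1 / 2) ^ k := by simp only [hρdef]; field_simp
    rw [this]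
    nlinarith
  have hρs : ρ k ≤ s := by nlinarith [hρpos k]
  refine ⟨ρ k, hρpos k, hρs, ?_⟩
  by_contra hcon
  rw [not_or, not_le, not_le] at hcon
  obtain ⟨hpot, hdis⟩ := hcon
  obtain ⟨M', hM', hAR', h0, hdens, hbad', hint⟩ := hsc D M I hM hAR (ρ k) x t (hρpos k) htI hx
  have hΓ0 : 0 < Γ := by linarith
  have hsq : (Γ * ρ k) ^ 2 ≤ (Γ * s) ^ 2 :=
    pow_le_pow_left₀ (mul_pos hΓ0 (hρpos k)).le (mul_le_mul_of_nonneg_left hρs hΓ0.le) 2
  have hI' : Icc (t - (Γ * ρ k) ^ 2) t ⊆ I := fun u hu => hI ⟨by linarith [hu.1], hu.2⟩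
  obtain ⟨hp, hd⟩ := hint Γ (by linarith) hI'
  have hρ2 : 0 < ρ k ^ 2 := pow_pos (hρpos k) 2
  have hsub : Icc (-Γ ^ 2) 0 ⊆ {u | t + ρ k ^ 2 * u ∈ I} := by
    intro u hu
    refine hI' ⟨?_, ?_⟩
    · have := mul_le_mul_of_nonneg_left hu.1 hρ2.le
      nlinarith
    · have := mul_nonpos_of_nonneg_of_nonpos hρ2.le hu.2
      linarith
  have hd' : diss M' 0 0 Γ (-Γ ^ 2) 0 ≤ ENNReal.ofReal (c * Γ ^ 2) := by
    rw [← hd] at hdis
    have he : ENNReal.ofReal (c * (Γ * ρ k) ^ 2) =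
        ENNReal.ofReal (ρ k ^ 2) * ENNReal.ofReal (c * Γ ^ 2) := by
      rw [← ENNReal.ofReal_mul hρ2.le]
      congr 1
      ring
    rw [he] at hdis
    exact (lt_of_mul_lt_mul_left' hdis).le
  obtain ⟨e, he, hAIe⟩ := hAI M' _ hM' hAR' hsub (hp ▸ hpot.le) hd'
  refine hcore M' _ hM' hAR' (fun u hu => hsub ⟨by nlinarith [hu.1], hu.2⟩) h0 e (s / ρ k) he hAIe
    (hbad' s hbad) ?_ ?_ ?_
  · rw [le_div_iff₀ (hρpos k)]
    linarith
  · rw [hdens 1 one_pos, mul_one]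
    exact hk1
  · rcases Nat.eq_zero_or_pos k with h | h
    · left
      simp only [hρdef, h, pow_zero, mul_one]
      field_simp
    · right
      rw [hdens 2 two_pos]
      have hlt : k - 1 < Nat.find hex := by omega
      have hmin := Nat.find_min hex hlt
      have heq : ρ k * 2 = ρ (k - 1) := by
        obtain ⟨j, hj⟩ : ∃ j, k = j + 1 := ⟨k - 1, by omega⟩
        simp only [hρdef, hj, Nat.add_sub_cancel, pow_succ]
        ring
      rw [heq]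
      exact not_le.1 hmin

end Vale.Agent.P218FT
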