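import Vale.Agent.P218FT.ProjInt
import Vale.Agent.P218FT.Local

/-! There is no bad point in an approximately invariant flow. -/

open MeasureTheory Set Filter Topology Metric
open scoped ENNReal NNReal RealInnerProductSpace ContDiff

namespace Vale.Agent.P218FT.BC

/-- the time slices of a flow are surfaces -/
theorem isSurf_of_mcf {M : ℝ → Set E3} {I : Set ℝ} (h : IsMCF M I) {t : ℝ} (ht : t ∈ I) :
    IsSurf (M t) := by
  have hc : ∀ x : E3, Tendsto (fun y : E3 => ((t, y) : ℝ × E3)) (𝓝 x) (𝓝 (t, x)) := fun x =>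
    (Continuous.prodMk_right t).tendsto x
  refine ⟨?_, fun x hx => ?_⟩
  · rw [← isOpen_compl_iff, isOpen_iff_eventually]
    intro x hx
    exact (hc x).eventually (h.closed t ht x hx)
  · obtain ⟨w, hw, hg, he, -⟩ := h.loc t ht x hx
    exact ⟨fun y => w (t, y), hw.comp (contDiff_const.prodMk contDiff_id), hg, (hc x).eventually he⟩

/-- the tails of Gaussian areas are uniformly small -/
theorem exists_tail (D : ℝ) {τ : ℝ} (hτ : 0 < τ) :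
    ∃ ρ : ℝ, 0 < ρ ∧ ∀ N : Set E3, AreaRatio D N → ∀ (y : E3) (r : ℝ), 0 < r →
      ∫ x in (ball y (ρ * r))ᶜ, gk (r ^ 2) (x - y) ∂(area N) ≤ τ := by
  obtain ⟨C₀, -, h⟩ := gauss_proof
  obtain ⟨ρ, hρ, h⟩ := (h (max D 0) (le_max_right _ _)).2 τ hτ
  exact ⟨ρ, hρ, fun N hN => h N (hN.mono (le_max_left _ _))⟩

theorem ai_mono {M : ℝ → Set E3} {e : E3} {R η η' : ℝ} (h : AI M e R η) (hη : η ≤ η') :
    AI M e R η' := fun ζ p K hp hζ t ht b hb hbR =>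
  (h ζ p K hp hζ t ht b hb hbR).trans (mul_le_mul_of_nonneg_right hη hζ.nonneg)

/-- approximate invariance for translates of a test function centred at the origin -/
theorem ai_apply {M : ℝ → Set E3} {e : E3} {R η : ℝ} (h : AI M e R η) {ζ : E3 → ℝ} {ρ K : ℝ}
    (hζ : Test ζ 0 ρ K) (hρ : ρ ≤ R) {z : E3} (hz : ‖z‖ ≤ R) {t : ℝ} (ht : t ∈ Icc (-5 : ℝ) 0)
    {b : E3} (hb : ⟪b, e⟫ = 0) (hbR : ‖b‖ ≤ R) :
    |∫ x, ζ (x - (z + b)) ∂(area (M t)) - ∫ x, ζ (x - z) ∂(area (M 0))| ≤ η * K := by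
  have h1 : Test (fun x => ζ (x - z)) z R K :=
    (hζ.translate z).mono (by simpa using hρ) le_rfl
  have h2 := h _ z K hz h1 t ht b hb hbR
  have h3 : ∀ x : E3, x - b - z = x - (z + b) := fun x => by abel
  simpa only [h3] using h2

/-- translates of points of `N` in directions orthogonal to `e` are close to `N` -/
def Near (N : Set E3) (e : E3) (R δ : ℝ) : Prop :=
  ∀ z ∈ N, ‖z‖ ≤ R → ∀ b : E3, ⟪b, e⟫ = 0 → ‖b‖ ≤ R → ∃ y ∈ N, ‖y - (z + b)‖ ≤ δ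

theorem near_of_ai (hH : HuiskenStmt) (hD : DensStmt) (D : ℝ) {δ : ℝ} (hδ : 0 < δ) :
    ∃ η : ℝ, 0 < η ∧ ∀ (M : ℝ → Set E3) (I : Set ℝ), IsMCF M I → (∀ t ∈ I, AreaRatio D (M t)) →
      Icc (-5 : ℝ) 0 ⊆ I → ∀ (e : E3) (R : ℝ), δ ≤ R → AI M e R η → Near (M 0) e R δ := by
  obtain ⟨ρ, hρ, htail⟩ := exists_tail D (τ := 1 / 4) (by norm_num)
  set r : ℝ := min 1 (δ / (2 * ρ)) with hr
  have hr0 : 0 < r := lt_min one_pos (by positivity)
  have hr1 : r ≤ 1 := min_le_left _ _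
  have hrδ : 2 * (ρ * r) ≤ δ := by
    have : r ≤ δ / (2 * ρ) := min_le_right _ _
    rw [le_div_iff₀ (by positivity)] at this
    linarith
  obtain ⟨ζ, K, hK, hζ, h0, -, h1⟩ :=
    PI.exists_cutoff (σ := r ^ 2) (ρ := ρ * r) (by positivity) (by positivity)
  refine ⟨1 / (4 * K), by positivity, fun M I hM hA hI e R hR hAI z hz hzR b hb hbR => ?_⟩
  have hηK : 1 / (4 * K) * K = 1 / 4 := by field_simp
  have hr2 : r ^ 2 ≤ 1 := by nlinarith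
  have hmem : (0 - r ^ 2) ∈ Icc (-5 : ℝ) 0 := ⟨by linarith, by nlinarith⟩
  have hd := PI.one_le_dens hH hD hM hA (t := 0) hr0
    (fun s hs => hI ⟨by linarith [hs.1], hs.2⟩) hz
  have hg := PI.gA_le_cutoff (hA _ (hI hmem)) hr0 hζ h0 h1 z (htail _ (hA _ (hI hmem)) z r hr0)
  have hR0 : (0 : ℝ) ≤ R := hδ.le.trans hR
  have a1 := ai_apply hAI hζ (hrδ.trans hR) hzR hmem (b := 0) (by simp) (by simpa using hR0)
  have a2 := ai_apply hAI hζ (hrδ.trans hR) hzR (t := 0) ⟨by norm_num, le_rfl⟩ hb hbR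
  rw [hηK, add_zero] at a1
  rw [hηK] at a2
  by_contra hcon
  push Not at hcon
  have hzero : ∫ x, ζ (x - (z + b)) ∂(area (M 0)) = 0 := by
    refine setIntegral_eq_zero_of_forall_eq_zero fun x hx => hζ.supp _ ?_
    rw [sub_zero]
    exact hrδ.trans (hcon x hx).le
  unfold dens at hd
  have := abs_le.mp a1
  have := abs_le.mp a2
  linarith [(abs_le.mp a1).2, (abs_le.mp a2).1]

/-- a bound for the tilt of `ν` from `e` -/
theorem tilt_le {e ν : E3} (he : ‖e‖ = 1) {β γ : ℝ} (hβ : 0 < β) (hγ : 0 ≤ γ)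
    (h : ∀ b : E3, ⟪b, e⟫ = 0 → ‖b‖ = β → |⟪b, ν⟫| ≤ β * γ) : ‖pt e ν‖ ≤ γ := by
  rcases eq_or_lt_of_le (norm_nonneg (pt e ν)) with h0 | h0
  · rw [← h0]; exact hγ
  have h1 := h ((β / ‖pt e ν‖) • pt e ν) (by rw [real_inner_smul_left, PI.inner_pt he, mul_zero])
    (by rw [norm_smul, Real.norm_eq_abs, abs_of_pos (by positivity)]; field_simp)
  rw [real_inner_smul_left, PI.inner_pt_self he, abs_of_pos (by positivity)] at h1
  have h2 : β / ‖pt e ν‖ * ‖pt e ν‖ ^ 2 = β * ‖pt e ν‖ := by field_simp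
  rw [h2] at h1
  exact le_of_mul_le_mul_left h1 hβ

theorem abs_inner_ge {e ν : E3} (he : ‖e‖ = 1) (hν : ‖ν‖ = 1) {γ c : ℝ}
    (h : ‖pt e ν‖ ≤ γ) (hc : c ^ 2 + γ ^ 2 ≤ 1) : c ≤ |⟪ν, e⟫| := by
  have h1 := PI.norm_pt_sq he ν
  rw [hν] at h1
  have h2 : ‖pt e ν‖ ^ 2 ≤ γ ^ 2 := by have := norm_nonneg (pt e ν); gcongr
  exact le_trans (le_abs_self c) (sq_le_sq.mp (by linarith))

/-- `⟨y, ν⟩` is `⟨y, e⟩ ⟨ν, e⟩` up to the tilt -/
theorem inner_split (e y ν : E3) :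
    |⟪y, ν⟫ - ⟪y, e⟫ * ⟪ν, e⟫| ≤ ‖y‖ * ‖pt e ν‖ := by
  have h1 : ⟪y, ν⟫ - ⟪y, e⟫ * ⟪ν, e⟫ = ⟪y, pt e ν⟫ := by
    rw [PI.pt_apply, inner_sub_right, real_inner_smul_right, real_inner_comm e ν]
    ring
  rw [h1]
  exact abs_real_inner_le_norm _ _

/-- a point closer than the separation is outside the cone -/
theorem not_cone {N : Set E3} {s : ℝ} (h : SepGE N 0 s) {y : E3} (hy : y ∈ N) (hs : ‖y‖ < s) :
    |⟪y, nu N 0⟫| ≤ ‖y‖ / 2 := by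
  by_cases h0 : y = 0
  · simp [h0]
  by_contra hc
  push Not at hc
  have := h y ⟨hy, h0, by simpa using hc.le⟩
  rw [sub_zero] at this
  linarith

/-- the heights of the points of `N` are small or almost at least `s` -/
theorem height {N : Set E3} (hN : IsSurf N) (h0 : (0 : E3) ∈ N) {e : E3} (he : ‖e‖ = 1)
    {R δ s : ℝ} (hδ : 0 < δ) (hδ1 : δ ≤ 1 / 100) (hR : 1 ≤ R) (hs : 1 ≤ s) (hn : Near N e R δ)
    (hsep : SepGE N 0 s) {z : E3} (hz : z ∈ N) (hzR : ‖z‖ ≤ R) :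
    |⟪z, e⟫| ≤ 5 * δ ∨ s - δ ≤ |⟪z, e⟫| := by
  have hν := hN.norm_nu h0
  have ht : ‖pt e (nu N 0)‖ ≤ 53 / 100 := by
    refine tilt_le he (β := 1 / 2) (by norm_num) (by norm_num) fun b hb hb2 => ?_
    obtain ⟨y, hy, hyb⟩ := hn 0 h0 (by simp; linarith) b hb (by linarith)
    rw [zero_add] at hyb
    have hy1 : ‖y‖ ≤ 1 / 2 + δ := by
      calc ‖y‖ = ‖b + (y - b)‖ := by congr 1; abel
        _ ≤ ‖b‖ + ‖y - b‖ := norm_add_le _ _
        _ ≤ _ := by linarith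
    have h1 := not_cone hsep hy (by linarith)
    have h2 : ⟪b, nu N 0⟫ = ⟪y, nu N 0⟫ - ⟪y - b, nu N 0⟫ := by rw [inner_sub_left]; ring
    have h3 := abs_real_inner_le_norm (y - b) (nu N 0)
    rw [hν, mul_one] at h3
    rw [h2]
    refine (abs_sub _ _).trans ?_
    linarith
  have hc : 84 / 100 ≤ |⟪nu N 0, e⟫| := abs_inner_ge he hν ht (by norm_num)
  obtain ⟨y, hy, hyb⟩ := hn z hz hzR (-pt e z) (by rw [inner_neg_left, PI.inner_pt he, neg_zero])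
    (by rw [norm_neg]; exact (PI.norm_pt_le he z).trans hzR)
  have hz2 : z + -pt e z = ⟪z, e⟫ • e := by
    have := PI.pt_add_smul e z
    rw [← sub_eq_add_neg, sub_eq_iff_eq_add, add_comm]
    exact this.symm
  rw [hz2] at hyb
  set a := ⟪z, e⟫ with ha
  have hna : ‖a • e‖ = |a| := by rw [norm_smul, he, mul_one, Real.norm_eq_abs]
  have hy1 : ‖y‖ ≤ |a| + δ := by
    calc ‖y‖ = ‖a • e + (y - a • e)‖ := by congr 1; abel
      _ ≤ ‖a • e‖ + ‖y - a • e‖ := norm_add_le _ _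
      _ ≤ _ := by linarith
  rcases lt_or_ge ‖y‖ s with hys | hys
  · left
    have h1 := not_cone hsep hy hys
    have h2 : a * ⟪nu N 0, e⟫ = ⟪y, nu N 0⟫ - ⟪y - a • e, nu N 0⟫ := by
      rw [inner_sub_left, real_inner_smul_left, real_inner_comm]; ring
    have h3 := abs_real_inner_le_norm (y - a • e) (nu N 0)
    rw [hν, mul_one] at h3
    have h4 : |a| * |⟪nu N 0, e⟫| ≤ ‖y‖ / 2 + δ := by
      rw [← abs_mul, h2]
      refine (abs_sub _ _).trans ?_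
      linarith
    nlinarith [abs_nonneg a]
  · right
    linarith

/-- the Gaussian centred at a point of the axis is almost bounded by the Gaussian centred at the
origin, at points of small height -/
theorem gk_shift {e : E3} (he : ‖e‖ = 1) (a : ℝ) {x : E3} {h : ℝ} (hh : h ≤ 1)
    (hx : |⟪x, e⟫| ≤ h) : gk 1 (x - a • e) ≤ (1 + h ^ 2 / 2) * gk 1 x := by
  have h0 : 0 ≤ h := (abs_nonneg _).trans hx
  have h1 : ‖x‖ ^ 2 - h ^ 2 ≤ ‖x - a • e‖ ^ 2 := by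
    rw [norm_sub_sq_real, real_inner_smul_right, norm_smul, he, mul_one, Real.norm_eq_abs, sq_abs]
    have : ⟪x, e⟫ ^ 2 ≤ h ^ 2 := by
      rw [← sq_abs]; have := abs_nonneg ⟪x, e⟫; gcongr
    nlinarith [sq_nonneg (a - ⟪x, e⟫)]
  have h2 : Real.exp (h ^ 2 / 4) ≤ 1 + h ^ 2 / 2 := by
    have h3 : h ^ 2 ≤ 1 := by nlinarith
    have h4 := Real.add_one_le_exp (-(h ^ 2 / 4))
    have h5 : Real.exp (h ^ 2 / 4) * Real.exp (-(h ^ 2 / 4)) = 1 := by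
      rw [← Real.exp_add]; simp
    have h6 := Real.exp_pos (h ^ 2 / 4)
    nlinarith [sq_nonneg h]
  unfold gk
  have hpi := Real.pi_pos
  have h7 : Real.exp (-‖x - a • e‖ ^ 2 / (4 * 1)) ≤
      (1 + h ^ 2 / 2) * Real.exp (-‖x‖ ^ 2 / (4 * 1)) := by
    calc Real.exp (-‖x - a • e‖ ^ 2 / (4 * 1))
        ≤ Real.exp (h ^ 2 / 4 + -‖x‖ ^ 2 / (4 * 1)) := Real.exp_le_exp.mpr (by linarith)
      _ = Real.exp (h ^ 2 / 4) * Real.exp (-‖x‖ ^ 2 / (4 * 1)) := Real.exp_add _ _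
      _ ≤ _ := by gcongr
  calc (4 * Real.pi * 1)⁻¹ * Real.exp (-‖x - a • e‖ ^ 2 / (4 * 1))
      ≤ (4 * Real.pi * 1)⁻¹ * ((1 + h ^ 2 / 2) * Real.exp (-‖x‖ ^ 2 / (4 * 1))) := by gcongr
    _ = _ := by ring

theorem ae_mem_area {N : Set E3} (hN : IsSurf N) : ∀ᵐ x ∂(area N), x ∈ N :=
  ae_restrict_mem hN.1.measurableSet

theorem abs_inner_le {e : E3} (he : ‖e‖ = 1) (x : E3) : |⟪x, e⟫| ≤ ‖x‖ := by
  simpa [he] using abs_real_inner_le_norm x e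

theorem norm_le_add (x y : E3) : ‖y‖ ≤ ‖x‖ + ‖y - x‖ := by
  calc ‖y‖ = ‖x + (y - x)‖ := by congr 1; abel
    _ ≤ _ := norm_add_le _ _

/-- comparison of Gaussian areas at two times and two centres -/
theorem gA_le_int {D : ℝ} {M : ℝ → Set E3} {e : E3} {R η : ℝ} (hAI : AI M e R η) {ζ : E3 → ℝ}
    {r ρ ρ' K τ : ℝ} (hr : 0 < r) (hζ : Test ζ 0 ρ' K) (hρ : ρ' ≤ R) (h0 : ∀ x, 0 ≤ ζ x)
    (h1 : ∀ x ∈ ball (0 : E3) ρ, ζ x = gk (r ^ 2) x) {z : E3} (hz : ‖z‖ ≤ R) {t : ℝ}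
    (ht : t ∈ Icc (-5 : ℝ) 0) (hA : AreaRatio D (M t)) {b : E3} (hb : ⟪b, e⟫ = 0) (hbR : ‖b‖ ≤ R)
    (htail : ∫ x in (ball (z + b) ρ)ᶜ, gk (r ^ 2) (x - (z + b)) ∂(area (M t)) ≤ τ) :
    gA (M t) (z + b) r ≤ ∫ x, ζ (x - z) ∂(area (M 0)) + η * K + τ := by
  have a1 := PI.gA_le_cutoff hA hr hζ h0 h1 (z + b) htail
  have a2 := (abs_le.mp (ai_apply hAI hζ hρ hz ht hb hbR)).2
  linarith

theorem int_le_gA {D : ℝ} {M : ℝ → Set E3} {e : E3} {R η : ℝ} (hAI : AI M e R η) {ζ : E3 → ℝ}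
    {r ρ' K : ℝ} (hr : 0 < r) (hζ : Test ζ 0 ρ' K) (hρ : ρ' ≤ R) (hR : 0 ≤ R)
    (h1 : ∀ x, ζ x ≤ gk (r ^ 2) x) {t : ℝ} (ht : t ∈ Icc (-5 : ℝ) 0) (hA : AreaRatio D (M t)) :
    ∫ x, ζ (x - 0) ∂(area (M 0)) ≤ gA (M t) 0 r + η * K := by
  have a1 := PI.cutoff_le_gA hA hr hζ h1 (0 + 0)
  have a2 := (abs_le.mp (ai_apply hAI hζ hρ (z := 0) (by simpa using hR) ht (b := 0) (by simp)
    (by simpa using hR))).1
  have a3 : gA (M t) (0 + 0) r = gA (M t) 0 r := by rw [add_zero]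
  linarith

/-- the cut-off Gaussian centred at a point of the axis -/
theorem int_shift_le {D : ℝ} {N : Set E3} (hS : IsSurf N) (hA : AreaRatio D N) {e : E3}
    (he : ‖e‖ = 1) {ζ : E3 → ℝ} {ρ K h : ℝ} (hζ : Test ζ 0 ρ K) (h1 : ∀ x, ζ x ≤ gk (1 ^ 2) x)
    (hh : h ≤ 1) {a : ℝ} (ha : |a| ≤ 4) (hlow : ∀ z ∈ N, ‖z‖ ≤ ρ + 4 → |⟪z, e⟫| ≤ h) :
    ∫ x, ζ (x - a • e) ∂(area N) ≤ (1 + h ^ 2 / 2) * gA N 0 1 := by
  have hna : ‖a • e‖ ≤ 4 := by rwa [norm_smul, he, mul_one, Real.norm_eq_abs]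
  unfold gA
  rw [← integral_const_mul]
  refine integral_mono_ae ((hζ.translate _).integrable hA)
    ((integrable_gk hA 0 (by norm_num)).const_mul _) ?_
  filter_upwards [ae_mem_area hS] with x hx
  rcases le_or_gt ρ ‖x - a • e - 0‖ with hc | hc
  · rw [hζ.supp _ hc]
    have := gk_pos (σ := 1 ^ 2) (by norm_num) (x - 0)
    positivity
  · rw [sub_zero] at hc
    have hx1 : ‖x‖ ≤ ρ + 4 := by linarith [norm_le_add (a • e) x]
    have h2 := gk_shift he a hh (hlow x hx hx1)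
    have h3 := h1 (x - a • e)
    rw [one_pow] at h3
    rw [sub_zero, one_pow]
    exact h3.trans h2

/-- the tilt at a point with a two-point curvature bound -/
theorem tilt_of_twoPt {N : Set E3} (hS : IsSurf N) {e : E3} (he : ‖e‖ = 1) {R δ β γ r C : ℝ}
    (hn : Near N e R δ) (hβ : 0 < β) (hγ : 0 ≤ γ) (hC : 0 < C) (hβR : β ≤ R) (hβr : 2 * β ≤ r)
    (hδβ : δ ≤ β) (hδ : δ ≤ β * γ / 2) (hβC : C * β ≤ γ / 8) {x : E3} (hx : x ∈ N) (hxR : ‖x‖ ≤ R)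
    (htp : TwoPt N x r C) : ‖pt e (nu N x)‖ ≤ γ := by
  have hν := hS.norm_nu hx
  refine tilt_le he hβ hγ fun b hb hbβ => ?_
  obtain ⟨y, hy, hyb⟩ := hn x hx hxR b hb (by linarith)
  have hy1 : ‖y - x‖ ≤ 2 * β := by
    have := norm_le_add b (y - x)
    rw [show y - x - b = y - (x + b) by abel] at this
    linarith
  have h1 := htp y hy (by linarith)
  have h2 : ⟪b, nu N x⟫ = ⟪y - x, nu N x⟫ - ⟪y - (x + b), nu N x⟫ := by
    rw [← inner_sub_left]; congr 1; abel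
  have h3 := abs_real_inner_le_norm (y - (x + b)) (nu N x)
  rw [hν, mul_one] at h3
  have h4 : C * ‖y - x‖ ^ 2 ≤ C * (2 * β) ^ 2 := by
    have := norm_nonneg (y - x)
    gcongr
  have h5 : C * (2 * β) ^ 2 ≤ β * γ / 2 := by nlinarith
  rw [h2]
  refine (abs_sub _ _).trans ?_
  linarith

/-- a point on the boundary of the cone has an intermediate height -/
theorem not_boundary {e ν y : E3} (he : ‖e‖ = 1) (hν : ‖ν‖ = 1) (ht : ‖pt e ν‖ ≤ 1 / 10)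
    {s : ℝ} (hs : 6 ≤ s) (hys : ‖y‖ = s) (hyc : |⟪y, ν⟫| = s / 2)
    (h : |⟪y, e⟫| ≤ 1 ∨ s - 1 ≤ |⟪y, e⟫|) : False := by
  have h1 := inner_split e y ν
  have h3 : 9 / 10 ≤ |⟪ν, e⟫| := abs_inner_ge he hν ht (by norm_num)
  have h4 := abs_inner_le he ν
  rw [hν] at h4
  have h5 : ‖y‖ * ‖pt e ν‖ ≤ s / 10 := by rw [hys]; nlinarith
  have h6 := abs_sub_abs_le_abs_sub ⟪y, ν⟫ (⟪y, e⟫ * ⟪ν, e⟫)
  have h7 := abs_sub_abs_le_abs_sub (⟪y, e⟫ * ⟪ν, e⟫) ⟪y, ν⟫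
  rw [abs_sub_comm] at h7
  rw [abs_mul, hyc] at h6 h7
  have h8 := abs_nonneg ⟪y, e⟫
  rcases h with h | h
  · nlinarith
  · nlinarith

/-- a thin piece of surface with a two-point curvature bound projects injectively -/
theorem injOn_pt {N S : Set E3} (hS : S ⊆ N) {e : E3} (he : ‖e‖ = 1) {h r C : ℝ} (hC : 0 < C)
    (hr : 2 * h ≤ r) (hCh : C * h ≤ 1 / 4) (hlow : ∀ x ∈ S, |⟪x, e⟫| ≤ h)
    (htp : ∀ x ∈ S, TwoPt N x r C) (hcos : ∀ x ∈ S, 9 / 10 ≤ |⟪nu N x, e⟫|) : InjOn (pt e) S := by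
  intro x hx y hy hxy
  have e1 : y - x = (⟪y, e⟫ - ⟪x, e⟫) • e := by
    have a1 := PI.pt_add_smul e x
    have a2 := PI.pt_add_smul e y
    rw [← hxy] at a2
    rw [sub_smul]
    calc y - x = (pt e x + ⟪y, e⟫ • e) - (pt e x + ⟪x, e⟫ • e) := by rw [a1, a2]
      _ = _ := by abel
  have ha1 : |⟪y, e⟫ - ⟪x, e⟫| ≤ 2 * h := by
    refine (abs_sub _ _).trans ?_
    linarith [hlow x hx, hlow y hy]
  generalize ⟪y, e⟫ - ⟪x, e⟫ = a at e1 ha1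
  have hn1 : ‖y - x‖ = |a| := by rw [e1, norm_smul, he, mul_one, Real.norm_eq_abs]
  have h3 := htp x hx y (hS hy) (by linarith)
  rw [hn1, e1, real_inner_smul_left, abs_mul, real_inner_comm] at h3
  have h4 := hcos x hx
  have h5 : C * |a| ≤ 1 / 2 := by nlinarith [abs_nonneg a]
  have h6 : |a| = 0 := by
    by_contra h7
    have h8 : 0 < |a| := lt_of_le_of_ne (abs_nonneg a) (Ne.symm h7)
    nlinarith
  rw [h6, norm_eq_zero, sub_eq_zero] at hn1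
  exact hn1.symm

/-- the integral of a cut-off Gaussian over one sheet -/
theorem int_sheet_le (hP : ProjStmt) {N : Set E3} (hS : IsSurf N) {e : E3} (he : ‖e‖ = 1)
    {ζ : E3 → ℝ} {ρ K c σ : ℝ} (hσ : 0 < σ) (hc : 0 < c) (hζ : Test ζ 0 ρ K) (h0 : ∀ x, 0 ≤ ζ x)
    (h1 : ∀ x, ζ x ≤ gk σ x) (hcos : ∀ x ∈ N ∩ ball 0 ρ, c ≤ |⟪nu N x, e⟫|)
    (hinj : InjOn (pt e) (N ∩ ball 0 ρ)) : ∫ x, ζ (x - 0) ∂(area N) ≤ c⁻¹ := by
  have hSm : MeasurableSet (N ∩ ball 0 ρ) := hS.1.measurableSet.inter measurableSet_ball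
  have h3 := PI.lintegral_gk_proj_le hP hS he hc inter_subset_left hSm hcos hinj hσ
  simp only [sub_zero]
  rw [integral_eq_lintegral_of_nonneg_ae (Eventually.of_forall h0)
    hζ.continuous.aestronglyMeasurable]
  refine ENNReal.toReal_le_of_le_ofReal (by positivity) (le_trans ?_ h3)
  rw [← lintegral_indicator hSm]
  refine lintegral_mono_ae ?_
  filter_upwards [ae_mem_area hS] with x hx
  by_cases hb : x ∈ ball (0 : E3) ρ
  · rw [indicator_of_mem (mem_inter hx hb)]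
    exact ENNReal.ofReal_le_ofReal ((h1 x).trans (gk_anti hσ (PI.norm_pt_le he x)))
  · rw [mem_ball_zero_iff, not_lt] at hb
    rw [hζ.supp x (by rwa [sub_zero])]
    simp

theorem exists_consts {ε r C : ℝ} (hε : 0 < ε) (hε1 : ε ≤ 1) (hr : 0 < r) (hC : 0 < C) :
    ∃ β δ : ℝ, 0 < β ∧ 0 < δ ∧ 2 * β ≤ r ∧ C * β ≤ ε / 10 / 8 ∧ β ≤ 1 ∧ δ ≤ β / 100 ∧
      δ ≤ β * (ε / 10) / 2 ∧ (5 * δ) ^ 2 ≤ ε / 4 ∧ C * (5 * δ) ≤ 1 / 4 := by
  obtain ⟨β, hβ, hβr, hβC, hβ1⟩ : ∃ β : ℝ, 0 < β ∧ β ≤ r / 2 ∧ C * β ≤ ε / 80 ∧ β ≤ 1 := by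
    refine ⟨min (r / 2) (min (ε / (80 * C)) 1), by positivity, min_le_left _ _, ?_,
      (min_le_right _ _).trans (min_le_right _ _)⟩
    have : min (r / 2) (min (ε / (80 * C)) 1) ≤ ε / (80 * C) :=
      (min_le_right _ _).trans (min_le_left _ _)
    calc C * min (r / 2) (min (ε / (80 * C)) 1) ≤ C * (ε / (80 * C)) := by gcongr
      _ = ε / 80 := by field_simp
  have h1 : β * ε ≤ ε := by nlinarith
  have h2 : 0 < β * ε := by positivity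
  refine ⟨β, β * ε / 100, hβ, by positivity, by linarith, by linarith, hβ1, by nlinarith,
    by nlinarith, by nlinarith, by nlinarith⟩

theorem exists_eta {η₀ K₁ K₂ τ : ℝ} (hη₀ : 0 < η₀) (hK₁ : 0 < K₁) (hK₂ : 0 < K₂) (hτ : 0 < τ) :
    ∃ η : ℝ, 0 < η ∧ η ≤ η₀ ∧ η * K₁ ≤ τ ∧ η * K₂ ≤ τ := by
  refine ⟨min η₀ (min (τ / K₁) (τ / K₂)), by positivity, min_le_left _ _, ?_, ?_⟩
  · rw [← le_div_iff₀ hK₁]
    exact (min_le_right _ _).trans (min_le_left _ _)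
  · rw [← le_div_iff₀ hK₂]
    exact (min_le_right _ _).trans (min_le_right _ _)

theorem badCore (hH : HuiskenStmt) (hD : DensStmt) (hP : ProjStmt) : BadCoreStmt := by
  intro D ε r C hε hε1 hr hC hW
  obtain ⟨ρ, hρ, htail⟩ := exists_tail D (τ := ε / 16) (by positivity)
  obtain ⟨ζ₁, K₁, hK₁, hζ₁, h01, hle1, heq1⟩ :=
    PI.exists_cutoff (σ := 1 ^ 2) (ρ := ρ * 1) (by positivity) (by positivity)
  obtain ⟨ζ₂, K₂, hK₂, hζ₂, h02, hle2, heq2⟩ :=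
    PI.exists_cutoff (σ := 2 ^ 2) (ρ := ρ * 2) (by positivity) (by positivity)
  obtain ⟨β, δ, hβ, hδ, hβr, hβC, hβ1, hδβ, hδγ, hδε, hδC⟩ := exists_consts hε hε1 hr hC
  obtain ⟨η₀, hη₀, hnear⟩ := near_of_ai hH hD D hδ
  obtain ⟨η, hη, hηη, hη1, hη2⟩ := exists_eta hη₀ hK₁ hK₂ (τ := ε / 16) (by positivity)
  refine ⟨4 * ρ + 6, 4 * ρ + 6, η, by linarith, by linarith, hη, ?_⟩
  intro M I hM hA hI h0 e s he hAI hbad hσ hd1 hcase
  have h0I : (0 : ℝ) ∈ I := hI ⟨by norm_num, le_rfl⟩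
  have hS := isSurf_of_mcf hM h0I
  have hA0 := hA 0 h0I
  have hz : ‖(0 : E3)‖ ≤ 4 * ρ := by rw [norm_zero]; linarith
  have hn : Near (M 0) e (4 * ρ + 6) δ :=
    hnear M I hM hA hI e _ (by linarith) (ai_mono hAI hηη)
  have hht : ∀ z ∈ M 0, ‖z‖ ≤ 4 * ρ + 6 → |⟪z, e⟫| ≤ 5 * δ ∨ s - δ ≤ |⟪z, e⟫| :=
    fun z hz hzR => height hS h0 he hδ (by linarith) (by linarith) (by linarith) hn hbad.1 hz hzR
  have hlow : ∀ z ∈ M 0, ‖z‖ ≤ 4 * ρ + 5 → |⟪z, e⟫| ≤ 5 * δ := by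
    intro z hz hzR
    rcases hht z hz (by linarith) with h | h
    · exact h
    · have := abs_inner_le he z
      linarith
  have hg0 : gA (M 0) 0 1 ≤ 1 + 5 * ε / 8 := by
    have h1 := PI.gA_le_cutoff hA0 one_pos hζ₁ h01 heq1 0 (htail _ hA0 0 1 one_pos)
    have hm : (0 - 1 ^ 2 : ℝ) ∈ Icc (-5 : ℝ) 0 := ⟨by norm_num, by norm_num⟩
    have h2 : _ ≤ dens M 0 0 1 + η * K₁ :=
      int_le_gA hAI one_pos hζ₁ (by linarith) (by linarith) hle1 hm (hA _ (hI hm))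
    linarith
  have hdens : ∀ y : E3, ‖y‖ ≤ 4 * ρ + 3 → |⟪y, e⟫| ≤ 4 → ∀ t ∈ Icc (-3 : ℝ) 0,
      dens M y t 1 ≤ 1 + ε := by
    intro y hy hye t ht
    have hm : (t - 1 ^ 2 : ℝ) ∈ Icc (-5 : ℝ) 0 := ⟨by linarith [ht.1], by linarith [ht.2]⟩
    have hna : ‖⟪y, e⟫ • e‖ ≤ 4 := by rwa [norm_smul, he, mul_one, Real.norm_eq_abs]
    have h1 : dens M (⟪y, e⟫ • e + pt e y) t 1 ≤ _ :=
      gA_le_int hAI one_pos hζ₁ (by linarith) h01 heq1 (z := ⟪y, e⟫ • e) (by linarith) hm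
        (hA _ (hI hm)) (PI.inner_pt he y) (by linarith [PI.norm_pt_le he y])
        (htail _ (hA _ (hI hm)) _ 1 one_pos)
    rw [add_comm, PI.pt_add_smul] at h1
    have h3 := int_shift_le hS hA0 he hζ₁ hle1 (h := 5 * δ) (by linarith) hye
      fun z hz hzR => hlow z hz (by linarith)
    have h4 : (1 + (5 * δ) ^ 2 / 2) * gA (M 0) 0 1 ≤ 1 + 7 * ε / 8 := by
      calc _ ≤ (1 + (ε / 4) / 2) * (1 + 5 * ε / 8) := by
            have := PI.gA_nonneg (M 0) 0 1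
            gcongr
        _ ≤ _ := by nlinarith only [hε, hε1]
    linarith
  have htp : ∀ x ∈ M 0, ‖x‖ ≤ 4 * ρ → TwoPt (M 0) x r C := by
    intro x hx hxR
    refine hW M I hM hA x 0 (fun s hs => hI ⟨by linarith [hs.1], hs.2⟩) (fun y hy t ht => ?_) 0
      ⟨by norm_num, le_rfl⟩ x hx (mem_ball_self one_pos)
    rw [mem_ball, dist_eq_norm] at hy
    refine hdens y (by linarith [norm_le_add x y]) ?_ t ⟨by linarith [ht.1], ht.2⟩
    have h2 := hlow x hx (by linarith)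
    have h3 := abs_inner_le he (y - x)
    have h1 : ⟪y, e⟫ = ⟪x, e⟫ + ⟪y - x, e⟫ := by rw [inner_sub_left]; ring
    rw [h1]
    refine (abs_add_le _ _).trans ?_
    linarith
  have htilt : ∀ x ∈ M 0, ‖x‖ ≤ 4 * ρ → ‖pt e (nu (M 0) x)‖ ≤ ε / 10 := fun x hx hxR =>
    tilt_of_twoPt hS he hn hβ (by positivity) hC (by linarith) hβr (by linarith) hδγ hβC hx
      (by linarith) (htp x hx hxR)
  have hcos : ∀ x ∈ M 0, ‖x‖ ≤ 4 * ρ → 1 - ε / 10 ≤ |⟪nu (M 0) x, e⟫| := fun x hx hxR =>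
    abs_inner_ge he (hS.norm_nu hx) (htilt x hx hxR) (by nlinarith only [hε, hε1])
  rcases hcase with hs | hd2
  · obtain ⟨y, hy, -, hys, hyc⟩ := hbad.2
    rw [sub_zero] at hys hyc
    refine not_boundary he (hS.norm_nu h0) (by linarith [htilt 0 h0 hz]) (by linarith) hys hyc ?_
    exact (hht y hy (by linarith)).imp (fun h => by linarith) fun h => by linarith
  · have hm : (0 - 2 ^ 2 : ℝ) ∈ Icc (-5 : ℝ) 0 := ⟨by norm_num, by norm_num⟩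
    have h1 : dens M (0 + 0) 0 2 ≤ _ :=
      gA_le_int hAI two_pos hζ₂ (by linarith) h02 heq2 (z := 0) (by linarith) hm
        (hA _ (hI hm)) (b := 0) (inner_zero_left e) (by linarith)
        (htail _ (hA _ (hI hm)) _ 2 two_pos)
    rw [add_zero] at h1
    have hSn : ∀ x ∈ M 0 ∩ ball 0 (2 * (ρ * 2)), ‖x‖ ≤ 4 * ρ := fun x hx => by
      linarith [mem_ball_zero_iff.mp hx.2]
    have hinj : InjOn (pt e) (M 0 ∩ ball 0 (2 * (ρ * 2))) :=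
      injOn_pt inter_subset_left he hC (h := 5 * δ) (r := r) (by linarith) hδC
        (fun x hx => hlow x hx.1 (by linarith [hSn x hx])) (fun x hx => htp x hx.1 (hSn x hx))
        fun x hx => by linarith [hcos x hx.1 (hSn x hx)]
    have h4 := int_sheet_le hP hS he (c := 1 - ε / 10) (by norm_num) (by linarith) hζ₂ h02 hle2
      (fun x hx => hcos x hx.1 (hSn x hx)) hinj
    have h5 : (1 - ε / 10)⁻¹ ≤ 1 + ε / 4 := by
      rw [inv_le_comm₀ (by linarith) (by linarith), inv_le_iff_one_le_mul₀ (by linarith)]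
      nlinarith only [hε, hε1]
    linarith

end Vale.Agent.P218FT.BC

namespace Vale.Agent.P218FT

theorem badCore_proof (hH : HuiskenStmt) (hD : DensStmt) (hP : ProjStmt) : BadCoreStmt :=
  BC.badCore hH hD hP

end Vale.Agent.P218FT
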