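import Vale.Agent.P218FT.Bad
import Vale.Agent.P218FT.Scale

/-! The bad point lemma, with the scaling rules discharged. -/

open MeasureTheory Set Filter Topology Metric
open scoped ENNReal NNReal RealInnerProductSpace ContDiff

namespace Vale.Agent.P218FT

theorem badScale_proof : BadScale := by
  intro D M I hM hD ρ x t hρ ht hx
  have hl := inv_pos.2 hρ
  have hI : scaleInt ρ⁻¹ t I = {s | t + ρ ^ 2 * s ∈ I} := by
    ext s
    rw [mem_scaleInt, Sc.tzoom, mul_comm]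
    rfl
  have hx0 : x + ρ • (0 : E3) ∈ M t := by rwa [smul_zero, add_zero]
  have e0 : scaleFlow ρ⁻¹ x t M 0 = scaleSet ρ⁻¹ x (M t) := by
    rw [zoomFlow_apply, zero_mul, add_zero]
  refine ⟨scaleFlow ρ⁻¹ x t M, hI ▸ hM.scale hl x t, fun s hs => ?_, ?_, fun r _ => ?_,
    fun s hs => ?_, fun Γ hΓ hsub => ⟨?_, ?_⟩⟩
  · exact ratio_scaleFlow hl hD x t s (by rw [hI]; exact hs)
  · rw [e0]; exact mem_zoom.2 hx0
  · rw [dens_zoom hρ, smul_zero, add_zero, zero_mul, add_zero, mul_comm]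
  · rw [e0, bad_zoom hρ hx0, smul_zero, add_zero, div_mul_cancel₀ _ hρ.ne']
    exact hs
  · have e1 : t + -Γ ^ 2 * ρ ^ 2 = t - (Γ * ρ) ^ 2 := by ring
    have e2 : t + -1 * ρ ^ 2 = t - ρ ^ 2 := by ring
    rw [hM.potA_zoom hρ (by
      rw [e1, e2]
      exact (Icc_subset_Icc_right (by nlinarith [sq_nonneg ρ])).trans hsub), smul_zero, add_zero,
      zero_mul, add_zero, e1, e2]
  · have e1 : t + -Γ ^ 2 * ρ ^ 2 = t - (Γ * ρ) ^ 2 := by ring
    have e2 : t + 0 * ρ ^ 2 = t := by ring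
    rw [hM.diss_zoom hρ (by rw [e1, e2]; exact hsub), smul_zero, add_zero, zero_div, e1, e2,
      ← mul_assoc, Sc.ofReal_cancel hρ, one_mul]

theorem bad_proof (hC : BadCoreStmt) (hA : AIStmt) (hW : WhiteStmt) (hD : DensStmt) : BadStmt :=
  bad_of_scale badScale_proof hC hA hW hD

end Vale.Agent.P218FT
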