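import Vale.Agent.P218FT.Spec2
import Vale.Agent.P218FT.Local2
import Mathlib.Topology.Semicontinuity.Basic
import Mathlib.Analysis.SpecialFunctions.ExpDeriv
import Mathlib.Analysis.SpecialFunctions.Sqrt
import Mathlib.Analysis.Calculus.Deriv.Inv

/-! The barrier lemma: a two-point maximum principle. -/

open MeasureTheory Set Filter Topology Metric Asymptotics
open scoped ENNReal NNReal RealInnerProductSpace ContDiff

namespace Vale.Agent.P218FT.Bar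

/-- scalar second-order jets at `0` -/
def Jet (f : ℝ → ℝ) (a b c : ℝ) : Prop :=
  (fun σ => f σ - (a + σ * b + σ ^ 2 / 2 * c)) =o[𝓝 0] fun σ : ℝ => σ ^ 2

/-- vector second-order jets at `0` -/
def VJet (p : ℝ → E3) (x a k : E3) : Prop :=
  (fun σ => p σ - (x + σ • a + (σ ^ 2 / 2) • k)) =o[𝓝 0] fun σ : ℝ => σ ^ 2

lemma sq_o : (fun σ : ℝ => σ ^ 2) =o[𝓝 0] fun σ : ℝ => σ := isLittleO_pow_id (by norm_num)

lemma Jet.const (a : ℝ) : Jet (fun _ => a) a 0 0 := by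
  unfold Jet; simp

lemma Jet.add {f g : ℝ → ℝ} {a b c a' b' c' : ℝ} (h : Jet f a b c) (h' : Jet g a' b' c') :
    Jet (fun σ => f σ + g σ) (a + a') (b + b') (c + c') :=
  (IsLittleO.add h h').congr_left fun σ => by ring

lemma Jet.const_mul {f : ℝ → ℝ} {a b c : ℝ} (h : Jet f a b c) (r : ℝ) :
    Jet (fun σ => r * f σ) (r * a) (r * b) (r * c) :=
  (IsLittleO.const_mul_left h r).congr_left fun σ => by ring

lemma Jet.congr {f : ℝ → ℝ} {a b c a' b' c' : ℝ} (h : Jet f a b c) (ha : a = a') (hb : b = b')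
    (hc : c = c') : Jet f a' b' c' := by rw [← ha, ← hb, ← hc]; exact h

lemma Jet.bigO2 {f : ℝ → ℝ} {a b c : ℝ} (h : Jet f a b c) :
    (fun σ => f σ - a - σ * b) =O[𝓝 0] fun σ : ℝ => σ ^ 2 :=
  (h.isBigO.add ((isBigO_refl (fun σ : ℝ => σ ^ 2) _).const_mul_left (c / 2))).congr_left
    fun σ => by ring

lemma Jet.bigO1 {f : ℝ → ℝ} {a b c : ℝ} (h : Jet f a b c) :
    (fun σ => f σ - a) =O[𝓝 0] fun σ : ℝ => σ :=
  ((h.bigO2.trans sq_o.isBigO).add ((isBigO_refl (fun σ : ℝ => σ) _).const_mul_left b)).congr_left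
    fun σ => by ring

/-- at a local minimum the first coefficient vanishes and the second is nonnegative -/
lemma Jet.min {f : ℝ → ℝ} {a b c : ℝ} (h : Jet f a b c) (hm : ∀ᶠ σ in 𝓝 0, a ≤ f σ) :
    b = 0 ∧ 0 ≤ c := by
  have hb : b = 0 := by
    have h1 : HasDerivAt (fun σ => f σ - f 0) b 0 := by
      have h0 : f 0 = a := by
        have := (h.def one_pos).self_of_nhds
        simpa [sub_eq_zero] using this
      rw [hasDerivAt_iff_isLittleO, h0]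
      exact (h.bigO2.trans_isLittleO sq_o).congr (fun σ => by simp) fun σ => by simp
    have h0 : f 0 = a := by
      have := (h.def one_pos).self_of_nhds
      simpa [sub_eq_zero] using this
    refine IsLocalMin.hasDerivAt_eq_zero ?_ h1
    filter_upwards [hm] with σ hσ
    simp [h0, hσ]
  refine ⟨hb, ?_⟩
  by_contra hc
  rw [not_le] at hc
  have h1 := (h.def (c := -c / 4) (by linarith)).and hm
  have h2 : ∀ᶠ σ in 𝓝[≠] (0 : ℝ), False := by
    filter_upwards [nhdsWithin_le_nhds h1, self_mem_nhdsWithin] with σ hσ hne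
    have hne' : σ ≠ 0 := hne
    have h3 : 0 < σ ^ 2 := by positivity
    have h4 := (le_abs_self _).trans hσ.1
    rw [hb, Real.norm_eq_abs, abs_of_pos h3] at h4
    nlinarith [hσ.2]
  exact h2.exists.elim fun _ h => h

/-- second-order Taylor formula for scalar functions -/
lemma taylor_scalar {φ φ' : ℝ → ℝ} {u φ'' : ℝ} (h1 : ∀ᶠ v in 𝓝 u, HasDerivAt φ (φ' v) v)
    (h2 : HasDerivAt φ' φ'' u) :
    (fun v => φ v - (φ u + (v - u) * φ' u + (v - u) ^ 2 / 2 * φ'')) =o[𝓝 u] fun v => (v - u) ^ 2 := by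
  obtain ⟨δ, hδ, hb⟩ := Metric.eventually_nhds_iff_ball.1 h1
  have hd : ∀ v ∈ ball u δ, HasDerivWithinAt (fun v => φ v - ((v - u) * φ' u + (v - u) ^ 2 / 2 * φ''))
      (φ' v - φ' u - (v - u) * φ'') (ball u δ) v := by
    intro v hv
    have e1 : HasDerivAt (fun v : ℝ => v - u) 1 v := (hasDerivAt_id v).sub_const u
    have e2 := (hb v hv).sub ((e1.mul_const (φ' u)).add (((e1.pow 2).div_const 2).mul_const φ''))
    exact (e2.congr_deriv (by simp; ring)).hasDerivWithinAt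
  have ho : (fun v => φ' v - φ' u - (v - u) * φ'') =o[𝓝[ball u δ] u] fun v => (v - u) ^ 1 := by
    refine IsLittleO.mono ?_ nhdsWithin_le_nhds
    simpa using hasDerivAt_iff_isLittleO.1 h2
  have := (convex_ball u δ).isLittleO_pow_succ_real (mem_ball_self hδ) hd ho
  rw [nhdsWithin_eq_nhds.2 (ball_mem_nhds u hδ)] at this
  exact this.congr_left fun v => by simp; ring

lemma Jet.comp {f φ φ' : ℝ → ℝ} {a b c φ'' : ℝ} (h : Jet f a b c)
    (h1 : ∀ᶠ v in 𝓝 a, HasDerivAt φ (φ' v) v) (h2 : HasDerivAt φ' φ'' a) :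
    Jet (fun σ => φ (f σ)) (φ a) (φ' a * b) (φ'' * b ^ 2 + φ' a * c) := by
  have ht : Tendsto f (𝓝 0) (𝓝 a) := by
    simpa using (h.bigO1.trans_tendsto tendsto_id).add_const a
  have T := ((taylor_scalar h1 h2).comp_tendsto ht).trans_isBigO (h.bigO1.pow 2)
  have e1 : (fun σ => (f σ - a - σ * b) * (f σ - a + σ * b)) =o[𝓝 0] fun σ : ℝ => σ ^ 2 := by
    have e2 : (fun σ => f σ - a + σ * b) =o[𝓝 0] fun _ : ℝ => (1 : ℝ) := by
      rw [isLittleO_one_iff]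
      have : Tendsto (fun σ : ℝ => σ * b) (𝓝 0) (𝓝 0) := by
        simpa using (tendsto_id (x := 𝓝 (0 : ℝ))).mul_const b
      simpa using (h.bigO1.trans_tendsto tendsto_id).add this
    simpa using h.bigO2.mul_isLittleO e2
  refine ((T.add (IsLittleO.const_mul_left h (φ' a))).add (e1.const_mul_left (φ'' / 2))).congr_left
    fun σ => ?_
  simp only [Function.comp]
  ring

lemma VJet.const (x : E3) : VJet (fun _ => x) x 0 0 := by
  unfold VJet; simp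

lemma VJet.sub {p q : ℝ → E3} {x a k y b l : E3} (h : VJet p x a k) (h' : VJet q y b l) :
    VJet (fun σ => p σ - q σ) (x - y) (a - b) (k - l) :=
  (IsLittleO.sub h h').congr_left fun σ => by simp only [smul_sub]; abel

lemma VJet.normSq {p : ℝ → E3} {x a k : E3} (h : VJet p x a k) :
    Jet (fun σ => ‖p σ‖ ^ 2) (‖x‖ ^ 2) (2 * ⟪x, a⟫) (2 * ‖a‖ ^ 2 + 2 * ⟪x, k⟫) := by
  have hg : gradient (fun y : E3 => ‖y‖ ^ 2) = fun y => (2 : ℝ) • y := by
    ext1 y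
    refine ext_inner_right ℝ fun v => ?_
    rw [inner_grad, (hasStrictFDerivAt_norm_sq y).hasFDerivAt.fderiv]
    simp [real_inner_smul_left]
  have hH : fderiv ℝ (fun y : E3 => (2 : ℝ) • y) x = (2 : ℝ) • ContinuousLinearMap.id ℝ E3 :=
    ((hasFDerivAt_id x).const_smul (2 : ℝ)).fderiv
  have := taylor_jet (f := fun y : E3 => ‖y‖ ^ 2) (contDiff_norm_sq ℝ) h
  rw [hg, hH] at this
  refine this.congr_left fun σ => ?_
  simp [real_inner_smul_left]

/-- `G` is a strict supersolution at `(t, x)`, with margin `ε`, along every flow -/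
def Sup (G : ℝ → E3 → ℝ) (t : ℝ) (x : E3) (ε : ℝ) : Prop :=
  ∃ (g : E3) (q : E3 → ℝ) (Gt : ℝ),
    (∀ p a k, VJet p x a k → Jet (fun σ => G t (p σ)) (G t x) ⟪g, a⟫ (q a + ⟪g, k⟫)) ∧
    (∀ (p : ℝ → E3) (v : E3), p 0 = x → HasDerivAt p v 0 →
      HasDerivWithinAt (fun σ => G (t + σ) (p σ)) (Gt + ⟪g, v⟫) (Iic 0) 0) ∧
    ∀ a b n, Triple a b n → q a + q b + ε ≤ Gt

lemma Sup.add {G G' : ℝ → E3 → ℝ} {t : ℝ} {x : E3} {ε ε' : ℝ} (h : Sup G t x ε)
    (h' : Sup G' t x ε') : Sup (fun t x => G t x + G' t x) t x (ε + ε') := by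
  obtain ⟨g, q, Gt, h1, h2, h3⟩ := h
  obtain ⟨g', q', Gt', h1', h2', h3'⟩ := h'
  refine ⟨g + g', fun a => q a + q' a, Gt + Gt', fun p a k hp => ?_, fun p v h0 hp => ?_,
    fun a b n ht => ?_⟩
  · exact ((h1 p a k hp).add (h1' p a k hp)).congr rfl (by rw [inner_add_left])
      (by rw [inner_add_left]; ring)
  · exact ((h2 p v h0 hp).add (h2' p v h0 hp)).congr_deriv (by rw [inner_add_left]; ring)
  · linarith [h3 a b n ht, h3' a b n ht]

lemma sup_zero {G : ℝ → E3 → ℝ} {t : ℝ} (x : E3) (h : ∀ s ≤ t, ∀ y, G s y = 0) : Sup G t x 0 := by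
  refine ⟨0, fun _ => 0, 0, fun p a k _ => ?_, fun p v _ _ => ?_, fun _ _ _ _ => by simp⟩
  · simpa [h t le_rfl] using Jet.const 0
  · refine (hasDerivWithinAt_const (0 : ℝ) (Iic 0) (0 : ℝ)).congr_deriv (by simp) |>.congr
      (fun σ hσ => h _ (by simpa using hσ) _) (h _ (by simp) _)

lemma hasDerivAt_normSq {p : ℝ → E3} {v x : E3} (h0 : p 0 = x) (hp : HasDerivAt p v 0) (c : E3) :
    HasDerivAt (fun σ => ‖p σ - c‖ ^ 2) (2 * ⟪x - c, v⟫) 0 := by
  have := (hp.sub_const c).norm_sq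
  rwa [h0] at this

/-- the quadratic cut-off, with a linear term in time -/
lemma sup_quad (c : E3) (R t₁ ε t : ℝ) (x : E3) :
    Sup (fun t x => (‖x - c‖ ^ 2 + 4 * (t - t₁)) / R ^ 2 + ε * (t - t₁)) t x ε := by
  refine ⟨(2 / R ^ 2) • (x - c), fun a => 2 * ‖a‖ ^ 2 / R ^ 2, 4 / R ^ 2 + ε,
    fun p a k hp => ?_, fun p v h0 hp => ?_, fun a b n ht => ?_⟩
  · have h1 := (((hp.sub (VJet.const c)).normSq.const_mul (1 / R ^ 2)).add
      (Jet.const (4 * (t - t₁) / R ^ 2 + ε * (t - t₁))))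
    have e : (fun σ => (‖p σ - c‖ ^ 2 + 4 * (t - t₁)) / R ^ 2 + ε * (t - t₁)) = fun σ =>
        1 / R ^ 2 * ‖p σ - c‖ ^ 2 + (4 * (t - t₁) / R ^ 2 + ε * (t - t₁)) := by
      ext1 σ; ring
    rw [e]
    refine h1.congr (by ring) ?_ ?_ <;> simp only [sub_zero, real_inner_smul_left] <;> ring
  · have e1 : HasDerivAt (fun σ : ℝ => t + σ - t₁) 1 0 :=
      ((hasDerivAt_id (0 : ℝ)).const_add t).sub_const t₁
    have h1 := (((hasDerivAt_normSq h0 hp c).add (e1.const_mul 4)).div_const (R ^ 2)).add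
      (e1.const_mul ε)
    exact (h1.congr_deriv (by rw [real_inner_smul_left]; ring)).hasDerivWithinAt
  · simp only [ht.na, ht.nb]; apply le_of_eq; ring

/-- the forward heat kernel is a supersolution -/
lemma sup_val (s : Src) (ha : 0 ≤ s.a) (hτ : s.τ < s.τ') (t : ℝ) (x : E3) : Sup s.val t x 0 := by
  by_cases ht : s.τ' < t
  swap
  · exact sup_zero x fun u hu y => if_neg fun h => ht (h.trans_le hu)
  set σ₀ := t - s.τ with hσ₀
  have hσ : 0 < σ₀ := by linarith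
  set z := x - s.c with hz
  set ψ : ℝ → ℝ := fun u => s.a * ((4 * Real.pi * σ₀)⁻¹ * Real.exp (-u / (4 * σ₀))) with hψ
  have hψd : ∀ u, HasDerivAt ψ (-(ψ u) / (4 * σ₀)) u := by
    intro u
    have h1 := ((((hasDerivAt_id u).neg.div_const (4 * σ₀)).exp).const_mul
      (4 * Real.pi * σ₀)⁻¹).const_mul s.a
    exact h1.congr_deriv (by simp only [hψ, id, Pi.neg_apply]; ring)
  have hψ0 : 0 ≤ ψ (‖z‖ ^ 2) := by
    have := Real.pi_pos
    simp only [hψ]; positivity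
  set P := ψ (‖z‖ ^ 2) with hP
  refine ⟨(-P / (2 * σ₀)) • z, fun a => P / (4 * σ₀ ^ 2) * ⟪z, a⟫ ^ 2 - P / (2 * σ₀) * ‖a‖ ^ 2,
    -P / σ₀ + P * ‖z‖ ^ 2 / (4 * σ₀ ^ 2), fun p a k hp => ?_, fun p v h0 hp => ?_,
    fun a b n hT => ?_⟩
  · have h1 := (hp.sub (VJet.const s.c)).normSq.comp (φ := ψ) (φ' := fun u => -(ψ u) / (4 * σ₀))
      (Eventually.of_forall hψd) ((hψd _).neg.div_const (4 * σ₀))
    have e : ∀ y, s.val t y = ψ (‖y - s.c‖ ^ 2) := fun y => by simp only [Src.val, if_pos ht, gk, hψ, hσ₀]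
    simp only [e]
    refine h1.congr rfl ?_ ?_ <;> simp only [sub_zero, real_inner_smul_left, ← hz, ← hP] <;>
      field_simp <;> ring
  · have e1 : HasDerivAt (fun σ : ℝ => t + σ - s.τ) 1 0 :=
      ((hasDerivAt_id (0 : ℝ)).const_add t).sub_const s.τ
    have hπ := Real.pi_pos
    have h1 := (((e1.const_mul (4 * Real.pi)).inv (by simp only [add_zero]; positivity)).mul
      (((hasDerivAt_normSq h0 hp s.c).neg.div (e1.const_mul 4)
        (by simp only [add_zero]; positivity)).exp)).const_mul s.a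
    refine HasDerivAt.hasDerivWithinAt ((h1.congr_deriv ?_).congr_of_eventuallyEq ?_)
    · simp only [add_zero, Pi.neg_apply, Pi.inv_apply, Pi.div_apply, h0, ← hz, ← hσ₀, hP, hψ,
        real_inner_smul_left]
      field_simp
      ring
    · have : ∀ᶠ σ in 𝓝 (0 : ℝ), s.τ' < t + σ :=
        (continuous_const.add continuous_id).continuousAt.eventually (lt_mem_nhds (by simpa using ht))
      filter_upwards [this] with σ hσ'
      simp only [Src.val, if_pos hσ', gk]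
      rfl
  · have h1 := hT.norm_sq z
    simp only [hT.na, hT.nb, real_inner_comm a, real_inner_comm b]
    rw [h1]
    have h2 : 0 ≤ P * ⟪n, z⟫ ^ 2 / (4 * σ₀ ^ 2) := by positivity
    have h3 : P * (⟪a, z⟫ ^ 2 + ⟪b, z⟫ ^ 2 + ⟪n, z⟫ ^ 2) / (4 * σ₀ ^ 2) =
      P / (4 * σ₀ ^ 2) * ⟪a, z⟫ ^ 2 + P / (4 * σ₀ ^ 2) * ⟪b, z⟫ ^ 2 + P * ⟪n, z⟫ ^ 2 / (4 * σ₀ ^ 2) := by
      ring
    have h4 : -P / σ₀ = -(P / (2 * σ₀)) - P / (2 * σ₀) := by field_simp; ring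
    rw [h3, h4]; linarith

lemma sup_bar (l : Multiset Src) (hl : Valid l) (t : ℝ) (x : E3) : Sup (bar l) t x 0 := by
  induction l using Multiset.induction_on with
  | empty => exact sup_zero x fun _ _ _ => by simp [bar]
  | cons s l ih =>
    have h1 := hl s (Multiset.mem_cons_self s l)
    have h2 := (sup_val s h1.1 h1.2 t x).add (ih fun u hu => hl u (Multiset.mem_cons_of_mem hu))
    have e : bar (s ::ₘ l) = fun t x => s.val t x + bar l t x := by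
      ext t x; simp [bar]
    rw [e]; simpa using h2

/-! ### The local step -/

lemma hasDerivAt_phi {m u : ℝ} (hm : 0 < m) (hu : 0 < u) :
    HasDerivAt (fun u => √(√u / m)) (√(√u / m) / (4 * u)) u := by
  have h0 : 0 < √u := Real.sqrt_pos.2 hu
  have h1 : 0 < √u / m := by positivity
  have h2 := (((hasDerivAt_id u).sqrt hu.ne').div_const m).sqrt h1.ne'
  refine h2.congr_deriv ?_
  have h3 : 0 < √(√u / m) := Real.sqrt_pos.2 h1
  have h4 : √(√u / m) * √(√u / m) = √u / m := Real.mul_self_sqrt h1.le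
  have h5 : √u * √u = u := Real.mul_self_sqrt hu.le
  simp only [id]
  rw [div_eq_div_iff (by positivity) (by positivity)]
  have : √(√u / m) * (2 * √(√u / m)) = 2 * (√u / m) := by linarith
  rw [this]
  field_simp
  nlinarith

lemma time_jet' {M : ℝ → Set E3} {I : Set ℝ} (h : IsMCF M I) {t : ℝ} (ht : t ∈ I) {x : E3}
    (hx : x ∈ M t) : ∃ p : ℝ → E3, p 0 = x ∧ HasDerivAt p (Hv (M t) x) 0 ∧
      ∀ᶠ σ in 𝓝 0, p σ ∈ M (t + σ) := by
  obtain ⟨p, hp, hj⟩ := h.time_jet ht hx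
  have hp0 : p 0 = x := by
    have h3 := (hj.def one_pos).self_of_nhds
    simpa [sub_eq_zero] using h3
  refine ⟨p, hp0, ?_, hp⟩
  rw [hasDerivAt_iff_isLittleO, hp0]
  simpa [sub_sub] using hj

lemma deriv_nonpos_of_min {f : ℝ → ℝ} {d : ℝ} (h : HasDerivWithinAt f d (Iic 0) 0)
    (hm : ∀ᶠ σ in 𝓝[≤] 0, f 0 ≤ f σ) : d ≤ 0 := by
  have h1 := hasDerivWithinAt_iff_tendsto_slope.1 h
  rw [Iic_sdiff_right] at h1
  refine le_of_tendsto h1 ?_
  filter_upwards [nhdsWithin_mono _ Iio_subset_Iic_self hm, self_mem_nhdsWithin] with σ h2 h3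
  rw [slope_def_field, sub_zero]
  exact div_nonpos_of_nonneg_of_nonpos (by linarith) (le_of_lt h3)

/-- the frame at the second point -/
lemma triple_rot {e₁ e₂ n ν w : E3} (hT : Triple e₁ e₂ n) (hν : ν = n ∨ ν = -n) (hw : ‖w‖ = 1)
    (hc : 0 < ⟪w, ν⟫) :
    Triple (e₁ - (⟪e₁, w⟫ / (1 + ⟪w, ν⟫)) • (w + ν)) (e₂ - (⟪e₂, w⟫ / (1 + ⟪w, ν⟫)) • (w + ν)) w := by
  have nν : ‖ν‖ = 1 := by rcases hν with h | h <;> simp [h, hT.nc]
  have o1 : ⟪e₁, ν⟫ = 0 := by rcases hν with h | h <;> simp [h, hT.ac]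
  have o2 : ⟪e₂, ν⟫ = 0 := by rcases hν with h | h <;> simp [h, hT.bc]
  have ww : ⟪w, w⟫ = 1 := by rw [real_inner_self_eq_norm_sq, hw]; norm_num
  have νν : ⟪ν, ν⟫ = 1 := by rw [real_inner_self_eq_norm_sq, nν]; norm_num
  have key : ∀ a b : E3, ⟪a, ν⟫ = 0 → ⟪b, ν⟫ = 0 →
      ⟪a - (⟪a, w⟫ / (1 + ⟪w, ν⟫)) • (w + ν), b - (⟪b, w⟫ / (1 + ⟪w, ν⟫)) • (w + ν)⟫ = ⟪a, b⟫ := by
    intro a b ha hb
    simp only [inner_sub_left, inner_sub_right, inner_add_left, inner_add_right,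
      real_inner_smul_left, real_inner_smul_right, ha, ww, νν, real_inner_comm b ν, hb,
      real_inner_comm b w, real_inner_comm w ν]
    field_simp
    ring
  have key2 : ∀ a : E3, ⟪a - (⟪a, w⟫ / (1 + ⟪w, ν⟫)) • (w + ν), w⟫ = 0 := by
    intro a
    simp only [inner_sub_left, inner_add_left, real_inner_smul_left, ww, real_inner_comm w ν]
    field_simp
    ring
  have nrm : ∀ a : E3, ⟪a, ν⟫ = 0 → ‖a‖ = 1 → ‖a - (⟪a, w⟫ / (1 + ⟪w, ν⟫)) • (w + ν)‖ = 1 := by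
    intro a ha hn
    have := key a a ha ha
    rw [real_inner_self_eq_norm_sq, real_inner_self_eq_norm_sq, hn] at this
    exact (sq_eq_sq₀ (norm_nonneg _) zero_le_one).1 this
  exact ⟨nrm _ o1 hT.na, nrm _ o2 hT.nb, hw, by rw [key _ _ o1 o2, hT.ab], key2 _, key2 _⟩

/-- the two-point function has no backward local minimum in the open cone -/
lemma no_local_min {M : ℝ → Set E3} {I : Set ℝ} (h : IsMCF M I) {t : ℝ} (ht : t ∈ I) {x y : E3}
    (hx : x ∈ M t) (hy : y ∈ M t) (hc : ‖y - x‖ / 2 < |⟪y - x, nu (M t) x⟫|) {m ε : ℝ}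
    (hm : 0 < m) (hε : 0 < ε) {G : ℝ → E3 → ℝ} (hG : Sup G t x ε)
    (hmin : ∀ᶠ q : ℝ × E3 × E3 in 𝓝 (t, x, y), q.1 ≤ t → q.2.1 ∈ M q.1 → q.2.2 ∈ M q.1 →
      √(‖y - x‖ / m) + G t x ≤ √(‖q.2.2 - q.2.1‖ / m) + G q.1 q.2.1) : False := by
  obtain ⟨g, q, Gt, G1, G2, G3⟩ := hG
  have hS := h.isSurf ht
  set z := x - y with hz
  have hz0 : z ≠ 0 := by
    intro h0
    have : y - x = 0 := by rw [← neg_sub, ← hz, h0, neg_zero]
    simp [this] at hc
  set d := ‖z‖ with hd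
  have hd0 : 0 < d := norm_pos_iff.2 hz0
  set φ : ℝ → ℝ := fun u => √(√u / m) with hφ
  have hφn : ∀ a b : E3, √(‖b - a‖ / m) = φ (‖a - b‖ ^ 2) := fun a b => by
    simp only [hφ, Real.sqrt_sq (norm_nonneg _), norm_sub_rev a b]
  simp only [hφn] at hmin
  set F := φ (d ^ 2) / (4 * d ^ 2) with hF
  have hF0 : 0 < F := by
    have : 0 < φ (d ^ 2) := Real.sqrt_pos.2 (div_pos (Real.sqrt_pos.2 (by positivity)) hm)
    positivity
  have hφ1 : ∀ᶠ v in 𝓝 (d ^ 2), HasDerivAt φ (φ v / (4 * v)) v := by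
    filter_upwards [lt_mem_nhds (show 0 < d ^ 2 by positivity)] with v hv using hasDerivAt_phi hm hv
  have hφ2 : HasDerivAt (fun v => φ v / (4 * v)) (-(3 / 4) * F / d ^ 2) (d ^ 2) := by
    refine (hφ1.self_of_nhds.div ((hasDerivAt_id (d ^ 2)).const_mul 4)
      (by simp only [id]; positivity)).congr_deriv ?_
    simp only [id, hF]; field_simp; ring
  -- spatial variations
  have spat : ∀ {p r : ℝ → E3} {a k b l : E3}, VJet p x a k → VJet r y b l →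
      (∀ᶠ σ in 𝓝 0, p σ ∈ M t) → (∀ᶠ σ in 𝓝 0, r σ ∈ M t) →
      F * (2 * ⟪z, a - b⟫) + ⟪g, a⟫ = 0 ∧ 0 ≤ -(3 / 4) * F / d ^ 2 * (2 * ⟪z, a - b⟫) ^ 2
        + F * (2 * ‖a - b‖ ^ 2 + 2 * ⟪z, k - l⟫) + (q a + ⟪g, k⟫) := by
    intro p r a k b l hp hr hpM hrM
    have J := ((hp.sub hr).normSq.comp (φ := φ) (φ' := fun v => φ v / (4 * v)) hφ1 hφ2).add
      (G1 p a k hp)
    refine J.min ?_
    have T : Tendsto (fun σ => (t, p σ, r σ)) (𝓝 0) (𝓝 (t, x, y)) :=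
      tendsto_const_nhds.prodMk_nhds ((tendsto_of_jet hp).prodMk_nhds (tendsto_of_jet hr))
    filter_upwards [T.eventually hmin, hpM, hrM] with σ h1 h2 h3 using h1 le_rfl h2 h3
  -- the chord is normal at `y`
  have hxM : ∀ᶠ σ : ℝ in 𝓝 0, (fun _ => x) σ ∈ M t := Eventually.of_forall fun _ => hx
  have orth : ∀ b, ⟪nu (M t) y, b⟫ = 0 → ⟪z, b⟫ = 0 := by
    intro b hb
    obtain ⟨r, hrM, hr⟩ := hS.jet hy hb
    have := (spat (VJet.const x) hr hxM hrM).1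
    rw [zero_sub, inner_neg_right, inner_zero_right, add_zero] at this
    have h2 := (mul_eq_zero.1 this).resolve_left hF0.ne'
    linarith
  set w := d⁻¹ • z with hw
  have hw1 : ‖w‖ = 1 := by rw [hw, norm_smul, norm_inv, hd, norm_norm, inv_mul_cancel₀ hd0.ne']
  have hzw : z = d • w := by rw [hw, smul_smul, mul_inv_cancel₀ hd0.ne', one_smul]
  have hny := hS.norm_nu hy
  have hwy : ∃ κ : ℝ, κ ≠ 0 ∧ w = κ • nu (M t) y := by
    have h1 : pt (nu (M t) y) z = 0 := by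
      have h2 := orth _ (inner_pt_nrm hny z)
      rw [← pt_pt hny, ← inner_pt_left, inner_self_eq_zero] at h2
      exact h2
    rw [pt_apply, sub_eq_zero] at h1
    refine ⟨d⁻¹ * ⟪nu (M t) y, z⟫, fun h0 => ?_, by rw [hw, ← smul_smul, ← h1]⟩
    have : w = 0 := by rw [hw, h1, smul_smul, h0, zero_smul]
    simp [this] at hw1
  obtain ⟨κ, hκ, hwκ⟩ := hwy
  clear_value w
  -- the oriented normal at `x`
  obtain ⟨ν, hν, hcν⟩ : ∃ ν : E3, (ν = nu (M t) x ∨ ν = -nu (M t) x) ∧ 1 / 2 < ⟪w, ν⟫ := by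
    have e : y - x = -(d • w) := by rw [← hzw, hz, neg_sub]
    rw [e, norm_neg, inner_neg_left, abs_neg, ← hzw, ← hd, hzw, real_inner_smul_left, abs_mul,
      abs_of_pos hd0] at hc
    have h2 : 1 / 2 < |⟪w, nu (M t) x⟫| := by
      by_contra h3
      rw [not_lt] at h3
      nlinarith
    rcases lt_abs.1 h2 with h3 | h3
    · exact ⟨_, Or.inl rfl, h3⟩
    · exact ⟨_, Or.inr rfl, by rwa [inner_neg_right]⟩
  obtain ⟨e₁, e₂, hT⟩ := exists_triple (hS.norm_nu hx)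
  have hT' := triple_rot hT hν hw1 (by linarith)
  set c := ⟪w, ν⟫ with hcdef
  have nν : ‖ν‖ = 1 := by rcases hν with h | h <;> simp [h, hT.nc]
  have hc1 : c ≤ 1 := by
    have := real_inner_le_norm w ν
    rwa [hw1, nν, one_mul] at this
  have ww : ⟪w, w⟫ = 1 := by rw [real_inner_self_eq_norm_sq, hw1]; norm_num
  have hsum : ⟪e₁, w⟫ ^ 2 + ⟪e₂, w⟫ ^ 2 = 1 - c ^ 2 := by
    have := hT.norm_sq w
    have e : ⟪nu (M t) x, w⟫ ^ 2 = c ^ 2 := by
      rcases hν with h | h <;> simp [hcdef, h, real_inner_comm]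
    rw [hw1, e] at this
    linarith
  have hwν : ‖w + ν‖ ^ 2 = 2 + 2 * c := by
    rw [norm_add_sq_real, hw1, nν]; ring
  have toy : ∀ b, ⟪b, w⟫ = 0 → ⟪nu (M t) y, b⟫ = 0 := by
    intro b hb
    rw [hwκ, real_inner_smul_right, real_inner_comm] at hb
    exact (mul_eq_zero.1 hb).resolve_left hκ
  have hTy : Triple (e₁ - (⟪e₁, w⟫ / (1 + c)) • (w + ν)) (e₂ - (⟪e₂, w⟫ / (1 + c)) • (w + ν))
      (nu (M t) y) := ⟨hT'.na, hT'.nb, hny, hT'.ab, by rw [real_inner_comm]; exact toy _ hT'.ac,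
        by rw [real_inner_comm]; exact toy _ hT'.bc⟩
  have one : ∀ e : E3, ⟪e, nu (M t) x⟫ = 0 → ⟪e - (⟪e, w⟫ / (1 + c)) • (w + ν), w⟫ = 0 →
      0 ≤ -3 * F * ⟪e, w⟫ ^ 2 + F * (4 * ⟪e, w⟫ ^ 2 / (1 + c) +
        2 * (⟪sh (M t) x e, e⟫ * ⟪z, nu (M t) x⟫ - ⟪sh (M t) y (e - (⟪e, w⟫ / (1 + c)) • (w + ν)),
          e - (⟪e, w⟫ / (1 + c)) • (w + ν)⟫ * ⟪z, nu (M t) y⟫))
        + (q e + ⟪sh (M t) x e, e⟫ * ⟪g, nu (M t) x⟫) := by
    intro e he hb
    obtain ⟨p, hpM, hp⟩ := hS.jet hx (a := e) (by rw [real_inner_comm]; exact he)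
    obtain ⟨r, hrM, hr⟩ := hS.jet hy (toy _ hb)
    have := (spat hp hr hpM hrM).2
    rw [sub_sub_cancel, norm_smul, mul_pow ‖_‖, hwν, inner_sub_right, real_inner_smul_right,
      real_inner_smul_right, real_inner_smul_right, real_inner_smul_right, Real.norm_eq_abs,
      sq_abs] at this
    have e1 : ⟪z, w + ν⟫ = d * (1 + c) := by
      rw [hzw, real_inner_smul_left, inner_add_right, ww]
    rw [e1] at this
    refine this.trans_eq ?_
    have : 1 + c ≠ 0 := by linarith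
    field_simp
    ring
  have s1 := one e₁ hT.ac hT'.ac
  have s2 := one e₂ hT.bc hT'.bc
  -- the time variation
  obtain ⟨p, hp0, hp, hpM⟩ := time_jet' h ht hx
  obtain ⟨r, hr0, hr, hrM⟩ := time_jet' h ht hy
  have D1 : HasDerivAt (fun σ => ‖p σ - r σ‖ ^ 2) (2 * ⟪z, Hv (M t) x - Hv (M t) y⟫) 0 := by
    have := (hp.sub hr).norm_sq
    simp only [Pi.sub_apply, hp0, hr0] at this
    exact this
  have D2 : HasDerivAt φ F (‖p 0 - r 0‖ ^ 2) := by rw [hp0, hr0]; exact hφ1.self_of_nhds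
  have D3 := (D2.comp (0 : ℝ) D1).hasDerivWithinAt.add (G2 p _ hp0 hp)
  have D4 := deriv_nonpos_of_min D3 (by
    have T : Tendsto (fun σ => (t + σ, p σ, r σ)) (𝓝 0) (𝓝 (t, x, y)) := by
      have h0 : Tendsto (fun σ : ℝ => t + σ) (𝓝 0) (𝓝 t) :=
        (continuous_const.add continuous_id).tendsto' (0 : ℝ) t (by simp)
      have := h0.prodMk_nhds
        ((hp0 ▸ hp.continuousAt.tendsto).prodMk_nhds (hr0 ▸ hr.continuousAt.tendsto))
      simpa [hp0, hr0] using this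
    filter_upwards [nhdsWithin_le_nhds (T.eventually hmin), nhdsWithin_le_nhds hpM,
      nhdsWithin_le_nhds hrM, self_mem_nhdsWithin] with σ h1 h2 h3 h4
    have := h1 (by simpa using h4) h2 h3
    simpa [hp0, hr0] using this)
  rw [Hv, Hv, hS.tr_sh hx hT, hS.tr_sh hy hTy, inner_sub_right, real_inner_smul_right,
    real_inner_smul_right, real_inner_smul_right] at D4
  have G4 := G3 _ _ _ hT
  have e2 : 4 * ⟪e₁, w⟫ ^ 2 / (1 + c) + 4 * ⟪e₂, w⟫ ^ 2 / (1 + c) = 4 * (1 - c) := by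
    have : 1 + c ≠ 0 := by linarith
    field_simp
    nlinarith
  have e3 : 0 ≤ F * ((1 - c) * (3 * c - 1)) :=
    mul_nonneg hF0.le (mul_nonneg (by linarith) (by linarith))
  have e4 : F * (4 * ⟪e₁, w⟫ ^ 2 / (1 + c)) + F * (4 * ⟪e₂, w⟫ ^ 2 / (1 + c)) = F * (4 * (1 - c)) := by
    rw [← e2]; ring
  have e5 : F * ⟪e₁, w⟫ ^ 2 + F * ⟪e₂, w⟫ ^ 2 = F * (1 - c ^ 2) := by rw [← hsum]; ring
  linarith

/-! ### The global step -/

lemma val_nonneg {s : Src} (ha : 0 ≤ s.a) (hτ : s.τ < s.τ') (t : ℝ) (x : E3) : 0 ≤ s.val t x := by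
  unfold Src.val gk
  split_ifs with h
  · have := Real.pi_pos
    have : 0 < t - s.τ := by linarith
    positivity
  · exact le_rfl

lemma bar_nonneg {l : Multiset Src} (hl : Valid l) (t : ℝ) (x : E3) : 0 ≤ bar l t x :=
  Multiset.sum_nonneg fun a ha => by
    obtain ⟨s, hs, rfl⟩ := Multiset.mem_map.1 ha
    exact val_nonneg (hl s hs).1 (hl s hs).2 t x

lemma lsc_val {s : Src} (ha : 0 ≤ s.a) (hτ : s.τ < s.τ') :
    LowerSemicontinuous fun p : ℝ × E3 => s.val p.1 p.2 := by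
  intro p
  by_cases h : s.τ' < p.1
  · have h1 : ContinuousAt (fun p : ℝ × E3 => s.a * gk (p.1 - s.τ) (p.2 - s.c)) p := by
      unfold gk
      have := Real.pi_pos
      have h0 : 0 < p.1 - s.τ := by linarith
      have h2 : 4 * Real.pi * (p.1 - s.τ) ≠ 0 := by positivity
      have h3 : 4 * (p.1 - s.τ) ≠ 0 := by positivity
      fun_prop (disch := assumption)
    refine ContinuousAt.lowerSemicontinuousAt (h1.congr ?_)
    filter_upwards [continuous_fst.continuousAt.eventually (lt_mem_nhds h)] with q hq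
    simp only [Src.val, if_pos hq]
  · intro y hy
    simp only [Src.val, if_neg h] at hy
    exact Eventually.of_forall fun q => hy.trans_le (val_nonneg ha hτ _ _)

lemma lsc_bar (l : Multiset Src) (hl : Valid l) :
    LowerSemicontinuous fun p : ℝ × E3 => bar l p.1 p.2 := by
  induction l using Multiset.induction_on with
  | empty => simpa [bar] using lowerSemicontinuous_const
  | cons s l ih =>
    have h1 := hl s (Multiset.mem_cons_self s l)
    have h2 := (lsc_val h1.1 h1.2).add (ih fun u hu => hl u (Multiset.mem_cons_of_mem hu))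
    simpa [bar] using h2

/-- the separation has a positive lower bound on compact parts of the track -/
lemma exists_sep {M : ℝ → Set E3} {I : Set ℝ} (h : IsMCF M I) {a b : ℝ} (hJ : Icc a b ⊆ I) (c : E3)
    (R : ℝ) : ∃ s : ℝ, 0 < s ∧ ∀ t ∈ Icc a b, ∀ x ∈ M t, ‖x - c‖ ≤ R → SepGE (M t) x s := by
  obtain ⟨r, C, hr, hC, H⟩ := h.exists_twoPt_compact hJ c R
  exact ⟨min r (1 / (2 * C)), by positivity, fun t ht x hx hR y hy =>
    (H t ht x hx hR).le_of_cone hC hy.1 hy.2.1 hy.2.2⟩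

lemma contOn_cone {M : ℝ → Set E3} {I : Set ℝ} (h : IsMCF M I) :
    ContinuousOn (fun q : ℝ × E3 × E3 => |⟪q.2.2 - q.2.1, nu (M q.1) q.2.1⟫| - ‖q.2.2 - q.2.1‖ / 2)
      {q | (q.1, q.2.1) ∈ track M I} := by
  refine ContinuousOn.sub (h.continuousOn_abs_inner.comp
    (f := fun q : ℝ × E3 × E3 => ((q.1, q.2.1), q.2.2 - q.2.1)) (by fun_prop) ?_) (by fun_prop)
  exact fun q hq => ⟨hq, mem_univ _⟩

lemma isCompact_pairs {M : ℝ → Set E3} {I : Set ℝ} (h : IsMCF M I) {a b : ℝ} (hJ : Icc a b ⊆ I)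
    (c : E3) (R m : ℝ) : IsCompact {q : ℝ × E3 × E3 | q.1 ∈ Icc a b ∧ q.2.1 ∈ M q.1 ∧
      ‖q.2.1 - c‖ ≤ R ∧ InCone (M q.1) q.2.1 q.2.2 ∧ ‖q.2.2 - q.2.1‖ ≤ m} := by
  obtain ⟨s, hs, H⟩ := exists_sep h hJ c R
  have hc := h.isClosed_track isClosed_Icc hJ
  have c1 : IsClosed {q : ℝ × E3 × E3 | (q.1, q.2.1) ∈ track M (Icc a b)} :=
    hc.preimage (f := fun q : ℝ × E3 × E3 => (q.1, q.2.1)) (by fun_prop)
  have c2 : IsClosed {q : ℝ × E3 × E3 | (q.1, q.2.2) ∈ track M (Icc a b)} :=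
    hc.preimage (f := fun q : ℝ × E3 × E3 => (q.1, q.2.2)) (by fun_prop)
  have c3 := ((contOn_cone h).mono (t := {q : ℝ × E3 × E3 | (q.1, q.2.1) ∈ track M (Icc a b)})
    fun q hq => ⟨hJ hq.1, hq.2⟩).preimage_isClosed_of_isClosed c1 (isClosed_Ici (a := (0 : ℝ)))
  have c4 : IsClosed {q : ℝ × E3 × E3 | ‖q.2.1 - c‖ ≤ R} := isClosed_le (by fun_prop) continuous_const
  have c5 : IsClosed {q : ℝ × E3 × E3 | ‖q.2.2 - q.2.1‖ ≤ m} :=
    isClosed_le (by fun_prop) continuous_const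
  have c6 : IsClosed {q : ℝ × E3 × E3 | s ≤ ‖q.2.2 - q.2.1‖} :=
    isClosed_le continuous_const (by fun_prop)
  have hK : IsCompact (Icc a b ×ˢ closedBall c R ×ˢ closedBall c (R + m)) :=
    isCompact_Icc.prod ((isCompact_closedBall _ _).prod (isCompact_closedBall _ _))
  refine hK.of_isClosed_subset ?_ fun q hq => ⟨hq.1, ?_, ?_⟩
  · convert (((c3.inter c2).inter c4).inter c5).inter c6 using 1
    ext q
    constructor
    · rintro ⟨h1, h2, h3, h4, h5⟩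
      exact ⟨⟨⟨⟨⟨⟨h1, h2⟩, sub_nonneg.2 h4.2.2⟩, h1, h4.1⟩, h3⟩, h5⟩, H _ h1 _ h2 h3 _ h4⟩
    · rintro ⟨⟨⟨⟨⟨⟨h1, h2⟩, h3⟩, -, h4⟩, h5⟩, h6⟩, h7⟩
      refine ⟨h1, h2, h5, ⟨h4, fun h0 => ?_, sub_nonneg.1 h3⟩, h6⟩
      have h8 : s ≤ ‖q.2.2 - q.2.1‖ := h7
      rw [h0, sub_self, norm_zero] at h8
      linarith
  · rw [mem_closedBall, dist_eq_norm]; exact hq.2.2.1
  · rw [mem_closedBall, dist_eq_norm]
    have := norm_sub_le_norm_sub_add_norm_sub q.2.2 q.2.1 c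
    linarith [hq.2.2.1, hq.2.2.2.2]

end Vale.Agent.P218FT.Bar

namespace Vale.Agent.P218FT

open Bar

/-- **The barrier lemma.** -/
theorem barrier_proof : BarrierStmt := by
  intro M I h t₁ t₂ c R m l hJ hR hm hl H1 H2 t ht x hx hxR y hy
  by_contra hlt
  rw [not_le] at hlt
  have sq_lt : ∀ {r : ℝ}, √(r / m) < 1 → r < m := fun hr => by
    rw [Real.sqrt_lt' one_pos, one_pow, div_lt_one hm] at hr; exact hr
  have qn : ∀ s ∈ Icc t₁ t₂, ∀ u : E3, 0 ≤ (‖u - c‖ ^ 2 + 4 * (s - t₁)) / R ^ 2 := fun s hs u => by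
    have : 0 ≤ s - t₁ := by linarith [hs.1]
    positivity
  obtain ⟨ε, hε, hεlt⟩ : ∃ ε : ℝ, 0 < ε ∧ √(‖y - x‖ / m) + (bar l t x +
      ((‖x - c‖ ^ 2 + 4 * (t - t₁)) / R ^ 2 + ε * (t - t₁))) < 1 := by
    have : Tendsto (fun ε : ℝ => √(‖y - x‖ / m) + (bar l t x +
        ((‖x - c‖ ^ 2 + 4 * (t - t₁)) / R ^ 2 + ε * (t - t₁)))) (𝓝[>] 0) (𝓝 _) :=
      (Continuous.tendsto (by fun_prop) 0).mono_left nhdsWithin_le_nhds
    obtain ⟨ε, h1, h2⟩ := ((this.eventually (gt_mem_nhds (a := 1) (by linarith))).and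
      self_mem_nhdsWithin).exists
    exact ⟨ε, h2, h1⟩
  set G : ℝ → E3 → ℝ := fun t x => bar l t x +
    ((‖x - c‖ ^ 2 + 4 * (t - t₁)) / R ^ 2 + ε * (t - t₁)) with hG
  have lsc : LowerSemicontinuous fun q : ℝ × E3 × E3 => √(‖q.2.2 - q.2.1‖ / m) + G q.1 q.2.1 := by
    refine LowerSemicontinuous.add (Continuous.lowerSemicontinuous (by fun_prop))
      (LowerSemicontinuous.add ?_ (Continuous.lowerSemicontinuous (by fun_prop)))
    exact (lsc_bar l hl).comp (g := fun q : ℝ × E3 × E3 => (q.1, q.2.1)) (by fun_prop)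
  have hyx : ‖y - x‖ < m := sq_lt (by linarith [bar_nonneg hl t x, qn t ht x])
  obtain ⟨⟨t₀, x₀, y₀⟩, ⟨k1, k2, k3, k4, -⟩, hmin⟩ := (lsc.lowerSemicontinuousOn _).exists_isMinOn
    (Set.nonempty_of_mem (x := (t, x, y)) (by exact ⟨ht, hx, hxR, hy, hyx.le⟩))
    (isCompact_pairs h hJ c R m)
  simp only at k1 k2 k3 k4
  have hZ : √(‖y₀ - x₀‖ / m) + G t₀ x₀ < 1 :=
    lt_of_le_of_lt (hmin (a := (t, x, y)) ⟨ht, hx, hxR, hy, hyx.le⟩) hεlt
  have b0 := bar_nonneg hl t₀ x₀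
  have b1 := qn t₀ k1 x₀
  have b2 : 0 ≤ ε * (t₀ - t₁) := mul_nonneg hε.le (by linarith [k1.1])
  have b3 := Real.sqrt_nonneg (‖y₀ - x₀‖ / m)
  simp only [hG] at hZ
  have hd : ‖y₀ - x₀‖ < m := sq_lt (by linarith)
  have hB : bar l t₀ x₀ < 1 := by linarith
  have hR' : ‖x₀ - c‖ < R := by
    have h1 : (‖x₀ - c‖ ^ 2 + 4 * (t₀ - t₁)) / R ^ 2 < 1 := by linarith
    rw [div_lt_one (by positivity)] at h1
    exact lt_of_pow_lt_pow_left₀ 2 hR.le (by linarith [k1.1])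
  have ht₀ : t₁ < t₀ := by
    refine lt_of_le_of_ne k1.1 fun h0 => ?_
    subst h0
    exact absurd (H1 x₀ k2 k3 fun hs => absurd (hs y₀ k4) (not_le.2 hd)) (not_le.2 hB)
  have hsep : SepGE (M t₀) x₀ ‖y₀ - x₀‖ := by
    intro u hu
    by_contra h0
    rw [not_le] at h0
    have h1 : √(‖y₀ - x₀‖ / m) + G t₀ x₀ ≤ √(‖u - x₀‖ / m) + G t₀ x₀ :=
      hmin (a := (t₀, x₀, u)) ⟨k1, k2, k3, hu, (h0.trans hd).le⟩
    have h2 := Real.sqrt_lt_sqrt (by positivity) (div_lt_div_of_pos_right h0 hm)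
    linarith
  have hopen : ‖y₀ - x₀‖ / 2 < |⟪y₀ - x₀, nu (M t₀) x₀⟫| := by
    refine lt_of_le_of_ne k4.2.2 fun h0 => ?_
    exact absurd (H2 t₀ k1 x₀ k2 k3 _ hd ⟨hsep, y₀, k4.1, k4.2.1, rfl, h0.symm⟩) (not_le.2 hB)
  have hSup : Sup G t₀ x₀ ε := by
    simpa using (sup_bar l hl t₀ x₀).add (sup_quad c R t₁ ε t₀ x₀)
  refine no_local_min h (hJ k1) k2 k4.1 hopen hm hε hSup ?_
  have e1 : ∀ᶠ q : ℝ × E3 × E3 in 𝓝 (t₀, x₀, y₀), t₁ < q.1 :=
    continuous_fst.continuousAt.eventually (lt_mem_nhds ht₀)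
  have e2 : ∀ᶠ q : ℝ × E3 × E3 in 𝓝 (t₀, x₀, y₀), ‖q.2.1 - c‖ < R :=
    (isOpen_lt (f := fun q : ℝ × E3 × E3 => ‖q.2.1 - c‖) (by fun_prop) continuous_const).mem_nhds hR'
  have e3 : ∀ᶠ q : ℝ × E3 × E3 in 𝓝 (t₀, x₀, y₀), ‖q.2.2 - q.2.1‖ < m :=
    (isOpen_lt (f := fun q : ℝ × E3 × E3 => ‖q.2.2 - q.2.1‖) (by fun_prop)
      continuous_const).mem_nhds hd
  have e4 := eventually_nhdsWithin_iff.1 ((contOn_cone h (t₀, x₀, y₀) ⟨hJ k1, k2⟩).eventually
    (lt_mem_nhds (sub_pos.2 hopen)))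
  filter_upwards [e1, e2, e3, e4] with q q1 q2 q3 q4 q5 q6 q7
  have q8 : q.1 ∈ Icc t₁ t₂ := ⟨q1.le, q5.trans k1.2⟩
  have q9 := sub_pos.1 (q4 ⟨hJ q8, q6⟩)
  refine hmin (a := q) ⟨q8, q6, q2.le, ⟨q7, fun h0 => ?_, q9.le⟩, q3.le⟩
  simp [h0] at q9

end Vale.Agent.P218FT
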