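import Vale.Agent.P218FT.EVFlat

/-! Space-time graph charts of a smooth family of surfaces. -/

open MeasureTheory Set Filter Topology Metric
open scoped ENNReal NNReal RealInnerProductSpace ContDiff

namespace Vale.Agent.P218FT.EV

/-- the spatial gradient -/
noncomputable def sg (w : ℝ × E3 → ℝ) (p : ℝ × E3) : E3 := gradient (fun y => w (p.1, y)) p.2

lemma hasFDerivAt_slice {F : Type*} [NormedAddCommGroup F] [NormedSpace ℝ F] {w : ℝ × E3 → F}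
    {p : ℝ × E3} (hw : DifferentiableAt ℝ w p) :
    HasFDerivAt (fun y => w (p.1, y)) ((fderiv ℝ w p).comp (ContinuousLinearMap.inr ℝ ℝ E3)) p.2 :=
  hw.hasFDerivAt.comp p.2 (hasFDerivAt_prodMk_right p.1 p.2)

lemma inner_sg {w : ℝ × E3 → ℝ} {p : ℝ × E3} (hw : DifferentiableAt ℝ w p) (v : E3) :
    ⟪sg w p, v⟫ = fderiv ℝ w p (0, v) := by
  rw [sg, inner_gradient_left, (hasFDerivAt_slice hw).fderiv]
  simp

lemma sg_eq_sum {w : ℝ × E3 → ℝ} {p : ℝ × E3} (hw : DifferentiableAt ℝ w p)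
    (b : OrthonormalBasis (Fin 3) ℝ E3) : sg w p = ∑ i, fderiv ℝ w p (0, b i) • b i := by
  rw [← b.sum_repr' (sg w p)]
  refine Finset.sum_congr rfl fun i _ => ?_
  rw [real_inner_comm, inner_sg hw]

lemma contDiff_fderiv {w : ℝ × E3 → ℝ} (hw : ContDiff ℝ ∞ w) : ContDiff ℝ ∞ (fderiv ℝ w) :=
  hw.fderiv_right (m := ∞) (by simp)

lemma contDiff_fderiv_apply {w : ℝ × E3 → ℝ} (hw : ContDiff ℝ ∞ w) (v : ℝ × E3) :
    ContDiff ℝ ∞ fun p => fderiv ℝ w p v :=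
  (contDiff_fderiv hw).clm_apply contDiff_const

lemma contDiff_sg {w : ℝ × E3 → ℝ} (hw : ContDiff ℝ ∞ w) : ContDiff ℝ ∞ (sg w) := by
  have : sg w = fun p => ∑ i, fderiv ℝ w p (0, EuclideanSpace.basisFun (Fin 3) ℝ i) •
      EuclideanSpace.basisFun (Fin 3) ℝ i :=
    funext fun p => sg_eq_sum (hw.differentiable (by simp) p) _
  rw [this]
  exact ContDiff.sum fun i _ => (contDiff_fderiv_apply hw _).smul contDiff_const

lemma fderiv_fderiv_apply {w : ℝ × E3 → ℝ} (hw : ContDiff ℝ ∞ w) (p a v : ℝ × E3) :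
    fderiv ℝ (fun q => fderiv ℝ w q v) p a = fderiv ℝ (fderiv ℝ w) p a v := by
  have h := ((contDiff_fderiv hw).differentiable (by simp) p).hasFDerivAt.clm_apply
    (hasFDerivAt_const v p)
  rw [h.fderiv]
  simp

lemma d2_symm {w : ℝ × E3 → ℝ} (hw : ContDiff ℝ ∞ w) (p a v : ℝ × E3) :
    fderiv ℝ (fderiv ℝ w) p a v = fderiv ℝ (fderiv ℝ w) p v a :=
  (hw.contDiffAt.isSymmSndFDerivAt
    (by rw [minSmoothness_of_isRCLikeNormedField]; exact WithTop.coe_le_coe.2 le_top)).eq a v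

lemma inner_fderiv_sg {w : ℝ × E3 → ℝ} (hw : ContDiff ℝ ∞ w) (p a : ℝ × E3) (v : E3) :
    ⟪fderiv ℝ (sg w) p a, v⟫ = fderiv ℝ (fderiv ℝ w) p a (0, v) := by
  rw [← fderiv_fderiv_apply hw]
  have e : (fun q => fderiv ℝ w q (0, v)) = fun q => ⟪sg w q, v⟫ :=
    funext fun q => (inner_sg (hw.differentiable (by simp) q) v).symm
  have h := ((contDiff_sg hw).differentiable (by simp) p).hasFDerivAt.inner ℝ
    (hasFDerivAt_const v p)
  rw [e, h.fderiv]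
  simp

/-- the embedding of the parameter space -/
noncomputable def emb (b : OrthonormalBasis (Fin 3) ℝ E3) : ℝ × P2 →L[ℝ] ℝ × E3 :=
  (ContinuousLinearMap.fst ℝ ℝ P2).prod
    ((((ContinuousLinearMap.fst ℝ ℝ ℝ).comp (ContinuousLinearMap.snd ℝ ℝ P2)).smulRight (b 0)) +
      (((ContinuousLinearMap.snd ℝ ℝ ℝ).comp (ContinuousLinearMap.snd ℝ ℝ P2)).smulRight (b 1)))

lemma emb_apply (b : OrthonormalBasis (Fin 3) ℝ E3) (q : ℝ × P2) :
    emb b q = (q.1, q.2.1 • b 0 + q.2.2 • b 1) := rfl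

/-- the projection onto the parameter space -/
noncomputable def prj (b : OrthonormalBasis (Fin 3) ℝ E3) : ℝ × E3 →L[ℝ] ℝ × P2 :=
  (ContinuousLinearMap.fst ℝ ℝ E3).prod
    (((innerSL ℝ (b 0)).comp (ContinuousLinearMap.snd ℝ ℝ E3)).prod
      ((innerSL ℝ (b 1)).comp (ContinuousLinearMap.snd ℝ ℝ E3)))

lemma prj_apply (b : OrthonormalBasis (Fin 3) ℝ E3) (p : ℝ × E3) :
    prj b p = (p.1, (⟪b 0, p.2⟫, ⟪b 1, p.2⟫)) := rfl

/-- the vertical direction -/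
noncomputable def ver (b : OrthonormalBasis (Fin 3) ℝ E3) : ℝ × E3 := (0, b 2)

lemma emb_prj (b : OrthonormalBasis (Fin 3) ℝ E3) (p : ℝ × E3) :
    emb b (prj b p) + ⟪b 2, p.2⟫ • ver b = p := by
  have h := b.sum_repr' p.2
  rw [Fin.sum_univ_three] at h
  ext1
  · simp [emb_apply, prj_apply, ver]
  · simpa [emb_apply, prj_apply, ver] using h

lemma inner_b (b : OrthonormalBasis (Fin 3) ℝ E3) (i j : Fin 3) :
    ⟪b i, b j⟫ = if i = j then (1 : ℝ) else 0 := orthonormal_iff_ite.1 b.orthonormal i j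

lemma prj_emb (b : OrthonormalBasis (Fin 3) ℝ E3) (q : ℝ × P2) (z : ℝ) :
    prj b (emb b q + z • ver b) = q := by
  obtain ⟨t, y₁, y₂⟩ := q
  simp [emb_apply, prj_apply, ver, inner_add_right, inner_smul_right]

lemma ht_emb (b : OrthonormalBasis (Fin 3) ℝ E3) (q : ℝ × P2) (z : ℝ) :
    ⟪b 2, (emb b q + z • ver b).2⟫ = z := by
  obtain ⟨t, y₁, y₂⟩ := q
  simp [emb_apply, ver, inner_add_right, inner_smul_right]

/-- a space-time graph chart -/
structure Chart (M : ℝ → Set E3) where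
  w : ℝ × E3 → ℝ
  b : OrthonormalBasis (Fin 3) ℝ E3
  u : ℝ × P2 → ℝ
  U : Set (ℝ × E3)
  O : Set (ℝ × P2)
  smooth : ContDiff ℝ ∞ w
  openU : IsOpen U
  openO : IsOpen O
  hu : ContDiffOn ℝ 1 u O
  pos : ∀ p ∈ U, 0 < fderiv ℝ w p (ver b)
  proj : ∀ p ∈ U, prj b p ∈ O
  mem : ∀ q ∈ O, emb b q + u q • ver b ∈ U
  zero : ∀ p ∈ U, p.2 ∈ M p.1 ↔ w p = 0
  graph : ∀ p ∈ U, w p = 0 ↔ u (prj b p) = ⟪b 2, p.2⟫

/-- existence of charts -/
theorem exists_chart {M : ℝ → Set E3} {w : ℝ × E3 → ℝ} {p₀ : ℝ × E3} (hw : ContDiff ℝ ∞ w)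
    (hg : sg w p₀ ≠ 0) (hz : ∀ᶠ p : ℝ × E3 in 𝓝 p₀, p.2 ∈ M p.1 ↔ w p = 0) (h0 : w p₀ = 0)
    {Ω : Set (ℝ × E3)} (hΩ : Ω ∈ 𝓝 p₀) :
    ∃ c : Chart M, c.w = w ∧ p₀ ∈ c.U ∧ c.U ⊆ Ω := by
  have hn : ‖sg w p₀‖ ≠ 0 := norm_ne_zero_iff.2 hg
  obtain ⟨b, hb⟩ := Orthonormal.exists_orthonormalBasis_extension_of_card_eq (𝕜 := ℝ) (E := E3)
    (ι := Fin 3) (by simp) (v := fun _ => ‖sg w p₀‖⁻¹ • sg w p₀) (s := {2}) (by
      refine ⟨fun i => ?_, fun i j hij => (hij (Subsingleton.elim _ _)).elim⟩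
      simp [norm_smul, hn])
  have hb2 : b 2 = ‖sg w p₀‖⁻¹ • sg w p₀ := hb 2 rfl
  have hc : 0 < fderiv ℝ w p₀ (ver b) := by
    rw [ver, ← inner_sg (hw.differentiable (by simp) p₀), hb2, inner_smul_right,
      real_inner_self_eq_norm_sq]
    positivity
  let Λ : (ℝ × P2) × ℝ →L[ℝ] ℝ × E3 := (emb b).comp (ContinuousLinearMap.fst ℝ _ ℝ) +
    (ContinuousLinearMap.snd ℝ _ ℝ).smulRight (ver b)
  have hΛ : ∀ v, Λ v = emb b v.1 + v.2 • ver b := fun v => rfl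
  let v₀ : (ℝ × P2) × ℝ := (prj b p₀, ⟪b 2, p₀.2⟫)
  have hv₀ : Λ v₀ = p₀ := emb_prj b p₀
  have hf : ContDiffAt ℝ 1 (w ∘ Λ) v₀ := ((hw.of_le (by simp)).comp Λ.contDiff).contDiffAt
  have hD : fderiv ℝ (w ∘ Λ) v₀ = (fderiv ℝ w p₀).comp Λ := by
    rw [← hv₀]
    exact ((hw.differentiable (by simp) _).hasFDerivAt.comp v₀ Λ.hasFDerivAt).fderiv
  have hinv : (fderiv ℝ (w ∘ Λ) v₀ ∘L .inr ℝ (ℝ × P2) ℝ).IsInvertible := by
    refine ContinuousLinearMap.IsInvertible.of_inverse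
      (g := (fderiv ℝ w p₀ (ver b))⁻¹ • ContinuousLinearMap.id ℝ ℝ) ?_ ?_
    · ext; simp [hD, hΛ, hc.ne']
    · ext; simp [hD, hΛ, hc.ne']
  let ψ := hf.implicitFunction (by simp) hinv
  have hψ : ContDiffAt ℝ 1 ψ v₀.1 := hf.contDiffAt_implicitFunction (by simp) hinv
  have hψ0 : ψ v₀.1 = v₀.2 := hf.implicitFunction_apply_self (by simp) hinv
  have hiff : ∀ᶠ v in 𝓝 v₀, (w ∘ Λ) v = (w ∘ Λ) v₀ ↔ ψ v.1 = v.2 :=
    hf.eventually_apply_eq_iff_implicitFunction (by simp) hinv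
  have hT : Tendsto Λ (𝓝 v₀) (𝓝 p₀) := hv₀ ▸ Λ.continuous.tendsto v₀
  have hpos : ∀ᶠ p in 𝓝 p₀, 0 < fderiv ℝ w p (ver b) :=
    (contDiff_fderiv_apply hw _).continuous.continuousAt.eventually (lt_mem_nhds hc)
  have hΩ' : ∀ᶠ p in 𝓝 p₀, p ∈ Ω := hΩ
  have hA := hiff.and (hT.eventually (hz.and (hpos.and hΩ')))
  obtain ⟨O₁, hO₁, Z₁, hZ₁, hsub⟩ := mem_nhds_prod_iff.1 hA
  obtain ⟨Z, hZZ, hZo, hZm⟩ := _root_.mem_nhds_iff.1 hZ₁
  have hψZ : ∀ᶠ q in 𝓝 v₀.1, ψ q ∈ Z :=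
    hψ.continuousAt.eventually (hZo.mem_nhds (by rw [hψ0]; exact hZm))
  obtain ⟨O, hOO, hOo, hOm⟩ := _root_.mem_nhds_iff.1
    (inter_mem hO₁ (hψZ.and (hψ.eventually (by simp))))
  have key : ∀ p : ℝ × E3, prj b p ∈ O → ⟪b 2, p.2⟫ ∈ Z →
      (w p = 0 ↔ ψ (prj b p) = ⟪b 2, p.2⟫) ∧ (p.2 ∈ M p.1 ↔ w p = 0) ∧
        0 < fderiv ℝ w p (ver b) ∧ p ∈ Ω := by
    intro p h1 h2
    have h3 := hsub (mk_mem_prod (hOO h1).1 (hZZ h2))
    have h4 : Λ (prj b p, ⟪b 2, p.2⟫) = p := emb_prj b p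
    simpa only [mem_ofPred_eq, Function.comp_apply, h4, hv₀, h0] using h3
  refine ⟨⟨w, b, ψ, {p | prj b p ∈ O ∧ ⟪b 2, p.2⟫ ∈ Z}, O, hw, ?_, hOo,
    fun q hq => (hOO hq).2.2.contDiffWithinAt, fun p hp => (key p hp.1 hp.2).2.2.1,
    fun p hp => hp.1, fun q hq => ?_, fun p hp => (key p hp.1 hp.2).2.1,
    fun p hp => (key p hp.1 hp.2).1⟩, rfl, ⟨hOm, hZm⟩, fun p hp => (key p hp.1 hp.2).2.2.2⟩
  · exact (hOo.preimage (prj b).continuous).inter (hZo.preimage (by fun_prop))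
  · rw [mem_ofPred_eq, prj_emb, ht_emb]
    exact ⟨hq, (hOO hq).2.1⟩

namespace Chart

variable {M : ℝ → Set E3} (c : Chart M)

/-- the parametrisation of the track -/
noncomputable def F (q : ℝ × P2) : ℝ × E3 := emb c.b q + c.u q • ver c.b

lemma F_fst (q : ℝ × P2) : (c.F q).1 = q.1 := by simp [F, emb_apply, ver]

lemma prj_F (q : ℝ × P2) : prj c.b (c.F q) = q := prj_emb _ _ _

lemma F_mem {q : ℝ × P2} (hq : q ∈ c.O) : c.F q ∈ c.U := c.mem q hq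

lemma w_F {q : ℝ × P2} (hq : q ∈ c.O) : c.w (c.F q) = 0 := by
  rw [c.graph _ (c.F_mem hq), prj_F, F, ht_emb]

lemma F_prj {p : ℝ × E3} (hp : p ∈ c.U) (h0 : c.w p = 0) : c.F (prj c.b p) = p := by
  rw [F, (c.graph p hp).1 h0, emb_prj]

lemma contDiffOn_F : ContDiffOn ℝ 1 c.F c.O :=
  (emb c.b).contDiff.contDiffOn.add (c.hu.smul contDiffOn_const)

lemma contDiffAt_F {q : ℝ × P2} (hq : q ∈ c.O) : ContDiffAt ℝ 1 c.F q :=
  c.contDiffOn_F.contDiffAt (c.openO.mem_nhds hq)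

lemma diffw (p : ℝ × E3) : DifferentiableAt ℝ c.w p := c.smooth.differentiable (by simp) p

/-- the tangent map of the level sets, in terms of the equation -/
noncomputable def T (p : ℝ × E3) : ℝ × P2 →L[ℝ] ℝ × E3 :=
  emb c.b - ((fderiv ℝ c.w p (ver c.b))⁻¹ • (fderiv ℝ c.w p).comp (emb c.b)).smulRight (ver c.b)

lemma T_apply (p : ℝ × E3) (v : ℝ × P2) : c.T p v =
    emb c.b v - ((fderiv ℝ c.w p (ver c.b))⁻¹ * fderiv ℝ c.w p (emb c.b v)) • ver c.b := rfl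

lemma hasFDerivAt_F {q : ℝ × P2} (hq : q ∈ c.O) : HasFDerivAt c.F (c.T (c.F q)) q := by
  have hu : HasFDerivAt c.u (fderiv ℝ c.u q) q :=
    ((c.hu.contDiffAt (c.openO.mem_nhds hq)).differentiableAt (by simp)).hasFDerivAt
  have h1 : HasFDerivAt c.F (emb c.b + (fderiv ℝ c.u q).smulRight (ver c.b)) q :=
    (emb c.b).hasFDerivAt.add (hu.smul_const _)
  have h2 := (c.diffw (c.F q)).hasFDerivAt.comp q h1
  have h3 : HasFDerivAt (c.w ∘ c.F) (0 : ℝ × P2 →L[ℝ] ℝ) q := by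
    refine (hasFDerivAt_const (0 : ℝ) q).congr_of_eventuallyEq ?_
    filter_upwards [c.openO.mem_nhds hq] with y hy using c.w_F hy
  have h4 := h2.unique h3
  have hc := (c.pos _ (c.F_mem hq)).ne'
  convert h1 using 1
  refine ContinuousLinearMap.ext fun v => ?_
  have h5 := congrArg (fun L : ℝ × P2 →L[ℝ] ℝ => L v) h4
  simp only [ContinuousLinearMap.comp_apply, add_apply,
    ContinuousLinearMap.smulRight_apply, map_add, map_smul, smul_eq_mul,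
    zero_apply] at h5
  have h6 : fderiv ℝ c.u q v =
      -((fderiv ℝ c.w (c.F q) (ver c.b))⁻¹ * fderiv ℝ c.w (c.F q) (emb c.b v)) := by
    field_simp; linarith
  rw [T_apply, add_apply, ContinuousLinearMap.smulRight_apply, h6, neg_smul,
    sub_eq_add_neg]

lemma dw_T {p : ℝ × E3} (hp : p ∈ c.U) (v : ℝ × P2) : fderiv ℝ c.w p (c.T p v) = 0 := by
  have hc := (c.pos _ hp).ne'
  rw [T_apply, map_sub, map_smul, smul_eq_mul]
  field_simp; ring

/-- decomposition of a vector in tangent and vertical parts -/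
lemma decomp {p : ℝ × E3} (hp : p ∈ c.U) (a : ℝ × E3) :
    a = c.T p (prj c.b a) + ((fderiv ℝ c.w p (ver c.b))⁻¹ * fderiv ℝ c.w p a) • ver c.b := by
  have hc := (c.pos _ hp).ne'
  have h1 := emb_prj c.b a
  have h2 : fderiv ℝ c.w p a =
      fderiv ℝ c.w p (emb c.b (prj c.b a)) + ⟪c.b 2, a.2⟫ * fderiv ℝ c.w p (ver c.b) := by
    conv_lhs => rw [← h1]
    simp
  rw [T_apply, h2]
  conv_lhs => rw [← h1]
  rw [sub_eq_add_neg, add_assoc, ← neg_smul, ← add_smul]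
  congr 2
  field_simp; ring

/-- two equations of the same family have proportional differentials -/
lemma tangent_of_eqn {p : ℝ × E3} (hp : p ∈ c.U) (h0 : c.w p = 0) {w' : ℝ × E3 → ℝ}
    (hw' : DifferentiableAt ℝ w' p) (hg : sg w' p ≠ 0)
    (hz : ∀ᶠ q : ℝ × E3 in 𝓝 p, q.2 ∈ M q.1 ↔ w' q = 0) {a : ℝ × E3}
    (ha : fderiv ℝ w' p a = 0) : fderiv ℝ c.w p a = 0 := by
  have hq := c.proj p hp
  have hF := c.F_prj hp h0
  have h1 := c.hasFDerivAt_F hq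
  have hT : Tendsto c.F (𝓝 (prj c.b p)) (𝓝 p) := by
    have := h1.continuousAt.tendsto
    rwa [hF] at this
  have h2 : HasFDerivAt w' (fderiv ℝ w' p) (c.F (prj c.b p)) := by
    rw [hF]; exact hw'.hasFDerivAt
  have h3 : HasFDerivAt (w' ∘ c.F) (0 : ℝ × P2 →L[ℝ] ℝ) (prj c.b p) := by
    refine (hasFDerivAt_const (0 : ℝ) _).congr_of_eventuallyEq ?_
    filter_upwards [c.openO.mem_nhds hq, hT.eventually hz] with y hy hy'
    exact hy'.1 ((c.zero _ (c.F_mem hy)).2 (c.w_F hy))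
  have h4 := (h2.comp _ h1).unique h3
  rw [hF] at h4
  have h5 : ∀ v, fderiv ℝ w' p (c.T p v) = 0 := fun v =>
    congrArg (fun L : ℝ × P2 →L[ℝ] ℝ => L v) h4
  have h6 : ∀ a, fderiv ℝ w' p a =
      ((fderiv ℝ c.w p (ver c.b))⁻¹ * fderiv ℝ c.w p a) * fderiv ℝ w' p (ver c.b) := by
    intro a
    conv_lhs => rw [c.decomp hp a]
    rw [map_add, h5, map_smul, zero_add, smul_eq_mul]
  have h7 : fderiv ℝ w' p (ver c.b) ≠ 0 := by
    intro h
    apply hg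
    rw [← inner_self_eq_zero (𝕜 := ℝ), inner_sg hw', h6, h, mul_zero]
  rw [h6] at ha
  have hc := (c.pos _ hp).ne'
  simpa [h7, hc] using ha

lemma sg_ne {p : ℝ × E3} (hp : p ∈ c.U) : sg c.w p ≠ 0 := by
  intro h
  have := c.pos p hp
  rw [ver, ← inner_sg (c.diffw p), h, inner_zero_left] at this
  exact lt_irrefl _ this

/-- the area element -/
noncomputable def rho (p : ℝ × E3) : ℝ := ‖sg c.w p‖ / fderiv ℝ c.w p (ver c.b)

lemma par_T {p : ℝ × E3} (hp : p ∈ c.U) :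
    P218GA.par (c.T p (0, (1, 0))).2 (c.T p (0, (0, 1))).2 = c.rho p := by
  have hc := c.pos _ hp
  have hn : ‖sg c.w p‖ ^ 2 = fderiv ℝ c.w p (0, c.b 0) ^ 2 + fderiv ℝ c.w p (0, c.b 1) ^ 2 +
      fderiv ℝ c.w p (ver c.b) ^ 2 := by
    rw [← real_inner_self_eq_norm_sq, ← c.b.sum_inner_mul_inner, Fin.sum_univ_three, ver]
    simp only [real_inner_comm (sg c.w p), inner_sg (c.diffw p)]
    ring
  rw [P218GA.par, rho, ← real_inner_self_eq_norm_sq, ← real_inner_self_eq_norm_sq]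
  rw [Real.sqrt_eq_iff_mul_self_eq _ (by positivity), ← sq, div_pow, hn]
  · simp only [T_apply, emb_apply, ver, Prod.snd_sub, Prod.smul_snd, one_smul, zero_smul, add_zero,
      zero_add, inner_sub_left, inner_sub_right, inner_smul_left, inner_smul_right, inner_b]
    simp only [ver] at hc
    simp
    field_simp
    ring
  · rw [real_inner_self_eq_norm_sq, real_inner_self_eq_norm_sq, sub_nonneg, ← mul_pow,
      sq_le_sq, abs_of_nonneg (by positivity : 0 ≤ ‖_‖ * ‖_‖)]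
    exact abs_real_inner_le_norm _ _

lemma slice_open (t : ℝ) : IsOpen {y : P2 | (t, y) ∈ c.O} :=
  c.openO.preimage (Continuous.prodMk_right t)

lemma hasFDerivAt_slice {t : ℝ} {y : P2} (hy : (t, y) ∈ c.O) :
    HasFDerivAt (fun y : P2 => (c.F (t, y)).2) ((ContinuousLinearMap.snd ℝ ℝ E3).comp
      ((c.T (c.F (t, y))).comp (ContinuousLinearMap.inr ℝ ℝ P2))) y :=
  ((c.hasFDerivAt_F hy).comp y (hasFDerivAt_prodMk_right t y)).snd

lemma F_eta (t : ℝ) (y : P2) : (t, (c.F (t, y)).2) = c.F (t, y) :=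
  Prod.ext (c.F_fst (t, y)).symm rfl

lemma slice_image (t : ℝ) : (fun y : P2 => (c.F (t, y)).2) '' {y : P2 | (t, y) ∈ c.O} =
    {x | (t, x) ∈ c.U} ∩ M t := by
  ext x
  constructor
  · rintro ⟨y, hy, rfl⟩
    have h1 := c.F_mem hy
    refine ⟨by rw [mem_ofPred_eq, F_eta]; exact h1, ?_⟩
    have := (c.zero _ h1).2 (c.w_F hy)
    rwa [F_fst] at this
  · rintro ⟨h1, h2⟩
    have h3 := c.F_prj h1 ((c.zero _ h1).1 h2)
    exact ⟨(prj c.b (t, x)).2, c.proj _ h1, congrArg Prod.snd h3⟩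

lemma slice_data (t : ℝ) :
    ContDiffOn ℝ 1 (fun y : P2 => (c.F (t, y)).2) {y : P2 | (t, y) ∈ c.O} ∧
    (∀ y ∈ {y : P2 | (t, y) ∈ c.O},
      Function.Injective (fderiv ℝ (fun y : P2 => (c.F (t, y)).2) y)) ∧
    InjOn (fun y : P2 => (c.F (t, y)).2) {y : P2 | (t, y) ∈ c.O} ∧
    ∀ y ∈ {y : P2 | (t, y) ∈ c.O},
      P218GA.par (fderiv ℝ (fun y : P2 => (c.F (t, y)).2) y (1, 0))
        (fderiv ℝ (fun y : P2 => (c.F (t, y)).2) y (0, 1)) = c.rho (c.F (t, y)) := by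
  refine ⟨fun y hy => ?_, fun y hy => ?_, fun y _ z _ h => ?_, fun y hy => ?_⟩
  · exact (((c.contDiffAt_F hy).comp y (contDiffAt_const.prodMk contDiffAt_id)).snd).contDiffWithinAt
  · rw [(c.hasFDerivAt_slice hy).fderiv, injective_iff_map_eq_zero]
    intro v hv
    have h1 : c.T (c.F (t, y)) (0, v) = 0 := by
      ext1
      · simp [T_apply, emb_apply, ver]
      · exact hv
    have h2 := congrArg (prj c.b) h1
    rw [T_apply, sub_eq_add_neg, ← neg_smul, prj_emb, map_zero] at h2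
    exact congrArg Prod.snd h2
  · have h1 : c.F (t, y) = c.F (t, z) := by rw [← F_eta, ← c.F_eta t z]; exact congrArg _ h
    have h2 := congrArg (prj c.b) h1
    rw [prj_F, prj_F] at h2
    exact congrArg Prod.snd h2
  · rw [(c.hasFDerivAt_slice hy).fderiv]
    exact c.par_T (c.F_mem hy)

lemma restrict_eq (t : ℝ) : (area (M t)).restrict {x | (t, x) ∈ c.U} =
    (μHE[2] : Measure E3).restrict ((fun y : P2 => (c.F (t, y)).2) '' {y : P2 | (t, y) ∈ c.O}) := by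
  rw [slice_image, area]
  exact Measure.restrict_restrict (c.openU.preimage (Continuous.prodMk_right t)).measurableSet

variable {K : Set (ℝ × E3)}

lemma pull_zero {E : Type*} [Zero E] {φ : ℝ × E3 → E} (h0 : ∀ p ∉ K, φ p = 0) {q : ℝ × P2}
    (hq : q ∉ prj c.b '' K) : φ (c.F q) = 0 :=
  h0 _ fun h => hq ⟨_, h, c.prj_F q⟩

lemma prj_sub (hK : K ⊆ c.U) : prj c.b '' K ⊆ c.O := by
  rintro _ ⟨p, hp, rfl⟩
  exact c.proj p (hK hp)

/-- integrals in a chart -/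
theorem integral_eq (hK : K ⊆ c.U) {φ : ℝ × E3 → ℝ} (h0 : ∀ p ∉ K, φ p = 0) (t : ℝ) :
    ∫ x, φ (t, x) ∂area (M t) = ∫ y : P2, c.rho (c.F (t, y)) * φ (c.F (t, y)) := by
  obtain ⟨h1, h2, h3, h4⟩ := c.slice_data t
  rw [← setIntegral_eq_integral_of_forall_compl_eq_zero (s := {x | (t, x) ∈ c.U})
    (fun x hx => h0 _ fun h => hx (hK h)), restrict_eq,
    area_integral (c.slice_open t) h1 h2 h3,
    ← setIntegral_eq_integral_of_forall_compl_eq_zero (s := {y : P2 | (t, y) ∈ c.O})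
    (f := fun y : P2 => c.rho (c.F (t, y)) * φ (c.F (t, y))) (fun y hy => by rw [c.pull_zero h0 fun h => hy (c.prj_sub hK h), mul_zero])]
  refine setIntegral_congr_fun (c.slice_open t).measurableSet fun y hy => ?_
  simp only [h4 y hy, F_eta]

/-- integrability in a chart -/
theorem integrable_of (hK : K ⊆ c.U) {φ : ℝ × E3 → ℝ} (h0 : ∀ p ∉ K, φ p = 0) (t : ℝ)
    (hi : Integrable fun y : P2 => c.rho (c.F (t, y)) * φ (c.F (t, y))) :
    Integrable (fun x => φ (t, x)) (area (M t)) := by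
  obtain ⟨h1, h2, h3, h4⟩ := c.slice_data t
  have hm : MeasurableSet {x | (t, x) ∈ c.U} :=
    (c.openU.preimage (Continuous.prodMk_right t)).measurableSet
  refine IntegrableOn.integrable_of_forall_notMem_eq_zero (s := {x | (t, x) ∈ c.U}) ?_
    fun x hx => h0 _ fun h => hx (hK h)
  rw [IntegrableOn, restrict_eq]
  refine area_integrable (c.slice_open t) h1 h2 h3 _ ?_
  refine (hi.integrableOn (s := {y : P2 | (t, y) ∈ c.O})).congr_fun (fun y hy => ?_)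
    (c.slice_open t).measurableSet
  simp only [h4 y hy, F_eta]

lemma pull_supp (hKc : IsCompact K) {φ : ℝ × E3 → ℝ} (h0 : ∀ p ∉ K, φ p = 0) :
    HasCompactSupport fun q => φ (c.F q) :=
  HasCompactSupport.intro (hKc.image (prj c.b).continuous) fun _ hq => c.pull_zero h0 hq

lemma pull_ev (hKc : IsCompact K) (hK : K ⊆ c.U) {φ : ℝ × E3 → ℝ} (h0 : ∀ p ∉ K, φ p = 0)
    {q : ℝ × P2} (hq : q ∉ c.O) : (fun q => φ (c.F q)) =ᶠ[𝓝 q] fun _ => 0 := by
  filter_upwards [(hKc.image (prj c.b).continuous).isClosed.isOpen_compl.mem_nhds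
    fun h => hq (c.prj_sub hK h)] with y hy using c.pull_zero h0 hy

/-- pull-back of a function which is continuous on the track -/
lemma pull_cont (hKc : IsCompact K) (hK : K ⊆ c.U) {φ : ℝ × E3 → ℝ} (h0 : ∀ p ∉ K, φ p = 0)
    (hφ : ContinuousOn φ {p | p ∈ c.U ∧ c.w p = 0}) : Continuous fun q => φ (c.F q) := by
  rw [continuous_iff_continuousAt]
  intro q
  by_cases hq : q ∈ c.O
  · refine ContinuousOn.continuousAt ?_ (c.openO.mem_nhds hq)
    exact hφ.comp c.contDiffOn_F.continuousOn fun y hy => ⟨c.F_mem hy, c.w_F hy⟩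
  · exact continuousAt_const.congr (c.pull_ev hKc hK h0 hq).symm

/-- pull-back of a `C¹` function -/
lemma pull_diff (hKc : IsCompact K) (hK : K ⊆ c.U) {φ : ℝ × E3 → ℝ} (h0 : ∀ p ∉ K, φ p = 0)
    (hφ : ContDiffOn ℝ 1 φ c.U) : ContDiff ℝ 1 fun q => φ (c.F q) := by
  rw [contDiff_iff_contDiffAt]
  intro q
  by_cases hq : q ∈ c.O
  · exact (hφ.contDiffAt (c.openU.mem_nhds (c.F_mem hq))).comp q (c.contDiffAt_F hq)
  · exact contDiffAt_const.congr_of_eventuallyEq (c.pull_ev hKc hK h0 hq)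

lemma fderiv_zero (hKc : IsCompact K) {E : Type*} [NormedAddCommGroup E] [NormedSpace ℝ E]
    {φ : ℝ × E3 → E} (h0 : ∀ p ∉ K, φ p = 0) {p : ℝ × E3} (hp : p ∉ K) : fderiv ℝ φ p = 0 := by
  have : φ =ᶠ[𝓝 p] fun _ => 0 := by
    filter_upwards [hKc.isClosed.isOpen_compl.mem_nhds hp] with y hy using h0 y hy
  rw [this.fderiv_eq]
  simp

lemma pull_fderiv (hKc : IsCompact K) (hK : K ⊆ c.U) {φ : ℝ × E3 → ℝ} (h0 : ∀ p ∉ K, φ p = 0)
    (hφ : ContDiffOn ℝ 1 φ c.U) (q v : ℝ × P2) :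
    fderiv ℝ (fun q => φ (c.F q)) q v = fderiv ℝ φ (c.F q) (c.T (c.F q) v) := by
  by_cases hq : q ∈ c.O
  · have h1 := ((hφ.contDiffAt (c.openU.mem_nhds (c.F_mem hq))).differentiableAt
      (by simp)).hasFDerivAt.comp q (c.hasFDerivAt_F hq)
    exact congrArg (fun L : ℝ × P2 →L[ℝ] ℝ => L v) h1.fderiv
  · rw [(c.pull_ev hKc hK h0 hq).fderiv_eq,
      fderiv_zero hKc h0 fun h => hq (c.prj_sub hK ⟨_, h, c.prj_F q⟩)]
    simp

lemma contDiffOn_rho : ContDiffOn ℝ ∞ c.rho c.U := fun p hp =>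
  (((contDiff_sg c.smooth).contDiffAt.norm ℝ (c.sg_ne hp)).div
    (contDiff_fderiv_apply c.smooth _).contDiffAt (c.pos p hp).ne').contDiffWithinAt

/-- integrability of compactly supported functions which are continuous on the track -/
theorem integrable_cont (hKc : IsCompact K) (hK : K ⊆ c.U) {φ : ℝ × E3 → ℝ}
    (h0 : ∀ p ∉ K, φ p = 0) (hφ : ContinuousOn φ {p | p ∈ c.U ∧ c.w p = 0}) (t : ℝ) :
    Integrable (fun x => φ (t, x)) (area (M t)) := by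
  have h1 : ∀ p ∉ K, c.rho p * φ p = 0 := fun p hp => by rw [h0 p hp, mul_zero]
  exact c.integrable_of hK h0 t (slice_integrable (k := fun q => c.rho (c.F q) * φ (c.F q))
    (c.pull_cont hKc hK h1 ((c.contDiffOn_rho.continuousOn.mono fun p hp => hp.1).mul hφ))
    (c.pull_supp hKc h1) t)

/-- continuity in time -/
theorem continuous_integral (hKc : IsCompact K) (hK : K ⊆ c.U) {φ : ℝ × E3 → ℝ}
    (h0 : ∀ p ∉ K, φ p = 0) (hφ : ContinuousOn φ {p | p ∈ c.U ∧ c.w p = 0}) :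
    Continuous fun t => ∫ x, φ (t, x) ∂area (M t) := by
  have h1 : ∀ p ∉ K, c.rho p * φ p = 0 := fun p hp => by rw [h0 p hp, mul_zero]
  simp only [c.integral_eq hK h0]
  exact continuous_param (k := fun q => c.rho (c.F q) * φ (c.F q))
    (c.pull_cont hKc hK h1 ((c.contDiffOn_rho.continuousOn.mono fun p hp => hp.1).mul hφ))
    (c.pull_supp hKc h1)

end Chart

end Vale.Agent.P218FT.EV
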