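import Vale.Agent.P218FT.Spec
import Vale.Agent.P218GA.Jac
import Mathlib.Analysis.Calculus.ParametricIntegral
import Mathlib.Analysis.Calculus.LineDeriv.IntegrationByParts
import Mathlib.Analysis.Calculus.BumpFunction.FiniteDimension
import Mathlib.Analysis.Calculus.ImplicitContDiff
import Mathlib.Analysis.Calculus.FDeriv.Symmetric
import Mathlib.Analysis.InnerProductSpace.Trace
import Mathlib.Analysis.InnerProductSpace.Calculus
import Mathlib.MeasureTheory.Integral.Bochner.Set

/-! Flat lemmas for the first variation and the evolution of integrals: differentiation under the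
integral, the divergence theorem in the plane, localisation, the area formula for `μHE[2]`. -/

open MeasureTheory Set Filter Topology Metric
open scoped ENNReal NNReal RealInnerProductSpace ContDiff

namespace Vale.Agent.P218FT.EV

/-- the parameter plane -/
abbrev P2 : Type := ℝ × ℝ

/-- localisation by smooth cut-off functions -/
theorem localise {V F : Type*} [NormedAddCommGroup V] [NormedSpace ℝ V] [FiniteDimensional ℝ V]
    [NormedAddCommGroup F] [NormedSpace ℝ F] (C P : (V → F) → Prop)
    (hC : ∀ (χ : V → ℝ) (f : V → F), ContDiff ℝ ∞ χ → C f → C (fun p => χ p • f p))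
    (h0 : P (fun _ => 0))
    (hadd : ∀ f g, C f → C g → P f → P g → P (fun p => f p + g p)) {K : Set V}
    (hK : IsCompact K)
    (hloc : ∀ x ∈ K, ∃ U ∈ 𝓝 x, ∀ f, C f → ∀ K', IsCompact K' → K' ⊆ U →
      (∀ p ∉ K', f p = 0) → P f) :
    ∃ ψ : V → ℝ, ContDiff ℝ ∞ ψ ∧ (∀ p ∈ K, ψ p = 1) ∧ ∀ f, C f → P (fun p => ψ p • f p) := by
  refine hK.induction_on (p := fun S => ∃ ψ : V → ℝ, ContDiff ℝ ∞ ψ ∧ (∀ p ∈ S, ψ p = 1) ∧
    ∀ f, C f → P (fun p => ψ p • f p)) ?_ ?_ ?_ ?_
  · exact ⟨fun _ => 0, contDiff_const, by simp, fun f _ => by simpa using h0⟩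
  · rintro s t hst ⟨ψ, h1, h2, h3⟩
    exact ⟨ψ, h1, fun p hp => h2 p (hst hp), h3⟩
  · rintro s t ⟨ψ₁, a1, a2, a3⟩ ⟨ψ₂, b1, b2, b3⟩
    have hs : ContDiff ℝ ∞ (fun p => 1 - ψ₁ p) := contDiff_const.sub a1
    refine ⟨fun p => ψ₁ p + ψ₂ p * (1 - ψ₁ p), a1.add (b1.mul hs), ?_, fun f hf => ?_⟩
    · rintro p (hp | hp)
      · simp [a2 p hp]
      · simp [b2 p hp]
    · have := hadd _ _ (hC _ _ a1 hf) (hC _ _ b1 (hC _ _ hs hf)) (a3 f hf) (b3 _ (hC _ _ hs hf))
      simpa only [add_smul, mul_smul] using this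
  · intro x hx
    obtain ⟨U, hU, hP⟩ := hloc x hx
    obtain ⟨r, hr, hrU⟩ := nhds_basis_closedBall.mem_iff.1 hU
    let c : ContDiffBump x := ⟨r / 2, r, half_pos hr, half_lt_self hr⟩
    refine ⟨closedBall x (r / 2), mem_nhdsWithin_of_mem_nhds (closedBall_mem_nhds x (half_pos hr)),
      c, c.contDiff, fun p hp => c.one_of_mem_closedBall hp, fun f hf => ?_⟩
    refine hP _ (hC _ _ c.contDiff hf) (closedBall x r) (isCompact_closedBall x r) hrU
      fun p hp => ?_
    have : c p = 0 := c.zero_of_le_dist (le_of_lt (by simpa using hp))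
    simp [this]

/-- slices of a compactly supported function -/
lemma slice_supp {k : ℝ × P2 → ℝ} (hk : HasCompactSupport k) (t : ℝ) :
    HasCompactSupport fun y : P2 => k (t, y) :=
  HasCompactSupport.intro (hk.isCompact.image continuous_snd) fun y hy =>
    image_eq_zero_of_notMem_tsupport fun h => hy ⟨(t, y), h, rfl⟩

lemma slice_integrable {k : ℝ × P2 → ℝ} (hc : Continuous k) (hk : HasCompactSupport k) (t : ℝ) :
    Integrable fun y : P2 => k (t, y) :=
  (hc.comp (Continuous.prodMk_right t)).integrable_of_hasCompactSupport (slice_supp hk t)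

/-- continuity of the parametric integral -/
lemma continuous_param {k : ℝ × P2 → ℝ} (hc : Continuous k) (hk : HasCompactSupport k) :
    Continuous fun t => ∫ y : P2, k (t, y) := by
  rw [← continuousOn_univ]
  refine continuousOn_integral_of_compact_support (f := fun t y => k (t, y))
    (hk.isCompact.image continuous_snd) hc.continuousOn fun t y _ hy => ?_
  exact image_eq_zero_of_notMem_tsupport fun h => hy ⟨(t, y), h, rfl⟩

lemma continuous_fderiv_apply {k : ℝ × P2 → ℝ} (hc : ContDiff ℝ 1 k) (v : ℝ × P2) :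
    Continuous fun q => fderiv ℝ k q v :=
  (hc.continuous_fderiv (by simp)).clm_apply continuous_const

/-- differentiation under the integral sign -/
lemma hasDerivAt_param {k : ℝ × P2 → ℝ} (hc : ContDiff ℝ 1 k) (hk : HasCompactSupport k) (t : ℝ) :
    HasDerivAt (fun s => ∫ y : P2, k (s, y)) (∫ y : P2, fderiv ℝ k (t, y) (1, 0)) t := by
  have hd := continuous_fderiv_apply hc (1, 0)
  have hs : HasCompactSupport fun q => fderiv ℝ k q (1, 0) := hk.fderiv_apply ℝ _
  obtain ⟨B, hB⟩ := hd.bounded_above_of_compact_support hs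
  have hK : IsCompact (Prod.snd '' tsupport fun q => fderiv ℝ k q (1, 0)) :=
    hs.isCompact.image continuous_snd
  refine (hasDerivAt_integral_of_dominated_loc_of_deriv_le (F := fun s y => k (s, y))
    (F' := fun s y => fderiv ℝ k (s, y) (1, 0)) (s := univ)
    (bound := (Prod.snd '' tsupport fun q => fderiv ℝ k q (1, 0)).indicator fun _ => B)
    univ_mem (Eventually.of_forall fun s => ?_) (slice_integrable hc.continuous hk t)
    (slice_integrable hd hs t).aestronglyMeasurable (Eventually.of_forall fun y s _ => ?_) ?_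
    (Eventually.of_forall fun y s _ => ?_)).2
  · exact (slice_integrable hc.continuous hk s).aestronglyMeasurable
  · by_cases hy : y ∈ Prod.snd '' tsupport fun q => fderiv ℝ k q (1, 0)
    · rw [indicator_of_mem hy]; exact hB _
    · rw [indicator_of_notMem hy]
      have : fderiv ℝ k (s, y) (1, 0) = 0 :=
        image_eq_zero_of_notMem_tsupport (f := fun q => fderiv ℝ k q (1, 0))
          fun h => hy ⟨(s, y), h, rfl⟩
      simp [this]
  · exact (integrable_indicator_iff hK.measurableSet).2 (integrableOn_const hK.measure_ne_top)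
  · have h1 : HasDerivAt (fun s : ℝ => ((s, y) : ℝ × P2)) (1, 0) s :=
      (hasDerivAt_id s).prodMk (hasDerivAt_const s y)
    exact ((hc.differentiable (by simp)) (s, y)).hasFDerivAt.comp_hasDerivAt s h1

/-- the divergence theorem in the parameter plane -/
lemma integral_fderiv_param {k : ℝ × P2 → ℝ} (hc : ContDiff ℝ 1 k) (hk : HasCompactSupport k)
    (t : ℝ) (v : P2) : ∫ y : P2, fderiv ℝ k (t, y) (0, v) = 0 := by
  have hd := continuous_fderiv_apply hc (0, v)
  have hs : HasCompactSupport fun q => fderiv ℝ k q (0, v) := hk.fderiv_apply ℝ _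
  have : (volume : Measure P2).IsAddHaarMeasure := Measure.prod.instIsAddHaarMeasure _ _
  have h := integral_bilinear_hasLineDerivAt_right_eq_neg_left_of_integrable
    (μ := (volume : Measure P2)) (f := fun _ : P2 => (1 : ℝ)) (f' := fun _ => 0)
    (g := fun y => k (t, y)) (g' := fun y => fderiv ℝ k (t, y) (0, v)) (v := v)
    (B := ContinuousLinearMap.mul ℝ ℝ) (by simp) (by simpa using slice_integrable hd hs t)
    (by simpa using slice_integrable hc.continuous hk t)
    (fun y _ => (hasFDerivAt_const (1 : ℝ) y).hasLineDerivAt v) fun y _ => ?_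
  · simpa using h
  · have h1 : HasFDerivAt (fun y : P2 => ((t, y) : ℝ × P2)) (ContinuousLinearMap.inr ℝ ℝ P2) y :=
      hasFDerivAt_prodMk_right t y
    have h2 := (((hc.differentiable (by simp)) (t, y)).hasFDerivAt.comp y h1).hasLineDerivAt v
    exact h2

open P218GA in
lemma he_eq : (μHE[2] : Measure E3) = (cH 2)⁻¹ • (μH[(2 : ℝ)] : Measure E3) := by
  have h := hausdorff_eq_smul (X := E3) 2
  rw [Nat.cast_ofNat] at h
  rw [h, smul_smul, inv_mul_cancel₀ (cH_pos 2).ne', one_smul]

open P218GA in
/-- the area formula for the normalised measure -/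
lemma area_integral {f : P2 → E3} {O : Set P2} (hO : IsOpen O) (hf : ContDiffOn ℝ 1 f O)
    (hi : ∀ y ∈ O, Function.Injective (fderiv ℝ f y)) (hinj : InjOn f O) (g : E3 → ℝ) :
    ∫ x in f '' O, g x ∂μHE[2] =
      ∫ y in O, par (fderiv ℝ f y (1, 0)) (fderiv ℝ f y (0, 1)) * g (f y) := by
  rw [he_eq, Measure.restrict_smul, integral_smul_nnreal_measure,
    isJac_prod.integral_image hO hf hi hO.measurableSet subset_rfl hinj]
  simp only [jac2, smul_eq_mul, mul_assoc]
  rw [integral_const_mul, NNReal.smul_def, NNReal.coe_inv, smul_eq_mul, ← mul_assoc,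
    inv_mul_cancel₀ (cH_pos' 2).ne', one_mul]

open P218GA in
lemma area_integrable {f : P2 → E3} {O : Set P2} (hO : IsOpen O) (hf : ContDiffOn ℝ 1 f O)
    (hi : ∀ y ∈ O, Function.Injective (fderiv ℝ f y)) (hinj : InjOn f O) (g : E3 → ℝ)
    (hg : IntegrableOn (fun y => par (fderiv ℝ f y (1, 0)) (fderiv ℝ f y (0, 1)) * g (f y)) O) :
    IntegrableOn g (f '' O) μHE[2] := by
  rw [he_eq, IntegrableOn, Measure.restrict_smul]
  refine Integrable.smul_measure_nnreal ?_
  refine (isJac_prod.integrableOn_image hO hf hi hO.measurableSet subset_rfl hinj g).2 ?_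
  simp only [jac2, smul_eq_mul, mul_assoc]
  exact hg.const_mul _

end Vale.Agent.P218FT.EV
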