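import Vale.Agent.P218FT.EVChart
import Vale.Agent.P218FT.Local

/-! The space-time divergence theorem in a chart, and the divergence of the two vector fields
which give the first variation formula and the evolution equation. -/

open MeasureTheory Set Filter Topology Metric
open scoped ENNReal NNReal RealInnerProductSpace ContDiff

namespace Vale.Agent.P218FT.EV

/-- the spatial divergence -/
noncomputable def sdiv (W : ℝ × E3 → E3) (p : ℝ × E3) : ℝ :=
  tr ((fderiv ℝ W p).comp (ContinuousLinearMap.inr ℝ ℝ E3))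

lemma tr_eq_sum (b : OrthonormalBasis (Fin 3) ℝ E3) (L : E3 →L[ℝ] E3) :
    tr L = ⟪b 0, L (b 0)⟫ + ⟪b 1, L (b 1)⟫ + ⟪b 2, L (b 2)⟫ := by
  rw [tr, LinearMap.trace_eq_sum_inner _ b, Fin.sum_univ_three]
  rfl

lemma sdiv_eq (b : OrthonormalBasis (Fin 3) ℝ E3) (W : ℝ × E3 → E3) (p : ℝ × E3) :
    sdiv W p = ⟪b 0, fderiv ℝ W p (0, b 0)⟫ + ⟪b 1, fderiv ℝ W p (0, b 1)⟫ +
      ⟪b 2, fderiv ℝ W p (0, b 2)⟫ := by
  rw [sdiv, tr_eq_sum b]
  rfl

lemma expand (b : OrthonormalBasis (Fin 3) ℝ E3) (L : ℝ × E3 →L[ℝ] ℝ) (s : ℝ) (v : E3) :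
    L (s, v) = s * L (1, 0) + ⟪b 0, v⟫ * L (0, b 0) + ⟪b 1, v⟫ * L (0, b 1) +
      ⟪b 2, v⟫ * L (0, b 2) := by
  have h := b.sum_repr' v
  rw [Fin.sum_univ_three] at h
  have e : ((s, v) : ℝ × E3) = s • ((1, 0) : ℝ × E3) + ⟪b 0, v⟫ • ((0, b 0) : ℝ × E3) +
      ⟪b 1, v⟫ • ((0, b 1) : ℝ × E3) + ⟪b 2, v⟫ • ((0, b 2) : ℝ × E3) := by
    ext1
    · simp
    · simpa using h.symm
  rw [e]
  simp only [map_add, map_smul, smul_eq_mul]

lemma continuous_sdiv_aux :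
    Continuous fun L : ℝ × E3 →L[ℝ] E3 => tr (L.comp (ContinuousLinearMap.inr ℝ ℝ E3)) :=
  continuous_tr.comp (continuous_id.clm_comp continuous_const)

namespace Chart

variable {M : ℝ → Set E3} (c : Chart M) {K : Set (ℝ × E3)}

/-- division by the vertical derivative of the equation -/
noncomputable def dv (z : ℝ × E3 → ℝ) (p : ℝ × E3) : ℝ := z p / fderiv ℝ c.w p (ver c.b)

lemma contDiffOn_dv {z : ℝ × E3 → ℝ} (hz : ContDiffOn ℝ 1 z c.U) : ContDiffOn ℝ 1 (c.dv z) c.U :=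
  hz.div ((contDiff_fderiv_apply c.smooth _).of_le (by simp)).contDiffOn
    fun p hp => (c.pos p hp).ne'

lemma dv_zero {z : ℝ × E3 → ℝ} (h0 : ∀ p ∉ K, z p = 0) : ∀ p ∉ K, c.dv z p = 0 :=
  fun p hp => by rw [dv, h0 p hp, zero_div]

lemma fderiv_dv {z : ℝ × E3 → ℝ} {p : ℝ × E3} (hp : p ∈ c.U) (hz : DifferentiableAt ℝ z p)
    (v : ℝ × E3) : fderiv ℝ (c.dv z) p v = fderiv ℝ z p v / fderiv ℝ c.w p (ver c.b) -
      z p * fderiv ℝ (fderiv ℝ c.w) p (ver c.b) v / fderiv ℝ c.w p (ver c.b) ^ 2 := by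
  have hc := (c.pos p hp).ne'
  have h1 := ((contDiff_fderiv_apply c.smooth (ver c.b)).differentiable (by simp) p).hasFDerivAt
  have h2 := hz.hasFDerivAt.mul ((hasFDerivAt_inv hc).comp p h1)
  have h3 : c.dv z = z * ((fun x : ℝ => x⁻¹) ∘ fun q => fderiv ℝ c.w q (ver c.b)) := by
    ext q; simp [dv, div_eq_mul_inv]
  rw [h3, h2.fderiv, d2_symm c.smooth p (ver c.b) v, ← fderiv_fderiv_apply c.smooth]
  simp
  field_simp
  ring

lemma rho_mul (hK : K ⊆ c.U) {z : ℝ × E3 → ℝ} (h0 : ∀ p ∉ K, z p = 0) (p : ℝ × E3) :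
    c.rho p * (z p / ‖sg c.w p‖) = c.dv z p := by
  by_cases hp : p ∈ K
  · have h1 := norm_ne_zero_iff.2 (c.sg_ne (hK hp))
    rw [rho, dv]
    field_simp
  · simp [dv, h0 p hp]

/-- the pointwise identity -/
lemma div_identity {h : ℝ × E3 → ℝ} {W : ℝ × E3 → E3} {p : ℝ × E3} (hp : p ∈ c.U)
    (hh : DifferentiableAt ℝ h p) (hW : DifferentiableAt ℝ W p)
    (tang : ∀ q ∈ c.U, fderiv ℝ c.w q (h q, W q) = 0) :
    fderiv ℝ (c.dv h) p (c.T p (1, 0)) +
      fderiv ℝ (c.dv fun q => ⟪c.b 0, W q⟫) p (c.T p (0, (1, 0))) +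
      fderiv ℝ (c.dv fun q => ⟪c.b 1, W q⟫) p (c.T p (0, (0, 1))) =
      c.dv (fun q => fderiv ℝ h q (1, 0) + sdiv W q) p := by
  have hc := (c.pos p hp).ne'
  have hi : ∀ e : E3, HasFDerivAt (fun q => ⟪e, W q⟫) ((innerSL ℝ e).comp (fderiv ℝ W p)) p :=
    fun e => (innerSL ℝ e).hasFDerivAt.comp p hW.hasFDerivAt
  have h1 := ((contDiff_fderiv c.smooth).differentiable (by simp) p).hasFDerivAt.clm_apply
    (hh.hasFDerivAt.prodMk hW.hasFDerivAt)
  have h2 : HasFDerivAt (fun q => fderiv ℝ c.w q (h q, W q)) (0 : ℝ × E3 →L[ℝ] ℝ) p := by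
    refine (hasFDerivAt_const (0 : ℝ) p).congr_of_eventuallyEq ?_
    filter_upwards [c.openU.mem_nhds hp] with q hq using tang q hq
  have h3 := congrArg (fun L : ℝ × E3 →L[ℝ] ℝ => L (ver c.b)) (h1.unique h2)
  simp only [add_apply, ContinuousLinearMap.comp_apply, ContinuousLinearMap.prod_apply,
    ContinuousLinearMap.flip_apply, zero_apply] at h3
  have h4 := tang p hp
  rw [expand c.b] at h4
  rw [expand c.b, expand c.b (fderiv ℝ (fderiv ℝ c.w) p (ver c.b))] at h3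
  rw [c.fderiv_dv hp hh, c.fderiv_dv hp (hi _).differentiableAt,
    c.fderiv_dv hp (hi _).differentiableAt, (hi _).fderiv, (hi _).fderiv, dv, sdiv_eq c.b]
  have e0 : emb c.b (1, 0) = (1, 0) := by simp [emb_apply]
  have e1 : emb c.b (0, (1, 0)) = (0, c.b 0) := by simp [emb_apply]
  have e2 : emb c.b (0, (0, 1)) = (0, c.b 1) := by simp [emb_apply]
  simp only [T_apply, e0, e1, e2, map_sub, map_smul, smul_eq_mul, ContinuousLinearMap.comp_apply,
    innerSL_apply_apply]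
  simp only [ver] at *
  field_simp
  linear_combination (-fderiv ℝ c.w p (0, c.b 2)) * h3 +
    fderiv ℝ (fderiv ℝ c.w) p (0, c.b 2) (0, c.b 2) * h4

/-- **Space-time divergence theorem** for a vector field `(h, W)` tangent to the level sets -/
theorem key (hKc : IsCompact K) (hK : K ⊆ c.U) {h : ℝ × E3 → ℝ} {W : ℝ × E3 → E3}
    (hh : ContDiffOn ℝ 1 h c.U) (hW : ContDiffOn ℝ 1 W c.U) (h0 : ∀ p ∉ K, h p = 0)
    (W0 : ∀ p ∉ K, W p = 0) (tang : ∀ q ∈ c.U, fderiv ℝ c.w q (h q, W q) = 0) (t : ℝ) :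
    HasDerivAt (fun s => ∫ x, h (s, x) / ‖sg c.w (s, x)‖ ∂area (M s))
      (∫ x, (fderiv ℝ h (t, x) (1, 0) + sdiv W (t, x)) / ‖sg c.w (t, x)‖ ∂area (M t)) t := by
  have d0 : ∀ p ∉ K, fderiv ℝ h p (1, 0) + sdiv W p = 0 := fun p hp => by
    simp [sdiv, fderiv_zero hKc h0 hp, fderiv_zero hKc W0 hp, tr]
  have i0 : ∀ e : E3, ∀ p ∉ K, ⟪e, W p⟫ = 0 := fun e p hp => by rw [W0 p hp, inner_zero_right]
  have i1 : ∀ e : E3, ContDiffOn ℝ 1 (fun q => ⟪e, W q⟫) c.U := fun e =>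
    contDiffOn_const.inner ℝ hW
  have e1 : (fun s => ∫ x, h (s, x) / ‖sg c.w (s, x)‖ ∂area (M s)) =
      fun s => ∫ y : P2, c.dv h (c.F (s, y)) := by
    ext s
    rw [c.integral_eq hK (φ := fun p => h p / ‖sg c.w p‖) fun p hp => by simp [h0 p hp]]
    simp only [c.rho_mul hK h0]
  rw [e1, c.integral_eq hK (φ := fun p => (fderiv ℝ h p (1, 0) + sdiv W p) / ‖sg c.w p‖)
    fun p hp => by simp [d0 p hp]]
  simp only [c.rho_mul hK d0]
  have k0 := c.pull_diff hKc hK (c.dv_zero h0) (c.contDiffOn_dv hh)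
  have k1 := fun e => c.pull_diff hKc hK (c.dv_zero (i0 e)) (c.contDiffOn_dv (i1 e))
  have s0 := c.pull_supp hKc (c.dv_zero h0)
  have s1 := fun e => c.pull_supp hKc (c.dv_zero (i0 e))
  have j0 := slice_integrable (continuous_fderiv_apply k0 (1, 0)) (s0.fderiv_apply ℝ _) t
  have j1 := fun e v => slice_integrable (continuous_fderiv_apply (k1 e) (0, v))
    ((s1 e).fderiv_apply ℝ _) t
  convert hasDerivAt_param k0 s0 t using 1
  have a1 := integral_add j0 (j1 (c.b 0) (1, 0))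
  have a2 := integral_add (j0.add (j1 (c.b 0) (1, 0))) (j1 (c.b 1) (0, 1))
  rw [integral_fderiv_param (k1 (c.b 0)) (s1 _) t (1, 0), add_zero] at a1
  simp only [Pi.add_apply] at a2
  rw [integral_fderiv_param (k1 (c.b 1)) (s1 _) t (0, 1), add_zero, a1] at a2
  rw [← a2]
  refine integral_congr_ae (Eventually.of_forall fun y => ?_)
  dsimp only
  rw [c.pull_fderiv hKc hK (c.dv_zero h0) (c.contDiffOn_dv hh),
    c.pull_fderiv hKc hK (c.dv_zero (i0 _)) (c.contDiffOn_dv (i1 _)),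
    c.pull_fderiv hKc hK (c.dv_zero (i0 _)) (c.contDiffOn_dv (i1 _))]
  by_cases hp : c.F (t, y) ∈ K
  · have hn := c.openU.mem_nhds (hK hp)
    exact (c.div_identity (hK hp) ((hh.contDiffAt hn).differentiableAt (by simp))
      ((hW.contDiffAt hn).differentiableAt (by simp)) tang).symm
  · rw [c.dv_zero d0 _ hp, fderiv_zero hKc (c.dv_zero h0) hp,
      fderiv_zero hKc (c.dv_zero (i0 _)) hp, fderiv_zero hKc (c.dv_zero (i0 _)) hp]
    simp

end Chart

/-- the unit normal of the spatial level sets -/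
noncomputable def nrm (w : ℝ × E3 → ℝ) (p : ℝ × E3) : E3 := ‖sg w p‖⁻¹ • sg w p

/-- the mean curvature of the spatial level sets -/
noncomputable def mc (w : ℝ × E3 → ℝ) (p : ℝ × E3) : ℝ := tr (shw (fun y => w (p.1, y)) p.2)

variable {w : ℝ × E3 → ℝ} {p : ℝ × E3}

lemma nrm_eq : nuw (fun y => w (p.1, y)) p.2 = nrm w p := rfl

lemma contDiffAt_nsg (hw : ContDiff ℝ ∞ w) (hg : sg w p ≠ 0) :
    ContDiffAt ℝ ∞ (fun q => ‖sg w q‖) p := (contDiff_sg hw).contDiffAt.norm ℝ hg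

lemma contDiffAt_nrm (hw : ContDiff ℝ ∞ w) (hg : sg w p ≠ 0) : ContDiffAt ℝ ∞ (nrm w) p :=
  ((contDiffAt_nsg hw hg).inv (norm_ne_zero_iff.2 hg)).smul (contDiff_sg hw).contDiffAt

lemma norm_nrm (hg : sg w p ≠ 0) : ‖nrm w p‖ = 1 := norm_nuw hg

lemma sg_eq_nrm (hg : sg w p ≠ 0) : sg w p = ‖sg w p‖ • nrm w p := grad_eq_smul_nuw hg

lemma fderiv_nsg (hw : ContDiff ℝ ∞ w) (hg : sg w p ≠ 0) (a : ℝ × E3) :
    fderiv ℝ (fun q => ‖sg w q‖) p a = ⟪nrm w p, fderiv ℝ (sg w) p a⟫ := by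
  have h1 := ((contDiffAt_nsg hw hg).differentiableAt (by simp)).hasFDerivAt
  have h2 := ((contDiff_sg hw).differentiable (by simp) p).hasFDerivAt
  have h3 := h2.inner ℝ h2
  have h4 : (fun q => ⟪sg w q, sg w q⟫) = (fun q => ‖sg w q‖) * fun q => ‖sg w q‖ := by
    ext q; simp [sq]
  rw [h4] at h3
  have h5 := congrArg (fun L : ℝ × E3 →L[ℝ] ℝ => L a) (h3.unique (h1.mul h1))
  simp only [ContinuousLinearMap.comp_apply, ContinuousLinearMap.prod_apply,
    fderivInnerCLM_apply, add_apply, smul_apply, smul_eq_mul] at h5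
  have hn := norm_ne_zero_iff.2 hg
  rw [nrm, inner_smul_left]
  rw [real_inner_comm (sg w p)] at h5
  simp only [conj_trivial]
  field_simp
  linarith

lemma fderiv_nrm (hw : ContDiff ℝ ∞ w) (hg : sg w p ≠ 0) (a : ℝ × E3) :
    fderiv ℝ (nrm w) p a = ‖sg w p‖⁻¹ • pt (nrm w p) (fderiv ℝ (sg w) p a) := by
  have hn := norm_ne_zero_iff.2 hg
  have h1 := ((contDiffAt_nsg hw hg).differentiableAt (by simp)).hasFDerivAt
  have h2 := ((contDiff_sg hw).differentiable (by simp) p).hasFDerivAt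
  have h3 := ((hasFDerivAt_inv hn).comp p h1).smul h2
  have h4 : nrm w = ((fun x : ℝ => x⁻¹) ∘ fun q => ‖sg w q‖) • sg w := by
    ext1 q; rfl
  rw [h4, h3.fderiv, ← h4, pt_apply, ← fderiv_nsg hw hg, nrm]
  simp only [add_apply, smul_apply, Function.comp_apply, ContinuousLinearMap.smulRight_apply,
    ContinuousLinearMap.comp_apply, ContinuousLinearMap.toSpanSingleton_apply, smul_eq_mul,
    smul_smul, sub_eq_add_neg, ← neg_smul, smul_add]
  congr 2
  field_simp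

lemma sdiv_smul {φ : ℝ × E3 → ℝ} {Y : ℝ × E3 → E3} (hφ : DifferentiableAt ℝ φ p)
    (hY : DifferentiableAt ℝ Y p) :
    sdiv (fun q => φ q • Y q) p = fderiv ℝ φ p (0, Y p) + φ p * sdiv Y p := by
  let b := EuclideanSpace.basisFun (Fin 3) ℝ
  have h : HasFDerivAt (fun q => φ q • Y q) _ p := hφ.hasFDerivAt.smul hY.hasFDerivAt
  rw [sdiv_eq b, sdiv_eq b, h.fderiv, expand b (fderiv ℝ φ p) 0 (Y p)]
  simp only [add_apply, smul_apply, ContinuousLinearMap.smulRight_apply, inner_add_right,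
    inner_smul_right]
  ring

lemma sdiv_sub {X Y : ℝ × E3 → E3} (hX : DifferentiableAt ℝ X p) (hY : DifferentiableAt ℝ Y p) :
    sdiv (fun q => X q - Y q) p = sdiv X p - sdiv Y p := by
  have h : HasFDerivAt (fun q => X q - Y q) _ p := hX.hasFDerivAt.sub hY.hasFDerivAt
  rw [sdiv, h.fderiv, ContinuousLinearMap.sub_comp, tr_sub]
  rfl

lemma fderiv_grad_slice (hw : ContDiff ℝ ∞ w) (p : ℝ × E3) :
    fderiv ℝ (gradient fun y => w (p.1, y)) p.2 =
      (fderiv ℝ (sg w) p).comp (ContinuousLinearMap.inr ℝ ℝ E3) :=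
  (hasFDerivAt_slice ((contDiff_sg hw).differentiable (by simp) p)).fderiv

lemma sdiv_nrm (hw : ContDiff ℝ ∞ w) (hg : sg w p ≠ 0) : sdiv (nrm w) p = -mc w p := by
  obtain ⟨a, b, hab⟩ := exists_triple (norm_nrm hg)
  have ha : pt (nrm w p) a = a := pt_of_orth (by rw [real_inner_comm]; exact hab.ac)
  have hb : pt (nrm w p) b = b := pt_of_orth (by rw [real_inner_comm]; exact hab.bc)
  rw [sdiv, mc, hab.tr_eq, hab.tr_eq]
  simp only [inner_shw, nrm_eq, fderiv_grad_slice hw, ContinuousLinearMap.comp_apply,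
    fderiv_nrm hw hg, real_inner_smul_left, inner_pt_left, ha, hb, pt_self (norm_nrm hg),
    inner_zero_right]
  rw [sg]
  ring

lemma hess_symm' (hw : ContDiff ℝ ∞ w) (p : ℝ × E3) (u v : E3) :
    ⟪u, fderiv ℝ (sg w) p (0, v)⟫ = ⟪v, fderiv ℝ (sg w) p (0, u)⟫ := by
  rw [real_inner_comm, inner_fderiv_sg hw, d2_symm hw, ← inner_fderiv_sg hw, real_inner_comm]

/-- the vector field for the first variation -/
noncomputable def fvW (w : ℝ × E3 → ℝ) (X : ℝ × E3 → E3) (q : ℝ × E3) : E3 :=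
  ‖sg w q‖ • X q - ⟪X q, sg w q⟫ • nrm w q

lemma fv_tang (hw : ContDiff ℝ ∞ w) (hg : sg w p ≠ 0) (X : ℝ × E3 → E3) :
    fderiv ℝ w p (0, fvW w X p) = 0 := by
  rw [← inner_sg (hw.differentiable (by simp) p), fvW, inner_sub_right, inner_smul_right,
    inner_smul_right, real_inner_comm (X p)]
  have : ⟪sg w p, nrm w p⟫ = ‖sg w p‖ := inner_grad_nuw hg
  rw [this]; ring

lemma fv_div (hw : ContDiff ℝ ∞ w) (hg : sg w p ≠ 0) {X : ℝ × E3 → E3}
    (hX : DifferentiableAt ℝ X p) : sdiv (fvW w X) p / ‖sg w p‖ =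
      sdiv X p - ⟪fderiv ℝ X p (0, nrm w p), nrm w p⟫ + ⟪X p, mc w p • nrm w p⟫ := by
  have hn := norm_ne_zero_iff.2 hg
  have h1 := (contDiffAt_nsg hw hg).differentiableAt (by simp)
  have h2 := (contDiff_sg hw).differentiable (by simp) p
  have h3 := (contDiffAt_nrm hw hg).differentiableAt (by simp)
  have h4 := hX.hasFDerivAt.inner ℝ h2.hasFDerivAt
  have e : fvW w X = fun q => (fun q => ‖sg w q‖ • X q) q - (fun q => ⟪X q, sg w q⟫ • nrm w q) q :=
    rfl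
  rw [e, sdiv_sub (h1.fun_smul hX) (h4.differentiableAt.fun_smul h3), sdiv_smul h1 hX,
    sdiv_smul h4.differentiableAt h3, sdiv_nrm hw hg, fderiv_nsg hw hg, h4.fderiv,
    hess_symm' hw p (nrm w p) (X p)]
  simp only [ContinuousLinearMap.comp_apply, ContinuousLinearMap.prod_apply,
    fderivInnerCLM_apply, inner_smul_right]
  have a1 : ∀ v : E3, ⟪v, sg w p⟫ = ‖sg w p‖ * ⟪v, nrm w p⟫ := fun v => by
    conv_lhs => rw [sg_eq_nrm hg, inner_smul_right]
  rw [a1, a1]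
  field_simp
  ring

/-- the vector field for the evolution equation -/
noncomputable def evW (w f : ℝ × E3 → ℝ) (q : ℝ × E3) : E3 :=
  (-(f q * fderiv ℝ w q (1, 0))) • nrm w q

lemma ev_tang (hw : ContDiff ℝ ∞ w) (hg : sg w p ≠ 0) (f : ℝ × E3 → ℝ) :
    fderiv ℝ w p (f p * ‖sg w p‖, evW w f p) = 0 := by
  have e : ((f p * ‖sg w p‖, evW w f p) : ℝ × E3) =
      (f p * ‖sg w p‖) • ((1, 0) : ℝ × E3) + (0, evW w f p) := by simp
  have : ⟪sg w p, nrm w p⟫ = ‖sg w p‖ := inner_grad_nuw hg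
  rw [e, map_add, map_smul, ← inner_sg (hw.differentiable (by simp) p), evW, inner_smul_right, this,
    smul_eq_mul]
  ring

lemma ev_div (hw : ContDiff ℝ ∞ w) (hg : sg w p ≠ 0) {f : ℝ × E3 → ℝ}
    (hf : DifferentiableAt ℝ f p) :
    (fderiv ℝ (fun q => f q * ‖sg w q‖) p (1, 0) + sdiv (evW w f) p) / ‖sg w p‖ =
      fderiv ℝ f p (1, (-fderiv ℝ w p (1, 0) / ‖sg w p‖) • nrm w p) -
        (-fderiv ℝ w p (1, 0) / ‖sg w p‖) * mc w p * f p := by
  have hn := norm_ne_zero_iff.2 hg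
  have h1 := (contDiffAt_nsg hw hg).differentiableAt (by simp)
  have h2 := (contDiff_fderiv_apply hw (1, 0)).differentiable (by simp) p
  have h3 := (contDiffAt_nrm hw hg).differentiableAt (by simp)
  have h4 : HasFDerivAt (fun q => f q * ‖sg w q‖) _ p := hf.hasFDerivAt.mul h1.hasFDerivAt
  have h5 : HasFDerivAt (fun q => -(f q * fderiv ℝ w q (1, 0))) _ p :=
    (hf.hasFDerivAt.mul h2.hasFDerivAt).neg
  have e : evW w f = fun q => (fun q => -(f q * fderiv ℝ w q (1, 0))) q • nrm w q := rfl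
  have e2 : ∀ s : ℝ, ((1, s • nrm w p) : ℝ × E3) = (1, 0) + s • ((0, nrm w p) : ℝ × E3) :=
    fun s => by simp
  rw [e, sdiv_smul h5.differentiableAt h3, sdiv_nrm hw hg, h4.fderiv, h5.fderiv, e2]
  simp only [add_apply, smul_apply, neg_apply, smul_eq_mul, map_add, map_smul]
  rw [fderiv_nsg hw hg, fderiv_fderiv_apply hw, real_inner_comm, inner_fderiv_sg hw,
    d2_symm hw p (1, 0)]
  field_simp
  ring

lemma continuousAt_mc (hw : ContDiff ℝ ∞ w) (hg : sg w p ≠ 0) : ContinuousAt (mc w) p := by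
  have h1 : ∀ᶠ q in 𝓝 p, sg w q ≠ 0 := (contDiff_sg hw).continuous.continuousAt.eventually_ne hg
  have h2 : ContinuousAt (fun q => -sdiv (nrm w) q) p :=
    (continuous_sdiv_aux.continuousAt.comp
      ((contDiffAt_nrm hw hg).fderiv_right (m := 0) (by simp)).continuousAt).neg
  refine h2.congr ?_
  filter_upwards [h1] with q hq
  rw [sdiv_nrm hw hq, neg_neg]

end Vale.Agent.P218FT.EV
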