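import Vale.Agent.P218FT.NC1
import Mathlib.Analysis.SpecialFunctions.Gaussian.FourierTransform
import Mathlib.Analysis.Calculus.BumpFunction.InnerProduct
import Mathlib.Analysis.Real.Pi.Bounds

/-! Block Fin: a flat surface with few points of small separation has Gaussian area almost at most
one. -/

open MeasureTheory Set Filter Topology Metric
open scoped ENNReal NNReal RealInnerProductSpace ContDiff

namespace Vale.Agent.P218FT

open NC

lemma NC.proj_gauss (hP : ProjStmt) {N : Set E3} (hN : IsSurf N) {e : E3} (he : ‖e‖ = 1) {c : ℝ}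
    (hc : 0 < c) {S : Set E3} (hSN : S ⊆ N) (hS : MeasurableSet S)
    (ht : ∀ x ∈ S, c ≤ |⟪nu N x, e⟫|) (hi : InjOn (pt e) S) {σ : ℝ} (hσ : 0 < σ) (y : E3) :
    ∫⁻ x in S, ENNReal.ofReal (gk σ (x - y)) ∂(area N) ≤ ENNReal.ofReal c⁻¹ := by
  set V : Submodule ℝ E3 := (ℝ ∙ e)ᗮ with hV
  have he0 : e ≠ 0 := fun h => by simp [h] at he
  have hfin : Module.finrank ℝ V = 2 := by
    have : Fact (Module.finrank ℝ E3 = 2 + 1) := ⟨by simp⟩
    exact Submodule.finrank_orthogonal_span_singleton he0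
  set P : E3 → V := fun x =>
    ⟨pt e x, Submodule.mem_orthogonal_singleton_iff_inner_right.2 (inner_pt_nrm he x)⟩ with hPdef
  have hPc : Continuous P := (pt e).continuous.subtype_mk _
  have hle : ENNReal.ofReal c • ((area N).restrict S).map P ≤ (volume : Measure V) := by
    refine Measure.le_iff.2 fun A hA => ?_
    rw [Measure.smul_apply, Measure.map_apply hPc.measurable hA,
      Measure.restrict_apply (hPc.measurable hA), smul_eq_mul]
    refine (hP N hN e c _ he hc (inter_subset_right.trans hSN) ((hPc.measurable hA).inter hS)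
      (fun x hx => ht x hx.2) (hi.mono inter_subset_right)).trans ?_
    rw [← InnerProductSpace.euclideanHausdorffMeasure_eq_volume, hfin,
      ← (isometry_subtype_coe (s := (V : Set E3))).euclideanHausdorffMeasure_image]
    refine measure_mono ?_
    rintro _ ⟨x, hx, rfl⟩
    exact ⟨P x, hx.1, rfl⟩
  set f : V → ℝ := fun v => (4 * Real.pi * σ)⁻¹ * Real.exp (-(4 * σ)⁻¹ * ‖v‖ ^ 2) with hf
  have hfc : Continuous f := by fun_prop
  have hpi := Real.pi_pos
  have hI : ∫ v, f v = 1 := by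
    rw [hf, integral_const_mul, GaussianFourier.integral_rexp_neg_mul_sq_norm (by positivity), hfin]
    norm_num
    field_simp
  have hI' : ∫⁻ v, ENNReal.ofReal (f (v - P y)) = 1 := by
    rw [lintegral_sub_right_eq_self (fun v => ENNReal.ofReal (f v)),
      ← ofReal_integral_eq_lintegral_ofReal (Integrable.of_integral_ne_zero (by simp [hI]))
        (Eventually.of_forall fun v => by simp only [hf, Pi.zero_apply]; positivity), hI,
      ENNReal.ofReal_one]
  have hm : Measurable fun v : V => ENNReal.ofReal (f (v - P y)) :=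
    (hfc.comp (by fun_prop)).measurable.ennreal_ofReal
  have h1 := lintegral_mono' hle (le_refl fun v : V => ENNReal.ofReal (f (v - P y)))
  rw [hI', lintegral_smul_measure, lintegral_map hm hPc.measurable, smul_eq_mul] at h1
  have h2 : ∫⁻ x in S, ENNReal.ofReal (gk σ (x - y)) ∂(area N)
      ≤ ∫⁻ x in S, ENNReal.ofReal (f (P x - P y)) ∂(area N) := by
    refine lintegral_mono fun x => ENNReal.ofReal_le_ofReal ?_
    refine (gk_anti hσ (norm_pt_le he (x - y))).trans (le_of_eq ?_)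
    have : ‖P x - P y‖ = ‖pt e (x - y)‖ := by rw [map_sub]; rfl
    simp only [hf, gk, this]
    congr 2; ring
  refine h2.trans ?_
  rw [ENNReal.ofReal_inv_of_pos hc, ENNReal.le_inv_iff_mul_le, mul_comm]
  exact h1

lemma NC.pigeon (μ : Measure E3) {B : Set E3} {η s : ℝ} (hB : μ B ≤ ENNReal.ofReal η)
    (hs : 0 < s) {n : ℕ} (hn : 0 < n) {u v e : E3} (T : Triple u v e) :
    ∃ y : E3, ⟪y, e⟫ = 0 ∧ ‖y‖ + s ≤ 4 * s * n ∧ μ (ball y s ∩ B) ≤ ENNReal.ofReal (η / n ^ 2) := by
  set Y : Fin n × Fin n → E3 := fun p => (2 * s * p.1) • u + (2 * s * p.2) • v with hY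
  have hn' : (0 : ℝ) < n := by exact_mod_cast hn
  have iu : ∀ p, ⟪u, Y p⟫ = 2 * s * p.1 := fun p => by
    simp [hY, inner_add_right, real_inner_smul_right, T.ab, T.na]
  have iv : ∀ p, ⟪v, Y p⟫ = 2 * s * p.2 := fun p => by
    have := T.ab
    rw [real_inner_comm] at this
    simp [hY, inner_add_right, real_inner_smul_right, this, T.nb]
  have key : ∀ (w : E3) (i j : Fin n) (a b : E3), ‖w‖ = 1 → i ≠ j → ⟪w, a⟫ = 2 * s * i →
      ⟪w, b⟫ = 2 * s * j → s + s ≤ dist a b := by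
    intro w i j a b hw hij ha hb
    have h1 := abs_real_inner_le_norm w (a - b)
    rw [hw, one_mul, inner_sub_right, ha, hb, ← mul_sub, abs_mul, abs_of_pos (by positivity)] at h1
    have h2 : (1 : ℝ) ≤ |((i : ℕ) : ℝ) - (j : ℕ)| := by
      have : ((i : ℕ) : ℤ) - (j : ℕ) ≠ 0 := sub_ne_zero.2 fun h => hij (Fin.ext (by exact_mod_cast h))
      exact_mod_cast Int.one_le_abs this
    rw [dist_eq_norm]; nlinarith
  have h1 := sum_measure_le_measure_univ (μ := μ.restrict B) (s := Finset.univ)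
    (t := fun p => ball (Y p) s) (fun _ _ => measurableSet_ball.nullMeasurableSet)
    fun p _ q _ hpq => Disjoint.aedisjoint <| ball_disjoint_ball <| by
      by_cases h : p.1 = q.1
      · exact key v p.2 q.2 _ _ T.nb (fun h' => hpq (Prod.ext h h')) (iv p) (iv q)
      · exact key u p.1 q.1 _ _ T.na h (iu p) (iu q)
  rw [Measure.restrict_apply_univ] at h1
  have : Nonempty (Fin n) := ⟨⟨0, hn⟩⟩
  obtain ⟨p, -, hp⟩ := ENNReal.exists_le_of_sum_le (s := Finset.univ) Finset.univ_nonempty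
    (f := fun p => μ.restrict B (ball (Y p) s)) (g := fun _ => ENNReal.ofReal (η / n ^ 2))
    (h1.trans (hB.trans (le_of_eq (by
      rw [Finset.sum_const, ← ENNReal.ofReal_nsmul, nsmul_eq_mul]
      congr 1
      simp only [Finset.card_univ, Fintype.card_prod, Fintype.card_fin, Nat.cast_mul]
      field_simp))))
  refine ⟨Y p, ?_, ?_, by rwa [Measure.restrict_apply measurableSet_ball] at hp⟩
  · simp [hY, inner_add_left, real_inner_smul_left, T.ac, T.bc]
  · have h2 := norm_add_le ((2 * s * p.1) • u) ((2 * s * p.2) • v)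
    rw [norm_smul, norm_smul, T.na, T.nb, Real.norm_of_nonneg (by positivity),
      Real.norm_of_nonneg (by positivity)] at h2
    have h3 : ((p.1 : ℕ) : ℝ) + 1 ≤ n := by exact_mod_cast p.1.2
    have h4 : ((p.2 : ℕ) : ℝ) + 1 ≤ n := by exact_mod_cast p.2.2
    simp only [hY]
    nlinarith

lemma NC.exists_test_gk {σ a : ℝ} (hσ : 0 < σ) (ha : 0 < a) (ha1 : 2 * a ≤ 1) :
    ∃ (ζ : E3 → ℝ) (K : ℝ), 0 < K ∧ Test ζ 0 1 K ∧ (∀ x, 0 ≤ ζ x ∧ ζ x ≤ gk σ x) ∧
      (∀ x, ‖x‖ < a → ζ x = gk σ x) ∧ ∀ x, 2 * a ≤ ‖x‖ → ζ x = 0 := by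
  let β : ContDiffBump (0 : E3) := ⟨a, 2 * a, ha, by linarith⟩
  have hg : ContDiff ℝ 1 (gk σ) :=
    contDiff_const.mul (((contDiff_norm_sq ℝ).neg.div_const _).exp)
  have h1 : ContDiff ℝ 1 fun x => gk σ x * β x := hg.mul (β.contDiff (n := 1))
  have h2 : HasCompactSupport fun x => gk σ x * β x := β.hasCompactSupport.mul_left
  obtain ⟨K₀, h3⟩ := h2.exists_bound_of_continuous h1.continuous
  obtain ⟨K₁, h4⟩ := (h2.fderiv (𝕜 := ℝ)).exists_bound_of_continuous
    (h1.continuous_fderiv one_ne_zero)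
  have h5 : ∀ x, 2 * a ≤ ‖x‖ → gk σ x * β x = 0 := fun x hx => by
    rw [β.zero_of_le_dist (by simpa [β] using hx), mul_zero]
  refine ⟨_, max 1 (max K₀ K₁), by positivity, ⟨h1, fun x hx => h5 x ?_, fun x => ?_, fun x => ?_⟩,
    fun x => ?_, fun x hx => ?_, h5⟩
  · rw [sub_zero] at hx; linarith
  · exact (h3 x).trans (le_max_of_le_right (le_max_left _ _))
  · exact (h4 x).trans (le_max_of_le_right (le_max_right _ _))
  · have := gk_pos hσ x
    exact ⟨mul_nonneg this.le β.nonneg, mul_le_of_le_one_right this.le β.le_one⟩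
  · rw [β.one_of_mem_closedBall (by simpa [β] using hx.le), mul_one]

lemma NC.ball_gauss (hP : ProjStmt) {N : Set E3} (hN : IsSurf N) {e y : E3} (he : ‖e‖ = 1)
    {s m γ c₀ σ A t₁ t₂ δ : ℝ} (hsm : 2 * s ≤ m) (hy : ‖y‖ + s ≤ 1) (hγ0 : 0 < γ) (hγ1 : γ ≤ 1 / 2)
    (hγ2 : γ ≤ 1 - c₀) (hc₀ : 0 < c₀) (hσ : 0 < σ) (hA0 : 0 < A) (hgA : ∀ z, gk σ z ≤ A)
    (ht₁ : A * t₁ ≤ δ) (ht₂ : A * t₂ ≤ δ)
    (hB₁ : area N (ball y s ∩ toMeasurable (area N) {x | x ∈ ball (0 : E3) 1 ∧ ¬ SepGE N x m})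
      ≤ ENNReal.ofReal t₁)
    (hB₂ : area N {x | x ∈ ball (0 : E3) (2 * 1) ∧ γ ^ 2 < 1 - ⟪nu N x, e⟫ ^ 2} ≤ ENNReal.ofReal t₂) :
    ∫⁻ x in ball y s, ENNReal.ofReal (gk σ (x - y)) ∂(area N)
      ≤ ENNReal.ofReal c₀⁻¹ + ENNReal.ofReal δ + ENNReal.ofReal δ := by
  set B₁ := {x | x ∈ ball (0 : E3) 1 ∧ ¬ SepGE N x m} with hB₁def
  set B₂ := {x | x ∈ ball (0 : E3) (2 * 1) ∧ γ ^ 2 < 1 - ⟪nu N x, e⟫ ^ 2} with hB₂def
  set S := (N ∩ ball y s) \ (toMeasurable (area N) B₁ ∪ toMeasurable (area N) B₂) with hSdef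
  have hSm : MeasurableSet S := (hN.1.measurableSet.inter measurableSet_ball).diff
    ((measurableSet_toMeasurable _ _).union (measurableSet_toMeasurable _ _))
  have hS1 : ∀ x ∈ S, ‖x‖ < 1 := fun x hx => by
    have h1 : ‖x - y‖ < s := by rw [← dist_eq_norm]; exact hx.1.2
    have h2 := norm_add_le (x - y) y
    rw [sub_add_cancel] at h2
    linarith
  have hS2 : ∀ x ∈ S, 1 - γ ≤ |⟪nu N x, e⟫| := fun x hx => by
    have h1 : 1 - ⟪nu N x, e⟫ ^ 2 ≤ γ ^ 2 := by
      by_contra h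
      exact hx.2 (Or.inr (subset_toMeasurable _ _
        ⟨mem_ball_zero_iff.2 (by linarith [hS1 x hx]), not_le.1 h⟩))
    have h2 := abs_real_inner_le_norm (nu N x) e
    rw [hN.norm_nu hx.1.1, he, one_mul] at h2
    rw [← sq_abs] at h1
    nlinarith [abs_nonneg ⟪nu N x, e⟫]
  have hS3 : InjOn (pt e) S := fun x hx z hz hxz => by
    have h1 : SepGE N x m := by
      by_contra h
      exact hx.2 (Or.inl (subset_toMeasurable _ _ ⟨mem_ball_zero_iff.2 (hS1 x hx), h⟩))
    by_contra hne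
    have h2 : z - x = ⟪e, z - x⟫ • e := by
      have : pt e (z - x) = 0 := by rw [map_sub, hxz, sub_self]
      rwa [pt_apply, sub_eq_zero] at this
    have h3 : ‖z - x‖ = |⟪e, z - x⟫| := by
      conv_lhs => rw [h2, norm_smul, he, mul_one, Real.norm_eq_abs]
    have h4 := h1 z ⟨hz.1.1, fun h => hne h.symm, by
      conv_rhs => rw [h2, real_inner_smul_left, abs_mul, real_inner_comm (nu N x), ← h3]
      nlinarith [hS2 x hx, norm_nonneg (z - x)]⟩
    have h5 := dist_triangle_right z x y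
    have h6 : dist z y < s := hz.1.2
    have h7 : dist x y < s := hx.1.2
    rw [dist_eq_norm] at h5
    linarith
  have hcst : ∀ (W : Set E3) (t : ℝ), area N W ≤ ENNReal.ofReal t → A * t ≤ δ →
      ∫⁻ x in W, ENNReal.ofReal (gk σ (x - y)) ∂(area N) ≤ ENNReal.ofReal δ := by
    intro W t h1 h2
    calc _ ≤ ∫⁻ _ in W, ENNReal.ofReal A ∂(area N) :=
          lintegral_mono fun x => ENNReal.ofReal_le_ofReal (hgA _)
      _ ≤ ENNReal.ofReal A * ENNReal.ofReal t := by rw [setLIntegral_const]; gcongr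
      _ ≤ _ := by rw [← ENNReal.ofReal_mul hA0.le]; exact ENNReal.ofReal_le_ofReal h2
  calc _ ≤ ∫⁻ x in (S ∪ (ball y s ∩ toMeasurable (area N) B₁)) ∪ toMeasurable (area N) B₂,
          ENNReal.ofReal (gk σ (x - y)) ∂(area N) := by
        refine lintegral_mono_set' ?_
        filter_upwards [ae_mem hN] with x hx hx'
        by_cases h1 : x ∈ toMeasurable (area N) B₁
        · exact Or.inl (Or.inr ⟨hx', h1⟩)
        by_cases h2 : x ∈ toMeasurable (area N) B₂
        · exact Or.inr h2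
        · exact Or.inl (Or.inl ⟨⟨hx, hx'⟩, fun h => h.elim h1 h2⟩)
    _ ≤ _ := by
        refine (lintegral_union_le _ _ _).trans (add_le_add ((lintegral_union_le _ _ _).trans
          (add_le_add ?_ (hcst _ _ hB₁ ht₁))) (hcst _ t₂ (by rwa [measure_toMeasurable]) ht₂))
        exact proj_gauss hP hN he hc₀ (fun x hx => hx.1.1) hSm
          (fun x hx => by linarith [hS2 x hx]) hS3 hσ y

theorem fin_proof (hNC : NCStmt) (hT : TransStmt) (hP : ProjStmt) (hG : GaussStmt) : FinStmt := by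
  intro D ε hε
  obtain ⟨C₀, -, hG⟩ := hG
  set D' := max D 0 with hD'
  have hD0 : 0 ≤ D' := le_max_right _ _
  obtain ⟨ρ, hρ, htail⟩ := (hG D' hD0).2 (ε / 5) (by positivity)
  refine ⟨ε / (30 * ρ ^ 2), by positivity, fun m hm => ?_⟩
  obtain ⟨n, hn⟩ := exists_nat_ge (max (1 / (2 * m)) (1 / (8 * ρ)))
  have hn1 : 1 / (2 * m) ≤ n := (le_max_left _ _).trans hn
  have hn2 : 1 / (8 * ρ) ≤ n := (le_max_right _ _).trans hn
  have hn0 : (0 : ℝ) < n := lt_of_lt_of_le (by positivity) hn1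
  have hn0' : 0 < n := by exact_mod_cast hn0
  have hn3 : (1 : ℝ) ≤ n := by exact_mod_cast hn0'
  set r := 1 / (8 * ρ * n) with hr
  have hr0 : 0 < r := by positivity
  have hrn : 8 * ρ * r * n = 1 := by rw [hr]; field_simp
  clear_value r
  rw [div_le_iff₀ (by positivity)] at hn1 hn2
  have hr1 : r ≤ 1 := by nlinarith
  have hs0 : 0 < 2 * (ρ * r) := by positivity
  have hsm : 4 * (ρ * r) ≤ m := by nlinarith
  obtain ⟨ζ, K, hK, hζ, z1, z2, z3⟩ := exists_test_gk (σ := r ^ 2) (a := ρ * r) (by positivity)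
    (by positivity) (by nlinarith)
  have hpi := Real.pi_gt_three
  set A := (4 * Real.pi * r ^ 2)⁻¹ with hA
  have hA0 : 0 < A := by positivity
  have hA1 : A * (ε / (30 * ρ ^ 2) / n ^ 2) ≤ ε / 5 := by
    have e1 : A * (ε / (30 * ρ ^ 2) / n ^ 2) = 8 * ε / (15 * Real.pi * (8 * ρ * r * n) ^ 2) := by
      rw [hA]; field_simp; norm_num
    rw [e1, hrn, div_le_div_iff₀ (by positivity) (by positivity)]
    nlinarith
  have hgA : ∀ z, gk (r ^ 2) z ≤ A := gk_le (by positivity)
  clear_value A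
  set c₀ := (1 + ε / 5)⁻¹ with hc₀
  have hc₀0 : 0 < c₀ := by positivity
  have hc₀1 : c₀ < 1 := inv_lt_one_of_one_lt₀ (by linarith)
  set γ := min (min (1 / 2) (1 - c₀)) (ε / (60 * K * (D' + 1))) with hγ
  have hγ0 : 0 < γ := lt_min (lt_min (by norm_num) (by linarith)) (by positivity)
  have hγ1 : γ ≤ 1 / 2 := (min_le_left _ _).trans (min_le_left _ _)
  have hγ2 : γ ≤ 1 - c₀ := (min_le_left _ _).trans (min_le_right _ _)
  have hγ3 : γ * (60 * K * (D' + 1)) ≤ ε := (le_div_iff₀ (by positivity)).1 (min_le_right _ _)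
  clear_value γ
  set c := ε / (15 * (K + A)) with hc
  have hc0 : 0 < c := by positivity
  have hc1 : c * (15 * (K + A)) = ε := by rw [hc]; field_simp
  clear_value c
  obtain ⟨η₁, R', hη₁, hR', hnc⟩ := hNC D' γ (2 * 1) c hγ0 (by norm_num) hc0
  refine ⟨r, R', min η₁ (ε / (30 * K)), hr0, hr1, by linarith, by positivity,
    fun N hN hAR hint hbad => ?_⟩
  have hAR : AreaRatio D' N := hAR.mono (le_max_left _ _)
  obtain ⟨e, he, hB₂⟩ := hnc N hN hAR (hint.trans (ENNReal.ofReal_le_ofReal (min_le_left _ _)))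
  obtain ⟨u, v, T⟩ := exists_triple he
  obtain ⟨y, hye, hy, hB₁⟩ := pigeon (area N) ((measure_toMeasurable _).trans_le hbad) hs0 hn0' T
  have hy : ‖y‖ + 2 * (ρ * r) ≤ 1 := by linarith
  have hH : ∫⁻ x in ball 0 (2 * 1), ENNReal.ofReal ‖Hv N x‖ ∂(area N)
      ≤ ENNReal.ofReal (ε / (15 * K)) := by
    calc _ ≤ ∫⁻ x in ball 0 R', ENNReal.ofReal 2 * ENNReal.ofReal (√(a2 N x)) ∂(area N) := by
          refine (lintegral_mono_set (ball_subset_ball hR')).trans (lintegral_mono_ae ?_)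
          filter_upwards [ae_restrict_of_ae (ae_mem hN)] with x hx
          rw [← ENNReal.ofReal_mul zero_le_two]
          exact ENNReal.ofReal_le_ofReal (hN.norm_Hv_le hx)
      _ ≤ ENNReal.ofReal 2 * ENNReal.ofReal (ε / (30 * K)) := by
          rw [lintegral_const_mul' _ _ ENNReal.ofReal_ne_top]
          gcongr
          exact hint.trans (ENNReal.ofReal_le_ofReal (min_le_right _ _))
      _ = _ := by rw [← ENNReal.ofReal_mul zero_le_two]; congr 1; field_simp; norm_num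
  have htr := hT D' hD0 N hN hAR ζ 0 e y 1 K γ _ c one_pos hζ he hye (by linarith) hγ0.le
    (by positivity) hc0.le hH hB₂
  have htr' : K * ‖y‖ * (ε / (15 * K) + γ * (D' * (2 * 1) ^ 2) + c) ≤ ε / 5 := by
    calc _ ≤ K * 1 * (ε / (15 * K) + γ * (D' * (2 * 1) ^ 2) + c) := by gcongr; linarith
      _ = ε / 15 + K * γ * D' * 4 + K * c := by field_simp; ring
      _ ≤ _ := by nlinarith [mul_pos hK hγ0, mul_pos hA0 hc0]
  have hig := ((hG D' hD0).1 N hAR 0 (r ^ 2) (by positivity)).1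
  have s1 : gA N 0 r ≤ ∫ x, ζ x ∂(area N) + ε / 5 := by
    rw [gA, ← integral_add_compl (measurableSet_ball (x := (0 : E3)) (ε := ρ * r)) hig]
    refine add_le_add ?_ (htail N hAR 0 r hr0)
    rw [setIntegral_congr_fun measurableSet_ball (g := ζ)
      fun x hx => by simp only [sub_zero]; exact (z2 x (mem_ball_zero_iff.1 hx)).symm]
    exact setIntegral_le_integral (hζ.integrable hAR) (Eventually.of_forall fun x => (z1 x).1)
  have s2 : ∫ x, ζ (x - y) ∂(area N) ≤ 1 + ε / 5 + ε / 5 + ε / 5 := by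
    rw [integral_eq_lintegral_of_nonneg_ae (Eventually.of_forall fun x => (z1 _).1)
      ((hζ.translate y).integrable hAR).1]
    refine ENNReal.toReal_le_of_le_ofReal (by positivity) ?_
    calc _ ≤ ∫⁻ x in ball y (2 * (ρ * r)), ENNReal.ofReal (gk (r ^ 2) (x - y)) ∂(area N) := by
          rw [← lintegral_indicator measurableSet_ball]
          refine lintegral_mono fun x => ?_
          by_cases hx : x ∈ ball y (2 * (ρ * r))
          · rw [indicator_of_mem hx]; exact ENNReal.ofReal_le_ofReal (z1 _).2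
          · rw [z3 _ (by simpa [dist_eq_norm] using hx)]; simp
      _ ≤ _ := ball_gauss hP hN he (by linarith) hy hγ0 hγ1 hγ2 hc₀0 (by positivity) hA0 hgA hA1
            (by nlinarith [mul_pos hK hc0, mul_pos hA0 hc0]) hB₁ hB₂
      _ = _ := by
          rw [hc₀, inv_inv, ← ENNReal.ofReal_add (by positivity) (by positivity),
            ← ENNReal.ofReal_add (by positivity) (by positivity)]
  linarith [(abs_le.1 (htr.trans htr')).1]

end Vale.Agent.P218FT
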