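import Vale.Agent.P218FT.Gauss
import Mathlib.MeasureTheory.Integral.IntervalIntegral.FundThmCalculus
import Mathlib.Analysis.InnerProductSpace.Calculus
import Mathlib.Analysis.Calculus.BumpFunction.InnerProduct
import Mathlib.Analysis.Calculus.ContDiff.Deriv
import Mathlib.Analysis.Calculus.LineDeriv.Basic

/-! Tools for the monotonicity formula: local versions of the evolution and continuity
statements, radial vector fields, and the cutoff function. -/

open MeasureTheory Set Filter Topology Metric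
open scoped ENNReal NNReal RealInnerProductSpace ContDiff

namespace Vale.Agent.P218FT.Hu

/-! ### powers of the positive part -/

theorem hasDerivAt_pos2 (s : ℝ) : HasDerivAt (fun s : ℝ => max s 0 ^ 2) (2 * max s 0) s := by
  rcases lt_trichotomy s 0 with h | h | h
  · have e : (fun s : ℝ => max s 0 ^ 2) =ᶠ[𝓝 s] fun _ => (0 : ℝ) := by
      filter_upwards [Iio_mem_nhds h] with u hu
      rw [max_eq_right (le_of_lt hu)]; simp
    rw [max_eq_right h.le, mul_zero]
    exact (hasDerivAt_const s (0 : ℝ)).congr_of_eventuallyEq e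
  · subst h
    rw [hasDerivAt_iff_isLittleO_nhds_zero]
    have h1 : (fun u : ℝ => u ^ 2) =o[𝓝 0] fun u => u := Asymptotics.isLittleO_pow_id one_lt_two
    refine Asymptotics.IsBigO.trans_isLittleO ?_ h1
    refine Asymptotics.IsBigO.of_bound 1 (Eventually.of_forall fun u => ?_)
    rcases le_total u 0 with hu | hu
    · simp [max_eq_right hu]; positivity
    · simp [max_eq_left hu]
  · have e : (fun s : ℝ => max s 0 ^ 2) =ᶠ[𝓝 s] fun u => u ^ 2 := by
      filter_upwards [Ioi_mem_nhds h] with u hu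
      rw [max_eq_left (le_of_lt hu)]
    rw [max_eq_left h.le]
    have := (hasDerivAt_pow 2 s).congr_of_eventuallyEq e
    simpa using this

theorem pos3_eq (s : ℝ) : max s 0 ^ 3 = max s 0 ^ 2 * s := by
  rcases le_total s 0 with h | h
  · simp [max_eq_right h]
  · rw [max_eq_left h]; ring

theorem hasDerivAt_pos3 (s : ℝ) : HasDerivAt (fun s : ℝ => max s 0 ^ 3) (3 * max s 0 ^ 2) s := by
  have e : (fun s : ℝ => max s 0 ^ 3) = fun s => max s 0 ^ 2 * s := funext pos3_eq
  rw [e]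
  refine ((hasDerivAt_pos2 s).fun_mul (hasDerivAt_id s)).congr_deriv ?_
  rcases le_total s 0 with h | h
  · simp [max_eq_right h]
  · simp only [max_eq_left h, id]; ring

theorem contDiff_pos2 : ContDiff ℝ 1 fun s : ℝ => max s 0 ^ 2 := by
  rw [contDiff_one_iff_deriv]
  refine ⟨fun s => (hasDerivAt_pos2 s).differentiableAt, ?_⟩
  have : deriv (fun s : ℝ => max s 0 ^ 2) = fun s => 2 * max s 0 :=
    funext fun s => (hasDerivAt_pos2 s).deriv
  rw [this]; fun_prop

theorem contDiff_pos3 : ContDiff ℝ 1 fun s : ℝ => max s 0 ^ 3 := by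
  have e : (fun s : ℝ => max s 0 ^ 3) = fun s => max s 0 ^ 2 * s := funext pos3_eq
  rw [e]
  exact contDiff_pos2.mul contDiff_id

/-! ### elementary facts about flows -/

theorem norm_nuw_le (w : E3 → ℝ) (x : E3) : ‖nuw w x‖ ≤ 1 := by
  unfold nuw
  rw [norm_smul, norm_inv, norm_norm]
  exact inv_mul_le_one_of_le₀ le_rfl (norm_nonneg _)

theorem norm_nu_le (N : Set E3) (x : E3) : ‖nu N x‖ ≤ 1 := norm_nuw_le _ _

theorem norm_nu {N : Set E3} (hN : IsSurf N) {x : E3} (hx : x ∈ N) : ‖nu N x‖ = 1 := by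
  have h := hN.2 x hx
  have h1 : gradient (eqn N x) x ≠ 0 := by
    unfold eqn
    rw [dif_pos h]
    exact h.choose_spec.2.1
  unfold nu nuw
  rw [norm_smul, norm_inv, norm_norm, inv_mul_cancel₀ (norm_ne_zero_iff.mpr h1)]

theorem isSurf_of_mcf {M : ℝ → Set E3} {I : Set ℝ} (hM : IsMCF M I) {t : ℝ} (ht : t ∈ I) :
    IsSurf (M t) := by
  have hc : Continuous fun y : E3 => ((t, y) : ℝ × E3) := by fun_prop
  constructor
  · rw [← isOpen_compl_iff, isOpen_iff_mem_nhds]
    intro x hx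
    exact (hc.tendsto x).eventually (hM.closed t ht x hx)
  · intro x hx
    obtain ⟨w, hw, hg, he, -⟩ := hM.loc t ht x hx
    exact ⟨fun y => w (t, y), hw.comp (by fun_prop), hg, (hc.tendsto x).eventually he⟩

theorem mcf_mono {M : ℝ → Set E3} {I J : Set ℝ} (hM : IsMCF M I) (hJ : IsOpen J) (h : J ⊆ I) :
    IsMCF M J :=
  ⟨hJ, fun t ht => hM.closed t (h ht), fun t ht => hM.loc t (h ht)⟩

theorem ae_mem {N : Set E3} (hN : IsClosed N) : ∀ᵐ x ∂(area N), x ∈ N :=
  ae_restrict_mem hN.measurableSet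

theorem integrable_of_cts {N : Set E3} (hN : IsClosed N) [IsLocallyFiniteMeasure (area N)]
    {g : E3 → ℝ} (hg : ContinuousOn g N) {y : E3} {R : ℝ} (hR : ∀ x ∈ N, R ≤ ‖x - y‖ → g x = 0) :
    Integrable g (area N) := by
  have hK : IsCompact (closedBall y R ∩ N) := (isCompact_closedBall y R).inter_right hN
  have h1 : IntegrableOn g (closedBall y R ∩ N) (area N) :=
    (hg.mono inter_subset_right).integrableOn_compact hK
  have h2 := h1.integrable_indicator hK.measurableSet
  refine h2.congr ?_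
  filter_upwards [ae_mem hN] with x hx
  by_cases h : x ∈ closedBall y R
  · rw [indicator_of_mem (show x ∈ closedBall y R ∩ N from ⟨h, hx⟩)]
  · rw [indicator_of_notMem (fun h' => h h'.1)]
    rw [mem_closedBall, dist_eq_norm, not_le] at h
    exact (hR x hx h.le).symm

theorem cont_loc (hC : ContStmt) {M : ℝ → Set E3} {J : Set ℝ} (hM : IsMCF M J)
    {g : ℝ × E3 → ℝ} {R : ℝ} (hg : ContinuousOn g (track M J))
    (hR : ∀ p : ℝ × E3, p.1 ∈ J → R ≤ ‖p.2‖ → g p = 0) :
    ContinuousOn (fun t => ∫ x, g (t, x) ∂(area (M t))) J := by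
  classical
  have h := hC M J hM (fun p => if p.1 ∈ J then g p else 0) R
    (hg.congr fun p hp => if_pos hp.1) (fun p hp => by
      by_cases h : p.1 ∈ J
      · simp only [if_pos h]; exact hR p h hp
      · simp only [if_neg h])
  refine h.congr fun t ht => ?_
  simp only [if_pos ht]

theorem ev_loc (hE : EVStmt) {M : ℝ → Set E3} {J : Set ℝ} (hM : IsMCF M J)
    {f : ℝ × E3 → ℝ} {R : ℝ} (hf : ContDiffOn ℝ 1 f (J ×ˢ univ))
    (hR : ∀ p : ℝ × E3, p.1 ∈ J → R ≤ ‖p.2‖ → f p = 0) {t : ℝ} (ht : t ∈ J) :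
    HasDerivAt (fun s => ∫ x, f (s, x) ∂(area (M s)))
      (∫ x, (fderiv ℝ f (t, x) (1, Hv (M t) x) - ‖Hv (M t) x‖ ^ 2 * f (t, x)) ∂(area (M t))) t := by
  obtain ⟨ε, hε, hb⟩ := Metric.isOpen_iff.mp hM.isOpen t ht
  let θ : ContDiffBump t := ⟨ε / 4, ε / 2, by positivity, by linarith⟩
  have hO : IsOpen (J ×ˢ (univ : Set E3)) := hM.isOpen.prod isOpen_univ
  have hθ0 : ∀ s, s ∉ closedBall t (ε / 2) → θ s = 0 := fun s hs => by
    apply θ.zero_of_le_dist
    rw [mem_closedBall, not_le] at hs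
    exact hs.le
  have hsub : closedBall t (ε / 2) ⊆ J := (closedBall_subset_ball (by linarith)).trans hb
  have hF : ContDiff ℝ 1 fun p : ℝ × E3 => θ p.1 * f p := by
    rw [contDiff_iff_contDiffAt]
    intro p
    by_cases hp : p.1 ∈ J
    · exact (θ.contDiff.comp contDiff_fst).contDiffAt.mul
        (hf.contDiffAt (hO.mem_nhds ⟨hp, mem_univ _⟩))
    · have h1 : ∀ᶠ q : ℝ × E3 in 𝓝 p, q.1 ∉ closedBall t (ε / 2) :=
        continuous_fst.continuousAt.eventually
          (isClosed_closedBall.isOpen_compl.mem_nhds fun h => hp (hsub h))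
      refine (contDiffAt_const (c := (0 : ℝ))).congr_of_eventuallyEq ?_
      filter_upwards [h1] with q hq
      rw [hθ0 _ hq, zero_mul]
  have h := hE M J hM (fun p => θ p.1 * f p) R hF (fun p hp => by
    by_cases h : p.1 ∈ J
    · simp only [hR p h hp, mul_zero]
    · simp only [hθ0 _ fun h' => h (hsub h'), zero_mul]) t ht
  have h1 : ∀ᶠ s in 𝓝 t, θ s = 1 := θ.eventuallyEq_one
  have h2 : ∀ x : E3, fderiv ℝ (fun p : ℝ × E3 => θ p.1 * f p) (t, x) = fderiv ℝ f (t, x) := by
    intro x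
    apply Filter.EventuallyEq.fderiv_eq
    have : ∀ᶠ q : ℝ × E3 in 𝓝 (t, x), θ q.1 = 1 :=
      (continuous_fst.tendsto ((t, x) : ℝ × E3)).eventually h1
    filter_upwards [this] with q hq
    rw [hq, one_mul]
  simp only [h2, h1.self_of_nhds, one_mul] at h
  refine h.congr_of_eventuallyEq ?_
  filter_upwards [h1] with s hs
  simp only [hs, one_mul]

/-! ### radial vector fields -/

theorem hasFDerivAt_radial {q : ℝ → ℝ} {q' : ℝ} {x y : E3} (hq : HasDerivAt q q' (‖x - y‖ ^ 2)) :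
    HasFDerivAt (fun x => q (‖x - y‖ ^ 2) • (x - y))
      (q (‖x - y‖ ^ 2) • ContinuousLinearMap.id ℝ E3 +
        ((2 * q') • innerSL ℝ (x - y)).smulRight (x - y)) x := by
  have h1 : HasFDerivAt (fun x : E3 => x - y) (ContinuousLinearMap.id ℝ E3) x :=
    (hasFDerivAt_id x).sub_const y
  have h2 := h1.norm_sq
  have h3 := hq.comp_hasFDerivAt x h2
  refine (h3.fun_smul h1).congr_fderiv ?_
  ext v i
  simp
  left
  ring

theorem divT_radial {q : ℝ → ℝ} {q' : ℝ} {N : Set E3} {x y : E3}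
    (hq : HasDerivAt q q' (‖x - y‖ ^ 2)) (hn : ‖nu N x‖ = 1) :
    divT N (fun x => q (‖x - y‖ ^ 2) • (x - y)) x =
      2 * q (‖x - y‖ ^ 2) + 2 * q' * (‖x - y‖ ^ 2 - ⟪x - y, nu N x⟫ ^ 2) := by
  unfold divT tr
  rw [(hasFDerivAt_radial hq).fderiv]
  have e1 : LinearMap.trace ℝ E3 (((2 * q') • innerSL ℝ (x - y)).smulRight (x - y)).toLinearMap =
      2 * q' * ‖x - y‖ ^ 2 := by
    have : (((2 * q') • innerSL ℝ (x - y)).smulRight (x - y)).toLinearMap =
        (((2 * q') • innerSL ℝ (x - y)).toLinearMap).smulRight (x - y) := rfl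
    rw [this, LinearMap.trace_smulRight]
    change (2 * q') • ⟪x - y, x - y⟫ = _
    rw [real_inner_self_eq_norm_sq, smul_eq_mul]
  have e2 : LinearMap.trace ℝ E3 (ContinuousLinearMap.id ℝ E3).toLinearMap = 3 := by
    have : (ContinuousLinearMap.id ℝ E3).toLinearMap = LinearMap.id := rfl
    rw [this, LinearMap.trace_id]
    simp
  rw [ContinuousLinearMap.toLinearMap_add, ContinuousLinearMap.toLinearMap_smul, map_add, map_smul,
    e1, e2]
  simp only [add_apply, smul_apply,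
    ContinuousLinearMap.id_apply, ContinuousLinearMap.smulRight_apply, innerSL_apply_apply,
    inner_add_left, real_inner_smul_left, smul_eq_mul, real_inner_self_eq_norm_sq, hn]
  ring

/-! ### the kernel as a function of the scale and of the squared distance -/

/-- the kernel -/
noncomputable def kk (σ ρ : ℝ) : ℝ := (4 * Real.pi * σ)⁻¹ * Real.exp (-ρ / (4 * σ))

theorem gk_eq (σ : ℝ) (z : E3) : gk σ z = kk σ (‖z‖ ^ 2) := rfl

theorem kk_pos {σ : ℝ} (hσ : 0 < σ) (ρ : ℝ) : 0 < kk σ ρ := by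
  unfold kk
  have := Real.pi_pos
  positivity

theorem hasDerivAt_kk {σ ρ : ℝ → ℝ} {σ' ρ' s : ℝ} (hσ : HasDerivAt σ σ' s)
    (hρ : HasDerivAt ρ ρ' s) (h0 : 0 < σ s) :
    HasDerivAt (fun s => kk (σ s) (ρ s))
      (kk (σ s) (ρ s) * (-σ' / σ s - ρ' / (4 * σ s) + ρ s * σ' / (4 * σ s ^ 2))) s := by
  have hπ := Real.pi_pos
  have h1 := (hσ.const_mul (4 * Real.pi)).fun_inv (by positivity)
  have h2 := (hρ.fun_neg.fun_div (hσ.const_mul 4) (by positivity)).exp
  unfold kk
  refine (h1.fun_mul h2).congr_deriv ?_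
  field_simp
  ring

theorem contDiffOn_kk {X : Type*} [NormedAddCommGroup X] [NormedSpace ℝ X] {σ ρ : X → ℝ}
    {U : Set X} (hσ : ContDiffOn ℝ 1 σ U) (hρ : ContDiffOn ℝ 1 ρ U) (h0 : ∀ p ∈ U, 0 < σ p) :
    ContDiffOn ℝ 1 (fun p => kk (σ p) (ρ p)) U := by
  have hπ := Real.pi_pos
  unfold kk
  refine ((contDiffOn_const.mul hσ).inv fun p hp => ?_).mul
    (hρ.neg.div (contDiffOn_const.mul hσ) fun p hp => ?_).exp
  · have := h0 p hp; positivity
  · have := h0 p hp; positivity

end Vale.Agent.P218FT.Hu
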