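import Vale.Agent.P218FT.Spec2

/-! Statements of the pieces of the proof of White's local regularity theorem. -/

open MeasureTheory Set Filter Topology Metric
open scoped ENNReal NNReal RealInnerProductSpace ContDiff

namespace Vale.Agent.P218FT

/-- the Euclidean plane -/
abbrev P2 : Type := EuclideanSpace ℝ (Fin 2)

/-- the spatial gradient of a function on space-time -/
noncomputable def gx (u : P2 × ℝ → ℝ) (p : P2 × ℝ) : P2 := gradient (fun ξ => u (ξ, p.2)) p.1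

/-- the spatial Hessian of a function on space-time -/
noncomputable def hx (u : P2 × ℝ → ℝ) (p : P2 × ℝ) : P2 →L[ℝ] P2 :=
  fderiv ℝ (fun ξ => gx u (ξ, p.2)) p.1

/-- the equation of graphical mean curvature flow at `p` -/
def GEq (u : P2 × ℝ → ℝ) (p : P2 × ℝ) : Prop :=
  deriv (fun s => u (p.1, s)) p.2 = LinearMap.trace ℝ P2 (hx u p).toLinearMap -
    ⟪hx u p (gx u p), gx u p⟫ / (1 + ‖gx u p‖ ^ 2)

/-- over `p = (ξ, t)` there is exactly one point of `M t` at height at most `ρ` along `e`, its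
height is less than `ρ`, and `e` is transversal to `M t` there -/
def GoodAt (M : ℝ → Set E3) (I : Set ℝ) (x₀ : E3) (J : P2 →ₗᵢ[ℝ] E3) (e : E3) (ρ : ℝ)
    (p : P2 × ℝ) : Prop :=
  p.2 ∈ I ∧ ∃ z : ℝ, |z| < ρ ∧ x₀ + J p.1 + z • e ∈ M p.2 ∧
    ⟪nu (M p.2) (x₀ + J p.1 + z • e), e⟫ ≠ 0 ∧
    ∀ z' : ℝ, |z'| ≤ ρ → x₀ + J p.1 + z' • e ∈ M p.2 → z' = z

/-- graph representation of a flow over a fixed plane -/
def GraphStmt : Prop :=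
  ∀ (M : ℝ → Set E3) (I : Set ℝ), IsMCF M I →
    ∀ (x₀ : E3) (J : P2 →ₗᵢ[ℝ] E3) (e : E3) (ρ : ℝ), ‖e‖ = 1 → (∀ a, ⟪J a, e⟫ = 0) →
      IsOpen {p | GoodAt M I x₀ J e ρ p} ∧ ∃ h : P2 × ℝ → ℝ,
        ContDiffOn ℝ ∞ h {p | GoodAt M I x₀ J e ρ p} ∧ ∀ p, GoodAt M I x₀ J e ρ p →
          |h p| < ρ ∧ x₀ + J p.1 + h p • e ∈ M p.2 ∧
          (∀ a, ⟪J a + ⟪gx h p, a⟫ • e, nu (M p.2) (x₀ + J p.1 + h p • e)⟫ = 0) ∧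
          (∀ a b, ⟪sh (M p.2) (x₀ + J p.1 + h p • e) (J a + ⟪gx h p, a⟫ • e),
              J b + ⟪gx h p, b⟫ • e⟫ =
            ⟪hx h p a, b⟫ * ⟪e, nu (M p.2) (x₀ + J p.1 + h p • e)⟫) ∧
          GEq h p

/-- interior estimate of the third derivatives for graphical mean curvature flow -/
def Int3Stmt : Prop :=
  ∀ B : ℝ, ∃ C : ℝ, ∀ (u : P2 × ℝ → ℝ) (O : Set (P2 × ℝ)), IsOpen O → ContDiffOn ℝ ∞ u O →
    closedBall (0 : P2) 1 ×ˢ Icc (-1 : ℝ) 0 ⊆ O →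
    (∀ p ∈ closedBall (0 : P2) 1 ×ˢ Icc (-1 : ℝ) 0, GEq u p ∧ ‖gx u p‖ ≤ B ∧ ‖hx u p‖ ≤ B) →
    ∀ ξ ∈ closedBall (0 : P2) (1 / 2), ‖iteratedFDeriv ℝ 3 (fun η => u (η, 0)) ξ‖ ≤ C

/-- if the density ratios are close to one then the flow is close to the plane through three of
its points -/
def HeightStmt : Prop :=
  ∀ D c τ : ℝ, 0 < c → 0 < τ → ∃ ε : ℝ, 0 < ε ∧
    ∀ (M : ℝ → Set E3) (I : Set ℝ), IsMCF M I → (∀ t ∈ I, AreaRatio D (M t)) →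
      Icc (-10 : ℝ) 0 ⊆ I →
      (∀ y ∈ ball (0 : E3) 4, ∀ t ∈ Icc (-1 : ℝ) 0, dens M y t 3 ≤ 1 + ε) →
      ∀ y₁ y₂ e : E3, (0 : E3) ∈ M 0 → y₁ ∈ M 0 → y₂ ∈ M 0 → ‖y₁‖ ≤ 1 → ‖y₂‖ ≤ 1 → ‖e‖ = 1 →
      (∀ n : E3, ‖n‖ = 1 → c ^ 2 * (1 - ⟪n, e⟫ ^ 2) ≤ ⟪y₁, n⟫ ^ 2 + ⟪y₂, n⟫ ^ 2) →
      ∀ t ∈ Icc (-1 : ℝ) 0, ∀ y ∈ M t, y ∈ ball (0 : E3) 4 → |⟪y, e⟫| ≤ τ

end Vale.Agent.P218FT
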