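import Vale.Agent.P218F.GI4
import Vale.Agent.P218FT.WSpec
import Mathlib.Analysis.InnerProductSpace.Trace
import Mathlib.Analysis.Calculus.Deriv.Prod

/-!
# Interior estimates for graphical mean curvature flow, in terms of `gx`, `hx`, `GEq` (helper69)

`int_all`: all space-time derivatives; `int3_proof`.
-/

open Set Filter Topology Metric
open scoped RealInnerProductSpace ContDiff

noncomputable section

namespace Vale.Agent.P218FT.Int

open Vale.Agent.P218F.GI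

theorem fderiv_slice {F : Type*} [NormedAddCommGroup F] [NormedSpace ℝ F] {u : P2 × ℝ → F}
    {p : P2 × ℝ} (h : DifferentiableAt ℝ u p) (ξ : P2) :
    fderiv ℝ (fun y => u (y, p.2)) p.1 ξ = pd (ξ, 0) u p := by
  have h1 := (HasFDerivAt.comp p.1 (g := u) (f := fun y => (y, p.2)) h.hasFDerivAt
    (hasFDerivAt_prodMk_left (𝕜 := ℝ) p.1 p.2)).fderiv
  exact DFunLike.congr_fun h1 ξ

theorem inner_gx {u : P2 × ℝ → ℝ} {p : P2 × ℝ} (h : DifferentiableAt ℝ u p) (ξ : P2) :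
    ⟪gx u p, ξ⟫ = pd (ξ, 0) u p := by
  rw [gx, inner_gradient_left, fderiv_slice h]

theorem gx_eq_sum {u : P2 × ℝ → ℝ} {p : P2 × ℝ} (h : DifferentiableAt ℝ u p)
    (b : OrthonormalBasis (Fin 2) ℝ P2) : gx u p = ∑ i, pd (b i, 0) u p • b i := by
  rw [← b.sum_repr' (gx u p)]
  simp only [real_inner_comm (gx u p), inner_gx h]

theorem contDiffAt_gx {u : P2 × ℝ → ℝ} {p : P2 × ℝ} {m n : ℕ} (h : ContDiffAt ℝ n u p)
    (hmn : m + 1 ≤ n) : ContDiffAt ℝ m (gx u) p := by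
  have b := EuclideanSpace.basisFun (Fin 2) ℝ
  have h1 : ContDiffAt ℝ m (fun q => ∑ i, pd (b i, 0) u q • b i) p :=
    ContDiffAt.sum fun i _ => (contDiffAt_pd h (by exact_mod_cast hmn) _).smul contDiffAt_const
  refine h1.congr_of_eventuallyEq ?_
  filter_upwards [h.eventually (by simp)] with q hq
  exact gx_eq_sum (hq.differentiableAt (by simp; omega)) b

theorem hx_apply {u : P2 × ℝ → ℝ} {p : P2 × ℝ} (h : ContDiffAt ℝ 2 u p) (ξ : P2) :
    hx u p ξ = pd (ξ, 0) (gx u) p :=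
  fderiv_slice ((contDiffAt_gx (m := 1) (n := 2) h le_rfl).differentiableAt (by simp)) ξ

theorem inner_hx {u : P2 × ℝ → ℝ} {p : P2 × ℝ} (h : ContDiffAt ℝ 2 u p) (ξ η : P2) :
    ⟪hx u p ξ, η⟫ = pd (ξ, 0) (pd (η, 0) u) p := by
  rw [hx_apply h, real_inner_comm, ← innerSL_apply_apply ℝ, ← pd_clm (innerSL ℝ η)
    ((contDiffAt_gx (m := 1) (n := 2) h le_rfl).differentiableAt (by simp))]
  refine pd_congr ?_ _
  filter_upwards [h.eventually (by simp)] with q hq
  rw [innerSL_apply_apply, real_inner_comm, inner_gx (hq.differentiableAt (by simp))]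

theorem deriv_time {u : P2 × ℝ → ℝ} {p : P2 × ℝ} (h : DifferentiableAt ℝ u p) :
    deriv (fun s => u (p.1, s)) p.2 = pd (0, 1) u p := by
  have h1 : HasDerivAt (fun s : ℝ => (p.1, s)) ((0 : P2), (1 : ℝ)) p.2 :=
    HasDerivAt.prodMk (hasDerivAt_const _ _) (hasDerivAt_id _)
  exact (HasFDerivAt.comp_hasDerivAt p.2 (l := u) h.hasFDerivAt h1).deriv

theorem geq_iff {u : P2 × ℝ → ℝ} {p : P2 × ℝ} (h : ContDiffAt ℝ 2 u p)
    (b : OrthonormalBasis (Fin 2) ℝ P2) :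
    GEq u p ↔ pd (0, 1) u p = op b (mcfA (gr b u p)) u p := by
  have hd := h.differentiableAt (by simp)
  have e1 : ‖gx u p‖ ^ 2 = ∑ l, gr b u p l ^ 2 := by
    rw [← b.sum_sq_inner_left]
    simp only [inner_gx hd]
    rfl
  have e2 : ⟪hx u p (gx u p), gx u p⟫ =
      ∑ i, ∑ j, gr b u p i * gr b u p j * pd (b i, 0) (pd (b j, 0) u) p := by
    simp only [← inner_hx h]
    rw [gx_eq_sum hd b]
    simp only [map_sum, map_smul, sum_inner, inner_sum, real_inner_smul_left,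
      real_inner_smul_right, Finset.mul_sum]
    rw [Finset.sum_comm]
    refine Finset.sum_congr rfl fun i _ => Finset.sum_congr rfl fun j _ => ?_
    simp only [gr, pr]
    ring
  have e3 : LinearMap.trace ℝ P2 (hx u p).toLinearMap = ∑ i, pd (b i, 0) (pd (b i, 0) u) p := by
    rw [LinearMap.trace_eq_sum_inner _ b]
    refine Finset.sum_congr rfl fun i _ => ?_
    rw [real_inner_comm, ← inner_hx h]
    rfl
  rw [GEq, deriv_time hd, e1, e2, e3, op]
  simp only [smul_eq_mul, sum_mcfA]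

/-- all space-time derivatives of a graphical mean curvature flow with bounded first and second
spatial derivatives -/
theorem int_all (k : ℕ) (B : ℝ) {r : ℝ} (hr : 0 < r) : ∃ C : ℝ, ∀ (u : P2 × ℝ → ℝ) (p0 : P2 × ℝ),
    (∀ p ∈ cyl p0 r, ContDiffAt ℝ ∞ u p ∧ GEq u p ∧ ‖gx u p‖ ≤ B ∧ ‖hx u p‖ ≤ B) →
    ‖iteratedFDeriv ℝ (k + 1) u p0‖ ≤ C := by
  have b := EuclideanSpace.basisFun (Fin 2) ℝ
  obtain ⟨C, hC⟩ := mcf b k B hr
  refine ⟨C, fun u p0 hu => hC u p0 fun p hp => ?_⟩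
  obtain ⟨h1, h2, h3, h4⟩ := hu p hp
  have h5 := h1.of_le two_le_top
  refine ⟨h1, (pi_norm_le_iff_of_nonneg ((norm_nonneg _).trans h3)).2 fun i => ?_,
    fun i j => ?_, (geq_iff h5 b).1 h2⟩
  · change ‖pd (b i, 0) u p‖ ≤ B
    rw [← inner_gx (h1.differentiableAt (by simp))]
    refine (norm_inner_le_norm _ _).trans ?_
    rwa [b.orthonormal.1 i, mul_one]
  · rw [← inner_hx h5]
    refine (abs_real_inner_le_norm _ _).trans ?_
    rw [b.orthonormal.1 j, mul_one]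
    refine ((hx u p).le_opNorm _).trans ?_
    rwa [b.orthonormal.1 i, mul_one]

theorem int3_proof : Int3Stmt := by
  intro B
  obtain ⟨C, hC⟩ := int_all 2 B (r := 1 / 2) (by norm_num)
  refine ⟨C, fun u O hO hu hsub h ξ hξ => ?_⟩
  have hs : cyl (ξ, (0 : ℝ)) (1 / 2) ⊆ closedBall (0 : P2) 1 ×ˢ Icc (-1 : ℝ) 0 := by
    have := cyl_subset (p := ((0 : P2), (0 : ℝ))) (q := (ξ, 0)) (r := 1) (s := 1 / 2) (t := 1 / 2)
      ⟨hξ, by norm_num⟩ (by norm_num) (by norm_num) (by norm_num)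
    simpa [cyl] using this
  have hc : ∀ p ∈ cyl (ξ, (0 : ℝ)) (1 / 2), ContDiffAt ℝ ∞ u p := fun p hp =>
    hu.contDiffAt (hO.mem_nhds (hsub (hs hp)))
  exact (norm_iter_slice ((hc _ (self_mem_cyl _ (by norm_num))).of_le
    three_le_top)).trans (hC u _ fun p hp => ⟨hc p hp, h p (hs hp)⟩)

end Vale.Agent.P218FT.Int
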