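import Vale.Agent.P218FT.Gauss

/-! The iteration of the step lemma towards the singular time (`M1Stmt`), and elementary lemmas
used for `T0Stmt`. -/

open MeasureTheory Set Filter Topology Metric
open scoped ENNReal NNReal RealInnerProductSpace ContDiff

namespace Vale.Agent.P218FT

/-- the separation is bounded below on compact parts of the track -/
def SepPosStmt : Prop :=
  ∀ (M : ℝ → Set E3) (I : Set ℝ), IsMCF M I → ∀ (t₁ t₂ : ℝ) (c : E3) (R : ℝ), Icc t₁ t₂ ⊆ I →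
    ∃ s : ℝ, 0 < s ∧ ∀ t ∈ Icc t₁ t₂, ∀ x ∈ M t, ‖x - c‖ ≤ R → SepGE (M t) x s

namespace TT

theorem sep_mono {N : Set E3} {x : E3} {m m' : ℝ} (h : SepGE N x m) (hm : m' ≤ m) :
    SepGE N x m' := fun y hy => hm.trans (h y hy)

theorem cov_mono {N : Set E3} {t : ℝ} {c c' : E3} {R R' m m' η η' : ℝ} (h : Cov N t c R m η)
    (hR : R' + ‖c' - c‖ ≤ R) (hm : m' ≤ m) (hη : η ≤ η') : Cov N t c' R' m' η' := by
  obtain ⟨l, h1, h2, h3, h4⟩ := h
  refine ⟨l, h1, h2, h3.trans hη, fun x hx hxc hs => h4 x hx ?_ fun h => hs (sep_mono h hm)⟩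
  calc ‖x - c‖ = ‖(x - c') + (c' - c)‖ := by congr 1; abel
    _ ≤ ‖x - c'‖ + ‖c' - c‖ := norm_add_le _ _
    _ ≤ R := by linarith

theorem diss_mono {M : ℝ → Set E3} {Λ Λ' : ℝ} {c c' : E3} {r r' a a' b b' : ℝ}
    (hΛ : Λ' ≤ Λ) (hr : r + ‖c - c'‖ ≤ r') (ha : a' ≤ a) (hb : b ≤ b') :
    diss M Λ c r a b ≤ diss M Λ' c' r' a' b' := by
  unfold diss
  refine (lintegral_mono_set (Icc_subset_Icc ha hb)).trans (lintegral_mono fun t => ?_)
  have hs : ball c r ⊆ ball c' r' := ball_subset_ball' (by rwa [dist_eq_norm])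
  refine (lintegral_mono_set hs).trans (lintegral_mono fun x => ?_)
  exact ENNReal.ofReal_le_ofReal (by linarith)

theorem ev_pos {p : ℝ → Prop} (h : ∀ᶠ l in 𝓝[>] (0 : ℝ), p l) :
    ∃ l₁ : ℝ, 0 < l₁ ∧ ∀ l, 0 < l → l ≤ l₁ → p l := by
  obtain ⟨u, hu, h⟩ := mem_nhdsGT_iff_exists_Ioc_subset.mp h
  exact ⟨u, hu, fun l h1 h2 => h ⟨h1, h2⟩⟩

theorem ev_of {p : ℝ → Prop} {l₁ : ℝ} (h₁ : 0 < l₁) (h : ∀ l, 0 < l → l ≤ l₁ → p l) :
    ∀ᶠ l in 𝓝[>] (0 : ℝ), p l := by
  filter_upwards [Ioc_mem_nhdsGT h₁] with l hl using h l hl.1 hl.2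

theorem ev_time {a b : ℝ} (hab : a < b) (c : ℝ) : ∀ᶠ l in 𝓝[>] (0 : ℝ), a < b - c * l ^ 2 := by
  have hc : Continuous fun l : ℝ => b - c * l ^ 2 := by fun_prop
  have := (hc.tendsto 0).eventually (lt_mem_nhds (show a < b - c * (0 : ℝ) ^ 2 by simpa using hab))
  exact this.filter_mono nhdsWithin_le_nhds

end TT

open TT in
theorem m1_proof (hsep : SepPosStmt) (hstep : StepStmt) (hdiss : DissStmt) : M1Stmt := by
  intro D G M a b hab hM x₀ R η hη
  set R' := max R 16 with hR'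
  have hR16 : 16 ≤ R' := le_max_right _ _
  set η' := min η (1 / 2) with hη'
  have hη0 : 0 < η' := lt_min hη (by norm_num)
  have hη1 : η' ≤ 1 / 2 := min_le_right _ _
  obtain ⟨Λ, -, hΛ⟩ := hdiss D M a b hab hM.mcf hM.ratio x₀ (4 * R') (by linarith)
  obtain ⟨m₀, δ, hm₀, hδ, hS⟩ := hstep D G R' Λ (η' / 64) hR16 (by positivity)
  obtain ⟨l₁, hl₁, hl⟩ := ev_pos ((hΛ δ hδ).and (ev_time hab 2))
  set P : ℝ → ℝ → Prop := fun l m =>
    Cov (M (b - l ^ 2)) (b - l ^ 2) x₀ (R' * l) (m * l) (η' * l ^ 2) with hP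
  have Pmono : ∀ l m m', 0 < l → m' ≤ m → P l m → P l m' := fun l m m' h0 hm h =>
    cov_mono h (by simp) (by gcongr) le_rfl
  have step : ∀ l m, 0 < l → 8 * l ≤ l₁ → 0 < m → m ≤ m₀ → P (8 * l) m → P l (2 * m) := by
    intro l m h0 h1 hm hmm h
    obtain ⟨hd, ha⟩ := hl (8 * l) (by positivity) h1
    have hl2 : 0 < l ^ 2 := by positivity
    have := hS M _ hM x₀ (b - (8 * l) ^ 2) (b - l ^ 2) (8 * l) m (by positivity) hm hmm
      (fun t ht => ⟨by nlinarith [ht.1], by nlinarith [ht.2]⟩) (by nlinarith) (by nlinarith)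
      ((diss_mono le_rfl (by simp) (by nlinarith) (by nlinarith)).trans hd)
      (cov_mono h (by simp) le_rfl (by nlinarith))
    refine cov_mono this ?_ (le_of_eq (by ring)) (le_of_eq (by ring))
    simp only [sub_self, norm_zero, add_zero]
    nlinarith
  obtain ⟨s, hs, hsep⟩ := hsep M _ hM.mcf (b - l₁ ^ 2) (b - (l₁ / 8) ^ 2) x₀ (R' * l₁)
    (fun t ht => ⟨by nlinarith [ht.1, (hl l₁ hl₁ le_rfl).2, sq_nonneg l₁],
      by nlinarith [ht.2, sq_pos_of_pos (show 0 < l₁ / 8 by positivity)]⟩)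
  set m₁ := min m₀ (s / l₁) with hm₁
  have hm₁0 : 0 < m₁ := lt_min hm₀ (by positivity)
  have hm₁m : m₁ ≤ m₀ := min_le_left _ _
  have start : ∀ l, l₁ / 8 ≤ l → l ≤ l₁ → P l m₁ := by
    intro l h1 h2
    have h0 : 0 < l := lt_of_lt_of_le (by positivity) h1
    refine ⟨0, fun s hs => by simp at hs, fun s hs => by simp at hs, ?_, fun x hx hxc hn => ?_⟩
    · simp only [mass, Multiset.map_zero, Multiset.sum_zero]
      positivity
    · exfalso
      apply hn
      have h3 : (l₁ / 8) ^ 2 ≤ l ^ 2 := by gcongr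
      have h4 : l ^ 2 ≤ l₁ ^ 2 := by gcongr
      refine sep_mono (hsep _ ⟨by linarith, by linarith⟩ x hx (hxc.trans (by gcongr))) ?_
      calc m₁ * l ≤ s / l₁ * l₁ := by gcongr; exact min_le_right _ _
        _ = s := by field_simp
  have all1 : ∀ n : ℕ, ∀ l, l₁ / 8 ^ (n + 1) ≤ l → l ≤ l₁ → P l m₁ := by
    intro n
    induction n with
    | zero => intro l h1 h2; exact start l (by simpa using h1) h2
    | succ n ih =>
      intro l h1 h2
      have h0 : 0 < l := lt_of_lt_of_le (by positivity) h1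
      by_cases h3 : l₁ / 8 ≤ l
      · exact start l h3 h2
      · have h4 : 8 * l ≤ l₁ := by linarith
        refine Pmono l _ _ h0 (by linarith) (step l m₁ h0 h4 hm₁0 hm₁m (ih _ ?_ h4))
        rw [div_le_iff₀ (by positivity)] at h1 ⊢
        calc l₁ ≤ l * 8 ^ (n + 1 + 1) := h1
          _ = 8 * l * 8 ^ (n + 1) := by ring
  have all2 : ∀ k : ℕ, ∀ l, 0 < l → 8 ^ k * l ≤ l₁ → P l (min (2 ^ k * m₁) m₀) := by
    intro k
    induction k with
    | zero =>
      intro l h0 h1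
      obtain ⟨n, hn⟩ := pow_unbounded_of_one_lt (l₁ / l) (show (1 : ℝ) < 8 by norm_num)
      refine Pmono l _ _ h0 (by simp) (all1 n l ?_ (by simpa using h1))
      rw [div_lt_iff₀ h0] at hn
      rw [div_le_iff₀ (by positivity), pow_succ]
      nlinarith [mul_pos h0 (show (0 : ℝ) < 8 ^ n by positivity)]
    | succ k ih =>
      intro l h0 h1
      have h8 : (1 : ℝ) ≤ 8 ^ k := one_le_pow₀ (by norm_num)
      have h2 : 8 ^ k * (8 * l) ≤ l₁ := by rw [pow_succ] at h1; linarith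
      have h3 := step l _ h0 (by nlinarith) (lt_min (by positivity) hm₀) (min_le_right _ _)
        (ih (8 * l) (by positivity) h2)
      refine Pmono l _ _ h0 ?_ h3
      rcases le_total (2 ^ k * m₁) m₀ with h | h
      · rw [min_eq_left h, pow_succ]
        exact (min_le_left _ _).trans (le_of_eq (by ring))
      · rw [min_eq_right h]
        exact (min_le_right _ _).trans (by linarith)
  obtain ⟨K, hK⟩ := pow_unbounded_of_one_lt (m₀ / m₁) (show (1 : ℝ) < 2 by norm_num)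
  rw [div_lt_iff₀ hm₁0] at hK
  refine ⟨m₀, hm₀, ev_of (show 0 < l₁ / 8 ^ K by positivity) fun l h0 h1 => ?_⟩
  have := all2 K l h0 (by rw [le_div_iff₀ (by positivity)] at h1; linarith)
  rw [min_eq_right hK.le] at this
  refine cov_mono this ?_ le_rfl (by gcongr; exact min_le_left _ _)
  simp only [sub_self, norm_zero, add_zero]
  gcongr
  exact le_max_left _ _

end Vale.Agent.P218FT
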