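import Vale.Agent.P218FT.NC1
import Mathlib.MeasureTheory.Covering.Vitali
import Mathlib.MeasureTheory.Measure.Lebesgue.Basic

/-! Block NC, step B: a plane section along which the normal oscillates little. -/

open MeasureTheory Set Filter Topology Metric Asymptotics
open scoped ENNReal NNReal RealInnerProductSpace ContDiff

namespace Vale.Agent.P218FT.NC

variable {N : Set E3}

lemma exists_radius (hL : LowerStmt) (hN : IsSurf N) {x : E3} (hx : x ∈ N) {η : ℝ} (hη : 0 < η) :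
    ∃ r : ℝ, 0 < r ∧ r ≤ 1 ∧ ENNReal.ofReal (r ^ 2) ≤ area N (ball x r) ∧
      (∀ y ∈ N, y ∈ ball x (5 * r) → ∀ e : E3, ‖e‖ = 1 →
        |⟪nu N y, e⟫ ^ 2 - ⟪nu N x, e⟫ ^ 2| ≤ 10 * (√(a2 N x) + η) * r) ∧
      ∀ y ∈ N, y ∈ ball x r → √(a2 N x) ≤ √(a2 N y) + η := by
  obtain ⟨δ₁, hδ₁, h1⟩ := Metric.eventually_nhds_iff_ball.1 (chord_nu hN hx hη)
  have hc : ContinuousWithinAt (fun y => √(a2 N y)) N x := (contOn_a2 hN x hx).sqrt
  have h2 : ∀ᶠ y in 𝓝[N] x, √(a2 N x) - η < √(a2 N y) := hc.eventually (lt_mem_nhds (by linarith))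
  obtain ⟨δ₂, hδ₂, h2⟩ := Metric.eventually_nhds_iff_ball.1 (eventually_nhdsWithin_iff.1 h2)
  have h3 : ∀ᶠ r in 𝓝[>] (0 : ℝ), r < min 1 (min (δ₁ / 5) δ₂) :=
    nhdsWithin_le_nhds (gt_mem_nhds (by positivity))
  obtain ⟨r, ⟨h4, h5⟩, h6⟩ := (((hL N hN x hx).and h3).and self_mem_nhdsWithin).exists
  have h6 : 0 < r := h6
  simp only [lt_min_iff] at h5
  refine ⟨r, h6, h5.1.le, h4, fun y hy hy' e he => ?_, fun y hy hy' => ?_⟩
  · refine (h1 y (ball_subset_ball (by linarith [h5.2.1]) hy') hy e he).trans ?_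
    have : ‖y - x‖ ≤ 5 * r := by rw [← dist_eq_norm]; exact (mem_ball.1 hy').le
    have h7 : 0 ≤ √(a2 N x) + η := by positivity
    nlinarith
  · linarith [h2 y (ball_subset_ball h5.2.2.le hy') hy]

lemma level_select (hL : LowerStmt) (hN : IsSurf N) {D : ℝ} (hA : AreaRatio D N) {e₃ : E3}
    (he₃ : ‖e₃‖ = 1) {R η κ : ℝ} (hR : 0 < R) (hη : 0 < η) (hκ : 1000 * η ≤ κ)
    (h : ∫⁻ x in ball 0 (R + 1), ENNReal.ofReal (√(a2 N x)) ∂(area N) ≤ ENNReal.ofReal η) (t : ℝ) :
    ∃ b ∈ Icc t (t + 1), ∀ Y : Set E3, IsPreconnected Y → Y ⊆ N →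
      Y ⊆ closedBall 0 R ∩ {y | ⟪e₃, y⟫ = b} → ∀ y ∈ Y, ∀ z ∈ Y, ∀ e : E3, ‖e‖ = 1 →
        |⟪nu N z, e⟫ ^ 2 - ⟪nu N y, e⟫ ^ 2| ≤ κ := by
  set η₀ := η / (|D| * (R + 1) ^ 2 + 1) with hη₀
  have hη₀' : 0 < η₀ := by positivity
  have hη₁ : η₀ * (D * (R + 1) ^ 2) ≤ η := by
    have h1 : η₀ * (|D| * (R + 1) ^ 2 + 1) = η := by rw [hη₀]; field_simp
    have h2 : D * (R + 1) ^ 2 ≤ |D| * (R + 1) ^ 2 := by gcongr; exact le_abs_self D
    nlinarith
  clear_value η₀
  choose! r r0 r1 r2 r3 r4 using fun x (hx : x ∈ N) => exists_radius hL hN hx hη₀'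
  obtain ⟨u, hu, hd, hcov⟩ := Vitali.exists_disjoint_subfamily_covering_enlargement_ball
    (N ∩ closedBall 0 R) id r 1 (fun x hx => r1 x hx.1) 5 (by norm_num)
  have huc : u.Countable := hd.countable_of_isOpen (fun _ _ => isOpen_ball)
    fun x hx => nonempty_ball.2 (r0 x (hu hx).1)
  have := huc.to_subtype
  set o : E3 → ℝ := fun x => 10 * (√(a2 N x) + η₀) * r x with ho
  set g : ℝ → ℝ≥0∞ := fun b => ∑' x : u, (Ioo (⟪e₃, (x : E3)⟫ - 5 * r x) (⟪e₃, (x : E3)⟫ + 5 * r x)).indicator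
    (fun _ => ENNReal.ofReal (2 * o x)) b with hg
  have hint : ∫⁻ b, g b ≤ ENNReal.ofReal (600 * η) := by
    rw [hg, lintegral_tsum fun x => (measurable_const.indicator measurableSet_Ioo).aemeasurable]
    calc _ ≤ ∑' x : u, ENNReal.ofReal 200 * ∫⁻ y in ball (x : E3) (r x),
          (ENNReal.ofReal (√(a2 N y)) + ENNReal.ofReal (2 * η₀)) ∂(area N) := by
          refine ENNReal.tsum_le_tsum fun x => ?_
          have hx := (hu x.2).1
          have hr := r0 x hx
          rw [lintegral_indicator_const measurableSet_Ioo, Real.volume_Ioo,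
            ← ENNReal.ofReal_mul (by positivity)]
          have e1 : 2 * o x * (⟪e₃, (x : E3)⟫ + 5 * r x - (⟪e₃, (x : E3)⟫ - 5 * r x))
              = 200 * ((√(a2 N x) + η₀) * r x ^ 2) := by simp only [ho]; ring
          rw [e1, ENNReal.ofReal_mul (by norm_num), ENNReal.ofReal_mul (by positivity)]
          gcongr
          calc _ ≤ ENNReal.ofReal (√(a2 N x) + η₀) * area N (ball (x : E3) (r x)) := by
                gcongr; exact r2 x hx
            _ = ∫⁻ _ in ball (x : E3) (r x), ENNReal.ofReal (√(a2 N x) + η₀) ∂(area N) := by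
                rw [setLIntegral_const]
            _ ≤ _ := by
                refine lintegral_mono_ae ?_
                filter_upwards [ae_restrict_of_ae (ae_mem hN), ae_restrict_mem measurableSet_ball]
                  with y hy hy'
                rw [← ENNReal.ofReal_add (by positivity) (by positivity)]
                exact ENNReal.ofReal_le_ofReal (by linarith [r4 x hx y hy hy'])
      _ = ENNReal.ofReal 200 * ∫⁻ y in ⋃ x : u, ball (x : E3) (r x),
          (ENNReal.ofReal (√(a2 N y)) + ENNReal.ofReal (2 * η₀)) ∂(area N) := by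
          rw [ENNReal.tsum_mul_left, lintegral_iUnion (fun _ => measurableSet_ball)]
          exact hd.subtype _ _
      _ ≤ ENNReal.ofReal 200 * ∫⁻ y in ball 0 (R + 1),
          (ENNReal.ofReal (√(a2 N y)) + ENNReal.ofReal (2 * η₀)) ∂(area N) := by
          gcongr
          refine iUnion_subset fun x => ball_subset_ball' ?_
          have h1 := r1 x (hu x.2).1
          have h2 : dist (x : E3) 0 ≤ R := (hu x.2).2
          linarith
      _ ≤ ENNReal.ofReal 200 * (ENNReal.ofReal η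
          + ENNReal.ofReal (2 * η₀) * ENNReal.ofReal (D * (R + 1) ^ 2)) := by
          rw [lintegral_add_right _ measurable_const, setLIntegral_const]
          gcongr
          exact hA _ _ (by positivity)
      _ ≤ ENNReal.ofReal 200 * (ENNReal.ofReal η + ENNReal.ofReal (2 * η)) := by
          rw [← ENNReal.ofReal_mul (by positivity)]
          have : ENNReal.ofReal (2 * η₀ * (D * (R + 1) ^ 2)) ≤ ENNReal.ofReal (2 * η) :=
            ENNReal.ofReal_le_ofReal (by linarith)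
          gcongr
      _ = _ := by
          rw [← ENNReal.ofReal_add hη.le (by positivity), ← ENNReal.ofReal_mul (by norm_num)]
          congr 1; ring
  obtain ⟨b, hb, hgb⟩ : ∃ b ∈ Icc t (t + 1), g b ≤ ENNReal.ofReal κ := by
    by_contra! hcon
    have h1 : ENNReal.ofReal κ ≤ ∫⁻ b in Icc t (t + 1), g b := by
      calc ENNReal.ofReal κ = ∫⁻ _ in Icc t (t + 1), ENNReal.ofReal κ := by
            rw [setLIntegral_const, Real.volume_Icc]; simp
        _ ≤ _ := setLIntegral_mono' measurableSet_Icc fun b hb => (hcon b hb).le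
    have h2 := (h1.trans (setLIntegral_le_lintegral _ _)).trans hint
    rw [ENNReal.ofReal_le_ofReal_iff (by positivity)] at h2
    linarith
  refine ⟨b, hb, fun Y hY hYN hYQ y hy z hz e he => ?_⟩
  set f : E3 → ℝ := fun y => ⟪nu N y, e⟫ ^ 2 with hf
  have h1 : uIcc (f y) (f z) ⊆ f '' Y :=
    (hY.image f ((contOn_theta hN e).mono hYN)).ordConnected.uIcc_subset ⟨y, hy, rfl⟩ ⟨z, hz, rfl⟩
  have h2 : f '' Y ⊆ ⋃ x : u, {v | b ∈ Ioo (⟪e₃, (x : E3)⟫ - 5 * r x) (⟪e₃, (x : E3)⟫ + 5 * r x) ∧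
      v ∈ Icc (f x - o x) (f x + o x)} := by
    rintro _ ⟨p, hp, rfl⟩
    obtain ⟨x, hx, hpx⟩ := hcov p ⟨hYN hp, (hYQ hp).1⟩
    have h3 : p ∈ ball x (5 * r x) := hpx (mem_ball_self (r0 p (hYN hp)))
    have h4 := abs_le.1 (r3 x (hu hx).1 p (hYN hp) h3 e he)
    have h5 : |⟪e₃, p - x⟫| < 5 * r x := by
      refine (abs_real_inner_le_norm _ _).trans_lt ?_
      rw [he₃, one_mul, ← dist_eq_norm]; exact h3
    rw [inner_sub_right, show ⟪e₃, p⟫ = b from (hYQ hp).2, abs_lt] at h5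
    refine mem_iUnion.2 ⟨⟨x, hx⟩, ⟨by linarith [h5.1], by linarith [h5.2]⟩, ?_, ?_⟩
    · simp only [hf, ho]; linarith [h4.1]
    · simp only [hf, ho]; linarith [h4.2]
  have h3 : ENNReal.ofReal |f z - f y| ≤ g b := by
    rw [← Real.volume_interval]
    refine (measure_mono (h1.trans h2)).trans ((measure_iUnion_le _).trans ?_)
    refine ENNReal.tsum_le_tsum fun x => ?_
    by_cases hx : b ∈ Ioo (⟪e₃, (x : E3)⟫ - 5 * r x) (⟪e₃, (x : E3)⟫ + 5 * r x)
    · rw [indicator_of_mem hx]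
      refine (measure_mono fun v hv => hv.2).trans ?_
      rw [Real.volume_Icc]
      exact ENNReal.ofReal_le_ofReal (by linarith)
    · simp only [hx, false_and, ofPred_false, measure_empty, zero_le]
  exact (ENNReal.ofReal_le_ofReal_iff (by linarith)).1 (h3.trans hgb)

end Vale.Agent.P218FT.NC
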