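import Vale.Agent.P218FT.NC1
import Mathlib.Geometry.Manifold.PartitionOfUnity
import Mathlib.Analysis.SpecialFunctions.SmoothTransition
import Mathlib.Analysis.Calculus.Deriv.Slope

/-! Block NC, step A: a direction of the normal which carries some mass is seen at every height. -/

open MeasureTheory Set Filter Topology Metric Asymptotics
open scoped ENNReal NNReal RealInnerProductSpace ContDiff Manifold

namespace Vale.Agent.P218FT.NC

variable {N : Set E3}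

lemma contDiffAt_comp_theta {w : E3 → ℝ} (hw : ContDiff ℝ ∞ w) {x : E3} (hg : gradient w x ≠ 0)
    {ψ : ℝ → ℝ} (hψ : ContDiff ℝ 1 ψ) (e : E3) :
    ContDiffAt ℝ 1 (fun y => ψ (⟪nuw w y, e⟫ ^ 2)) x :=
  hψ.contDiffAt.comp x
    ((((contDiffAt_nuw hw hg).of_le one_le_inf).inner ℝ contDiffAt_const).pow 2)

/-- extension to space of a function of the tilt -/
lemma exists_ext (hN : IsSurf N) {ψ : ℝ → ℝ} (hψ : ContDiff ℝ 1 ψ) (e : E3) :
    ∃ G : E3 → ℝ, ContDiff ℝ 1 G ∧ ∀ y ∈ N, G y = ψ (⟪nu N y, e⟫ ^ 2) := by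
  have h1 : ∀ y, Convex ℝ {v : ℝ | y ∈ N → v = ψ (⟪nu N y, e⟫ ^ 2)} := fun y => by
    by_cases hy : y ∈ N
    · simp only [hy, true_imp_iff, ofPred_eq_eq_singleton]; exact convex_singleton _
    · simp only [hy, false_imp_iff, ofPred_true]; exact convex_univ
  obtain ⟨G, hG⟩ := exists_contMDiffMap_forall_mem_convex_of_local (n := 1) 𝓘(ℝ, E3) h1 fun x => by
    by_cases hx : x ∈ N
    · have hw := hN.isEqn hx
      refine ⟨{y | IsEqn N y (eqn N x)}, hw.eventually, fun y => ψ (⟪nuw (eqn N x) y, e⟫ ^ 2),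
        ?_, fun y hy hy' => ?_⟩
      · rw [contMDiffOn_iff_contDiffOn]
        exact fun y hy => (contDiffAt_comp_theta hy.1 hy.2.1 hψ e).contDiffWithinAt
      · rw [IsEqn.inner_sq_eq hy hy']
    · exact ⟨Nᶜ, hN.1.isOpen_compl.mem_nhds hx, fun _ => 0, contMDiffOn_const,
        fun y hy hy' => absurd hy' hy⟩
  exact ⟨G, G.contMDiff.contDiff, hG⟩

lemma fderiv_ext_le (hN : IsSurf N) {ψ : ℝ → ℝ} (hψ : ContDiff ℝ 1 ψ) {e : E3} (he : ‖e‖ = 1)
    {C : ℝ} (hC : ∀ s ∈ Icc (0 : ℝ) 1, |deriv ψ s| ≤ C) {G : E3 → ℝ} (hG : ContDiff ℝ 1 G)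
    (hG' : ∀ y ∈ N, G y = ψ (⟪nu N y, e⟫ ^ 2)) {x : E3} (hx : x ∈ N) {v : E3} (hv : ‖v‖ = 1) :
    |fderiv ℝ G x (pt (nu N x) v)| ≤ 2 * C * √(a2 N x) := by
  have hw := hN.isEqn hx
  have hn := hN.norm_nu hx
  have ht := inner_pt_nrm hn v
  rw [fderiv_tangent hN hx (hG.differentiable one_ne_zero x)
    ((contDiffAt_comp_theta hw.1 hw.2.1 hψ e).differentiableAt one_ne_zero) ?_ ht]
  swap
  · filter_upwards [hw.eventually] with y hy hy'
    rw [hG' y hy', hy.inner_sq_eq hy']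
  have h1 := ((contDiffAt_nuw hw.1 hw.2.1).differentiableAt (by simp)).hasFDerivAt
  have h2 := (h1.inner ℝ (hasFDerivAt_const e x)).pow 2
  have h3 := (hψ.differentiable one_ne_zero _).hasDerivAt.comp_hasFDerivAt x h2
  have h4 : fderiv ℝ (fun y => ψ (⟪nuw (eqn N x) y, e⟫ ^ 2)) x = _ := h3.fderiv
  rw [h4]
  have h5 := fderiv_nuw hw.1 hw.2.1 ht
  have h6 : |⟪nu N x, e⟫| ≤ 1 := by
    have := abs_real_inner_le_norm (nu N x) e
    rwa [hn, he, one_mul] at this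
  have h7 : |⟪sh N x (pt (nu N x) v), e⟫| ≤ √(a2 N x) := by
    refine (abs_real_inner_le_norm _ _).trans ?_
    rw [he, mul_one, hN.sh_pt hx]
    simpa [hv] using hN.norm_sh_apply_le hx v
  have h8 := hC (⟪nu N x, e⟫ ^ 2) ⟨sq_nonneg _, by rw [← sq_abs]; nlinarith [abs_nonneg ⟪nu N x, e⟫]⟩
  simp only [smul_apply, ContinuousLinearMap.comp_apply, ContinuousLinearMap.prod_apply, h5,
    fderivInnerCLM_apply, zero_apply, inner_zero_right, zero_add, smul_eq_mul, nsmul_eq_mul,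
    inner_neg_left, abs_mul, abs_neg, Nat.cast_ofNat, Nat.add_one_sub_one, pow_one, abs_two]
  change |deriv ψ (⟪nu N x, e⟫ ^ 2)| * (2 * |⟪nu N x, e⟫| * |⟪sh N x (pt (nu N x) v), e⟫|) ≤ _
  have hC0 : 0 ≤ C := (abs_nonneg _).trans h8
  calc _ ≤ C * (2 * 1 * √(a2 N x)) := by gcongr
    _ = _ := by ring

lemma exists_cut {a : ℝ} (ha : 0 < a) : ∃ (ψ : ℝ → ℝ) (C : ℝ), ContDiff ℝ 1 ψ ∧ 0 ≤ C ∧
    (∀ s, 0 ≤ ψ s ∧ ψ s ≤ 1) ∧ (∀ s, s ≤ 1 - 4 * a ^ 2 → ψ s = 0) ∧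
    (∀ s, 1 - a ^ 2 ≤ s → ψ s = 1) ∧ ∀ s ∈ Icc (0 : ℝ) 1, |deriv ψ s| ≤ C := by
  have h : ContDiff ℝ 1 fun s : ℝ => Real.smoothTransition ((s - (1 - 4 * a ^ 2)) / (3 * a ^ 2)) :=
    (Real.smoothTransition.contDiff (n := 1)).comp ((contDiff_id.sub contDiff_const).div_const _)
  obtain ⟨C, hC⟩ := isCompact_Icc.exists_bound_of_continuousOn
    (h.continuous_deriv le_rfl).continuousOn (s := Icc (0 : ℝ) 1)
  refine ⟨_, C, h, (norm_nonneg _).trans (hC 0 ⟨le_rfl, zero_le_one⟩),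
    fun s => ⟨Real.smoothTransition.nonneg _, Real.smoothTransition.le_one _⟩, fun s hs => ?_,
    fun s hs => ?_, hC⟩
  · exact Real.smoothTransition.zero_of_nonpos
      (div_nonpos_of_nonpos_of_nonneg (by linarith) (by positivity))
  · exact Real.smoothTransition.one_of_one_le ((one_le_div (by positivity)).2 (by linarith))

lemma exists_ramp : ∃ U : ℝ → ℝ, ContDiff ℝ 1 U ∧ (∀ s, s ≤ 0 → U s = 0) ∧
    (∀ s, 0 ≤ s → 0 ≤ U s ∧ U s ≤ s) ∧ (∀ s, 0 ≤ s → 0 ≤ deriv U s) ∧ ∀ s, 1 ≤ s → 1 ≤ deriv U s := by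
  have h := Real.smoothTransition.contDiff (n := 1)
  have hd : ∀ s, deriv (fun s => s * Real.smoothTransition s) s
      = Real.smoothTransition s + s * deriv Real.smoothTransition s := fun s => by
    simpa using ((hasDerivAt_id' s).fun_mul (h.differentiable one_ne_zero s).hasDerivAt).deriv
  have hm : ∀ s, 0 ≤ deriv Real.smoothTransition s :=
    fun s => Real.smoothTransition.monotone.deriv_nonneg
  refine ⟨fun s => s * Real.smoothTransition s, contDiff_id.mul h, fun s hs => ?_, fun s hs => ?_,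
    fun s hs => ?_, fun s hs => ?_⟩
  · simp [Real.smoothTransition.zero_of_nonpos hs]
  · have h1 := Real.smoothTransition.nonneg s
    have h2 := Real.smoothTransition.le_one s
    exact ⟨by positivity, by nlinarith⟩
  · rw [hd]
    have h1 := Real.smoothTransition.nonneg s
    have := hm s
    positivity
  · rw [hd, Real.smoothTransition.one_of_one_le hs]
    have := hm s
    nlinarith

/-- the test function of step A -/
lemma exists_test {R M b h : ℝ} (hR : 0 < R) (hM : M = 16 * (2 * R + 3) + R ^ 2)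
    (hb : b ∈ Icc R (R + 1)) (hh : 0 < h) (hh1 : h ≤ 1) {e₃ : E3} (he₃ : ‖e₃‖ = 1) :
    ∃ φ : E3 → ℝ, ContDiff ℝ 1 φ ∧ (∀ x, M / 4 ≤ ‖x‖ → φ x = 0) ∧ (∀ x, |φ x| ≤ M * (2 * R + 3)) ∧
      ∀ x t : E3, ‖t‖ ≤ 1 → 3 / 4 ≤ ⟪e₃, t⟫ → (‖x‖ ≤ M / 4 → ⟪e₃, x⟫ ∉ Icc b (b + h)) →
        0 ≤ fderiv ℝ φ x t ∧ (‖x‖ < R → M / 4 ≤ fderiv ℝ φ x t) := by
  obtain ⟨U, U1, U2, U3, U4, U5⟩ := exists_ramp
  have hM0 : 16 * (2 * R + 3) ≤ M := by nlinarith
  have hM1 : 0 < M := by linarith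
  set q : E3 → ℝ := fun x => M * (⟪e₃, x⟫ + (R + 1)) - ‖x‖ ^ 2 with hq
  set χ : E3 → ℝ := fun x => Real.smoothTransition ((b + h - ⟪e₃, x⟫) / h) with hχ
  have hq1 : ContDiff ℝ 1 q :=
    (contDiff_const.mul ((contDiff_const.inner ℝ contDiff_id).add contDiff_const)).sub
      (contDiff_norm_sq ℝ)
  have hχ1 : ContDiff ℝ 1 χ := (Real.smoothTransition.contDiff (n := 1)).comp
    ((contDiff_const.sub (contDiff_const.inner ℝ contDiff_id)).div_const _)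
  have hχ0 : ∀ x, b + h ≤ ⟪e₃, x⟫ → χ x = 0 := fun x hx =>
    Real.smoothTransition.zero_of_nonpos (div_nonpos_of_nonpos_of_nonneg (by linarith) hh.le)
  have hq0 : ∀ x, ⟪e₃, x⟫ ≤ b + h → q x ≤ M * (2 * R + 3) - ‖x‖ ^ 2 := fun x hx => by
    simp only [hq]; nlinarith [hb.2]
  have hMM : M * (2 * R + 3) ≤ (M / 4) ^ 2 := by nlinarith
  have hic : Continuous fun x : E3 => ⟪e₃, x⟫ := by fun_prop
  have hsupp : ∀ x, M / 4 ≤ ‖x‖ → U (q x) * χ x = 0 := fun x hx => by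
    rcases le_total (b + h) ⟪e₃, x⟫ with h1 | h1
    · rw [hχ0 x h1, mul_zero]
    · have := hq0 x h1
      rw [U2 _ (by nlinarith), zero_mul]
  refine ⟨fun x => U (q x) * χ x, (U1.comp hq1).mul hχ1, hsupp, fun x => ?_,
    fun x t ht ht' hx => ?_⟩
  · rcases le_total (b + h) ⟪e₃, x⟫ with h1 | h1
    · simp only [hχ0 x h1, mul_zero, abs_zero]; positivity
    rcases le_total (q x) 0 with h2 | h2
    · simp only [U2 _ h2, zero_mul, abs_zero]; positivity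
    have h3 := U3 _ h2
    have h4 := hq0 x h1
    have h5 : 0 ≤ χ x := Real.smoothTransition.nonneg _
    have h6 : χ x ≤ 1 := Real.smoothTransition.le_one _
    rw [abs_of_nonneg (mul_nonneg h3.1 h5)]
    nlinarith [sq_nonneg ‖x‖]
  have hxe : |⟪e₃, x⟫| ≤ ‖x‖ := by simpa [he₃] using abs_real_inner_le_norm e₃ x
  have hz : (∀ᶠ y in 𝓝 x, U (q y) * χ y = 0) → R ≤ ‖x‖ →
      0 ≤ fderiv ℝ (fun x => U (q x) * χ x) x t ∧
        (‖x‖ < R → M / 4 ≤ fderiv ℝ (fun x => U (q x) * χ x) x t) := fun h1 h2 => by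
    have : (fun x => U (q x) * χ x) =ᶠ[𝓝 x] fun _ => 0 := h1
    rw [this.fderiv_eq]
    exact ⟨by simp, fun h3 => absurd h2 (not_le.2 h3)⟩
  by_cases h1 : M / 4 < ‖x‖
  · refine hz ?_ (by nlinarith)
    filter_upwards [continuous_norm.continuousAt.eventually (lt_mem_nhds h1)] with y hy
      using hsupp y hy.le
  have h1 := not_lt.1 h1
  have hx := hx h1
  rw [mem_Icc, not_and_or, not_le, not_le] at hx
  rcases hx with hx | hx
  swap
  · refine hz ?_ (by linarith [le_abs_self ⟪e₃, x⟫, hb.1])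
    filter_upwards [hic.continuousAt.eventually (lt_mem_nhds hx)] with y hy
    rw [hχ0 y hy.le, mul_zero]
  have hqR : ‖x‖ < R → 1 ≤ q x := fun h2 => by
    have h3 := neg_abs_le ⟪e₃, x⟫
    have h4 : ‖x‖ ^ 2 ≤ R ^ 2 := by gcongr
    have h5 : M * 1 ≤ M * (⟪e₃, x⟫ + (R + 1)) := by gcongr; linarith
    simp only [hq]; nlinarith
  by_cases h2 : q x < 0
  · refine hz ?_ (by by_contra h3; linarith [hqR (not_le.1 h3)])
    filter_upwards [hq1.continuous.continuousAt.eventually (gt_mem_nhds h2)] with y hy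
    rw [U2 _ hy.le, zero_mul]
  have h2 := not_lt.1 h2
  have e1 : (fun x => U (q x) * χ x) =ᶠ[𝓝 x] fun x => U (q x) := by
    filter_upwards [hic.continuousAt.eventually (gt_mem_nhds hx)] with y hy
    simp only [hχ]
    rw [Real.smoothTransition.one_of_one_le ((one_le_div hh).2 (by linarith)), mul_one]
  have d1 : HasFDerivAt q (M • innerSL ℝ e₃ - 2 • innerSL ℝ x) x :=
    (((innerSL ℝ e₃).hasFDerivAt.add_const (R + 1)).const_mul M).sub
      (hasStrictFDerivAt_norm_sq x).hasFDerivAt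
  have d2 : fderiv ℝ (fun x => U (q x)) x = _ :=
    ((U1.differentiable one_ne_zero _).hasDerivAt.comp_hasFDerivAt x d1).fderiv
  have d3 : M / 4 ≤ M * ⟪e₃, t⟫ - 2 * ⟪x, t⟫ := by
    have h3 := (le_abs_self _).trans (abs_real_inner_le_norm x t)
    have h4 : ‖x‖ * ‖t‖ ≤ M / 4 * 1 := by gcongr
    nlinarith
  rw [e1.fderiv_eq, d2]
  simp only [smul_apply, sub_apply, innerSL_apply_apply, smul_eq_mul, nsmul_eq_mul, Nat.cast_ofNat]
  refine ⟨mul_nonneg (U4 _ h2) (by linarith), fun h3 => ?_⟩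
  have := U5 _ (hqR h3)
  nlinarith

/-- **Step A** -/
lemma exists_point (hFV : FVStmt) {R a c : ℝ} (hR : 0 < R) (ha : 0 < a) (ha1 : a ≤ 1 / 10)
    (hc : 0 < c) : ∃ η r : ℝ, 0 < η ∧ 0 < r ∧ ∀ (D : ℝ) (N : Set E3), IsSurf N → AreaRatio D N →
      ∫⁻ x in ball 0 (r + 1), ENNReal.ofReal (√(a2 N x)) ∂(area N) ≤ ENNReal.ofReal η →
      ∀ e e₃ : E3, ‖e‖ = 1 → ‖e₃‖ = 1 → ⟪e, e₃⟫ = 0 →
        ENNReal.ofReal c ≤ area N {x | x ∈ ball (0 : E3) R ∧ 1 - a ^ 2 < ⟪nu N x, e⟫ ^ 2} →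
        ∀ b ∈ Icc R (R + 1), ∃ p ∈ N, ‖p‖ ≤ r ∧ ⟪e₃, p⟫ = b ∧ 1 - ⟪nu N p, e⟫ ^ 2 ≤ 4 * a ^ 2 := by
  obtain ⟨ψ, C, ψ1, hC, ψ2, ψ3, ψ4, ψ5⟩ := exists_cut ha
  set M := 16 * (2 * R + 3) + R ^ 2 with hM
  have hM0 : 0 < M := by positivity
  refine ⟨c / (8 * (2 * R + 3) * (2 * C + 2)), M / 4, by positivity, by positivity,
    fun D N hN hA hη e e₃ he he₃ hee hmass b hb => ?_⟩
  set η := c / (8 * (2 * R + 3) * (2 * C + 2)) with hη'
  have hη0 : 0 < η := by positivity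
  have hη1 : η * (8 * (2 * R + 3) * (2 * C + 2)) = c := by rw [hη']; field_simp
  clear_value η
  by_contra! hcon
  set Z := closedBall (0 : E3) (M / 4) ∩
    (N ∩ (fun y => 1 - ⟪nu N y, e⟫ ^ 2) ⁻¹' Iic (4 * a ^ 2)) with hZ
  have hZc : IsCompact Z := (isCompact_closedBall _ _).inter_right
    ((continuousOn_const.sub (contOn_theta hN e)).preimage_isClosed_of_isClosed hN.1 isClosed_Iic)
  have hcl : IsClosed ((fun y => ⟪e₃, y⟫) '' Z) := (hZc.image (by fun_prop)).isClosed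
  have hbZ : b ∈ ((fun y => ⟪e₃, y⟫) '' Z)ᶜ := by
    rintro ⟨p, ⟨h1, h2, h3⟩, h4⟩
    exact absurd (hcon p h2 (mem_closedBall_zero_iff.1 h1) h4) (not_lt.2 h3)
  obtain ⟨ε, hε, hε'⟩ := Metric.isOpen_iff.1 hcl.isOpen_compl b hbZ
  obtain ⟨φ, φ1, φ2, φ3, φ4⟩ := exists_test hR hM hb (h := min (ε / 2) 1) (by positivity)
    (min_le_right _ _) he₃
  obtain ⟨G, G1, G2⟩ := exists_ext hN ψ1 e
  have key : ∀ x ∈ N, 0 ≤ G x * fderiv ℝ φ x (pt (nu N x) e₃) ∧ (‖x‖ < R →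
      1 - a ^ 2 < ⟪nu N x, e⟫ ^ 2 → M / 4 ≤ G x * fderiv ℝ φ x (pt (nu N x) e₃)) := by
    intro x hx
    have hn := hN.norm_nu hx
    by_cases h1 : ⟪nu N x, e⟫ ^ 2 ≤ 1 - 4 * a ^ 2
    · rw [G2 x hx, ψ3 _ h1, zero_mul]
      exact ⟨le_rfl, fun _ h => by nlinarith⟩
    have h1 := not_le.1 h1
    have h2 : |⟪nu N x, e₃⟫| ≤ 2 * a := by
      have e1 : ⟪nu N x, e₃⟫ = ⟪pt e (nu N x), e₃⟫ := by rw [inner_pt_left, pt_of_orth hee]
      rw [e1]
      refine (abs_real_inner_le_norm _ _).trans ?_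
      rw [he₃, mul_one]
      exact (norm_pt_le_of he hn (by positivity) (by nlinarith)).1
    have h3 : 3 / 4 ≤ ⟪e₃, pt (nu N x) e₃⟫ := by
      rw [pt_apply, inner_sub_right, real_inner_smul_right, real_inner_self_eq_norm_sq, he₃,
        real_inner_comm (nu N x) e₃]
      have := abs_mul_abs_self ⟪nu N x, e₃⟫
      nlinarith [abs_nonneg ⟪nu N x, e₃⟫]
    obtain ⟨k1, k2⟩ := φ4 x _ ((norm_pt_le hn e₃).trans he₃.le) h3 fun h4 h5 => by
      refine hε' (a := ⟪e₃, x⟫) ?_ ⟨x, ⟨mem_closedBall_zero_iff.2 h4, hx, ?_⟩, rfl⟩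
      · rw [mem_ball, Real.dist_eq, abs_lt]
        constructor <;> linarith [h5.1, h5.2, min_le_left (ε / 2) 1]
      · exact (by linarith : 1 - ⟪nu N x, e⟫ ^ 2 ≤ 4 * a ^ 2)
    rw [G2 x hx]
    exact ⟨mul_nonneg (ψ2 _).1 k1, fun h4 h5 => by rw [ψ4 _ h5.le, one_mul]; exact k2 h4⟩
  have hφc : HasCompactSupport φ := HasCompactSupport.intro (isCompact_closedBall 0 (M / 4))
    fun x hx => φ2 x (by rw [mem_closedBall_zero_iff] at hx; exact (not_le.1 hx).le)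
  have hφ0 : ∀ x, M / 4 + 1 ≤ ‖x - 0‖ → fderiv ℝ φ x = 0 := fun x hx => by
    have : φ =ᶠ[𝓝 x] fun _ => 0 := by
      rw [sub_zero] at hx
      filter_upwards [continuous_norm.continuousAt.eventually
        (lt_mem_nhds (by linarith : M / 4 < ‖x‖))] with y hy using φ2 y hy.le
    rw [this.fderiv_eq]; simp
  have hφ0' : ∀ x, M / 4 + 1 ≤ ‖x - 0‖ → φ x = 0 := fun x hx => φ2 x (by rw [sub_zero] at hx; linarith)
  have hpt := (contOn_pt hN).clm_apply (continuousOn_const (c := e₃))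
  have i1 : Integrable (fun x => G x * fderiv ℝ φ x (pt (nu N x) e₃)) (area N) :=
    integrable_of_contOn hN hA (G1.continuous.continuousOn.mul
      ((φ1.continuous_fderiv one_ne_zero).continuousOn.clm_apply hpt))
      fun x _ hx => by rw [hφ0 x hx]; simp
  have i2 : Integrable (fun x => φ x * fderiv ℝ G x (pt (nu N x) e₃)) (area N) :=
    integrable_of_contOn hN hA (φ1.continuous.continuousOn.mul
      ((G1.continuous_fderiv one_ne_zero).continuousOn.clm_apply hpt))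
      fun x _ hx => by rw [hφ0' x hx, zero_mul]
  have hfv := fv_smul hFV hN (G1.mul φ1) hφc.mul_left e₃
  have e1 : ∀ x, fderiv ℝ (fun x => G x * φ x) x (pt (nu N x) e₃) =
      G x * fderiv ℝ φ x (pt (nu N x) e₃) + φ x * fderiv ℝ G x (pt (nu N x) e₃) := fun x => by
    rw [fderiv_fun_mul (G1.differentiable one_ne_zero x) (φ1.differentiable one_ne_zero x)]
    simp
  simp only [e1] at hfv
  rw [integral_add i1 i2] at hfv
  have b1 : |∫ x, φ x * fderiv ℝ G x (pt (nu N x) e₃) ∂(area N)| ≤ M * (2 * R + 3) * (2 * C) * η := by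
    refine abs_integral_le hN (by positivity) hη0.le (fun x hx => ?_)
      (fun x _ hx => by rw [hφ0' x hx, zero_mul]) hη
    rw [abs_mul, mul_assoc]
    exact mul_le_mul (φ3 x) (fderiv_ext_le hN ψ1 he ψ5 G1 G2 hx he₃) (abs_nonneg _) (by positivity)
  have b2 : |∫ x, G x * φ x * ⟪e₃, Hv N x⟫ ∂(area N)| ≤ M * (2 * R + 3) * 2 * η := by
    refine abs_integral_le hN (by positivity) hη0.le (fun x hx => ?_)
      (fun x _ hx => by rw [hφ0' x hx, mul_zero, zero_mul]) hη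
    have h1 : |G x| ≤ 1 := by rw [G2 x hx, abs_of_nonneg (ψ2 _).1]; exact (ψ2 _).2
    have h2 : |⟪e₃, Hv N x⟫| ≤ 2 * √(a2 N x) := by
      refine (abs_real_inner_le_norm _ _).trans ?_
      rw [he₃, one_mul]; exact hN.norm_Hv_le hx
    have h3 := φ3 x
    rw [abs_mul, abs_mul]
    calc _ ≤ 1 * (M * (2 * R + 3)) * (2 * √(a2 N x)) := by gcongr
      _ = _ := by ring
  have b3 := mul_meas_ge_le_integral_of_nonneg
    ((ae_mem hN).mono fun x hx => (key x hx).1) i1 (M / 4)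
  have b4 : c ≤ (area N).real {x | M / 4 ≤ G x * fderiv ℝ φ x (pt (nu N x) e₃)} := by
    rw [measureReal_def, ← ENNReal.ofReal_le_iff_le_toReal (i1.measure_ge_lt_top (by positivity)).ne]
    refine hmass.trans (measure_mono_ae ?_)
    filter_upwards [ae_mem hN] with x hx hx'
    exact (key x hx).2 (mem_ball_zero_iff.1 hx'.1) hx'.2
  have b5 := mul_le_mul_of_nonneg_left b4 (by positivity : 0 ≤ M / 4)
  have b6 := abs_le.1 b1
  have b7 := abs_le.1 b2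
  have b8 : M * (2 * R + 3) * (2 * C) * η + M * (2 * R + 3) * 2 * η = M / 8 * c := by
    rw [← hη1]; ring
  nlinarith [mul_pos hM0 hc]

end Vale.Agent.P218FT.NC
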