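import Vale.Agent.P218FT.NC2
import Vale.Agent.P218FT.NC3
import Vale.Agent.P218FT.NC4

/-! Block NC: the normal of an embedded surface with small total curvature is nearly constant in
measure. -/

open MeasureTheory Set Filter Topology Metric
open scoped ENNReal NNReal RealInnerProductSpace ContDiff

namespace Vale.Agent.P218FT

open NC

lemma NC.exists_caps {a : ℝ} (ha : 0 < a) : ∃ T : Finset E3, T.Nonempty ∧ (∀ e ∈ T, ‖e‖ = 1) ∧
    ∀ n : E3, ‖n‖ = 1 → ∃ e ∈ T, 1 - a ^ 2 < ⟪n, e⟫ ^ 2 := by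
  obtain ⟨T, h1, h2⟩ := (isCompact_sphere (0 : E3) 1).elim_nhds_subcover
    (fun e => {n | 1 - a ^ 2 < ⟪n, e⟫ ^ 2}) fun e he => by
      refine (isOpen_lt continuous_const (by fun_prop)).mem_nhds ?_
      have : ‖e‖ = 1 := by simpa using he
      simp only [mem_ofPred_eq, real_inner_self_eq_norm_sq, this]
      nlinarith
  have h3 : ∀ n : E3, ‖n‖ = 1 → ∃ e ∈ T, 1 - a ^ 2 < ⟪n, e⟫ ^ 2 := fun n hn => by
    simpa using h2 (by simpa using hn : n ∈ sphere (0 : E3) 1)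
  obtain ⟨e, he, -⟩ := h3 (EuclideanSpace.single (0 : Fin 3) (1 : ℝ)) (by simp)
  exact ⟨T, ⟨e, he⟩, fun e he => by simpa using h1 e he, h3⟩

theorem nc_proof (hFV : FVStmt) (hL : LowerStmt) : NCStmt := by
  intro D γ R c hγ hR hc
  set a := min γ 1 / 100 with ha'
  have ha : 0 < a := by positivity
  have ha1 : a ≤ 1 / 10 := by linarith [min_le_right γ 1]
  have ha2 : 100 * a ≤ γ := by linarith [min_le_left γ 1]
  clear_value a
  obtain ⟨T, hT0, hT1, hT2⟩ := exists_caps ha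
  have hK : (0 : ℝ) < T.card := by exact_mod_cast hT0.card_pos
  obtain ⟨η, r, hη, hr, hpt⟩ := exists_point hFV hR ha ha1 (div_pos hc hK)
  have hra : 0 < r / a := by positivity
  refine ⟨min η (a ^ 2 / 1000), max R (5 * r + 4 * (r / a) + 1), by positivity, le_max_left _ _,
    fun N hN hA hint => ?_⟩
  have hint1 : ∫⁻ x in ball 0 (r + 1), ENNReal.ofReal (√(a2 N x)) ∂(area N) ≤ ENNReal.ofReal η :=
    (lintegral_mono_set (ball_subset_ball (le_max_of_le_right (by linarith)))).trans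
      (hint.trans (ENNReal.ofReal_le_ofReal (min_le_left _ _)))
  have hint2 : ∫⁻ x in ball 0 (5 * r + 4 * (r / a) + 1), ENNReal.ofReal (√(a2 N x)) ∂(area N)
      ≤ ENNReal.ofReal (a ^ 2 / 1000) :=
    (lintegral_mono_set (ball_subset_ball (le_max_right _ _))).trans
      (hint.trans (ENNReal.ofReal_le_ofReal (min_le_right _ _)))
  obtain ⟨e₁, he₁, hmax⟩ := T.exists_max_image
    (fun e => area N {x | x ∈ ball (0 : E3) R ∧ 1 - a ^ 2 < ⟪nu N x, e⟫ ^ 2}) hT0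
  refine ⟨e₁, hT1 _ he₁, ?_⟩
  by_contra! hcon
  set B := {x | x ∈ ball (0 : E3) R ∧ γ ^ 2 < 1 - ⟪nu N x, e₁⟫ ^ 2} with hB
  obtain ⟨e₂, he₂, hm⟩ : ∃ e ∈ T, ENNReal.ofReal (c / T.card)
      ≤ area N (B ∩ {x | 1 - a ^ 2 < ⟪nu N x, e⟫ ^ 2}) := by
    by_contra! h
    refine absurd hcon (not_lt.2 ?_)
    calc area N B ≤ area N (⋃ e ∈ T, B ∩ {x | 1 - a ^ 2 < ⟪nu N x, e⟫ ^ 2}) := by
          refine measure_mono_ae ?_
          filter_upwards [ae_mem hN] with x hx hx'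
          obtain ⟨e, he, he'⟩ := hT2 _ (hN.norm_nu hx)
          exact mem_iUnion₂.2 ⟨e, he, hx', he'⟩
      _ ≤ ∑ e ∈ T, area N (B ∩ {x | 1 - a ^ 2 < ⟪nu N x, e⟫ ^ 2}) := measure_biUnion_finset_le _ _
      _ ≤ ∑ _e ∈ T, ENNReal.ofReal (c / T.card) := Finset.sum_le_sum fun e he => (h e he).le
      _ = ENNReal.ofReal c := by
          rw [Finset.sum_const, ← ENNReal.ofReal_nsmul, nsmul_eq_mul, mul_div_cancel₀ _ hK.ne']
  have m₂ : ENNReal.ofReal (c / T.card)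
      ≤ area N {x | x ∈ ball (0 : E3) R ∧ 1 - a ^ 2 < ⟪nu N x, e₂⟫ ^ 2} :=
    hm.trans (measure_mono fun x hx => ⟨hx.1.1, hx.2⟩)
  have m₁ := m₂.trans (hmax e₂ he₂)
  have n₁ := hT1 _ he₁
  have n₂ := hT1 _ he₂
  obtain ⟨x, ⟨⟨-, hx1⟩, hx2⟩, hx⟩ := Measure.exists_mem_of_measure_ne_zero_of_ae
    ((ENNReal.ofReal_pos.2 (div_pos hc hK)).trans_le hm).ne' (ae_restrict_of_ae (ae_mem hN))
  have hs : 20 * a ≤ ‖pt e₁ e₂‖ := by
    have hn := hN.norm_nu hx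
    have k1 := sn_triangle (b := nu N x) n₁ n₂
    have k2 := (norm_pt_le_of n₂ hn ha.le (by linarith [mem_ofPred_eq ▸ hx2])).1
    have k3 := norm_pt_sq n₁ (nu N x)
    rw [hn, real_inner_comm] at k3
    have k4 : γ ≤ ‖pt e₁ (nu N x)‖ := abs_le_of_sq_le_sq' (by linarith) (norm_nonneg _) |>.2
    rw [hn] at k1
    linarith
  obtain ⟨u₁, u₂, e₃, T₁, T₂, hu⟩ := exists_frames n₁ n₂ (by linarith)
  obtain ⟨b, hb, hosc⟩ := level_select hL hN hA T₁.nc (by positivity) (by positivity)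
    (κ := a ^ 2) (by linarith) hint2 R
  obtain ⟨p₁, hp₁, r₁, b₁, t₁⟩ := hpt D N hN hA hint1 e₁ e₃ n₁ T₁.nc T₁.bc m₁ b hb
  obtain ⟨p₂, hp₂, r₂, b₂, t₂⟩ := hpt D N hN hA hint1 e₂ e₃ n₂ T₂.nc T₂.bc m₂ b hb
  refine cross hN T₁ T₂ ha ha1 hr hu hs hp₁ hp₂ r₁ r₂ b₁ b₂ ?_ ?_
  · intro Y hY hp h1 h2 y hy
    linarith [(abs_le.1 (hosc Y hY h1 h2 p₁ hp y hy e₁ n₁)).1]
  · intro Y hY hp h1 h2 y hy
    linarith [(abs_le.1 (hosc Y hY h1 h2 p₂ hp y hy e₂ n₂)).1]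

end Vale.Agent.P218FT
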