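import Vale.Agent.P218FT.NC1

/-! Block NC, step C: long Lipschitz curves in plane sections of a surface, and crossing. -/

open MeasureTheory Set Filter Topology Metric Asymptotics
open scoped ENNReal NNReal RealInnerProductSpace ContDiff

namespace Vale.Agent.P218FT.NC

/-- `φ` is `k`-Lipschitz on `s` -/
def Lip (k : ℝ) (φ : ℝ → ℝ) (s : Set ℝ) : Prop := ∀ σ ∈ s, ∀ τ ∈ s, |φ σ - φ τ| ≤ k * |σ - τ|

lemma Lip.continuousOn {k : ℝ} {φ : ℝ → ℝ} {s : Set ℝ} (h : Lip k φ s) : ContinuousOn φ s := by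
  refine (LipschitzOnWith.of_dist_le' (K := k) fun σ hσ τ hτ => ?_).continuousOn
  exact h σ hσ τ hτ

/-- local sections from a strict first-order expansion -/
lemma local_section {w : E3 → ℝ} (hw : Continuous w) {q g u e : E3} {k δ ε : ℝ} (hu : ‖u‖ = 1)
    (he : ‖e‖ = 1) (hk : 0 < k) (hk1 : k ≤ 1) (hε : 0 < ε) (hβ : |⟪g, u⟫| + 2 * ε ≤ k * ⟪g, e⟫)
    (hs : ∀ y ∈ ball q δ, ∀ z ∈ ball q δ, |w y - w z - ⟪g, y - z⟫| ≤ ε * ‖y - z‖)
    {q' : E3} (hq' : q' ∈ ball q (δ / 2)) (h0 : w q' = 0) :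
    ∃ ψ : ℝ → ℝ, ψ 0 = 0 ∧ Lip k ψ (Icc 0 (δ / 4)) ∧
      ∀ τ ∈ Icc 0 (δ / 4), q' + τ • u + ψ τ • e ∈ ball q δ ∧ w (q' + τ • u + ψ τ • e) = 0 := by
  have hd : dist q' q < δ / 2 := hq'
  have hδ : 0 < δ := by linarith [dist_nonneg (x := q') (y := q)]
  have nle : ∀ a b : ℝ, ‖a • u + b • e‖ ≤ |a| + |b| := fun a b => by
    refine (norm_add_le _ _).trans ?_
    simp [norm_smul, hu, he]
  have mem : ∀ τ ∈ Icc 0 (δ / 4), ∀ h : ℝ, |h| ≤ k * τ → q' + τ • u + h • e ∈ ball q δ := by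
    intro τ hτ h hh
    have h1 := nle τ h
    rw [abs_of_nonneg hτ.1] at h1
    have h2 : dist (q' + τ • u + h • e) q' ≤ τ + |h| := by
      rw [dist_eq_norm, add_assoc, add_sub_cancel_left]; exact h1
    have := dist_triangle (q' + τ • u + h • e) q' q
    have h3 : k * τ ≤ τ := by nlinarith [hτ.1]
    rw [mem_ball]; linarith [hτ.2]
  have hq0 : q' ∈ ball q δ := by rw [mem_ball]; linarith
  have ex : ∀ τ ∈ Icc 0 (δ / 4), ∃ h, |h| ≤ k * τ ∧ w (q' + τ • u + h • e) = 0 := by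
    intro τ hτ
    have hkτ : 0 ≤ k * τ := mul_nonneg hk.le hτ.1
    have est : ∀ h : ℝ, |h| = k * τ →
        |w (q' + τ • u + h • e) - (τ * ⟪g, u⟫ + h * ⟪g, e⟫)| ≤ 2 * ε * τ := by
      intro h hh
      have h1 := hs _ (mem τ hτ h hh.le) _ hq0
      rw [h0, sub_zero, add_assoc, add_sub_cancel_left, inner_add_right, real_inner_smul_right,
        real_inner_smul_right] at h1
      rw [add_assoc]
      refine h1.trans ?_
      have h2 := nle τ h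
      rw [abs_of_nonneg hτ.1, hh] at h2
      have h3 : k * τ ≤ τ := by nlinarith [hτ.1]
      nlinarith
    have h1 := abs_le.1 (est (k * τ) (abs_of_nonneg hkτ))
    have h2 := abs_le.1 (est (-(k * τ)) (by rw [abs_neg, abs_of_nonneg hkτ]))
    have h3 := mul_le_mul_of_nonneg_left hβ hτ.1
    have h4 := mul_le_mul_of_nonneg_left (le_abs_self ⟪g, u⟫) hτ.1
    have h5 := mul_le_mul_of_nonneg_left (neg_abs_le ⟪g, u⟫) hτ.1
    have hc : Continuous fun h : ℝ => w (q' + τ • u + h • e) := hw.comp (by fun_prop)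
    obtain ⟨h, hh, h0'⟩ := intermediate_value_Icc (by linarith : -(k * τ) ≤ k * τ) hc.continuousOn
      (⟨by nlinarith, by nlinarith⟩ : (0 : ℝ) ∈ Icc _ _)
    exact ⟨h, abs_le.2 hh, h0'⟩
  choose! ψ hψ1 hψ2 using ex
  have h00 : (0 : ℝ) ∈ Icc 0 (δ / 4) := ⟨le_rfl, by positivity⟩
  refine ⟨ψ, by simpa using hψ1 0 h00, fun σ hσ τ hτ => ?_,
    fun τ hτ => ⟨mem τ hτ _ (hψ1 τ hτ), hψ2 τ hτ⟩⟩
  have h1 := hs _ (mem σ hσ _ (hψ1 σ hσ)) _ (mem τ hτ _ (hψ1 τ hτ))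
  have e1 : q' + σ • u + ψ σ • e - (q' + τ • u + ψ τ • e) = (σ - τ) • u + (ψ σ - ψ τ) • e := by
    rw [sub_smul, sub_smul]; abel
  rw [hψ2 σ hσ, hψ2 τ hτ, e1, inner_add_right, real_inner_smul_right, real_inner_smul_right,
    sub_zero, zero_sub, abs_neg] at h1
  have h2 := nle (σ - τ) (ψ σ - ψ τ)
  set A := σ - τ
  set B := ψ σ - ψ τ
  have hβ0 : 0 < ⟪g, e⟫ := by
    have : 0 < k * ⟪g, e⟫ := by linarith [abs_nonneg ⟪g, u⟫]
    exact (mul_pos_iff_of_pos_left hk).1 this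
  have h3 : |B| * ⟪g, e⟫ ≤ |A| * |⟪g, u⟫| + ε * (|A| + |B|) := by
    have h4 := abs_sub (A * ⟪g, u⟫ + B * ⟪g, e⟫) (A * ⟪g, u⟫)
    rw [add_sub_cancel_left, abs_mul, abs_mul, abs_of_pos hβ0] at h4
    nlinarith
  have h5 : 0 < ⟪g, e⟫ - ε := by nlinarith [abs_nonneg ⟪g, u⟫]
  have h6 : |B| * (⟪g, e⟫ - ε) ≤ k * |A| * (⟪g, e⟫ - ε) := by
    have := mul_le_mul_of_nonneg_left hβ (abs_nonneg A)
    have h7 : k * ε * |A| ≤ ε * |A| := by
      have := mul_nonneg hε.le (abs_nonneg A)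
      nlinarith
    nlinarith
  exact le_of_mul_le_mul_right h6 h5

variable {N : Set E3}

/-- sections of the surface near a point with small tilt -/
lemma local_section_surf (hN : IsSurf N) {q u e : E3} {a : ℝ} (hu : ‖u‖ = 1) (he : ‖e‖ = 1)
    (hue : ⟪u, e⟫ = 0) (ha : 0 < a) (ha1 : a ≤ 1 / 10) (hq : q ∈ N)
    (ht : 1 - ⟪nu N q, e⟫ ^ 2 ≤ 5 * a ^ 2) :
    ∃ δ > 0, ∀ q' ∈ N, q' ∈ ball q δ → ∃ ψ : ℝ → ℝ, ψ 0 = 0 ∧ Lip (3 * a) ψ (Icc 0 δ) ∧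
      ∀ τ ∈ Icc 0 δ, q' + τ • u + ψ τ • e ∈ N := by
  have hw := hN.isEqn hq
  set w := eqn N q
  have hg := hw.2.1
  set n := nuw w q with hn
  have hn1 : ‖n‖ = 1 := norm_nuw hg
  change 1 - ⟪n, e⟫ ^ 2 ≤ _ at ht
  have hγ : 0 < ‖gradient w q‖ := norm_pos_iff.2 hg
  have b1 : |⟪n, u⟫| ≤ 5 / 2 * a := by
    have h1 : ⟪n, u⟫ = ⟪pt e n, u⟫ := by
      rw [inner_pt_left, pt_of_orth (by rw [real_inner_comm]; exact hue)]
    have h2 := (norm_pt_le_of he hn1 (t := 5 / 2 * a) (by positivity) (by nlinarith)).1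
    rw [h1]
    refine (abs_real_inner_le_norm _ _).trans ?_
    rw [hu, mul_one]; exact h2
  have b2 : 9 / 10 ≤ |⟪n, e⟫| := by
    refine abs_le_of_sq_le_sq' ?_ (abs_nonneg _) |>.2
    rw [sq_abs]; nlinarith
  have hst : HasStrictFDerivAt w (fderiv ℝ w q) q :=
    hw.1.contDiffAt.hasStrictFDerivAt (by simp)
  have hε : 0 < a / 10 * ‖gradient w q‖ := by positivity
  have h1 := (hasStrictFDerivAt_iff_isLittleO.1 hst).bound hε
  rw [nhds_prod_eq] at h1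
  obtain ⟨δ₁, hδ₁, h1⟩ := (Metric.nhds_basis_ball.prod_self.eventually_iff).1 h1
  obtain ⟨δ₂, hδ₂, h2⟩ := Metric.eventually_nhds_iff_ball.1 hw.2.2
  obtain ⟨s, hs, hse⟩ : ∃ s : ℝ, |s| = 1 ∧ s * ⟪n, e⟫ = |⟪n, e⟫| := by
    rcases abs_cases ⟪n, e⟫ with h | h
    · exact ⟨1, abs_one, by rw [h.1, one_mul]⟩
    · exact ⟨-1, by simp, by rw [h.1]; ring⟩
  have hs0 : s ≠ 0 := fun h => by simp [h] at hs
  have hδ : 0 < min δ₁ δ₂ := lt_min hδ₁ hδ₂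
  refine ⟨min δ₁ δ₂ / 4, by positivity, fun q' hq' hq'' => ?_⟩
  have hb : q' ∈ ball q (min δ₁ δ₂ / 2) := ball_subset_ball (by linarith) hq''
  have hA : |⟪s • gradient w q, u⟫| + 2 * (a / 10 * ‖gradient w q‖)
      ≤ 3 * a * ⟪s • gradient w q, e⟫ := by
    have e1 : ∀ v, ⟪s • gradient w q, v⟫ = ‖gradient w q‖ * (s * ⟪n, v⟫) := fun v => by
      conv_lhs => rw [grad_eq_smul_nuw hg, ← hn]
      simp only [real_inner_smul_left]; ring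
    rw [e1, e1, hse, abs_mul, abs_mul, hs, abs_norm, one_mul]
    have := mul_le_mul_of_nonneg_left b1 hγ.le
    have := mul_le_mul_of_nonneg_left b2 (mul_pos ha hγ).le
    nlinarith
  have hB : ∀ y ∈ ball q (min δ₁ δ₂), ∀ z ∈ ball q (min δ₁ δ₂),
      |s * w y - s * w z - ⟪s • gradient w q, y - z⟫| ≤ a / 10 * ‖gradient w q‖ * ‖y - z‖ := by
    intro y hy z hz
    have := h1 (x := (y, z)) ⟨ball_subset_ball (min_le_left _ _) hy,
      ball_subset_ball (min_le_left _ _) hz⟩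
    rw [real_inner_smul_left, ← mul_sub, ← mul_sub, abs_mul, hs, one_mul, inner_grad]
    exact this
  have hC : s * w q' = 0 := by
    rw [(h2 _ (ball_subset_ball (by linarith [min_le_right δ₁ δ₂]) hb)).1 hq', mul_zero]
  obtain ⟨ψ, p0, p1, p2⟩ := local_section (w := fun y => s * w y) (q := q) (g := s • gradient w q)
    (k := 3 * a) (δ := min δ₁ δ₂) (continuous_const.mul hw.1.continuous) hu he (by positivity)
    (by linarith) hε hA hB hb hC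
  refine ⟨ψ, p0, p1, fun τ hτ => ?_⟩
  obtain ⟨p3, p4⟩ := p2 τ hτ
  exact (h2 _ (ball_subset_ball (min_le_right _ _) p3)).2 ((mul_eq_zero.1 p4).resolve_left hs0)

/-- the tilt stays small on connected pieces of `N ∩ Q` through `p` -/
def Osc (N Q : Set E3) (p e : E3) (a : ℝ) : Prop :=
  ∀ Y : Set E3, IsPreconnected Y → p ∈ Y → Y ⊆ N → Y ⊆ Q → ∀ y ∈ Y, 1 - ⟪nu N y, e⟫ ^ 2 ≤ 5 * a ^ 2

lemma curve_tilt {Q : Set E3} {p u e : E3} {a k s t : ℝ} (hO : Osc N Q p e a) {φ : ℝ → ℝ}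
    (h0 : φ 0 = 0) (hL : Lip k φ (Icc s t)) (hs : s ≤ 0) (ht : 0 ≤ t)
    (hm : ∀ τ ∈ Icc s t, p + τ • u + φ τ • e ∈ N)
    (hQ : ∀ τ ∈ Icc s t, ∀ h : ℝ, |h| ≤ k * |τ| → p + τ • u + h • e ∈ Q) :
    ∀ τ ∈ Icc s t, 1 - ⟪nu N (p + τ • u + φ τ • e), e⟫ ^ 2 ≤ 5 * a ^ 2 := by
  intro τ hτ
  have hc : ContinuousOn (fun τ => p + τ • u + φ τ • e) (Icc s t) :=
    (continuousOn_const.add (continuousOn_id.smul continuousOn_const)).add
      (hL.continuousOn.smul continuousOn_const)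
  refine hO _ (isPreconnected_Icc.image _ hc) ⟨0, ⟨hs, ht⟩, by simp [h0]⟩ ?_ ?_ _ ⟨τ, hτ, rfl⟩
  · rintro _ ⟨σ, hσ, rfl⟩; exact hm σ hσ
  · rintro _ ⟨σ, hσ, rfl⟩
    refine hQ σ hσ _ ?_
    simpa [h0] using hL σ hσ 0 ⟨hs, ht⟩

/-- a long ray in a plane section -/
lemma ray (hN : IsSurf N) {Q : Set E3} (hQc : IsCompact Q) {p u e : E3} {a l : ℝ} (hu : ‖u‖ = 1)
    (he : ‖e‖ = 1) (hue : ⟪u, e⟫ = 0) (ha : 0 < a) (ha1 : a ≤ 1 / 10) (hp : p ∈ N) (hl : 0 ≤ l)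
    (hO : Osc N Q p e a) (hQ : ∀ τ ∈ Icc 0 l, ∀ h : ℝ, |h| ≤ 3 * a * |τ| → p + τ • u + h • e ∈ Q) :
    ∃ φ : ℝ → ℝ, φ 0 = 0 ∧ Lip (3 * a) φ (Icc 0 l) ∧ ∀ τ ∈ Icc 0 l, p + τ • u + φ τ • e ∈ N := by
  set Z := Q ∩ (N ∩ (fun y => 1 - ⟪nu N y, e⟫ ^ 2) ⁻¹' Iic (5 * a ^ 2)) with hZ
  have hZc : IsCompact Z := hQc.inter_right
    ((continuousOn_const.sub (contOn_theta hN e)).preimage_isClosed_of_isClosed hN.1 isClosed_Iic)
  obtain ⟨δ, hδ, hext⟩ : ∃ δ > 0, ∀ q ∈ Z, ∃ ψ : ℝ → ℝ, ψ 0 = 0 ∧ Lip (3 * a) ψ (Icc 0 δ) ∧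
      ∀ τ ∈ Icc 0 δ, q + τ • u + ψ τ • e ∈ N := by
    refine hZc.induction_on (p := fun s => ∃ δ > 0, ∀ q ∈ s, ∃ ψ : ℝ → ℝ, ψ 0 = 0 ∧
      Lip (3 * a) ψ (Icc 0 δ) ∧ ∀ τ ∈ Icc 0 δ, q + τ • u + ψ τ • e ∈ N) ⟨1, one_pos, by simp⟩
      ?_ ?_ ?_
    · rintro s t hst ⟨δ, hδ, h⟩
      exact ⟨δ, hδ, fun q hq => h q (hst hq)⟩
    · rintro s t ⟨δ, hδ, h⟩ ⟨δ', hδ', h'⟩
      refine ⟨min δ δ', lt_min hδ hδ', fun q hq => ?_⟩
      rcases hq with hq | hq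
      · obtain ⟨ψ, p0, p1, p2⟩ := h q hq
        have : Icc (0 : ℝ) (min δ δ') ⊆ Icc 0 δ := Icc_subset_Icc_right (min_le_left δ δ')
        exact ⟨ψ, p0, fun σ hσ τ hτ => p1 σ (this hσ) τ (this hτ), fun τ hτ => p2 τ (this hτ)⟩
      · obtain ⟨ψ, p0, p1, p2⟩ := h' q hq
        have : Icc (0 : ℝ) (min δ δ') ⊆ Icc 0 δ' := Icc_subset_Icc_right (min_le_right δ δ')
        exact ⟨ψ, p0, fun σ hσ τ hτ => p1 σ (this hσ) τ (this hτ), fun τ hτ => p2 τ (this hτ)⟩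
    · intro q hq
      obtain ⟨δ, hδ, h⟩ := local_section_surf hN hu he hue ha ha1 hq.2.1 hq.2.2
      exact ⟨Z ∩ ball q δ, inter_mem_nhdsWithin _ (ball_mem_nhds q hδ), δ, hδ,
        fun q' hq' => h q' hq'.1.2.1 hq'.2⟩
  have step : ∀ n : ℕ, ∀ t, 0 ≤ t → t ≤ l → t ≤ n * δ → ∃ φ : ℝ → ℝ, φ 0 = 0 ∧
      Lip (3 * a) φ (Icc 0 t) ∧ ∀ τ ∈ Icc 0 t, p + τ • u + φ τ • e ∈ N := by
    intro n
    induction n with
    | zero =>
      intro t h0 _ h1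
      have : t = 0 := le_antisymm (by simpa using h1) h0
      subst this
      refine ⟨fun _ => 0, rfl, fun σ _ τ _ => by simp only [sub_self, abs_zero]; positivity,
        fun τ hτ => ?_⟩
      rw [le_antisymm hτ.2 hτ.1]; simpa using hp
    | succ n ih =>
      intro t h0 h1 h2
      set t' := max (t - δ) 0 with ht'
      have h3 : 0 ≤ t' := le_max_right _ _
      have h4 : t' ≤ t := max_le (by linarith) h0
      have h5 : t - δ ≤ t' := le_max_left _ _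
      obtain ⟨φ, p0, p1, p2⟩ := ih t' h3 (h4.trans h1)
        (max_le (by push_cast at h2; linarith) (by positivity))
      have hQ' : ∀ τ ∈ Icc 0 t', ∀ h : ℝ, |h| ≤ 3 * a * |τ| → p + τ • u + h • e ∈ Q :=
        fun τ hτ => hQ τ ⟨hτ.1, hτ.2.trans (h4.trans h1)⟩
      have hq : p + t' • u + φ t' • e ∈ Z := by
        refine ⟨hQ' t' ⟨h3, le_rfl⟩ _ ?_, p2 t' ⟨h3, le_rfl⟩,
          curve_tilt hO p0 p1 le_rfl h3 p2 hQ' t' ⟨h3, le_rfl⟩⟩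
        simpa [p0] using p1 t' ⟨h3, le_rfl⟩ 0 ⟨le_rfl, h3⟩
      obtain ⟨ψ, q0, q1, q2⟩ := hext _ hq
      refine ⟨fun τ => φ (min τ t') + ψ (max (τ - t') 0), ?_, fun σ hσ τ hτ => ?_, fun τ hτ => ?_⟩
      · simp [min_eq_left h3, max_eq_right (neg_nonpos.2 h3), p0, q0]
      · have m1 : ∀ σ ∈ Icc 0 t, min σ t' ∈ Icc 0 t' :=
          fun σ hσ => ⟨le_min hσ.1 h3, min_le_right _ _⟩
        have m2 : ∀ σ ∈ Icc 0 t, max (σ - t') 0 ∈ Icc 0 δ :=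
          fun σ hσ => ⟨le_max_right _ _, max_le (by linarith [hσ.2]) hδ.le⟩
        have e1 := p1 _ (m1 σ hσ) _ (m1 τ hτ)
        have e2 := q1 _ (m2 σ hσ) _ (m2 τ hτ)
        have e3 : |min σ t' - min τ t'| + |max (σ - t') 0 - max (τ - t') 0| ≤ |σ - τ| := by
          simp only [min_def, max_def]
          split_ifs <;> simp only [abs] <;> simp only [max_def] <;> split_ifs <;> linarith
        have e4 := abs_add_le (φ (min σ t') - φ (min τ t')) (ψ (max (σ - t') 0) - ψ (max (τ - t') 0))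
        have e5 := mul_le_mul_of_nonneg_left e3 (by positivity : 0 ≤ 3 * a)
        simp only
        rw [add_sub_add_comm]
        linarith
      · rcases le_total τ t' with h | h
        · simp only [min_eq_left h, max_eq_right (sub_nonpos.2 h), q0, add_zero]
          exact p2 τ ⟨hτ.1, h⟩
        · simp only [min_eq_right h, max_eq_left (sub_nonneg.2 h)]
          have := q2 (τ - t') ⟨sub_nonneg.2 h, by linarith [hτ.2]⟩
          convert this using 1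
          rw [sub_smul, add_smul]; abel
  obtain ⟨n, hn⟩ := exists_nat_ge (l / δ)
  exact step n l hl le_rfl (by rwa [div_le_iff₀ hδ] at hn)

/-- a long curve in a plane section, with small tilt -/
lemma line (hN : IsSurf N) {Q : Set E3} (hQc : IsCompact Q) {p u e : E3} {a l : ℝ} (hu : ‖u‖ = 1)
    (he : ‖e‖ = 1) (hue : ⟪u, e⟫ = 0) (ha : 0 < a) (ha1 : a ≤ 1 / 10) (hp : p ∈ N) (hl : 0 ≤ l)
    (hO : Osc N Q p e a)
    (hQ : ∀ τ ∈ Icc (-l) l, ∀ h : ℝ, |h| ≤ 3 * a * |τ| → p + τ • u + h • e ∈ Q) :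
    ∃ φ : ℝ → ℝ, φ 0 = 0 ∧ Lip (3 * a) φ (Icc (-l) l) ∧
      ∀ τ ∈ Icc (-l) l, p + τ • u + φ τ • e ∈ N ∧
        1 - ⟪nu N (p + τ • u + φ τ • e), e⟫ ^ 2 ≤ 5 * a ^ 2 := by
  obtain ⟨φ, p0, p1, p2⟩ := ray hN hQc hu he hue ha ha1 hp hl hO
    fun τ hτ => hQ τ ⟨by linarith [hτ.1], hτ.2⟩
  obtain ⟨ψ, q0, q1, q2⟩ := ray hN hQc (u := -u) (by rwa [norm_neg]) he (by simp [hue]) ha ha1 hp hl
    hO fun τ hτ h hh => by
      have := hQ (-τ) ⟨by linarith [hτ.2], by linarith [hτ.1]⟩ h (by rwa [abs_neg])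
      rwa [neg_smul, ← smul_neg] at this
  have r0 : φ (max 0 0) + ψ (max (-0) 0) = 0 := by simp [p0, q0]
  have r1 : Lip (3 * a) (fun τ => φ (max τ 0) + ψ (max (-τ) 0)) (Icc (-l) l) := by
    intro σ hσ τ hτ
    have m1 : ∀ σ ∈ Icc (-l) l, max σ 0 ∈ Icc 0 l := fun σ hσ => ⟨le_max_right _ _, max_le hσ.2 hl⟩
    have m2 : ∀ σ ∈ Icc (-l) l, max (-σ) 0 ∈ Icc 0 l :=
      fun σ hσ => ⟨le_max_right _ _, max_le (by linarith [hσ.1]) hl⟩
    have e1 := p1 _ (m1 σ hσ) _ (m1 τ hτ)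
    have e2 := q1 _ (m2 σ hσ) _ (m2 τ hτ)
    have e3 : |max σ 0 - max τ 0| + |max (-σ) 0 - max (-τ) 0| ≤ |σ - τ| := by
      simp only [max_def]
      split_ifs <;> simp only [abs] <;> simp only [max_def] <;> split_ifs <;> linarith
    have e4 := abs_add_le (φ (max σ 0) - φ (max τ 0)) (ψ (max (-σ) 0) - ψ (max (-τ) 0))
    have e5 := mul_le_mul_of_nonneg_left e3 (by positivity : 0 ≤ 3 * a)
    simp only
    rw [add_sub_add_comm]
    linarith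
  have r2 : ∀ τ ∈ Icc (-l) l, p + τ • u + (φ (max τ 0) + ψ (max (-τ) 0)) • e ∈ N := by
    intro τ hτ
    rcases le_total τ 0 with h | h
    · simp only [max_eq_right h, max_eq_left (neg_nonneg.2 h), p0, zero_add]
      simpa using q2 (-τ) ⟨neg_nonneg.2 h, by linarith [hτ.1]⟩
    · simp only [max_eq_left h, max_eq_right (neg_nonpos.2 h), q0, add_zero]
      exact p2 τ ⟨h, hτ.2⟩
  exact ⟨_, r0, r1, fun τ hτ => ⟨r2 τ hτ, curve_tilt hO r0 r1 (by linarith) hl r2 hQ τ hτ⟩⟩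

lemma exists_third {a b : E3} (ha : ‖a‖ = 1) (hb : ‖b‖ = 1) (hab : ⟪a, b⟫ = 0) :
    ∃ c, Triple a b c := by
  have ba : ⟪b, a⟫ = 0 := by rw [real_inner_comm]; exact hab
  have h1 : Orthonormal ℝ (({0, 1} : Set (Fin 3)).domRestrict ![a, b, 0]) := by
    refine ⟨fun i => ?_, fun i j hij => ?_⟩
    · obtain ⟨i, rfl | rfl⟩ := i
      · exact ha
      · exact hb
    · obtain ⟨i, rfl | rfl⟩ := i <;> obtain ⟨j, rfl | rfl⟩ := j
      · exact absurd rfl hij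
      · exact hab
      · exact ba
      · exact absurd rfl hij
  obtain ⟨B, hB⟩ := h1.exists_orthonormalBasis_extension_of_card_eq (by simp)
  have h0 : B 0 = a := hB 0 (by simp)
  have h2 : B 1 = b := hB 1 (by simp)
  refine ⟨B 2, ha, hb, B.norm_eq_one 2, hab, ?_, ?_⟩
  · rw [← h0]; exact B.orthonormal.2 (by decide)
  · rw [← h2]; exact B.orthonormal.2 (by decide)

/-- adapted frames for two distinct directions -/
lemma exists_frames {e₁ e₂ : E3} (h₁ : ‖e₁‖ = 1) (h₂ : ‖e₂‖ = 1) (hs : 0 < ‖pt e₁ e₂‖) :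
    ∃ u₁ u₂ e₃, Triple u₁ e₁ e₃ ∧ Triple u₂ e₂ e₃ ∧ ⟪u₁, e₂⟫ = ‖pt e₁ e₂‖ := by
  set s := ‖pt e₁ e₂‖ with hs'
  set c := ⟪e₁, e₂⟫ with hc
  set u₁ := s⁻¹ • pt e₁ e₂ with hu
  have n1 : ‖u₁‖ = 1 := by
    rw [hu, norm_smul, norm_inv, Real.norm_eq_abs, abs_of_pos hs, inv_mul_cancel₀ hs.ne']
  have o1 : ⟪u₁, e₁⟫ = 0 := by
    rw [hu, real_inner_smul_left, real_inner_comm, inner_pt_nrm h₁, mul_zero]
  obtain ⟨e₃, T⟩ := exists_third n1 h₁ o1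
  have e2 : e₂ = s • u₁ + c • e₁ := by
    rw [hu, smul_smul, mul_inv_cancel₀ hs.ne', one_smul, pt_apply, sub_add_cancel]
  have sc : s ^ 2 + c ^ 2 = 1 := by
    have := norm_pt_sq h₁ e₂
    rw [h₂] at this; linarith
  have o1' : ⟪e₁, u₁⟫ = 0 := by rw [real_inner_comm]; exact o1
  have i1 : ⟪u₁, u₁⟫ = 1 := by rw [real_inner_self_eq_norm_sq, n1]; norm_num
  have i2 : ⟪e₁, e₁⟫ = 1 := by rw [real_inner_self_eq_norm_sq, h₁]; norm_num
  clear_value u₁ c s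
  refine ⟨u₁, c • u₁ - s • e₁, e₃, T, ⟨?_, h₂, T.nc, ?_, ?_, ?_⟩, ?_⟩
  · refine (sq_eq_sq₀ (norm_nonneg _) zero_le_one).1 ?_
    rw [← real_inner_self_eq_norm_sq]
    simp only [inner_sub_left, inner_sub_right, real_inner_smul_left, real_inner_smul_right, o1,
      o1', i1, i2]
    linarith
  · rw [e2]
    simp only [inner_sub_left, inner_add_right, real_inner_smul_left, real_inner_smul_right, o1,
      o1', i1, i2]
    ring
  · simp only [inner_sub_left, real_inner_smul_left, T.ac, T.bc]; ring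
  · rw [e2]; simp only [inner_add_left, real_inner_smul_left, T.ac, T.bc]; ring
  · rw [e2]; simp only [inner_add_right, real_inner_smul_right, o1, i1]; ring

/-- two sheets with different directions through the same plane section must cross -/
lemma cross (hN : IsSurf N) {p₁ p₂ u₁ u₂ e₁ e₂ e₃ : E3} (T₁ : Triple u₁ e₁ e₃) (T₂ : Triple u₂ e₂ e₃)
    {a r b : ℝ} (ha : 0 < a) (ha1 : a ≤ 1 / 10) (hr : 0 < r) (hs : ⟪u₁, e₂⟫ = ‖pt e₁ e₂‖)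
    (hs' : 20 * a ≤ ‖pt e₁ e₂‖) (hp₁ : p₁ ∈ N) (hp₂ : p₂ ∈ N) (n₁ : ‖p₁‖ ≤ r) (n₂ : ‖p₂‖ ≤ r)
    (b₁ : ⟪e₃, p₁⟫ = b) (b₂ : ⟪e₃, p₂⟫ = b)
    (O₁ : Osc N (closedBall 0 (5 * r + 4 * (r / a)) ∩ {y | ⟪e₃, y⟫ = b}) p₁ e₁ a)
    (O₂ : Osc N (closedBall 0 (5 * r + 4 * (r / a)) ∩ {y | ⟪e₃, y⟫ = b}) p₂ e₂ a) : False := by
  set l := r / a with hl
  have hl0 : 0 < l := by positivity
  have hla : l * a = r := by rw [hl]; field_simp
  clear_value l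
  have hQc : IsCompact (closedBall (0 : E3) (5 * r + 4 * l) ∩ {y | ⟪e₃, y⟫ = b}) :=
    (isCompact_closedBall _ _).inter_right (isClosed_eq (by fun_prop) continuous_const)
  have hQ : ∀ p u e : E3, Triple u e e₃ → ‖p‖ ≤ r → ⟪e₃, p⟫ = b → ∀ τ : ℝ, |τ| ≤ 2 * r + 2 * l →
      ∀ h : ℝ, |h| ≤ 3 * a * |τ| →
        p + τ • u + h • e ∈ closedBall (0 : E3) (5 * r + 4 * l) ∩ {y | ⟪e₃, y⟫ = b} := by
    intro p u e T hp hb τ hτ h hh
    constructor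
    · rw [mem_closedBall_zero_iff]
      refine (norm_add₃_le).trans ?_
      rw [norm_smul, norm_smul, T.na, T.nb, Real.norm_eq_abs, Real.norm_eq_abs]
      nlinarith [abs_nonneg τ]
    · have h1 := T.ac
      have h2 := T.bc
      rw [real_inner_comm] at h1 h2
      simp [inner_add_right, real_inner_smul_right, h1, h2, hb]
  obtain ⟨φ, p0, p1, p2⟩ := line hN hQc T₁.na T₁.nb T₁.ab ha ha1 hp₁ hl0.le O₁
    fun τ hτ => hQ _ _ _ T₁ n₁ b₁ τ ((abs_le.2 hτ).trans (by linarith))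
  obtain ⟨ψ, q0, q1, q2⟩ := line hN hQc (l := 2 * r + 2 * l) T₂.na T₂.nb T₂.ab ha ha1 hp₂
    (by positivity) O₂ fun τ hτ => hQ _ _ _ T₂ n₂ b₂ τ (abs_le.2 hτ)
  set γ : ℝ → E3 := fun σ => p₁ + σ • u₁ + φ σ • e₁ - p₂ with hγ
  have h0 : (0 : ℝ) ∈ Icc (-l) l := ⟨by linarith, hl0.le⟩
  have h0' : (0 : ℝ) ∈ Icc (-(2 * r + 2 * l)) (2 * r + 2 * l) := ⟨by linarith, by linarith⟩
  have hφ : ∀ σ ∈ Icc (-l) l, |φ σ| ≤ 3 * a * l := fun σ hσ => by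
    have := p1 σ hσ 0 h0
    rw [p0, sub_zero, sub_zero] at this
    exact this.trans (by gcongr; exact abs_le.2 hσ)
  have hτ : ∀ σ ∈ Icc (-l) l, |⟪u₂, γ σ⟫| ≤ 2 * r + 2 * l := fun σ hσ => by
    refine (abs_real_inner_le_norm _ _).trans ?_
    rw [T₂.na, one_mul]
    refine (norm_sub_le _ _).trans ?_
    have := norm_add₃_le (a := p₁) (b := σ • u₁) (c := φ σ • e₁)
    rw [norm_smul, norm_smul, T₁.na, T₁.nb, Real.norm_eq_abs, Real.norm_eq_abs] at this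
    have h1 := hφ σ hσ
    have h2 := abs_le.2 hσ
    nlinarith
  have hγc : ContinuousOn γ (Icc (-l) l) :=
    ((continuousOn_const.add (continuousOn_id.smul continuousOn_const)).add
      (p1.continuousOn.smul continuousOn_const)).sub continuousOn_const
  have hgc : ContinuousOn (fun σ => ⟪e₂, γ σ⟫ - ψ ⟪u₂, γ σ⟫) (Icc (-l) l) :=
    (continuousOn_const.inner hγc).sub
      (q1.continuousOn.comp (continuousOn_const.inner hγc) fun σ hσ => abs_le.1 (hτ σ hσ))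
  have est : ∀ σ ∈ Icc (-l) l, |⟪e₂, γ σ⟫ - ψ ⟪u₂, γ σ⟫ - σ * ‖pt e₁ e₂‖| ≤ 13 * r := by
    intro σ hσ
    have e1 : ⟪e₂, γ σ⟫ - ψ ⟪u₂, γ σ⟫ - σ * ‖pt e₁ e₂‖
        = ⟪e₂, p₁ - p₂⟫ + φ σ * ⟪e₂, e₁⟫ - ψ ⟪u₂, γ σ⟫ := by
      rw [← hs, real_inner_comm e₂ u₁]
      simp only [hγ, inner_sub_right, inner_add_right, real_inner_smul_right]
      ring
    have e2 : |⟪e₂, p₁ - p₂⟫| ≤ 2 * r := by
      refine (abs_real_inner_le_norm _ _).trans ?_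
      rw [T₂.nb, one_mul]
      exact (norm_sub_le _ _).trans (by linarith)
    have e3 : |φ σ * ⟪e₂, e₁⟫| ≤ 3 * r := by
      have h1 := abs_real_inner_le_norm e₂ e₁
      rw [T₂.nb, T₁.nb, one_mul] at h1
      have h2 := hφ σ hσ
      rw [abs_mul]
      nlinarith [abs_nonneg (φ σ)]
    have e4 : |ψ ⟪u₂, γ σ⟫| ≤ 8 * r := by
      have := q1 _ (abs_le.1 (hτ σ hσ)) 0 h0'
      rw [q0, sub_zero, sub_zero] at this
      have h2 := hτ σ hσ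
      nlinarith
    rw [e1, abs_le] at *
    constructor <;> linarith [e2.1, e2.2, e3.1, e3.2, e4.1, e4.2]
  have g1 := abs_le.1 (est l ⟨by linarith, le_rfl⟩)
  have g2 := abs_le.1 (est (-l) ⟨le_rfl, by linarith⟩)
  have g3 : 20 * r ≤ l * ‖pt e₁ e₂‖ := by nlinarith
  obtain ⟨σ, hσ, hz⟩ := intermediate_value_Icc (by linarith : -l ≤ l) hgc
    (⟨by linarith [g2.2], by linarith [g1.1]⟩ : (0 : ℝ) ∈ Icc _ _)
  have hz' : ⟪e₂, γ σ⟫ = ψ ⟪u₂, γ σ⟫ := sub_eq_zero.1 hz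
  have h3 : ⟪e₃, γ σ⟫ = 0 := by
    have h1 := T₁.ac
    have h2 := T₁.bc
    rw [real_inner_comm] at h1 h2
    simp [hγ, inner_sub_right, inner_add_right, real_inner_smul_right, h1, h2, b₁, b₂]
  have hy : p₂ + ⟪u₂, γ σ⟫ • u₂ + ψ ⟪u₂, γ σ⟫ • e₂ = p₁ + σ • u₁ + φ σ • e₁ := by
    have := T₂.expand (γ σ)
    rw [h3, zero_smul, add_zero, hz'] at this
    rw [add_assoc, ← this, hγ]; simp
  obtain ⟨m1, t1⟩ := p2 σ hσ
  obtain ⟨-, t2⟩ := q2 _ (abs_le.1 (hτ σ hσ))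
  rw [hy] at t2
  have hn := hN.norm_nu m1
  have k1 := (norm_pt_le_of T₁.nb hn (t := 5 / 2 * a) (by positivity) (by nlinarith)).1
  have k2 := (norm_pt_le_of T₂.nb hn (t := 5 / 2 * a) (by positivity) (by nlinarith)).2
  have k3 := sn_triangle (b := e₂) T₁.nb hn
  rw [T₂.nb] at k3
  linarith

end Vale.Agent.P218FT.NC
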