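import Vale.Agent.P218FT.Defs
import Mathlib.MeasureTheory.Integral.IntervalIntegral.Basic

/-! Statements of the blocks used in the proof of multiplicity one and regularity of tangent
flows (block T). -/

open MeasureTheory Set Filter Topology Metric
open scoped ENNReal NNReal RealInnerProductSpace ContDiff

namespace Vale.Agent.P218FT

/-- the area of a surface is locally finite -/
def LocFinStmt : Prop := ∀ N : Set E3, IsSurf N → IsLocallyFiniteMeasure (area N)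

/-- first variation of area -/
def FVStmt : Prop :=
  ∀ N : Set E3, IsSurf N → ∀ X : E3 → E3, ContDiff ℝ 1 X → HasCompactSupport X →
    ∫ x, divT N X x ∂(area N) = -∫ x, ⟪X x, Hv N x⟫ ∂(area N)

/-- integrals of functions which are continuous on the track and have bounded spatial support
depend continuously on the time -/
def ContStmt : Prop :=
  ∀ (M : ℝ → Set E3) (I : Set ℝ), IsMCF M I → ∀ (g : ℝ × E3 → ℝ) (R : ℝ),
    ContinuousOn g (track M I) → (∀ p : ℝ × E3, R ≤ ‖p.2‖ → g p = 0) →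
    ContinuousOn (fun t => ∫ x, g (t, x) ∂(area (M t))) I

/-- evolution of integrals along the flow -/
def EVStmt : Prop :=
  ∀ (M : ℝ → Set E3) (I : Set ℝ), IsMCF M I → ∀ (f : ℝ × E3 → ℝ) (R : ℝ),
    ContDiff ℝ 1 f → (∀ p : ℝ × E3, R ≤ ‖p.2‖ → f p = 0) → ∀ t ∈ I,
    HasDerivAt (fun s => ∫ x, f (s, x) ∂(area (M s)))
      (∫ x, (fderiv ℝ f (t, x) (1, Hv (M t) x) - ‖Hv (M t) x‖ ^ 2 * f (t, x)) ∂(area (M t))) t

/-- Huisken's monotonicity formula, as an inequality with the dissipation -/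
def HuiskenStmt : Prop :=
  ∀ (D : ℝ) (M : ℝ → Set E3) (I : Set ℝ), IsMCF M I → (∀ t ∈ I, AreaRatio D (M t)) →
    ∀ (y : E3) (t₀ a b : ℝ), a ≤ b → b < t₀ → Icc a b ⊆ I →
      ENNReal.ofReal (gA (M b) y √(t₀ - b)) +
        ∫⁻ t in Icc a b, ∫⁻ x, ENNReal.ofReal (‖relV (M t) y (t₀ - t) x‖ ^ 2 * gk (t₀ - t) (x - y))
          ∂(area (M t)) ≤ ENNReal.ofReal (gA (M a) y √(t₀ - a))

/-- the Gaussian density at a point of a smooth flow is one -/
def DensStmt : Prop :=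
  ∀ (D : ℝ) (M : ℝ → Set E3) (I : Set ℝ), IsMCF M I → (∀ t ∈ I, AreaRatio D (M t)) →
    ∀ t ∈ I, ∀ x ∈ M t, Tendsto (fun r => dens M x t r) (𝓝[>] 0) (𝓝 1)

/-- small balls about a point of a surface have area at least `r²` -/
def LowerStmt : Prop :=
  ∀ N : Set E3, IsSurf N → ∀ x ∈ N, ∀ᶠ r in 𝓝[>] (0 : ℝ), ENNReal.ofReal (r ^ 2) ≤ area N (ball x r)

/-- area of a piece of surface which projects injectively along `e` -/
def ProjStmt : Prop :=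
  ∀ N : Set E3, IsSurf N → ∀ (e : E3) (c : ℝ) (S : Set E3), ‖e‖ = 1 → 0 < c → S ⊆ N →
    MeasurableSet S → (∀ x ∈ S, c ≤ |⟪nu N x, e⟫|) → InjOn (pt e) S →
    ENNReal.ofReal c * area N S ≤ (μHE[2] : Measure E3) (pt e '' S)

/-- White's local regularity theorem in two-point form, with its constants -/
def WhiteAt (D ε r C : ℝ) : Prop :=
  ∀ (M : ℝ → Set E3) (I : Set ℝ), IsMCF M I → (∀ t ∈ I, AreaRatio D (M t)) →
    ∀ (x₀ : E3) (t₀ : ℝ), Icc (t₀ - 4) t₀ ⊆ I →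
      (∀ y ∈ ball x₀ 3, ∀ t ∈ Icc (t₀ - 3) t₀, dens M y t 1 ≤ 1 + ε) →
      ∀ t ∈ Icc (t₀ - 1) t₀, ∀ x ∈ M t, x ∈ ball x₀ 1 → TwoPt (M t) x r C

/-- White's local regularity theorem -/
def WhiteStmt : Prop := ∀ D : ℝ, ∃ ε r C : ℝ, 0 < ε ∧ 0 < r ∧ 0 < C ∧ WhiteAt D ε r C

/-- **Block T1**: uniform one-sheet curvature bounds for the rescaled flow about `(x₀, b)` -/
def T1Stmt : Prop :=
  ∀ (D G : ℝ) (M : ℝ → Set E3) (a b : ℝ), a < b → InC D G M (Ioo a b) → ∀ (x₀ : E3) (R : ℝ),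
    ∃ r C t₁ : ℝ, 0 < r ∧ 0 < C ∧ t₁ < b ∧ ∀ t ∈ Ioo t₁ b, ∀ x ∈ M t, ‖x - x₀‖ ≤ R * √(b - t) →
      TwoPt (M t) x (r * √(b - t)) (C / √(b - t))

/-- the normal is nearly constant in measure when `∫ |A|` is small -/
def NCStmt : Prop :=
  ∀ D γ R c : ℝ, 0 < γ → 0 < R → 0 < c → ∃ η R' : ℝ, 0 < η ∧ R ≤ R' ∧
    ∀ N : Set E3, IsSurf N → AreaRatio D N →
      ∫⁻ x in ball 0 R', ENNReal.ofReal (√(a2 N x)) ∂(area N) ≤ ENNReal.ofReal η →
      ∃ e : E3, ‖e‖ = 1 ∧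
        area N {x | x ∈ ball (0 : E3) R ∧ γ ^ 2 < 1 - ⟪nu N x, e⟫ ^ 2} ≤ ENNReal.ofReal c

end Vale.Agent.P218FT
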