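import Vale.Agent.P218FT.Spec

/-! Cone separation, barriers, and the intermediate statements of block T. -/

open MeasureTheory Set Filter Topology Metric
open scoped ENNReal NNReal RealInnerProductSpace ContDiff

namespace Vale.Agent.P218FT

/-- `y` is a point of `N` in the closed double cone about the normal line at `x` -/
def InCone (N : Set E3) (x y : E3) : Prop := y ∈ N ∧ y ≠ x ∧ ‖y - x‖ / 2 ≤ |⟪y - x, nu N x⟫|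

/-- the separation at `x` is at least `m` -/
def SepGE (N : Set E3) (x : E3) (m : ℝ) : Prop := ∀ y, InCone N x y → m ≤ ‖y - x‖

/-- the separation at `x` is `s`, and is attained on the boundary of the cone -/
def Bad (N : Set E3) (x : E3) (s : ℝ) : Prop :=
  SepGE N x s ∧ ∃ y ∈ N, y ≠ x ∧ ‖y - x‖ = s ∧ |⟪y - x, nu N x⟫| = s / 2

/-- a source: mass `a`, centre `c`, pole time `τ`, activation time `τ'` -/
structure Src where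
  a : ℝ
  c : E3
  τ : ℝ
  τ' : ℝ

/-- the contribution of a source -/
noncomputable def Src.val (s : Src) (t : ℝ) (x : E3) : ℝ :=
  if s.τ' < t then s.a * gk (t - s.τ) (x - s.c) else 0

/-- the barrier of a finite family of sources -/
noncomputable def bar (l : Multiset Src) (t : ℝ) (x : E3) : ℝ := (l.map fun s => s.val t x).sum

/-- the total mass -/
noncomputable def mass (l : Multiset Src) : ℝ := (l.map fun s => s.a).sum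

/-- masses are nonnegative and sources are activated after their pole time -/
def Valid (l : Multiset Src) : Prop := ∀ s ∈ l, 0 ≤ s.a ∧ s.τ < s.τ'

/-- a barrier of mass at most `η`, active before `t`, is at least `1` at time `t` on the points of
`N ∩ B(c, R)` with separation less than `m` -/
def Cov (N : Set E3) (t : ℝ) (c : E3) (R m η : ℝ) : Prop :=
  ∃ l : Multiset Src, Valid l ∧ (∀ s ∈ l, s.τ' < t) ∧ mass l ≤ η ∧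
    ∀ x ∈ N, ‖x - c‖ ≤ R → ¬ SepGE N x m → 1 ≤ bar l t x

/-- the dissipation above the level `Λ` in `B(c, r) × [a, b]` -/
noncomputable def diss (M : ℝ → Set E3) (Λ : ℝ) (c : E3) (r a b : ℝ) : ℝ≥0∞ :=
  ∫⁻ t in Icc a b, ∫⁻ x in ball c r, ENNReal.ofReal (‖Hv (M t) x‖ ^ 2 - Λ) ∂(area (M t))

/-- the potential of `|A|²` at `(x, t)` over `B(x, r) × [a, b]` -/
noncomputable def potA (M : ℝ → Set E3) (x : E3) (t r a b : ℝ) : ℝ≥0∞ :=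
  ∫⁻ s in Icc a b, ∫⁻ y in ball x r, ENNReal.ofReal (a2 (M s) y * gk (t - s) (x - y)) ∂(area (M s))

/-- a `C¹` test function supported in `B(p, R)`, bounded by `K` with its derivative -/
structure Test (ζ : E3 → ℝ) (p : E3) (R K : ℝ) : Prop where
  smooth : ContDiff ℝ 1 ζ
  supp : ∀ x, R ≤ ‖x - p‖ → ζ x = 0
  b0 : ∀ x, |ζ x| ≤ K
  b1 : ∀ x, ‖fderiv ℝ ζ x‖ ≤ K

/-- approximate invariance under time shifts and translations orthogonal to `e` -/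
def AI (M : ℝ → Set E3) (e : E3) (R η : ℝ) : Prop :=
  ∀ (ζ : E3 → ℝ) (p : E3) (K : ℝ), ‖p‖ ≤ R → Test ζ p R K → ∀ t ∈ Icc (-5 : ℝ) 0, ∀ b : E3,
    ⟪b, e⟫ = 0 → ‖b‖ ≤ R →
    |∫ x, ζ (x - b) ∂(area (M t)) - ∫ x, ζ x ∂(area (M 0))| ≤ η * K

/-- Gaussian integrals under an area ratio bound -/
def GaussStmt : Prop :=
  ∃ C₀ : ℝ, 0 < C₀ ∧ ∀ D : ℝ, 0 ≤ D →
    (∀ N : Set E3, AreaRatio D N → ∀ (y : E3) (σ : ℝ), 0 < σ →
      Integrable (fun x => gk σ (x - y)) (area N) ∧ ∫ x, gk σ (x - y) ∂(area N) ≤ C₀ * D) ∧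
    ∀ η : ℝ, 0 < η → ∃ ρ : ℝ, 0 < ρ ∧ ∀ N : Set E3, AreaRatio D N → ∀ (y : E3) (r : ℝ), 0 < r →
      ∫ x in (ball y (ρ * r))ᶜ, gk (r ^ 2) (x - y) ∂(area N) ≤ η

/-- the barrier lemma -/
def BarrierStmt : Prop :=
  ∀ (M : ℝ → Set E3) (I : Set ℝ), IsMCF M I → ∀ (t₁ t₂ : ℝ) (c : E3) (R m : ℝ) (l : Multiset Src),
    Icc t₁ t₂ ⊆ I → 0 < R → 0 < m → Valid l →
    (∀ x ∈ M t₁, ‖x - c‖ ≤ R → ¬ SepGE (M t₁) x m → 1 ≤ bar l t₁ x) →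
    (∀ t ∈ Icc t₁ t₂, ∀ x ∈ M t, ‖x - c‖ ≤ R → ∀ s < m, Bad (M t) x s → 1 ≤ bar l t x) →
    ∀ t ∈ Icc t₁ t₂, ∀ x ∈ M t, ‖x - c‖ ≤ R → ∀ y, InCone (M t) x y →
      1 ≤ √(‖y - x‖ / m) + bar l t x + (‖x - c‖ ^ 2 + 4 * (t - t₁)) / R ^ 2

/-- integrals change little in time when the dissipation is small -/
def StaticStmt : Prop :=
  ∀ (D : ℝ), 0 ≤ D → ∀ (M : ℝ → Set E3) (I : Set ℝ), IsMCF M I → (∀ t ∈ I, AreaRatio D (M t)) →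
    ∀ (ζ : E3 → ℝ) (p : E3) (R K a b α d : ℝ), 0 < R → Test ζ p R K → a ≤ b → Icc a b ⊆ I →
      0 < α → 0 ≤ d → diss M 0 p R a b ≤ ENNReal.ofReal d →
      |∫ x, ζ x ∂(area (M b)) - ∫ x, ζ x ∂(area (M a))|
        ≤ K * (α * (D * R ^ 2) * (b - a) + (1 + α⁻¹) * d)

/-- integrals change little under translations which are almost tangent -/
def TransStmt : Prop :=
  ∀ (D : ℝ), 0 ≤ D → ∀ (N : Set E3), IsSurf N → AreaRatio D N →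
    ∀ (ζ : E3 → ℝ) (p e b : E3) (R K γ h c : ℝ), 0 < R → Test ζ p R K → ‖e‖ = 1 → ⟪b, e⟫ = 0 →
      ‖b‖ ≤ R → 0 ≤ γ → 0 ≤ h → 0 ≤ c →
      ∫⁻ x in ball p (2 * R), ENNReal.ofReal ‖Hv N x‖ ∂(area N) ≤ ENNReal.ofReal h →
      area N {x | x ∈ ball p (2 * R) ∧ γ ^ 2 < 1 - ⟪nu N x, e⟫ ^ 2} ≤ ENNReal.ofReal c →
      |∫ x, ζ (x - b) ∂(area N) - ∫ x, ζ x ∂(area N)| ≤ K * ‖b‖ * (h + γ * (D * (2 * R) ^ 2) + c)

/-- approximate invariance from a bounded potential of `|A|²` and a small dissipation -/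
def AIStmt : Prop :=
  ∀ D L R η : ℝ, 0 < R → 0 < η → ∃ Γ c : ℝ, 3 ≤ Γ ∧ 0 < c ∧
    ∀ (M : ℝ → Set E3) (I : Set ℝ), IsMCF M I → (∀ t ∈ I, AreaRatio D (M t)) →
      Icc (-Γ ^ 2) 0 ⊆ I → potA M 0 0 Γ (-Γ ^ 2) (-1) ≤ ENNReal.ofReal L →
      diss M 0 0 Γ (-Γ ^ 2) 0 ≤ ENNReal.ofReal (c * Γ ^ 2) → ∃ e : E3, ‖e‖ = 1 ∧ AI M e R η

/-- no bad point in an approximately invariant flow -/
def BadCoreStmt : Prop :=
  ∀ D ε r C : ℝ, 0 < ε → ε ≤ 1 → 0 < r → 0 < C → WhiteAt D ε r C →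
    ∃ σ R η : ℝ, 1 ≤ σ ∧ 0 < R ∧ 0 < η ∧
    ∀ (M : ℝ → Set E3) (I : Set ℝ), IsMCF M I → (∀ t ∈ I, AreaRatio D (M t)) →
      Icc (-5 : ℝ) 0 ⊆ I → (0 : E3) ∈ M 0 → ∀ (e : E3) (s : ℝ), ‖e‖ = 1 → AI M e R η →
      Bad (M 0) 0 s → σ ≤ s → dens M 0 0 1 ≤ 1 + ε / 2 →
      (s = σ ∨ 1 + ε / 2 < dens M 0 0 2) → False

/-- a bad point has a large potential of `|A|²` or a definite dissipation at a smaller scale -/
def BadStmt : Prop :=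
  ∀ D L : ℝ, ∃ Γ c : ℝ, 1 ≤ Γ ∧ 0 < c ∧
    ∀ (M : ℝ → Set E3) (I : Set ℝ), IsMCF M I → (∀ t ∈ I, AreaRatio D (M t)) →
      ∀ (t : ℝ) (x : E3) (s : ℝ), x ∈ M t → Bad (M t) x s → Icc (t - (Γ * s) ^ 2) t ⊆ I →
      ∃ ρ : ℝ, 0 < ρ ∧ ρ ≤ s ∧
        (ENNReal.ofReal L ≤ potA M x t (Γ * ρ) (t - (Γ * ρ) ^ 2) (t - ρ ^ 2) ∨
          ENNReal.ofReal (c * (Γ * ρ) ^ 2) ≤ diss M 0 x (Γ * ρ) (t - (Γ * ρ) ^ 2) t)

/-- the step of the iteration -/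
def StepStmt : Prop :=
  ∀ D G R Λ η : ℝ, 16 ≤ R → 0 < η → ∃ m₀ δ : ℝ, 0 < m₀ ∧ 0 < δ ∧
    ∀ (M : ℝ → Set E3) (I : Set ℝ), InC D G M I → ∀ (c : E3) (t₁ t₂ lam m : ℝ), 0 < lam → 0 < m →
      m ≤ m₀ → Icc (t₁ - lam ^ 2) t₂ ⊆ I → lam ^ 2 / 2 ≤ t₂ - t₁ → t₂ - t₁ ≤ lam ^ 2 →
      diss M (Λ / lam ^ 2) c (4 * R * lam) (t₁ - lam ^ 2) t₂ ≤ ENNReal.ofReal (δ * lam ^ 2) →
      Cov (M t₁) t₁ c (R * lam) (m * lam) (lam ^ 2 / 2) →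
      Cov (M t₂) t₂ c (R * lam / 4) (m * lam / 4) (η * lam ^ 2)

/-- the dissipation above a fixed level tends to zero along the rescaled flow -/
def DissStmt : Prop :=
  ∀ (D : ℝ) (M : ℝ → Set E3) (a b : ℝ), a < b → IsMCF M (Ioo a b) →
    (∀ t ∈ Ioo a b, AreaRatio D (M t)) → ∀ (x₀ : E3) (R : ℝ), 0 < R → ∃ Λ : ℝ, 0 ≤ Λ ∧
      ∀ δ : ℝ, 0 < δ → ∀ᶠ lam in 𝓝[>] (0 : ℝ),
        diss M (Λ / lam ^ 2) x₀ (R * lam) (b - 2 * lam ^ 2) (b - lam ^ 2 / 4096)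
          ≤ ENNReal.ofReal (δ * lam ^ 2)

/-- the set of points with small separation is uniformly small along the rescaled flow -/
def M1Stmt : Prop :=
  ∀ (D G : ℝ) (M : ℝ → Set E3) (a b : ℝ), a < b → InC D G M (Ioo a b) →
    ∀ (x₀ : E3) (R η : ℝ), 0 < η → ∃ m : ℝ, 0 < m ∧ ∀ᶠ lam in 𝓝[>] (0 : ℝ),
      Cov (M (b - lam ^ 2)) (b - lam ^ 2) x₀ (R * lam) (m * lam) (η * lam ^ 2)

/-- a flat surface with few points of small separation has Gaussian area almost at most one -/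
def FinStmt : Prop :=
  ∀ D ε : ℝ, 0 < ε → ∃ η : ℝ, 0 < η ∧ ∀ m : ℝ, 0 < m → ∃ r J h : ℝ, 0 < r ∧ r ≤ 1 ∧ 1 ≤ J ∧ 0 < h ∧
    ∀ N : Set E3, IsSurf N → AreaRatio D N →
      ∫⁻ x in ball 0 J, ENNReal.ofReal (√(a2 N x)) ∂(area N) ≤ ENNReal.ofReal h →
      area N {x | x ∈ ball (0 : E3) 1 ∧ ¬ SepGE N x m} ≤ ENNReal.ofReal η → gA N 0 r ≤ 1 + ε

/-- Gaussian density ratios at a small fixed scale are close to one along the rescaled flow -/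
def T0Stmt : Prop :=
  ∀ (D G : ℝ) (M : ℝ → Set E3) (a b : ℝ), a < b → InC D G M (Ioo a b) →
    ∀ (x₀ : E3) (R ε : ℝ), 0 < ε → ∃ r : ℝ, 0 < r ∧ r ≤ 1 ∧ ∀ᶠ lam in 𝓝[>] (0 : ℝ),
      ∀ y : E3, ‖y - x₀‖ ≤ R * lam → dens M y (b - lam ^ 2) (r * lam) ≤ 1 + ε

end Vale.Agent.P218FT
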