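import Vale.Agent.P218FT.Spec2
import Vale.Agent.P218FT.Local2
import Mathlib.MeasureTheory.Covering.Vitali
import Mathlib.Analysis.Real.Pi.Bounds
import Mathlib.MeasureTheory.Function.Floor
import Mathlib.Analysis.Complex.ExponentialBounds

/-! The step lemma of block T: from a barrier at the time `t₁` to a barrier of small mass at the
time `t₂`. -/

open MeasureTheory Set Filter Topology Metric
open scoped ENNReal NNReal RealInnerProductSpace ContDiff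

namespace Vale.Agent.P218FT
namespace Step

/-! ### The kernel -/

lemma gk_pos {σ : ℝ} (h : 0 < σ) (z : E3) : 0 < gk σ z := by
  unfold gk; have := Real.pi_pos; positivity

lemma gk_le {σ : ℝ} (h : 0 < σ) (z : E3) : gk σ z ≤ (4 * Real.pi * σ)⁻¹ := by
  unfold gk
  have hp := Real.pi_pos
  have h1 : Real.exp (-‖z‖ ^ 2 / (4 * σ)) ≤ 1 := by
    apply Real.exp_le_one_iff.2
    apply div_nonpos_of_nonpos_of_nonneg
    · nlinarith [sq_nonneg ‖z‖]
    · positivity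
  calc _ ≤ (4 * Real.pi * σ)⁻¹ * 1 := by gcongr
    _ = _ := mul_one _

/-- comparison of the kernel with a kernel with an earlier pole and a nearby centre -/
lemma gk_shift {σ σ' r : ℝ} {z z' : E3} (hr : 0 < r) (h1 : r ^ 2 ≤ σ) (h2 : σ + r ^ 2 ≤ σ')
    (h3 : σ' ≤ σ + 2 * r ^ 2) (h4 : ‖z' - z‖ ≤ r) : gk σ z ≤ 9 * gk σ' z' := by
  have hr2 : 0 < r ^ 2 := by positivity
  have hσ : 0 < σ := by linarith
  have hσ' : 0 < σ' := by linarith
  have hp := Real.pi_pos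
  have hz : ‖z'‖ ≤ ‖z‖ + r := by
    calc ‖z'‖ = ‖z + (z' - z)‖ := by congr 1; abel
      _ ≤ ‖z‖ + ‖z' - z‖ := norm_add_le _ _
      _ ≤ _ := by linarith
  have hz2 : ‖z'‖ ^ 2 ≤ (‖z‖ + r) ^ 2 := by gcongr
  have key : ‖z'‖ ^ 2 / σ' ≤ ‖z‖ ^ 2 / σ + 1 := by
    have e1 : ‖z'‖ ^ 2 / σ' ≤ (‖z‖ + r) ^ 2 / (σ + r ^ 2) := by gcongr
    refine e1.trans ?_
    rw [div_add_one hσ.ne', div_le_div_iff₀ (by positivity) hσ]
    nlinarith [sq_nonneg (‖z‖ * r - σ)]
  have e2 : Real.exp (-‖z‖ ^ 2 / (4 * σ)) ≤ 3 * Real.exp (-‖z'‖ ^ 2 / (4 * σ')) := by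
    have a1 : -‖z‖ ^ 2 / (4 * σ) ≤ 1 + -‖z'‖ ^ 2 / (4 * σ') := by
      have b1 : -‖z‖ ^ 2 / (4 * σ) = -(‖z‖ ^ 2 / σ) / 4 := by field_simp
      have b2 : -‖z'‖ ^ 2 / (4 * σ') = -(‖z'‖ ^ 2 / σ') / 4 := by field_simp
      rw [b1, b2]; linarith
    calc _ ≤ Real.exp (1 + -‖z'‖ ^ 2 / (4 * σ')) := Real.exp_le_exp.2 a1
      _ = Real.exp 1 * Real.exp (-‖z'‖ ^ 2 / (4 * σ')) := Real.exp_add _ _
      _ ≤ _ := by
        gcongr
        exact Real.exp_one_lt_d9.le.trans (by norm_num)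
  have e3 : (4 * Real.pi * σ)⁻¹ ≤ 3 * (4 * Real.pi * σ')⁻¹ := by
    rw [← div_eq_mul_inv, inv_eq_one_div, div_le_div_iff₀ (by positivity) (by positivity)]
    nlinarith
  unfold gk
  calc _ ≤ (3 * (4 * Real.pi * σ')⁻¹) * (3 * Real.exp (-‖z'‖ ^ 2 / (4 * σ'))) := by gcongr
    _ = _ := by ring

/-- a lower bound of the kernel -/
lemma gk_lower {σ q : ℝ} {z : E3} (hq : 0 < q) (h1 : 2 * q ^ 2 ≤ σ) (h2 : σ ≤ 7 * q ^ 2)
    (h3 : ‖z‖ ≤ 3 * q) : 1 ≤ 1008 * q ^ 2 * gk σ z := by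
  have hq2 : 0 < q ^ 2 := by positivity
  have hσ : 0 < σ := by linarith
  have hp := Real.pi_pos
  have hp4 := Real.pi_le_four
  have hz : ‖z‖ ^ 2 ≤ (3 * q) ^ 2 := by gcongr
  have e1 : -2 ≤ -‖z‖ ^ 2 / (4 * σ) := by
    rw [le_div_iff₀ (by positivity)]; nlinarith
  have e2 : (9 : ℝ)⁻¹ ≤ Real.exp (-‖z‖ ^ 2 / (4 * σ)) := by
    refine le_trans ?_ (Real.exp_le_exp.2 e1)
    rw [Real.exp_neg]
    apply inv_anti₀ (Real.exp_pos _)
    have h := Real.exp_one_lt_d9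
    have : Real.exp 2 = Real.exp 1 * Real.exp 1 := by rw [← Real.exp_add]; norm_num
    rw [this]; nlinarith [Real.exp_pos 1]
  have e3 : (112 * q ^ 2)⁻¹ ≤ (4 * Real.pi * σ)⁻¹ := by
    apply inv_anti₀ (by positivity); nlinarith
  unfold gk
  calc (1 : ℝ) = 1008 * q ^ 2 * ((112 * q ^ 2)⁻¹ * (9 : ℝ)⁻¹) := by field_simp; norm_num
    _ ≤ _ := by gcongr

/-! ### Algebra of barriers -/

lemma val_nonneg {s : Src} (h : 0 ≤ s.a ∧ s.τ < s.τ') (t : ℝ) (x : E3) : 0 ≤ s.val t x := by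
  unfold Src.val
  split_ifs with ht
  · exact mul_nonneg h.1 (gk_pos (by linarith [h.2]) _).le
  · exact le_rfl

lemma bar_nonneg {l : Multiset Src} (hl : Valid l) (t : ℝ) (x : E3) : 0 ≤ bar l t x := by
  apply Multiset.sum_nonneg
  intro a ha
  obtain ⟨s, hs, rfl⟩ := Multiset.mem_map.1 ha
  exact val_nonneg (hl s hs) t x

lemma bar_add (l l' : Multiset Src) (t : ℝ) (x : E3) :
    bar (l + l') t x = bar l t x + bar l' t x := by simp [bar]

lemma mass_add (l l' : Multiset Src) : mass (l + l') = mass l + mass l' := by simp [mass]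

lemma valid_add {l l' : Multiset Src} (h : Valid l) (h' : Valid l') : Valid (l + l') := by
  intro s hs
  rcases Multiset.mem_add.1 hs with h1 | h1
  exacts [h s h1, h' s h1]

lemma bar_le_mass {l : Multiset Src} (hl : Valid l) {t₁ t d : ℝ} (h1 : ∀ s ∈ l, s.τ' < t₁)
    (hd : 0 < d) (h2 : d ≤ t - t₁) (x : E3) : bar l t x ≤ mass l * (4 * Real.pi * d)⁻¹ := by
  unfold bar mass
  rw [← Multiset.sum_map_mul_right]
  apply Multiset.sum_map_le_sum_map
  intro s hs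
  have hp := Real.pi_pos
  obtain ⟨ha, hτ⟩ := hl s hs
  have h3 := h1 s hs
  unfold Src.val
  rw [if_pos (by linarith)]
  refine mul_le_mul_of_nonneg_left ((gk_le (by linarith) _).trans ?_) ha
  apply inv_anti₀ (by positivity)
  gcongr
  linarith

/-- all masses multiplied by `k` -/
noncomputable def scale (k : ℝ) (l : Multiset Src) : Multiset Src :=
  l.map fun s => ⟨k * s.a, s.c, s.τ, s.τ'⟩

lemma bar_scale (k : ℝ) (l : Multiset Src) (t : ℝ) (x : E3) :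
    bar (scale k l) t x = k * bar l t x := by
  unfold bar scale
  rw [Multiset.map_map, ← Multiset.sum_map_mul_left]
  congr 1
  apply Multiset.map_congr rfl
  intro s _
  simp only [Function.comp, Src.val]
  split_ifs <;> ring

lemma mass_scale (k : ℝ) (l : Multiset Src) : mass (scale k l) = k * mass l := by
  unfold mass scale
  rw [Multiset.map_map, ← Multiset.sum_map_mul_left]
  rfl

lemma valid_scale {k : ℝ} (hk : 0 ≤ k) {l : Multiset Src} (hl : Valid l) : Valid (scale k l) := by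
  intro s hs
  obtain ⟨s', hs', rfl⟩ := Multiset.mem_map.1 hs
  exact ⟨mul_nonneg hk (hl s' hs').1, (hl s' hs').2⟩

/-- inactive sources may be dropped -/
lemma cov_of {N : Set E3} {t : ℝ} {c : E3} {R m η : ℝ} {l : Multiset Src} (hl : Valid l)
    (hm : mass l ≤ η) (h : ∀ x ∈ N, ‖x - c‖ ≤ R → ¬ SepGE N x m → 1 ≤ bar l t x) :
    Cov N t c R m η := by
  classical
  have hsplit := Multiset.filter_add_not (fun s : Src => s.τ' < t) l
  refine ⟨l.filter fun s => s.τ' < t, fun s hs => hl s (Multiset.mem_of_mem_filter hs),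
    fun s hs => (Multiset.mem_filter.1 hs).2, ?_, fun x hx h1 h2 => ?_⟩
  · refine le_trans ?_ hm
    conv_rhs => rw [← hsplit, mass_add]
    have : 0 ≤ mass (l.filter fun s => ¬ s.τ' < t) := by
      apply Multiset.sum_nonneg
      intro a ha
      obtain ⟨s, hs, rfl⟩ := Multiset.mem_map.1 ha
      exact (hl s (Multiset.mem_of_mem_filter hs)).1
    linarith
  · have h3 := h x hx h1 h2
    rw [← hsplit, bar_add] at h3
    have : bar (l.filter fun s => ¬ s.τ' < t) t x = 0 := by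
      apply Multiset.sum_eq_zero
      intro a ha
      obtain ⟨s, hs, rfl⟩ := Multiset.mem_map.1 ha
      exact if_neg (Multiset.mem_filter.1 hs).2
    linarith

lemma bar_finset {ι : Type*} (u : Finset ι) (f : ι → Src) (t : ℝ) (x : E3) :
    bar (u.val.map f) t x = ∑ i ∈ u, (f i).val t x := by
  unfold bar; rw [Multiset.map_map]; rfl

lemma mass_finset {ι : Type*} (u : Finset ι) (f : ι → Src) :
    mass (u.val.map f) = ∑ i ∈ u, (f i).a := by
  unfold mass; rw [Multiset.map_map]; rfl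

lemma valid_finset {ι : Type*} (u : Finset ι) (f : ι → Src)
    (h : ∀ i ∈ u, 0 ≤ (f i).a ∧ (f i).τ < (f i).τ') : Valid (u.val.map f) := by
  intro s hs
  obtain ⟨i, hi, rfl⟩ := Multiset.mem_map.1 hs
  exact h i hi

/-! ### Superadditivity of lower integrals -/

lemma sum_lintegral_le {α ι : Type*} [MeasurableSpace α] (μ : Measure α) (u : Finset ι)
    (f : ι → α → ℝ≥0∞) : ∑ i ∈ u, ∫⁻ a, f i a ∂μ ≤ ∫⁻ a, ∑ i ∈ u, f i a ∂μ := by
  classical
  induction u using Finset.induction_on with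
  | empty => simp
  | insert i u hi ih =>
    simp only [Finset.sum_insert hi]
    exact (add_le_add le_rfl ih).trans (le_lintegral_add _ _)

lemma sum_cyl_le {ι : Type*} (μ : ℝ → Measure E3) (g : ℝ → E3 → ℝ≥0∞) (u : Finset ι)
    (J : ι → Set ℝ) (B : ι → Set E3) (hJ : ∀ i, MeasurableSet (J i))
    (hB : ∀ i, MeasurableSet (B i)) (hd : (u : Set ι).PairwiseDisjoint fun i => J i ×ˢ B i)
    (J₀ : Set ℝ) (B₀ : Set E3) (hJ₀ : ∀ i ∈ u, J i ⊆ J₀) (hB₀ : ∀ i ∈ u, B i ⊆ B₀) :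
    ∑ i ∈ u, ∫⁻ s in J i, ∫⁻ y in B i, g s y ∂(μ s) ≤
      ∫⁻ s in J₀, ∫⁻ y in B₀, g s y ∂(μ s) := by
  classical
  have e1 : ∀ i ∈ u, ∫⁻ s in J i, ∫⁻ y in B i, g s y ∂(μ s) =
      ∫⁻ s in J₀, (J i).indicator (fun s => ∫⁻ y in B i, g s y ∂(μ s)) s := by
    intro i hi
    rw [lintegral_indicator (hJ i), Measure.restrict_restrict (hJ i),
      inter_eq_self_of_subset_left (hJ₀ i hi)]
  rw [Finset.sum_congr rfl e1]
  refine (sum_lintegral_le _ _ _).trans (lintegral_mono fun s => ?_)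
  have e2 : ∑ i ∈ u, (J i).indicator (fun s => ∫⁻ y in B i, g s y ∂(μ s)) s =
      ∑ i ∈ u.filter (fun i => s ∈ J i), ∫⁻ y in B i, g s y ∂(μ s) := by
    rw [Finset.sum_filter]
    apply Finset.sum_congr rfl
    intro i _
    rw [indicator_apply]
  rw [e2, ← lintegral_biUnion_finset]
  · apply lintegral_mono_set
    intro y hy
    simp only [mem_iUnion] at hy
    obtain ⟨i, hi, hy⟩ := hy
    exact hB₀ i (Finset.mem_filter.1 hi).1 hy
  · intro i hi j hj hij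
    have hi' := Finset.mem_filter.1 (Finset.mem_coe.1 hi)
    have hj' := Finset.mem_filter.1 (Finset.mem_coe.1 hj)
    have := hd (Finset.mem_coe.2 hi'.1) (Finset.mem_coe.2 hj'.1) hij
    rw [Function.onFun, Set.disjoint_left] at this ⊢
    intro y h1 h2
    exact this (a := (s, y)) ⟨hi'.2, h1⟩ ⟨hj'.2, h2⟩
  · intro i _; exact hB i

/-! ### The barrier for the dissipation events -/

lemma H_barrier (μ : ℝ → Measure E3) (g : ℝ → E3 → ℝ≥0∞) (c : E3) {R₁ R₂ T₀ t₁ t₂ θ κ d q₀ : ℝ}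
    (hκ : 0 < κ) (hd : 0 ≤ d) (hq₀ : 0 < q₀) (hR : R₁ + θ ≤ R₂) (hT : T₀ + θ ^ 2 ≤ t₁)
    (htot : ∫⁻ s in Icc T₀ t₂, ∫⁻ y in ball c R₂, g s y ∂(μ s) ≤ ENNReal.ofReal d)
    (hlow : ∀ (x : E3) (t q : ℝ), ‖x - c‖ ≤ R₁ → t ∈ Icc t₁ t₂ → 0 < q → q ≤ θ →
      ENNReal.ofReal (κ * q ^ 2) ≤ ∫⁻ s in Icc (t - q ^ 2) t, ∫⁻ y in ball x q, g s y ∂(μ s) →
      q₀ ≤ q) :
    ∃ l : Multiset Src, Valid l ∧ mass l ≤ 1008 * (d / κ) ∧
      ∀ (x : E3) (t q : ℝ), ‖x - c‖ ≤ R₁ → t ∈ Icc t₁ t₂ → 0 < q → q ≤ θ →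
      ENNReal.ofReal (κ * q ^ 2) ≤ ∫⁻ s in Icc (t - q ^ 2) t, ∫⁻ y in ball x q, g s y ∂(μ s) →
      1 ≤ bar l t x := by
  classical
  set S : Set (E3 × ℝ × ℝ) := {p | ‖p.1 - c‖ ≤ R₁ ∧ p.2.1 ∈ Icc t₁ t₂ ∧ 0 < p.2.2 ∧ p.2.2 ≤ θ ∧
    ENNReal.ofReal (κ * p.2.2 ^ 2) ≤
      ∫⁻ s in Icc (p.2.1 - p.2.2 ^ 2) p.2.1, ∫⁻ y in ball p.1 p.2.2, g s y ∂(μ s)} with hS
  set Q : E3 × ℝ × ℝ → Set (ℝ × E3) := fun p => Icc (p.2.1 - p.2.2 ^ 2) p.2.1 ×ˢ ball p.1 p.2.2
    with hQ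
  obtain ⟨u, huS, hud, hcov⟩ := Vitali.exists_disjoint_subfamily_covering_enlargement Q S
    (fun p => p.2.2) 2 (by norm_num) (fun p hp => hp.2.2.1.le) θ (fun p hp => hp.2.2.2.1)
    (fun p hp => ⟨(p.2.1, p.1), ⟨by nlinarith [sq_nonneg p.2.2], le_rfl⟩, mem_ball_self hp.2.2.1⟩)
  have hsum : ∀ v : Finset (E3 × ℝ × ℝ), (v : Set _) ⊆ u → ∑ p ∈ v, p.2.2 ^ 2 ≤ d / κ := by
    intro v hv
    have h1 := sum_cyl_le μ g v (fun p => Icc (p.2.1 - p.2.2 ^ 2) p.2.1) (fun p => ball p.1 p.2.2)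
      (fun _ => measurableSet_Icc) (fun _ => measurableSet_ball) (hud.subset hv) (Icc T₀ t₂)
      (ball c R₂) (fun p hp => by
        obtain ⟨-, h2, h3, h4, -⟩ := huS (hv hp)
        have : p.2.2 ^ 2 ≤ θ ^ 2 := by gcongr
        exact Icc_subset_Icc (by linarith [h2.1]) h2.2) (fun p hp => by
        obtain ⟨h1, -, h3, h4, -⟩ := huS (hv hp)
        apply ball_subset_ball'
        rw [dist_eq_norm]; linarith)
    have h2 : ∑ p ∈ v, ENNReal.ofReal (κ * p.2.2 ^ 2) ≤ ENNReal.ofReal d :=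
      (Finset.sum_le_sum fun p hp => (huS (hv hp)).2.2.2.2).trans (h1.trans htot)
    rw [← ENNReal.ofReal_sum_of_nonneg (fun p _ => by positivity),
      ENNReal.ofReal_le_ofReal_iff hd, ← Finset.mul_sum] at h2
    rw [le_div_iff₀ hκ]; linarith
  have hfin : u.Finite := by
    by_contra hinf
    obtain ⟨n, hn⟩ := exists_nat_gt (d / κ / q₀ ^ 2)
    obtain ⟨v, hv, hcard⟩ := Set.Infinite.exists_subset_card_eq hinf n
    have h1 := hsum v hv
    have h2 : ∑ _p ∈ v, q₀ ^ 2 ≤ ∑ p ∈ v, p.2.2 ^ 2 := by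
      apply Finset.sum_le_sum
      intro p hp
      obtain ⟨a1, a2, a3, a4, a5⟩ := huS (hv hp)
      have := hlow _ _ _ a1 a2 a3 a4 a5
      gcongr
    rw [Finset.sum_const, hcard, nsmul_eq_mul] at h2
    rw [div_lt_iff₀ (by positivity)] at hn
    linarith
  refine ⟨hfin.toFinset.val.map fun p => ⟨1008 * p.2.2 ^ 2, p.1, p.2.1 - 3 * p.2.2 ^ 2,
    p.2.1 - 2 * p.2.2 ^ 2⟩, ?_, ?_, ?_⟩
  · apply valid_finset
    intro p hp
    have h3 := (huS (hfin.mem_toFinset.1 hp)).2.2.1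
    have : 0 < p.2.2 ^ 2 := by positivity
    exact ⟨by positivity, by simp only; linarith⟩
  · rw [mass_finset]
    simp only
    rw [← Finset.mul_sum]
    have := hsum hfin.toFinset (by simp)
    linarith
  · intro x t q a1 a2 a3 a4 a5
    obtain ⟨p, hp, ⟨⟨s, y⟩, ⟨b1, b2⟩, ⟨b3, b4⟩⟩, b5⟩ := hcov (x, t, q) ⟨a1, a2, a3, a4, a5⟩
    simp only [mem_Icc, mem_ball, dist_eq_norm] at b1 b2 b3 b4 b5
    have h3 := (huS hp).2.2.1
    have h4 : 0 < p.2.2 ^ 2 := by positivity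
    have h5 : q ^ 2 ≤ (2 * p.2.2) ^ 2 := by gcongr
    rw [bar_finset]
    refine le_trans ?_ (Finset.single_le_sum (f := fun p : E3 × ℝ × ℝ =>
      (⟨1008 * p.2.2 ^ 2, p.1, p.2.1 - 3 * p.2.2 ^ 2, p.2.1 - 2 * p.2.2 ^ 2⟩ : Src).val t x)
      (fun p hp => ?_) (hfin.mem_toFinset.2 hp))
    · simp only [Src.val]
      rw [if_pos (by linarith [b1.2, b3.1])]
      apply gk_lower h3 (by linarith [b1.2, b3.1]) (by nlinarith [b1.1, b3.2])
      calc ‖x - p.1‖ = ‖(y - p.1) - (y - x)‖ := by congr 1; abel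
        _ ≤ ‖y - p.1‖ + ‖y - x‖ := norm_sub_le _ _
        _ ≤ _ := by linarith
    · have h3 := (huS (hfin.mem_toFinset.1 hp)).2.2.1
      have : 0 < p.2.2 ^ 2 := by positivity
      exact val_nonneg ⟨by positivity, by simp only; linarith⟩ t x

/-! ### The barrier for the potential of the curvature -/

/-- a finite continuous partition of unity on a closed ball -/
lemma exists_pou (c : E3) (R : ℝ) {r : ℝ} (hr : 0 < r) :
    ∃ (F : Finset E3) (ψ : E3 → E3 → ℝ), (∀ p ∈ F, ‖p - c‖ ≤ R) ∧ (∀ p, Continuous (ψ p)) ∧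
      (∀ p y, 0 ≤ ψ p y) ∧ (∀ p y, r ≤ ‖y - p‖ → ψ p y = 0) ∧ (∀ y, ∑ p ∈ F, ψ p y ≤ 1) ∧
      ∀ y, ‖y - c‖ ≤ R → ∑ p ∈ F, ψ p y = 1 := by
  obtain ⟨t, ht, hfin, hcov⟩ := finite_cover_balls_of_compact (isCompact_closedBall c R)
    (half_pos hr)
  set b : E3 → E3 → ℝ := fun p y => max 0 (r - ‖y - p‖) with hb
  have hbc : ∀ p, Continuous (b p) := fun p => by simp only [hb]; fun_prop
  have hb0 : ∀ p y, 0 ≤ b p y := fun p y => le_max_left _ _
  set S : E3 → ℝ := fun y => ∑ p ∈ hfin.toFinset, b p y with hS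
  have hSc : Continuous S := continuous_finsetSum _ fun p _ => hbc p
  have hm : ∀ y, 0 < max (S y) (r / 2) := fun y => lt_max_of_lt_right (half_pos hr)
  refine ⟨hfin.toFinset, fun p y => b p y / max (S y) (r / 2), fun p hp => ?_, fun p => ?_,
    fun p y => div_nonneg (hb0 p y) (hm y).le, fun p y h => ?_, fun y => ?_, fun y hy => ?_⟩
  · exact mem_closedBall_iff_norm.1 (ht (hfin.mem_toFinset.1 hp))
  · exact (hbc p).div (hSc.max continuous_const) fun y => (hm y).ne'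
  · have : b p y = 0 := max_eq_left (by linarith)
    simp only [this, zero_div]
  · rw [← Finset.sum_div, div_le_one (hm y)]
    exact le_max_left _ _
  · rw [← Finset.sum_div, div_eq_one_iff_eq (hm y).ne']
    symm
    apply max_eq_left
    have := hcov (mem_closedBall_iff_norm.2 hy)
    simp only [mem_iUnion] at this
    obtain ⟨p, hp, hyp⟩ := this
    rw [mem_ball_iff_norm] at hyp
    refine le_trans ?_ (Finset.single_le_sum (f := fun p => b p y) (fun p _ => hb0 p y)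
      (hfin.mem_toFinset.2 hp))
    exact le_max_of_le_right (by linarith)

lemma A_barrier (μ : ℝ → Measure E3) (a : ℝ → E3 → ℝ) (c : E3) {R₁ R₂ T₀ t₂ P r : ℝ}
    (hr : 0 < r) (hR : R₁ + r ≤ R₂) (hP : 0 ≤ P) (ha : ∀ s y, 0 ≤ a s y)
    (hms : ∀ s ∈ Icc T₀ t₂, AEMeasurable (a s) (μ s))
    (hmt : ∀ ψ : E3 → ℝ, Continuous ψ → (∀ y, 0 ≤ ψ y) → (∀ y, R₂ ≤ ‖y - c‖ → ψ y = 0) →
      AEMeasurable (fun s => ∫⁻ y, ENNReal.ofReal (ψ y * a s y) ∂(μ s))
        (volume.restrict (Icc T₀ t₂)))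
    (htot : ∫⁻ s in Icc T₀ t₂, ∫⁻ y in ball c R₂, ENNReal.ofReal (a s y) ∂(μ s) ≤
      ENNReal.ofReal P) :
    ∃ l : Multiset Src, Valid l ∧ mass l ≤ 9 * P ∧ ∀ (x : E3) (t : ℝ),
      ∫⁻ s in Icc T₀ t₂ ∩ Iic (t - r ^ 2), ∫⁻ y in closedBall c R₁,
        ENNReal.ofReal (a s y * gk (t - s) (x - y)) ∂(μ s) ≤ ENNReal.ofReal (bar l t x) := by
  classical
  obtain ⟨F, ψ, hF, hψc, hψ0, hψs, hψ1, hψ2⟩ := exists_pou c R₁ hr
  have hr2 : 0 < r ^ 2 := by positivity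
  have hψR : ∀ p ∈ F, ∀ y, R₂ ≤ ‖y - c‖ → ψ p y = 0 := by
    intro p hp y hy
    apply hψs
    have h1 : ‖y - c‖ ≤ ‖y - p‖ + ‖p - c‖ := norm_sub_le_norm_sub_add_norm_sub y p c
    linarith [hF p hp]
  set n : ℕ := ⌊(t₂ - T₀) / r ^ 2⌋₊ + 1 with hn
  set J : ℕ → Set ℝ := fun k => Icc T₀ t₂ ∩ {s | ⌊(s - T₀) / r ^ 2⌋₊ = k} with hJ
  have hJm : ∀ k, MeasurableSet (J k) := fun k =>
    measurableSet_Icc.inter (measurableSet_eq_fun
      (Measurable.nat_floor (by fun_prop)) measurable_const)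
  have hJk : ∀ k, ∀ s ∈ J k, T₀ + k * r ^ 2 ≤ s ∧ s ≤ T₀ + k * r ^ 2 + r ^ 2 := by
    rintro k s ⟨⟨h1, -⟩, h2⟩
    have h3 : 0 ≤ (s - T₀) / r ^ 2 := div_nonneg (by linarith) hr2.le
    have h4 := Nat.floor_le h3
    have h5 := Nat.lt_floor_add_one ((s - T₀) / r ^ 2)
    rw [show ⌊(s - T₀) / r ^ 2⌋₊ = k from h2] at h4 h5
    rw [le_div_iff₀ hr2] at h4
    rw [div_lt_iff₀ hr2] at h5
    constructor <;> nlinarith
  set φ : E3 → ℝ → ℝ≥0∞ := fun p s => ∫⁻ y, ENNReal.ofReal (ψ p y * a s y) ∂(μ s) with hφ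
  set m : ℕ × E3 → ℝ≥0∞ := fun i => ∫⁻ s in J i.1, φ i.2 s with hm
  have hmsum : ∑ i ∈ Finset.range n ×ˢ F, m i ≤ ENNReal.ofReal P := by
    rw [Finset.sum_product]
    have h1 : ∀ k ∈ Finset.range n, ∑ p ∈ F, m (k, p) ≤
        ∫⁻ s in J k, ∫⁻ y in ball c R₂, ENNReal.ofReal (a s y) ∂(μ s) := by
      intro k _
      refine (sum_lintegral_le _ _ _).trans (lintegral_mono fun s => ?_)
      refine (sum_lintegral_le _ _ _).trans ?_
      rw [← lintegral_indicator measurableSet_ball]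
      refine lintegral_mono fun y => ?_
      by_cases hy : y ∈ ball c R₂
      · rw [indicator_of_mem hy, ← ENNReal.ofReal_sum_of_nonneg
          (fun p _ => mul_nonneg (hψ0 p y) (ha s y)), ← Finset.sum_mul]
        exact ENNReal.ofReal_le_ofReal (by nlinarith [hψ1 y, ha s y])
      · rw [indicator_of_notMem hy]
        rw [mem_ball_iff_norm, not_lt] at hy
        apply le_of_eq
        apply Finset.sum_eq_zero
        intro p hp
        rw [hψR p hp y hy, zero_mul, ENNReal.ofReal_zero]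
    refine (Finset.sum_le_sum h1).trans (le_trans ?_ htot)
    rw [← lintegral_biUnion_finset _ (fun k _ => hJm k)]
    · apply lintegral_mono_set
      intro s hs
      simp only [mem_iUnion] at hs
      obtain ⟨k, -, hs⟩ := hs
      exact hs.1
    · intro i _ j _ hij
      rw [Function.onFun, Set.disjoint_left]
      intro s h1 h2
      exact hij (h1.2.symm.trans h2.2)
  have hmfin : ∀ i ∈ Finset.range n ×ˢ F, m i ≠ ⊤ := fun i hi =>
    ne_top_of_le_ne_top ENNReal.ofReal_ne_top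
      ((Finset.single_le_sum (f := m) (fun _ _ => zero_le) hi).trans hmsum)
  set src : ℕ × E3 → Src := fun i =>
    ⟨9 * (m i).toReal, i.2, T₀ + i.1 * r ^ 2 - r ^ 2, T₀ + i.1 * r ^ 2⟩ with hsrc
  have hval : ∀ i, 0 ≤ (src i).a ∧ (src i).τ < (src i).τ' := fun i =>
    ⟨by simp only [hsrc]; positivity, by simp only [hsrc]; linarith⟩
  refine ⟨(Finset.range n ×ˢ F).val.map src, valid_finset _ _ fun i _ => hval i, ?_, ?_⟩
  · rw [mass_finset]
    simp only [hsrc]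
    rw [← Finset.mul_sum, ← ENNReal.toReal_sum hmfin]
    gcongr
    exact ENNReal.toReal_le_of_le_ofReal hP hmsum
  · intro x t
    rw [bar_finset, ENNReal.ofReal_sum_of_nonneg (fun i _ => val_nonneg (hval i) t x),
      Finset.sum_product]
    have hsub : Icc T₀ t₂ ∩ Iic (t - r ^ 2) = ⋃ k ∈ Finset.range n, J k ∩ Iic (t - r ^ 2) := by
      ext s
      simp only [mem_iUnion]
      constructor
      · rintro ⟨h1, h2⟩
        refine ⟨⌊(s - T₀) / r ^ 2⌋₊, Finset.mem_range.2 (Nat.lt_succ_of_le (Nat.floor_mono ?_)),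
          ⟨h1, rfl⟩, h2⟩
        gcongr
        exact h1.2
      · rintro ⟨k, -, h1, h2⟩
        exact ⟨h1.1, h2⟩
    rw [hsub, lintegral_biUnion_finset _ (fun k _ => (hJm k).inter measurableSet_Iic)]
    swap
    · intro i _ j _ hij
      rw [Function.onFun, Set.disjoint_left]
      intro s h1 h2
      exact hij (h1.1.2.symm.trans h2.1.2)
    refine Finset.sum_le_sum fun k hk => ?_
    by_cases hkt : T₀ + k * r ^ 2 < t
    swap
    · have : J k ∩ Iic (t - r ^ 2) = ∅ := by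
        apply eq_empty_of_forall_notMem
        rintro s ⟨h1, h2⟩
        have := (hJk k s h1).1
        rw [mem_Iic] at h2
        linarith
      rw [this, Measure.restrict_empty, lintegral_zero_measure]
      exact zero_le
    set w : E3 → ℝ := fun p => 9 * gk (t - (T₀ + k * r ^ 2 - r ^ 2)) (x - p) with hw
    have hw0 : ∀ p, 0 ≤ w p := fun p => mul_nonneg (by norm_num) (gk_pos (by linarith) _).le
    have h1 : ∀ s ∈ J k ∩ Iic (t - r ^ 2), ∫⁻ y in closedBall c R₁,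
        ENNReal.ofReal (a s y * gk (t - s) (x - y)) ∂(μ s) ≤
        ∑ p ∈ F, ENNReal.ofReal (w p) * φ p s := by
      rintro s ⟨hs1, hs2⟩
      rw [mem_Iic] at hs2
      obtain ⟨hs3, hs4⟩ := hJk k s hs1
      have e1 : ∀ p ∈ F, ENNReal.ofReal (w p) * φ p s =
          ∫⁻ y, ENNReal.ofReal (w p) * ENNReal.ofReal (ψ p y * a s y) ∂(μ s) := fun p _ =>
        (lintegral_const_mul' _ _ ENNReal.ofReal_ne_top).symm
      have e0 : ∀ p ∈ F, AEMeasurable
          (fun y => ENNReal.ofReal (w p) * ENNReal.ofReal (ψ p y * a s y)) (μ s) := fun p _ =>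
        (((hψc p).measurable.aemeasurable.mul (hms s hs1.1)).ennreal_ofReal).const_mul _
      rw [Finset.sum_congr rfl e1, ← lintegral_finsetSum' _ e0,
        ← lintegral_indicator measurableSet_closedBall]
      refine lintegral_mono fun y => ?_
      by_cases hy : y ∈ closedBall c R₁
      swap
      · rw [indicator_of_notMem hy]; exact zero_le
      rw [indicator_of_mem hy]
      have e2 : ∀ p ∈ F, ENNReal.ofReal (w p) * ENNReal.ofReal (ψ p y * a s y) =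
          ENNReal.ofReal (w p * (ψ p y * a s y)) := fun p _ => (ENNReal.ofReal_mul (hw0 p)).symm
      rw [Finset.sum_congr rfl e2, ← ENNReal.ofReal_sum_of_nonneg
        (fun p _ => mul_nonneg (hw0 p) (mul_nonneg (hψ0 p y) (ha s y)))]
      apply ENNReal.ofReal_le_ofReal
      have e3 : a s y * gk (t - s) (x - y) = ∑ p ∈ F, gk (t - s) (x - y) * (ψ p y * a s y) := by
        rw [← Finset.mul_sum, ← Finset.sum_mul, hψ2 y (mem_closedBall_iff_norm.1 hy)]; ring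
      rw [e3]
      refine Finset.sum_le_sum fun p _ => ?_
      by_cases hyp : r ≤ ‖y - p‖
      · rw [hψs p y hyp]; simp
      refine mul_le_mul_of_nonneg_right ?_ (mul_nonneg (hψ0 p y) (ha s y))
      apply gk_shift hr (by linarith) (by linarith) (by linarith)
      rw [show x - p - (x - y) = y - p by abel]
      linarith
    refine (setLIntegral_mono' ((hJm k).inter measurableSet_Iic) h1).trans ?_
    refine (lintegral_mono_set inter_subset_left).trans ?_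
    rw [lintegral_finsetSum' _ (fun p hp => ((hmt (ψ p) (hψc p) (hψ0 p) (hψR p hp)).mono_measure
      (Measure.restrict_mono inter_subset_left le_rfl)).const_mul _)]
    refine Finset.sum_le_sum fun p hp => ?_
    rw [lintegral_const_mul' _ _ ENNReal.ofReal_ne_top]
    have e4 : (src (k, p)).val t x = w p * (m (k, p)).toReal := by
      simp only [hsrc, Src.val, hw]
      rw [if_pos hkt]; ring
    rw [e4, ENNReal.ofReal_mul (hw0 p),
      ENNReal.ofReal_toReal (hmfin _ (Finset.mem_product.2 ⟨hk, hp⟩))]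

/-! ### Estimates on a window -/

lemma isClosed_slice {M : ℝ → Set E3} {I : Set ℝ} (h : IsMCF M I) {t : ℝ} (ht : t ∈ I) :
    IsClosed (M t) := by
  rw [← isOpen_compl_iff, isOpen_iff_mem_nhds]
  intro x hx
  have h1 : Tendsto (fun y : E3 => (t, y)) (𝓝 x) (𝓝 (t, x)) :=
    (Continuous.prodMk_right t).tendsto x
  exact h1.eventually (h.closed t ht x hx)

lemma ae_mem {N : Set E3} (h : IsClosed N) : ∀ᵐ y ∂(area N), y ∈ N :=
  ae_restrict_mem h.measurableSet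

lemma isCompact_window {M : ℝ → Set E3} {I : Set ℝ} (h : IsMCF M I) {a b : ℝ} (hab : Icc a b ⊆ I)
    (c : E3) (R : ℝ) : IsCompact (track M I ∩ Icc a b ×ˢ closedBall c R) := by
  have hK : IsCompact (Icc a b ×ˢ closedBall c R) := isCompact_Icc.prod (isCompact_closedBall c R)
  refine hK.of_isClosed_subset ?_ inter_subset_right
  rw [← isOpen_compl_iff, isOpen_iff_mem_nhds]
  intro p hp
  by_cases h1 : p ∈ Icc a b ×ˢ closedBall c R
  · have h2 : p.2 ∉ M p.1 := fun h2 => hp ⟨⟨hab h1.1, h2⟩, h1⟩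
    filter_upwards [h.closed p.1 (hab h1.1) p.2 h2] with q hq
    exact fun h3 => hq h3.1.2
  · filter_upwards [hK.isClosed.isOpen_compl.mem_nhds h1] with q hq
    exact fun h3 => hq h3.2

lemma const_cyl_le {M : ℝ → Set E3} {D A a b r : ℝ} (hD : 0 ≤ D) (hA : 0 ≤ A) (hr : 0 < r)
    (h : ∀ t ∈ Icc a b, AreaRatio D (M t)) (x : E3) :
    ∫⁻ s in Icc a b, ∫⁻ _y in ball x r, ENNReal.ofReal A ∂(area (M s)) ≤
      ENNReal.ofReal (A * (D * r ^ 2) * (b - a)) := by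
  have h1 : ∀ s ∈ Icc a b, ∫⁻ _y in ball x r, ENNReal.ofReal A ∂(area (M s)) ≤
      ENNReal.ofReal (A * (D * r ^ 2)) := by
    intro s hs
    rw [setLIntegral_const, ENNReal.ofReal_mul hA]
    gcongr
    exact h s hs x r hr
  refine (setLIntegral_mono' measurableSet_Icc h1).trans (le_of_eq ?_)
  rw [setLIntegral_const, Real.volume_Icc, ← ENNReal.ofReal_mul (by positivity)]

lemma diss_anti (M : ℝ → Set E3) {Λ Λ' : ℝ} (h : Λ ≤ Λ') (c : E3) (r a b : ℝ) :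
    diss M Λ' c r a b ≤ diss M Λ c r a b :=
  lintegral_mono fun _ => lintegral_mono fun _ => ENNReal.ofReal_le_ofReal (by linarith)

lemma diss_split {M : ℝ → Set E3} {D Λ a b r : ℝ} (hD : 0 ≤ D) (hΛ : 0 ≤ Λ) (hr : 0 < r)
    (h : ∀ t ∈ Icc a b, AreaRatio D (M t)) (x : E3) :
    diss M 0 x r a b ≤ diss M Λ x r a b + ENNReal.ofReal (Λ * (D * r ^ 2) * (b - a)) := by
  have h1 : ∀ s ∈ Icc a b, ∫⁻ y in ball x r, ENNReal.ofReal (‖Hv (M s) y‖ ^ 2 - 0) ∂(area (M s)) ≤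
      ∫⁻ y in ball x r, ENNReal.ofReal (‖Hv (M s) y‖ ^ 2 - Λ) ∂(area (M s)) +
        ENNReal.ofReal (Λ * (D * r ^ 2)) := by
    intro s hs
    have h2 : ∫⁻ _y in ball x r, ENNReal.ofReal Λ ∂(area (M s)) ≤
        ENNReal.ofReal (Λ * (D * r ^ 2)) := by
      rw [setLIntegral_const, ENNReal.ofReal_mul hΛ]
      gcongr
      exact h s hs x r hr
    refine le_trans ?_ (add_le_add le_rfl h2)
    rw [← lintegral_add_right _ measurable_const]
    refine lintegral_mono fun y => le_trans (le_of_eq ?_) ENNReal.ofReal_add_le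
    congr 1; ring
  refine (setLIntegral_mono' measurableSet_Icc h1).trans (le_of_eq ?_)
  rw [lintegral_add_right _ measurable_const, setLIntegral_const, Real.volume_Icc,
    ← ENNReal.ofReal_mul (by positivity)]
  rfl

lemma diss_le {M : ℝ → Set E3} {D Λ A a b r : ℝ} (hD : 0 ≤ D) (hΛ : 0 ≤ Λ) (hA : 0 ≤ A)
    (hr : 0 < r) (h : ∀ t ∈ Icc a b, AreaRatio D (M t)) (hc : ∀ t ∈ Icc a b, IsClosed (M t))
    (x : E3) (hH : ∀ t ∈ Icc a b, ∀ y ∈ M t, y ∈ ball x r → ‖Hv (M t) y‖ ^ 2 ≤ A) :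
    diss M Λ x r a b ≤ ENNReal.ofReal (A * (D * r ^ 2) * (b - a)) := by
  refine le_trans ?_ (const_cyl_le hD hA hr h x)
  refine setLIntegral_mono' measurableSet_Icc fun s hs => lintegral_mono_ae ?_
  filter_upwards [ae_restrict_of_ae (ae_mem (hc s hs)), ae_restrict_mem measurableSet_ball]
    with y h1 h2
  exact ENNReal.ofReal_le_ofReal (by linarith [hH s hs y h1 h2])

/-- the total curvature on a window -/
lemma total_a2_le {M : ℝ → Set E3} {G a b r d : ℝ} (hG : 0 ≤ G) (hab : a ≤ b) (hr : 0 < r)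
    (hd : 0 ≤ d) (h : ∀ t ∈ Icc a b, LGB G (M t)) (x : E3)
    (hdis : diss M 0 x (2 * r) a b ≤ ENNReal.ofReal d) :
    ∫⁻ s in Icc a b, ∫⁻ y in ball x r, ENNReal.ofReal (max (a2 (M s) y) 0) ∂(area (M s)) ≤
      ENNReal.ofReal (G * ((b - a) + d)) := by
  have h1 : ∀ s ∈ Icc a b, ∫⁻ y in ball x r, ENNReal.ofReal (max (a2 (M s) y) 0) ∂(area (M s)) ≤
      ENNReal.ofReal G * (1 + ∫⁻ y in ball x (2 * r),
        ENNReal.ofReal (‖Hv (M s) y‖ ^ 2 - 0) ∂(area (M s))) := by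
    intro s hs
    simp only [sub_zero]
    refine le_trans (le_of_eq ?_) (h s hs x r hr)
    congr 1
    ext y
    rcases le_total (a2 (M s) y) 0 with h2 | h2
    · rw [max_eq_right h2, ENNReal.ofReal_zero, ENNReal.ofReal_of_nonpos h2]
    · rw [max_eq_left h2]
  refine (setLIntegral_mono' measurableSet_Icc h1).trans ?_
  rw [lintegral_const_mul' _ _ ENNReal.ofReal_ne_top, lintegral_add_left measurable_const,
    setLIntegral_const, Real.volume_Icc, one_mul, ENNReal.ofReal_mul hG,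
    ENNReal.ofReal_add (by linarith) hd]
  gcongr
  exact hdis

/-- measurability in time -/
lemma aemeas_time (hC : ContStmt) {M : ℝ → Set E3} {I : Set ℝ} {D : ℝ} (h : IsMCF M I)
    (hD : ∀ t ∈ I, AreaRatio D (M t)) {g : ℝ × E3 → ℝ} (hg : ContinuousOn g (track M I))
    (hg0 : ∀ p, 0 ≤ g p) {a b : ℝ} (hab : Icc a b ⊆ I) {ψ : E3 → ℝ} (hψ : Continuous ψ)
    (hψ0 : ∀ y, 0 ≤ ψ y) {c : E3} {R : ℝ} (hR : 0 < R) (hψR : ∀ y, R ≤ ‖y - c‖ → ψ y = 0) :
    AEMeasurable (fun s => ∫⁻ y, ENNReal.ofReal (ψ y * g (s, y)) ∂(area (M s)))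
      (volume.restrict (Icc a b)) := by
  have hc : ContinuousOn (fun p : ℝ × E3 => ψ p.2 * g p) (track M I) :=
    (hψ.comp continuous_snd).continuousOn.mul hg
  have h1 := hC M I h (fun p => ψ p.2 * g p) (R + ‖c‖) hc (fun p hp => by
    have : ‖p.2‖ ≤ ‖p.2 - c‖ + ‖c‖ := by simpa using norm_add_le (p.2 - c) c
    simp only [hψR p.2 (by linarith), zero_mul])
  have h2 := ((h1.mono hab).aemeasurable (μ := volume) measurableSet_Icc).ennreal_ofReal
  refine h2.congr ?_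
  filter_upwards [ae_restrict_mem measurableSet_Icc] with s hs
  apply ofReal_integral_eq_lintegral_ofReal _
    (Eventually.of_forall fun y => mul_nonneg (hψ0 y) (hg0 _))
  have hcl := isClosed_slice h (hab hs)
  have h3 : ContinuousOn (fun y => ψ y * g (s, y)) (M s) :=
    hc.comp (Continuous.prodMk_right s).continuousOn fun y hy => ⟨hab hs, hy⟩
  obtain ⟨B, hB⟩ := ((isCompact_closedBall c R).inter_left hcl).exists_bound_of_continuousOn
    (h3.mono inter_subset_left)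
  have h4 : IntegrableOn (fun y => ψ y * g (s, y)) (ball c R) (area (M s)) := by
    refine Measure.integrableOn_of_bounded (M := B)
      (ne_top_of_le_ne_top ENNReal.ofReal_ne_top (hD s (hab hs) c R hR))
      (h3.aestronglyMeasurable hcl.measurableSet) ?_
    filter_upwards [ae_restrict_of_ae (ae_mem hcl), ae_restrict_mem measurableSet_ball]
      with y h5 h6
    exact hB y ⟨h5, ball_subset_closedBall h6⟩
  refine (integrableOn_iff_integrable_of_support_subset ?_).1 h4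
  intro y hy
  by_contra h5
  rw [mem_ball_iff_norm, not_lt] at h5
  exact hy (by simp only [hψR y h5, zero_mul])

lemma window_bound {M : ℝ → Set E3} {I : Set ℝ} (h : IsMCF M I) {g : ℝ × E3 → ℝ}
    (hg : ContinuousOn g (track M I)) {a b : ℝ} (hab : Icc a b ⊆ I) (c : E3) (R : ℝ) :
    ∃ A : ℝ, 0 < A ∧ ∀ s ∈ Icc a b, ∀ y ∈ M s, ‖y - c‖ ≤ R → g (s, y) ≤ A := by
  obtain ⟨A, h1⟩ := (isCompact_window h hab c R).exists_bound_of_continuousOn
    (hg.mono inter_subset_left)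
  refine ⟨max A 1, lt_max_of_lt_right one_pos, fun s hs y hy hyc => ?_⟩
  have := h1 (s, y) ⟨⟨hab hs, hy⟩, hs, mem_closedBall_iff_norm.2 hyc⟩
  exact (le_abs_self _).trans (this.trans (le_max_left _ _))

lemma norm_le_of_ball {x y c : E3} {q R θ : ℝ} (h1 : ‖x - c‖ ≤ R) (h2 : q ≤ θ)
    (h3 : y ∈ ball x q) : ‖y - c‖ ≤ R + θ := by
  rw [mem_ball_iff_norm] at h3
  have := norm_sub_le_norm_sub_add_norm_sub y x c
  linarith

lemma Icc_sub {T₀ t₁ t₂ t q θ : ℝ} (hT : T₀ + θ ^ 2 ≤ t₁) (ht : t ∈ Icc t₁ t₂) (h1 : 0 < q)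
    (h2 : q ≤ θ) : Icc (t - q ^ 2) t ⊆ Icc T₀ t₂ := by
  have : q ^ 2 ≤ θ ^ 2 := by gcongr
  exact Icc_subset_Icc (by linarith [ht.1]) ht.2

/-- a barrier which is at least one where there is a definite dissipation -/
lemma H_part {M : ℝ → Set E3} {I : Set ℝ} (h : IsMCF M I)
    (hH : ContinuousOn (fun p : ℝ × E3 => Hv (M p.1) p.2) (track M I)) {D : ℝ} (hD : 0 < D)
    (hratio : ∀ t ∈ I, AreaRatio D (M t)) (c : E3) {R₁ R₂ T₀ t₁ t₂ θ κ d Λ : ℝ}
    (hI : Icc T₀ t₂ ⊆ I) (hκ : 0 < κ) (hd : 0 ≤ d) (hΛ : 0 ≤ Λ) (hR : R₁ + θ ≤ R₂)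
    (hT : T₀ + θ ^ 2 ≤ t₁) (hθ : Λ * (D * θ ^ 2) ≤ κ / 2)
    (hdiss : diss M Λ c R₂ T₀ t₂ ≤ ENNReal.ofReal d) :
    ∃ l : Multiset Src, Valid l ∧ mass l ≤ 2016 * (d / κ) ∧
      ∀ (x : E3) (t q : ℝ), ‖x - c‖ ≤ R₁ → t ∈ Icc t₁ t₂ → 0 < q → q ≤ θ →
      ENNReal.ofReal (κ * q ^ 2) ≤ diss M 0 x q (t - q ^ 2) t → 1 ≤ bar l t x := by
  obtain ⟨A, hA0, hA⟩ := window_bound h (hH.norm.pow 2) hI c R₂
  obtain ⟨l, hl, hm, hc⟩ := H_barrier (fun s => area (M s))
    (fun s y => ENNReal.ofReal (‖Hv (M s) y‖ ^ 2 - Λ)) c (R₁ := R₁)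
    (R₂ := R₂) (T₀ := T₀) (t₁ := t₁) (t₂ := t₂) (θ := θ) (κ := κ / 2)
    (d := d) (q₀ := √(κ / 2 / (A * D))) (by positivity) hd (by positivity) hR hT hdiss (by
      intro x t q h1 h2 h3 h4 h5
      have h6 := Icc_sub hT h2 h3 h4
      have h7 := diss_le (M := M) (Λ := Λ) hD.le hΛ hA0.le h3
        (fun s hs => hratio s (hI (h6 hs))) (fun s hs => isClosed_slice h (hI (h6 hs))) x
        (fun s hs y hy hyx => hA s (h6 hs) y hy ((norm_le_of_ball h1 h4 hyx).trans hR))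
      have h8 := (ENNReal.ofReal_le_ofReal_iff (by
        rw [sub_sub_cancel]; positivity)).1 (h5.trans h7)
      rw [sub_sub_cancel] at h8
      rw [Real.sqrt_le_left h3.le, div_le_iff₀ (by positivity)]
      have h9 : 0 < q ^ 2 := by positivity
      have h10 : κ / 2 ≤ A * (D * q ^ 2) := le_of_mul_le_mul_right h8 h9
      linarith)
  refine ⟨l, hl, hm.trans (le_of_eq (by field_simp; ring)), ?_⟩
  intro x t q h1 h2 h3 h4 h5
  have hw := Icc_sub hT h2 h3 h4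
  have h6 := h5.trans (diss_split hD.le hΛ h3 (fun s hs => hratio s (hI (hw hs))) x)
  have h7 : Λ * (D * q ^ 2) * (t - (t - q ^ 2)) ≤ κ / 2 * q ^ 2 := by
    rw [sub_sub_cancel]
    refine mul_le_mul_of_nonneg_right (le_trans ?_ hθ) (by positivity)
    gcongr
  have h8 := h6.trans (add_le_add le_rfl (ENNReal.ofReal_le_ofReal h7))
  rw [show κ * q ^ 2 = κ / 2 * q ^ 2 + κ / 2 * q ^ 2 by ring,
    ENNReal.ofReal_add (by positivity) (by positivity),
    ENNReal.add_le_add_iff_right ENNReal.ofReal_ne_top] at h8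
  exact hc x t q h1 h2 h3 h4 h8

/-- the part of the potential near the pole -/
lemma near_le {M : ℝ → Set E3} {A C r ρ q t : ℝ} {x : E3} {S : Set ℝ} (hS : MeasurableSet S)
    (hA0 : 0 ≤ A) (hC : 0 ≤ C) (hρ : 0 < ρ) (hcl : ∀ s ∈ S, IsClosed (M s))
    (hA : ∀ s ∈ S, ∀ y ∈ M s, y ∈ ball x q → a2 (M s) y ≤ A)
    (hG : ∀ s ∈ S, ∀ σ : ℝ, 0 < σ → Integrable (fun y => gk σ (y - x)) (area (M s)) ∧
      ∫ y, gk σ (y - x) ∂(area (M s)) ≤ C) :
    ∫⁻ s in Icc (t - r ^ 2) (t - ρ ^ 2) ∩ S, ∫⁻ y in ball x q,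
      ENNReal.ofReal (a2 (M s) y * gk (t - s) (x - y)) ∂(area (M s)) ≤
      ENNReal.ofReal (A * C * r ^ 2) := by
  have hρ2 : 0 < ρ ^ 2 := by positivity
  have h1 : ∀ s ∈ Icc (t - r ^ 2) (t - ρ ^ 2) ∩ S, ∫⁻ y in ball x q,
      ENNReal.ofReal (a2 (M s) y * gk (t - s) (x - y)) ∂(area (M s)) ≤
      ENNReal.ofReal (A * C) := by
    intro s hs
    have h2 : 0 < t - s := by linarith [hs.1.2]
    obtain ⟨h3, h4⟩ := hG s hs.2 (t - s) h2
    calc _ ≤ ∫⁻ y in ball x q, ENNReal.ofReal A * ENNReal.ofReal (gk (t - s) (y - x))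
          ∂(area (M s)) := by
          apply lintegral_mono_ae
          filter_upwards [ae_restrict_of_ae (ae_mem (hcl s hs.2)),
            ae_restrict_mem measurableSet_ball] with y h5 h6
          rw [← ENNReal.ofReal_mul hA0]
          apply ENNReal.ofReal_le_ofReal
          have h7 : gk (t - s) (x - y) = gk (t - s) (y - x) := by
            simp only [gk, norm_sub_rev]
          rw [h7]
          exact mul_le_mul_of_nonneg_right (hA s hs.2 y h5 h6) (gk_pos h2 _).le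
      _ ≤ ∫⁻ y, ENNReal.ofReal A * ENNReal.ofReal (gk (t - s) (y - x)) ∂(area (M s)) :=
          setLIntegral_le_lintegral _ _
      _ = ENNReal.ofReal A * ENNReal.ofReal (∫ y, gk (t - s) (y - x) ∂(area (M s))) := by
          rw [lintegral_const_mul' _ _ ENNReal.ofReal_ne_top,
            ofReal_integral_eq_lintegral_ofReal h3 (Eventually.of_forall fun y => (gk_pos h2 _).le)]
      _ ≤ _ := by
          rw [ENNReal.ofReal_mul hA0]
          gcongr
  refine (setLIntegral_mono' (measurableSet_Icc.inter hS) h1).trans ?_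
  rw [setLIntegral_const]
  refine (mul_le_mul_right (measure_mono inter_subset_left) _).trans ?_
  rw [Real.volume_Icc, ← ENNReal.ofReal_mul (by positivity)]
  apply ENNReal.ofReal_le_ofReal
  gcongr
  linarith

/-- a barrier which dominates the potential of the curvature up to an error one -/
lemma A_part (hC : ContStmt) {M : ℝ → Set E3} {I : Set ℝ} (h : IsMCF M I)
    (ha : ContinuousOn (fun p : ℝ × E3 => a2 (M p.1) p.2) (track M I)) {D C : ℝ} (hC0 : 0 < C)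
    (hratio : ∀ t ∈ I, AreaRatio D (M t))
    (hG : ∀ s ∈ I, ∀ (x : E3) (σ : ℝ), 0 < σ → Integrable (fun y => gk σ (y - x)) (area (M s)) ∧
      ∫ y, gk σ (y - x) ∂(area (M s)) ≤ C)
    (c : E3) {R₁ R₂ T₀ t₁ t₂ θ P : ℝ} (hI : Icc T₀ t₂ ⊆ I) (hP : 0 ≤ P) (hR : R₁ + θ < R₂)
    (hR₂ : 0 < R₂) (hT : T₀ + θ ^ 2 ≤ t₁)
    (htot : ∫⁻ s in Icc T₀ t₂, ∫⁻ y in ball c R₂, ENNReal.ofReal (max (a2 (M s) y) 0)
      ∂(area (M s)) ≤ ENNReal.ofReal P) :
    ∃ l : Multiset Src, Valid l ∧ mass l ≤ 9 * P ∧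
      ∀ (x : E3) (t q ρ L : ℝ), ‖x - c‖ ≤ R₁ → t ∈ Icc t₁ t₂ → 0 < q → q ≤ θ → 0 < ρ →
      ENNReal.ofReal (L + 1) ≤ potA M x t q (t - q ^ 2) (t - ρ ^ 2) → L ≤ bar l t x := by
  obtain ⟨A, hA0, hA⟩ := window_bound h ha hI c R₂
  obtain ⟨r, hr0, hr1, hr2⟩ : ∃ r : ℝ, 0 < r ∧ r ≤ R₂ - (R₁ + θ) ∧ A * C * r ^ 2 ≤ 1 := by
    refine ⟨min (R₂ - (R₁ + θ)) (√(A * C)⁻¹), lt_min (by linarith) (by positivity),
      min_le_left _ _, ?_⟩
    have h1 : min (R₂ - (R₁ + θ)) (√(A * C)⁻¹) ^ 2 ≤ (√(A * C)⁻¹) ^ 2 :=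
      pow_le_pow_left₀ (le_min (by linarith) (by positivity)) (min_le_right _ _) 2
    rw [Real.sq_sqrt (by positivity)] at h1
    calc _ ≤ A * C * (A * C)⁻¹ := by gcongr
      _ = 1 := mul_inv_cancel₀ (by positivity)
  have hms : ∀ s ∈ Icc T₀ t₂, AEMeasurable (fun y => max (a2 (M s) y) 0) (area (M s)) := by
    intro s hs
    have h3 : ContinuousOn (fun y => a2 (M s) y) (M s) :=
      ha.comp (f := fun y => (s, y)) (Continuous.prodMk_right s).continuousOn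
        fun y hy => ⟨hI hs, hy⟩
    have h4 : ContinuousOn (fun y => max (a2 (M s) y) 0) (M s) :=
      continuous_max.comp_continuousOn (h3.prodMk continuousOn_const)
    exact h4.aemeasurable (isClosed_slice h (hI hs)).measurableSet
  have hmax : ContinuousOn (fun p : ℝ × E3 => max (a2 (M p.1) p.2) 0) (track M I) :=
    continuous_max.comp_continuousOn (ha.prodMk continuousOn_const)
  obtain ⟨l, hl, hm, hc⟩ := A_barrier (fun s => area (M s))
    (fun s y => max (a2 (M s) y) 0) c (R₁ := R₁ + θ) (R₂ := R₂) (T₀ := T₀)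
    (t₂ := t₂) (P := P) hr0 (by linarith) hP (fun _ _ => le_max_right _ _) hms
    (fun ψ h1 h2 h3 => aemeas_time hC h hratio hmax (fun _ => le_max_right _ _) hI h1 h2 hR₂ h3)
    htot
  refine ⟨l, hl, hm, ?_⟩
  intro x t q ρ L h1 h2 h3 h4 h5 h6
  have hw := Icc_sub hT h2 h3 h4
  have hρ2 : 0 < ρ ^ 2 := by positivity
  have hsplit : Icc (t - q ^ 2) (t - ρ ^ 2) ⊆ (Icc T₀ t₂ ∩ Iic (t - r ^ 2)) ∪
      (Icc (t - r ^ 2) (t - ρ ^ 2) ∩ Icc T₀ t₂) := by
    intro s hs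
    have h1 : s ∈ Icc T₀ t₂ := hw ⟨hs.1, by linarith [hs.2]⟩
    rcases le_total s (t - r ^ 2) with h2 | h2
    · exact Or.inl ⟨h1, h2⟩
    · exact Or.inr ⟨⟨h2, hs.2⟩, h1⟩
  have hfar : ∫⁻ s in Icc T₀ t₂ ∩ Iic (t - r ^ 2), ∫⁻ y in ball x q,
      ENNReal.ofReal (a2 (M s) y * gk (t - s) (x - y)) ∂(area (M s)) ≤
      ENNReal.ofReal (bar l t x) := by
    refine le_trans (setLIntegral_mono' (measurableSet_Icc.inter measurableSet_Iic)
      fun s hs => ?_) (hc x t)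
    refine le_trans (lintegral_mono fun y => ?_) (lintegral_mono_set fun y hy =>
      mem_closedBall_iff_norm.2 (norm_le_of_ball h1 h4 hy))
    have h1 : s ≤ t - r ^ 2 := hs.2
    have h2 : 0 < r ^ 2 := by positivity
    exact ENNReal.ofReal_le_ofReal (mul_le_mul_of_nonneg_right (le_max_left _ _)
      (gk_pos (by linarith) _).le)
  have hnear := near_le (M := M) (r := r) (t := t) (q := q) (x := x) (S := Icc T₀ t₂)
    measurableSet_Icc hA0.le hC0.le h5 (fun s hs => isClosed_slice h (hI hs))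
    (fun s hs y hy hyx => hA s hs y hy ((norm_le_of_ball h1 h4 hyx).trans hR.le))
    (fun s hs => hG s (hI hs) x)
  have hn := bar_nonneg hl t x
  have h7 := h6.trans ((lintegral_mono_set hsplit).trans ((lintegral_union_le _ _ _).trans
    (add_le_add hfar (hnear.trans (ENNReal.ofReal_le_ofReal hr2)))))
  rw [← ENNReal.ofReal_add hn zero_le_one, ENNReal.ofReal_le_ofReal_iff (by linarith)] at h7
  linarith

lemma total_diss_le {M : ℝ → Set E3} {D Λ R lam δ T₀ t₂ : ℝ} {c : E3} (hD : 0 ≤ D) (hΛ : 0 ≤ Λ)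
    (hR : 0 < R) (hlam : 0 < lam) (hδ0 : 0 ≤ δ) (hδ : δ ≤ 1) (h0 : T₀ ≤ t₂)
    (h1 : t₂ - T₀ ≤ 2 * lam ^ 2) (hratio : ∀ t ∈ Icc T₀ t₂, AreaRatio D (M t))
    (hdiss : diss M (Λ / lam ^ 2) c (4 * R * lam) T₀ t₂ ≤ ENNReal.ofReal (δ * lam ^ 2)) :
    diss M 0 c (2 * (2 * R * lam)) T₀ t₂ ≤ ENNReal.ofReal ((1 + 32 * Λ * D * R ^ 2) * lam ^ 2) := by
  rw [show 2 * (2 * R * lam) = 4 * R * lam by ring]
  refine (diss_split (Λ := Λ / lam ^ 2) hD (by positivity) (by positivity) hratio c).trans ?_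
  refine (add_le_add hdiss le_rfl).trans ?_
  have h0' : 0 ≤ t₂ - T₀ := by linarith
  rw [← ENNReal.ofReal_add (by positivity) (by positivity)]
  apply ENNReal.ofReal_le_ofReal
  have h2 : Λ / lam ^ 2 * (D * (4 * R * lam) ^ 2) = 16 * Λ * D * R ^ 2 := by
    field_simp; norm_num
  rw [h2]
  have h3 : 16 * Λ * D * R ^ 2 * (t₂ - T₀) ≤ 16 * Λ * D * R ^ 2 * (2 * lam ^ 2) := by gcongr
  have h4 : δ * lam ^ 2 ≤ 1 * lam ^ 2 := by gcongr
  linarith

/-- the conclusion from the barrier lemma -/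
lemma final (hB : BarrierStmt) {M : ℝ → Set E3} {I : Set ℝ} (h : IsMCF M I) {c : E3}
    {t₁ t₂ R lam m η : ℝ} (hR : 16 ≤ R) (hlam : 0 < lam) (hm : 0 < m) (hI : Icc t₁ t₂ ⊆ I)
    (ht1 : lam ^ 2 / 2 ≤ t₂ - t₁) (ht2 : t₂ - t₁ ≤ lam ^ 2)
    (h0 : Cov (M t₁) t₁ c (R * lam) (m * lam) (lam ^ 2 / 2)) {l : Multiset Src} (hl : Valid l)
    (hmass : mass l ≤ η / 4)
    (hbad : ∀ t ∈ Icc t₁ t₂, ∀ x ∈ M t, ‖x - c‖ ≤ R * lam → ∀ s < m * lam, Bad (M t) x s →
      1 ≤ bar l t x) : Cov (M t₂) t₂ c (R * lam / 4) (m * lam / 4) η := by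
  obtain ⟨l₀, hl₀, hact, hmass₀, hcov₀⟩ := h0
  have hl2 : 0 < lam ^ 2 := by positivity
  have ht12 : t₁ ≤ t₂ := by linarith
  have hRl : 16 * lam ≤ R * lam := by gcongr
  have hbar := hB M I h t₁ t₂ c (R * lam) (m * lam) (l₀ + l) hI (by linarith) (by positivity)
    (valid_add hl₀ hl) (fun x hx h1 h2 => by
      rw [bar_add]; linarith [hcov₀ x hx h1 h2, bar_nonneg hl t₁ x])
    (fun t ht x hx h1 s hs hb => by
      rw [bar_add]; linarith [hbad t ht x hx h1 s hs hb, bar_nonneg hl₀ t x])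
    t₂ ⟨ht12, le_rfl⟩
  refine cov_of (l := scale 4 l) (valid_scale (by norm_num) hl)
    (by rw [mass_scale]; linarith) ?_
  intro x hx hxc hsep
  simp only [SepGE, not_forall, not_le] at hsep
  obtain ⟨y, hy, hyx⟩ := hsep
  have h1 := hbar x hx (by linarith) y hy
  rw [bar_add] at h1
  rw [bar_scale]
  have h2 : √(‖y - x‖ / (m * lam)) ≤ 1 / 2 := by
    rw [Real.sqrt_le_left (by norm_num), div_le_iff₀ (by positivity)]
    linarith
  have h3 : bar l₀ t₂ x ≤ 1 / 12 := by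
    refine (bar_le_mass hl₀ hact (half_pos hl2) ht1 x).trans ?_
    have hp := Real.pi_gt_three
    calc _ ≤ lam ^ 2 / 2 * (4 * Real.pi * (lam ^ 2 / 2))⁻¹ := by gcongr
      _ = (4 * Real.pi)⁻¹ := by field_simp
      _ ≤ (12 : ℝ)⁻¹ := inv_anti₀ (by norm_num) (by linarith)
      _ = _ := by norm_num
  have h4 : (‖x - c‖ ^ 2 + 4 * (t₂ - t₁)) / (R * lam) ^ 2 ≤ 5 / 64 := by
    have h7 : 0 < R * lam := by linarith
    rw [div_le_iff₀ (by positivity)]
    have h5 : ‖x - c‖ ^ 2 ≤ (R * lam / 4) ^ 2 := by gcongr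
    have h6 : (16 * lam) ^ 2 ≤ (R * lam) ^ 2 := by gcongr
    nlinarith
  linarith

end Step

/-- `|A|²` and the mean curvature vector are continuous on the space-time track -/
def TrackContStmt : Prop :=
  ∀ (M : ℝ → Set E3) (I : Set ℝ), IsMCF M I →
    ContinuousOn (fun p : ℝ × E3 => a2 (M p.1) p.2) (track M I) ∧
      ContinuousOn (fun p : ℝ × E3 => Hv (M p.1) p.2) (track M I)

open Step in
theorem step_of (hT : TrackContStmt) (hB : BarrierStmt) (hBad : BadStmt) (hC : ContStmt)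
    (hG : GaussStmt) : StepStmt := by
  intro D G R Λ η hR hη
  obtain ⟨C₀, hC₀, hG⟩ := hG
  obtain ⟨D', hD1, hD2⟩ : ∃ D' : ℝ, D ≤ D' ∧ 0 < D' :=
    ⟨max D 1, le_max_left _ _, lt_max_of_lt_right one_pos⟩
  obtain ⟨G', hG1, hG2⟩ : ∃ G' : ℝ, G ≤ G' ∧ 0 < G' :=
    ⟨max G 1, le_max_left _ _, lt_max_of_lt_right one_pos⟩
  obtain ⟨Λ', hΛ1, hΛ2⟩ : ∃ Λ' : ℝ, Λ ≤ Λ' ∧ 0 < Λ' :=
    ⟨max Λ 1, le_max_left _ _, lt_max_of_lt_right one_pos⟩
  replace hG := (hG D' hD2.le).1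
  obtain ⟨P, hP⟩ : ∃ P : ℝ, P = G' * (3 + 32 * Λ' * D' * R ^ 2) := ⟨_, rfl⟩
  have hP0 : 0 < P := by rw [hP]; positivity
  obtain ⟨L, hL⟩ : ∃ L : ℝ, L = 72 * P / η := ⟨_, rfl⟩
  have hL0 : 0 < L := by rw [hL]; positivity
  obtain ⟨Γ, κ, hΓ, hκ, hBad⟩ := hBad D' (L + 1)
  obtain ⟨θ, hθ0, hθ1, hθ2⟩ : ∃ θ : ℝ, 0 < θ ∧ θ ≤ 1 ∧ Λ' * D' * θ ≤ κ / 2 := by
    refine ⟨min 1 (κ / 2 / (Λ' * D')), by positivity, min_le_left _ _, ?_⟩
    rw [mul_comm, ← le_div_iff₀ (by positivity)]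
    exact min_le_right _ _
  obtain ⟨δ, hδ0, hδ1, hδ2⟩ : ∃ δ : ℝ, 0 < δ ∧ δ ≤ 1 ∧ δ ≤ η * κ / 16128 :=
    ⟨min 1 (η * κ / 16128), by positivity, min_le_left _ _, min_le_right _ _⟩
  refine ⟨θ / Γ, δ, by positivity, hδ0, ?_⟩
  intro M I hM c t₁ t₂ lam m hlam hm hmm hI ht1 ht2 hdiss hcov
  have hl2 : 0 < lam ^ 2 := by positivity
  have hmcf := hM.mcf
  have hratio : ∀ t ∈ I, AreaRatio D' (M t) := fun t ht p r hr =>
    (hM.ratio t ht p r hr).trans (ENNReal.ofReal_le_ofReal (by gcongr))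
  have hlgb : ∀ t ∈ I, LGB G' (M t) := fun t ht p r hr =>
    (hM.lgb t ht p r hr).trans (by gcongr)
  replace hdiss : diss M (Λ' / lam ^ 2) c (4 * R * lam) (t₁ - lam ^ 2) t₂ ≤
      ENNReal.ofReal (δ * lam ^ 2) := (diss_anti M (by gcongr) _ _ _ _).trans hdiss
  obtain ⟨hTa, hTH⟩ := hT M I hmcf
  have hRl : 16 * lam ≤ R * lam := by gcongr
  have hθl : θ * lam ≤ lam := mul_le_of_le_one_left hlam.le hθ1
  have hθl2 : t₁ - lam ^ 2 + (θ * lam) ^ 2 ≤ t₁ := by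
    have : (θ * lam) ^ 2 ≤ lam ^ 2 := by gcongr
    linarith
  obtain ⟨lH, hlH, hmH, hcH⟩ := H_part hmcf hTH hD2 hratio c (R₁ := R * lam) (t₁ := t₁)
    (θ := θ * lam) hI hκ (by positivity) (by positivity) (by linarith) hθl2 (by
      calc Λ' / lam ^ 2 * (D' * (θ * lam) ^ 2) = Λ' * D' * θ * θ := by field_simp
        _ ≤ Λ' * D' * θ := mul_le_of_le_one_right (by positivity) hθ1
        _ ≤ _ := hθ2) hdiss
  have hd0 := total_diss_le hD2.le hΛ2.le (by linarith) hlam hδ0.le hδ1 (by linarith)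
    (by linarith) (fun s hs => hratio s (hI hs)) hdiss
  have htot := total_a2_le hG2.le (by linarith) (by linarith) (by positivity)
    (fun s hs => hlgb s (hI hs)) c hd0
  have hPl : G' * (t₂ - (t₁ - lam ^ 2) + (1 + 32 * Λ' * D' * R ^ 2) * lam ^ 2) ≤ P * lam ^ 2 := by
    rw [hP, mul_assoc G']
    exact mul_le_mul_of_nonneg_left (by linarith) hG2.le
  obtain ⟨lA, hlA, hmA, hcA⟩ := A_part hC hmcf hTa (C := C₀ * D') (by positivity) hratio
    (fun s hs => hG (M s) (hratio s hs)) c (R₁ := R * lam) (t₁ := t₁) (θ := θ * lam)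
    (P := P * lam ^ 2) hI (by positivity) (by linarith) (by linarith) hθl2
    (htot.trans (ENNReal.ofReal_le_ofReal hPl))
  refine final hB hmcf hR hlam hm ((Icc_subset_Icc_left (by linarith)).trans hI) ht1 ht2 hcov
    (l := scale L⁻¹ lA + lH) (valid_add (valid_scale (by positivity) hlA) hlH) ?_ ?_
  · rw [mass_add, mass_scale]
    have h1 : L⁻¹ * mass lA ≤ η * lam ^ 2 / 8 := by
      calc _ ≤ L⁻¹ * (9 * (P * lam ^ 2)) := by gcongr
        _ = _ := by rw [hL]; field_simp; norm_num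
    have h2 : mass lH ≤ η * lam ^ 2 / 8 := by
      calc _ ≤ 2016 * (δ * lam ^ 2 / κ) := hmH
        _ ≤ 2016 * (η * κ / 16128 * lam ^ 2 / κ) := by gcongr
        _ = _ := by field_simp; norm_num
    linarith
  · intro t ht x hx hxc s hs hb
    have hs0 : 0 < s := by
      obtain ⟨-, y, -, h1, h2, -⟩ := hb
      rw [← h2]; exact norm_pos_iff.2 (sub_ne_zero.2 h1)
    have hΓs : Γ * s ≤ θ * lam := by
      have h1 : Γ * m ≤ θ := by rwa [le_div_iff₀' (by linarith)] at hmm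
      calc Γ * s ≤ Γ * (m * lam) := by gcongr
        _ = Γ * m * lam := by ring
        _ ≤ _ := by gcongr
    obtain ⟨ρ, hρ0, hρs, hρ⟩ := hBad M I hmcf hratio t x s hx hb
      ((Icc_sub hθl2 ht (by positivity) hΓs).trans hI)
    have hq0 : 0 < Γ * ρ := by positivity
    have hq1 : Γ * ρ ≤ θ * lam := le_trans (by gcongr) hΓs
    rw [bar_add, bar_scale]
    have hn1 := bar_nonneg hlA t x
    have hn2 := bar_nonneg hlH t x
    rcases hρ with hρ | hρ
    · have h1 := hcA x t _ ρ L hxc ht hq0 hq1 hρ0 hρ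
      have h2 : 1 ≤ L⁻¹ * bar lA t x := by
        rw [inv_mul_eq_div, le_div_iff₀ hL0]; linarith
      linarith
    · have h4 := hcH x t _ hxc ht hq0 hq1 hρ
      have h5 : 0 ≤ L⁻¹ * bar lA t x := by positivity
      linarith

theorem step_proof (hB : BarrierStmt) (hBad : BadStmt) (hC : ContStmt) (hG : GaussStmt) :
    StepStmt :=
  step_of (fun _ _ h => ⟨h.continuousOn_a2, h.continuousOn_Hv⟩) hB hBad hC hG

end Vale.Agent.P218FT
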