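import Vale.Agent.P218FT.M1
import Vale.Agent.P218FT.Static
import Mathlib.Analysis.Calculus.BumpFunction.InnerProduct
import Mathlib.Analysis.SpecialFunctions.ExpDeriv
import Mathlib.Analysis.InnerProductSpace.Calculus

/-! Gaussian density ratios close to one at a fixed small scale (`T0Stmt`) and the uniform
one-sheet curvature bound (`T1Stmt`), from scale covariant forms of the blocks. -/

open MeasureTheory Set Filter Topology Metric
open scoped ENNReal NNReal RealInnerProductSpace ContDiff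

namespace Vale.Agent.P218FT

namespace TT

/-- `FinStmt` at an arbitrary centre and scale -/
def FinS : Prop :=
  ∀ D ε : ℝ, 0 < ε → ∃ η : ℝ, 0 < η ∧ ∀ m : ℝ, 0 < m → ∃ r J h : ℝ, 0 < r ∧ r ≤ 1 ∧ 1 ≤ J ∧ 0 < h ∧
    ∀ N : Set E3, IsSurf N → AreaRatio D N → ∀ (y : E3) (ρ : ℝ), 0 < ρ →
      ∫⁻ x in ball y (J * ρ), ENNReal.ofReal (√(a2 N x)) ∂(area N) ≤ ENNReal.ofReal (h * ρ) →
      area N {x | x ∈ ball y ρ ∧ ¬ SepGE N x (m * ρ)} ≤ ENNReal.ofReal (η * ρ ^ 2) →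
      gA N y (r * ρ) ≤ 1 + ε

/-- `StaticStmt` at an arbitrary centre and scale -/
def StaticS : Prop :=
  ∀ (D : ℝ), 0 ≤ D → ∀ (M : ℝ → Set E3) (I : Set ℝ), IsMCF M I → (∀ t ∈ I, AreaRatio D (M t)) →
    ∀ (ζ : E3 → ℝ) (R K : ℝ), 0 < R → Test ζ 0 R K → ∀ (y : E3) (s a b α d : ℝ), 0 < s → a ≤ b →
      Icc a b ⊆ I → 0 < α → 0 ≤ d → diss M 0 y (R * s) a b ≤ ENNReal.ofReal d →
      |∫ x, ζ (s⁻¹ • (x - y)) ∂(area (M b)) - ∫ x, ζ (s⁻¹ • (x - y)) ∂(area (M a))|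
        ≤ K * (α * (D * R ^ 2) * (b - a) + (1 + α⁻¹) * d)

/-- `WhiteStmt` at an arbitrary centre and scale -/
def WhiteS : Prop :=
  ∀ D : ℝ, ∃ ε r C : ℝ, 0 < ε ∧ 0 < r ∧ 0 < C ∧
    ∀ (M : ℝ → Set E3) (I : Set ℝ), IsMCF M I → (∀ t ∈ I, AreaRatio D (M t)) →
      ∀ (x : E3) (t σ : ℝ), 0 < σ → Icc (t - 4 * σ ^ 2) t ⊆ I →
        (∀ y ∈ ball x (3 * σ), ∀ t' ∈ Icc (t - 3 * σ ^ 2) t, dens M y t' σ ≤ 1 + ε) →
        x ∈ M t → TwoPt (M t) x (r * σ) (C / σ)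

theorem isSurf_slice {M : ℝ → Set E3} {I : Set ℝ} (h : IsMCF M I) {t : ℝ} (ht : t ∈ I) :
    IsSurf (M t) := by
  have hc : ∀ x : E3, Tendsto (fun y : E3 => (t, y)) (𝓝 x) (𝓝 (t, x)) := fun x =>
    (Continuous.prodMk_right t).tendsto x
  refine ⟨⟨isOpen_iff_mem_nhds.mpr fun x hx => (hc x).eventually (h.closed t ht x hx)⟩,
    fun x hx => ?_⟩
  obtain ⟨w, h1, h2, h3, -⟩ := h.loc t ht x hx
  exact ⟨fun y => w (t, y), h1.comp (contDiff_const.prodMk contDiff_id), h2, (hc x).eventually h3⟩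

theorem gA_nonneg (N : Set E3) (y : E3) (r : ℝ) : 0 ≤ gA N y r :=
  integral_nonneg fun _ => gk_nonneg (sq_nonneg r) _

theorem dens_mono' (hH : HuiskenStmt) {D : ℝ} {M : ℝ → Set E3} {I : Set ℝ} (hM : IsMCF M I)
    (hD : ∀ t ∈ I, AreaRatio D (M t)) (y : E3) (t : ℝ) {r r' : ℝ} (hr : 0 < r) (hrr : r ≤ r')
    (hI : Icc (t - r' ^ 2) (t - r ^ 2) ⊆ I) : dens M y t r ≤ dens M y t r' := by
  have h2 : r ^ 2 ≤ r' ^ 2 := by gcongr
  have := hH D M I hM hD y t (t - r' ^ 2) (t - r ^ 2) (by linarith) (by nlinarith) hI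
  rw [sub_sub_cancel, sub_sub_cancel, Real.sqrt_sq hr.le, Real.sqrt_sq (hr.le.trans hrr)] at this
  exact (ENNReal.ofReal_le_ofReal_iff (gA_nonneg _ _ _)).mp (le_self_add.trans this)

theorem continuous_bar (l : Multiset Src) (t : ℝ) : Continuous (bar l t) := by
  induction l using Multiset.induction_on with
  | empty =>
    have : bar 0 t = fun _ => 0 := by funext x; simp [bar]
    rw [this]; exact continuous_const
  | cons s l ih =>
    have : bar (s ::ₘ l) t = fun x => s.val t x + bar l t x := by funext x; simp [bar]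
    rw [this]
    refine Continuous.add ?_ ih
    unfold Src.val
    split_ifs
    · exact continuous_const.mul ((continuous_gk _).comp (by fun_prop))
    · exact continuous_const

theorem lintegral_bar {D : ℝ} (hD : 0 ≤ D) {N : Set E3} (hN : AreaRatio D N) (t : ℝ)
    (l : Multiset Src) (hl : Valid l) :
    0 ≤ mass l ∧ ∫⁻ x, ENNReal.ofReal (bar l t x) ∂(area N) ≤
      ENNReal.ofReal ((∑' k, gcoef k) * D * mass l) := by
  have hC : 0 ≤ ∑' k, gcoef k := tsum_nonneg fun k => (gcoef_pos k).le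
  induction l using Multiset.induction_on with
  | empty => simp [bar, mass]
  | cons s l ih =>
    obtain ⟨h0, ih⟩ := ih fun s' hs' => hl s' (Multiset.mem_cons_of_mem hs')
    obtain ⟨ha, hτ⟩ := hl s (Multiset.mem_cons_self s l)
    have e1 : mass (s ::ₘ l) = s.a + mass l := by simp [mass]
    have e2 : ∀ x, bar (s ::ₘ l) t x = s.val t x + bar l t x := by intro x; simp [bar]
    refine ⟨by rw [e1]; positivity, ?_⟩
    have h1 : ∫⁻ x, ENNReal.ofReal (s.val t x) ∂(area N) ≤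
        ENNReal.ofReal ((∑' k, gcoef k) * D * s.a) := by
      unfold Src.val
      split_ifs with h
      · simp_rw [ENNReal.ofReal_mul ha]
        rw [lintegral_const_mul' _ _ ENNReal.ofReal_ne_top, mul_comm _ s.a, ENNReal.ofReal_mul ha]
        gcongr
        exact lintegral_gk_le hD hN _ (by linarith)
      · simp
    calc ∫⁻ x, ENNReal.ofReal (bar (s ::ₘ l) t x) ∂(area N)
        ≤ ∫⁻ x, (ENNReal.ofReal (s.val t x) + ENNReal.ofReal (bar l t x)) ∂(area N) :=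
          lintegral_mono fun x => by rw [e2]; exact ENNReal.ofReal_add_le
      _ = ∫⁻ x, ENNReal.ofReal (s.val t x) ∂(area N) +
            ∫⁻ x, ENNReal.ofReal (bar l t x) ∂(area N) :=
          lintegral_add_right _ (continuous_bar l t).measurable.ennreal_ofReal
      _ ≤ ENNReal.ofReal ((∑' k, gcoef k) * D * s.a) +
            ENNReal.ofReal ((∑' k, gcoef k) * D * mass l) := add_le_add h1 ih
      _ = _ := by
          rw [← ENNReal.ofReal_add (by positivity) (by positivity), e1]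
          congr 1
          ring

/-- a covered set has small area -/
theorem cov_area {D : ℝ} (hD : 0 ≤ D) {N : Set E3} (hc : IsClosed N) (hN : AreaRatio D N)
    {t : ℝ} {c : E3} {R m η : ℝ} (h : Cov N t c R m η) :
    area N {x | x ∈ ball c R ∧ ¬ SepGE N x m} ≤ ENNReal.ofReal ((∑' k, gcoef k) * D * η) := by
  have hC : 0 ≤ ∑' k, gcoef k := tsum_nonneg fun k => (gcoef_pos k).le
  obtain ⟨l, h1, -, h3, h4⟩ := h
  have hm : Measurable fun x => ENNReal.ofReal (bar l t x) :=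
    (continuous_bar l t).measurable.ennreal_ofReal
  calc area N {x | x ∈ ball c R ∧ ¬ SepGE N x m}
      ≤ area N {x | 1 ≤ ENNReal.ofReal (bar l t x)} := by
        apply measure_mono_ae
        filter_upwards [ae_restrict_mem hc.measurableSet] with x hx hx2
        have := h4 x hx (mem_ball_iff_norm.mp hx2.1).le hx2.2
        exact ENNReal.one_le_ofReal.mpr this
    _ ≤ ∫⁻ x, ENNReal.ofReal (bar l t x) ∂(area N) := by
        have := mul_meas_ge_le_lintegral (μ := area N) hm 1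
        rwa [one_mul] at this
    _ ≤ _ := (lintegral_bar hD hN t l h1).2.trans (ENNReal.ofReal_le_ofReal (by gcongr))

/-- pigeonhole over annuli -/
theorem pigeon (μ : Measure E3) (f : E3 → ℝ≥0∞) (y : E3) (s : ℕ → ℝ) (hs : ∀ j, s (j + 1) ≤ s j)
    {A β : ℝ} (hA : 0 ≤ A) (hβ : 0 ≤ β) (K : ℕ) (hK : A < K * β)
    (h : ∫⁻ x in ball y (s 0), f x ∂μ ≤ ENNReal.ofReal A) :
    ∃ j < K, ∫⁻ x in ball y (s j) \ ball y (s (j + 1)), f x ∂μ ≤ ENNReal.ofReal β := by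
  by_contra hc
  push Not at hc
  have key : ∀ j ≤ K, ENNReal.ofReal (j * β) + ∫⁻ x in ball y (s j), f x ∂μ ≤
      ∫⁻ x in ball y (s 0), f x ∂μ := by
    intro j
    induction j with
    | zero => simp
    | succ j ih =>
      intro hj
      refine le_trans ?_ (ih (by omega))
      rw [← lintegral_inter_add_sdiff f (ball y (s j)) (measurableSet_ball (x := y) (ε := s (j + 1))),
        inter_eq_right.mpr (ball_subset_ball (hs j)), Nat.cast_succ, add_mul, one_mul,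
        ENNReal.ofReal_add (by positivity) hβ, add_assoc, add_comm (ENNReal.ofReal β)]
      gcongr
      exact (hc j (by omega)).le
  have h1 := (le_self_add.trans (key K le_rfl)).trans h
  exact absurd ((ENNReal.ofReal_le_ofReal_iff hA).mp h1) (not_le.mpr hK)

theorem lintegral_sqrt_le (μ : Measure E3) (f : E3 → ℝ) (S : Set E3) {κ A V : ℝ} (hκ : 0 < κ)
    (hA0 : 0 ≤ A) (hV0 : 0 ≤ V) (hA : ∫⁻ x in S, ENNReal.ofReal (f x) ∂μ ≤ ENNReal.ofReal A)
    (hV : μ S ≤ ENNReal.ofReal V) :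
    ∫⁻ x in S, ENNReal.ofReal (√(f x)) ∂μ ≤ ENNReal.ofReal (κ * A + κ⁻¹ * V) := by
  calc ∫⁻ x in S, ENNReal.ofReal (√(f x)) ∂μ
      ≤ ∫⁻ x in S, (ENNReal.ofReal κ * ENNReal.ofReal (f x) + ENNReal.ofReal κ⁻¹) ∂μ := by
        refine lintegral_mono fun x => ?_
        by_cases hx : 0 ≤ f x
        · rw [← ENNReal.ofReal_mul hκ.le, ← ENNReal.ofReal_add (by positivity) (by positivity)]
          apply ENNReal.ofReal_le_ofReal
          have h1 := Real.sq_sqrt hx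
          have h2 : κ * f x + κ⁻¹ - √(f x) = κ⁻¹ * ((κ * √(f x) - 1 / 2) ^ 2 + 3 / 4) := by
            field_simp
            nlinarith
          have h3 : 0 ≤ κ⁻¹ * ((κ * √(f x) - 1 / 2) ^ 2 + 3 / 4) := by positivity
          linarith
        · simp [Real.sqrt_eq_zero'.mpr (not_le.mp hx).le]
    _ = ENNReal.ofReal κ * ∫⁻ x in S, ENNReal.ofReal (f x) ∂μ + ENNReal.ofReal κ⁻¹ * μ S := by
        rw [lintegral_add_right _ measurable_const, lintegral_const_mul' _ _ ENNReal.ofReal_ne_top,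
          setLIntegral_const]
    _ ≤ ENNReal.ofReal κ * ENNReal.ofReal A + ENNReal.ofReal κ⁻¹ * ENNReal.ofReal V := by gcongr
    _ = _ := by
        rw [← ENNReal.ofReal_mul hκ.le, ← ENNReal.ofReal_mul (by positivity),
          ← ENNReal.ofReal_add (by positivity) (by positivity)]

theorem exists_time (g : ℝ → ℝ≥0∞) {a b c d : ℝ} (hc : 0 ≤ c) (hd : 0 ≤ d)
    (hdc : d < c * (b - a)) (h : ∫⁻ t in Icc a b, g t ≤ ENNReal.ofReal d) :
    ∃ t ∈ Icc a b, g t ≤ ENNReal.ofReal c := by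
  by_contra hn
  push Not at hn
  have h1 : ∫⁻ _t in Icc a b, ENNReal.ofReal c ≤ ∫⁻ t in Icc a b, g t :=
    setLIntegral_mono' measurableSet_Icc fun t ht => (hn t ht).le
  rw [setLIntegral_const, Real.volume_Icc, ← ENNReal.ofReal_mul hc] at h1
  exact absurd ((ENNReal.ofReal_le_ofReal_iff hd).mp (h1.trans h)) (not_le.mpr hdc)

theorem lintegral_level (μ : Measure E3) (f : E3 → ℝ) (S : Set E3) {Λ V : ℝ} (hΛ : 0 ≤ Λ)
    (hV : μ S ≤ ENNReal.ofReal V) :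
    ∫⁻ x in S, ENNReal.ofReal (f x) ∂μ ≤
      ∫⁻ x in S, ENNReal.ofReal (f x - Λ) ∂μ + ENNReal.ofReal (Λ * V) := by
  calc ∫⁻ x in S, ENNReal.ofReal (f x) ∂μ
      ≤ ∫⁻ x in S, (ENNReal.ofReal (f x - Λ) + ENNReal.ofReal Λ) ∂μ := by
        refine lintegral_mono fun x => ?_
        refine le_trans (le_of_eq ?_) ENNReal.ofReal_add_le
        rw [sub_add_cancel]
    _ = ∫⁻ x in S, ENNReal.ofReal (f x - Λ) ∂μ + ENNReal.ofReal Λ * μ S := by
        rw [lintegral_add_right _ measurable_const, setLIntegral_const]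
    _ ≤ _ := by
        rw [ENNReal.ofReal_mul hΛ]
        gcongr

theorem diss_level {D : ℝ} (hD : 0 ≤ D) {M : ℝ → Set E3} {a b : ℝ}
    (hA : ∀ t ∈ Icc a b, AreaRatio D (M t)) (y : E3) {r Λ : ℝ} (hr : 0 < r) (hΛ : 0 ≤ Λ) :
    diss M 0 y r a b ≤ diss M Λ y r a b + ENNReal.ofReal (Λ * (D * r ^ 2) * (b - a)) := by
  unfold diss
  calc ∫⁻ t in Icc a b, ∫⁻ x in ball y r, ENNReal.ofReal (‖Hv (M t) x‖ ^ 2 - 0) ∂(area (M t))
      ≤ ∫⁻ t in Icc a b, (∫⁻ x in ball y r, ENNReal.ofReal (‖Hv (M t) x‖ ^ 2 - Λ) ∂(area (M t)) +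
          ENNReal.ofReal (Λ * (D * r ^ 2))) := by
        refine setLIntegral_mono' measurableSet_Icc fun t ht => ?_
        simp only [sub_zero]
        exact lintegral_level _ _ _ hΛ (hA t ht y r hr)
    _ = _ := by
        rw [lintegral_add_right _ measurable_const, setLIntegral_const, Real.volume_Icc,
          ← ENNReal.ofReal_mul (by positivity)]

theorem gk_scale {s : ℝ} (hs : 0 < s) (z : E3) : gk (s ^ 2) z = (s ^ 2)⁻¹ * gk 1 (s⁻¹ • z) := by
  unfold gk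
  rw [norm_smul, norm_inv, Real.norm_eq_abs, abs_of_pos hs, ← mul_assoc]
  have := Real.pi_pos
  congr 2
  · field_simp
  · field_simp

/-- a cut off Gaussian -/
theorem exists_cut {ρ : ℝ} (hρ : 0 < ρ) : ∃ (ζ : E3 → ℝ) (K : ℝ), Test ζ 0 (2 * ρ) K ∧
    (∀ z, 0 ≤ ζ z) ∧ (∀ z, ζ z ≤ gk 1 z) ∧ ∀ z, ‖z‖ < ρ → ζ z = gk 1 z := by
  let χ : ContDiffBump (0 : E3) := ⟨ρ, 2 * ρ, hρ, by linarith⟩
  have hg : ContDiff ℝ 1 (gk 1) := by
    unfold gk
    refine contDiff_const.mul (Real.contDiff_exp.comp ?_)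
    exact ((contDiff_norm_sq ℝ).neg).div_const _
  have hs : ContDiff ℝ 1 fun z => χ z * gk 1 z := χ.contDiff.mul hg
  have hc : HasCompactSupport fun z => χ z * gk 1 z := χ.hasCompactSupport.mul_right
  obtain ⟨K₀, hK₀⟩ := hs.continuous.bounded_above_of_compact_support hc
  obtain ⟨K₁, hK₁⟩ := (hs.continuous_fderiv one_ne_zero).bounded_above_of_compact_support
    (hc.fderiv ℝ)
  refine ⟨fun z => χ z * gk 1 z, max K₀ K₁, ⟨hs, fun x hx => ?_, fun x => ?_, fun x => ?_⟩,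
    fun z => mul_nonneg χ.nonneg (gk_pos one_pos z).le,
    fun z => mul_le_of_le_one_left (gk_pos one_pos z).le χ.le_one, fun z hz => ?_⟩
  · rw [χ.zero_of_le_dist (by rwa [dist_eq_norm]), zero_mul]
  · exact (hK₀ x).trans (le_max_left _ _)
  · exact (hK₁ x).trans (le_max_right _ _)
  · show χ z * gk 1 z = gk 1 z
    rw [χ.one_of_mem_closedBall (by rw [mem_closedBall_zero_iff]; exact hz.le), one_mul]

theorem cut_compare {ζ : E3 → ℝ} {ρ K : ℝ} (hζ : Test ζ 0 (2 * ρ) K) (h0 : ∀ z, 0 ≤ ζ z)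
    (h1 : ∀ z, ζ z ≤ gk 1 z) (h2 : ∀ z, ‖z‖ < ρ → ζ z = gk 1 z) {D : ℝ} {N : Set E3}
    (hN : AreaRatio D N) (y : E3) {s : ℝ} (hs : 0 < s) :
    (s ^ 2)⁻¹ * ∫ x, ζ (s⁻¹ • (x - y)) ∂(area N) ≤ gA N y s ∧
      gA N y s ≤ (s ^ 2)⁻¹ * ∫ x, ζ (s⁻¹ • (x - y)) ∂(area N) +
        ∫ x in (ball y (ρ * s))ᶜ, gk (s ^ 2) (x - y) ∂(area N) := by
  have hi := integrable_gk hN y (show 0 < s ^ 2 by positivity)
  have hle : ∀ x, (s ^ 2)⁻¹ * ζ (s⁻¹ • (x - y)) ≤ gk (s ^ 2) (x - y) := fun x => by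
    rw [gk_scale hs]; gcongr; exact h1 _
  have hc : Continuous fun x : E3 => (s ^ 2)⁻¹ * ζ (s⁻¹ • (x - y)) :=
    continuous_const.mul (hζ.continuous.comp (by fun_prop))
  have hi2 : Integrable (fun x : E3 => (s ^ 2)⁻¹ * ζ (s⁻¹ • (x - y))) (area N) := by
    refine hi.mono' hc.aestronglyMeasurable (Eventually.of_forall fun x => ?_)
    rw [Real.norm_eq_abs, abs_of_nonneg (mul_nonneg (by positivity) (h0 _))]
    exact hle x
  rw [← integral_const_mul]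
  refine ⟨integral_mono hi2 hi hle, ?_⟩
  rw [← integral_indicator measurableSet_ball.compl,
    ← integral_add hi2 (hi.indicator measurableSet_ball.compl)]
  refine integral_mono hi (hi2.add (hi.indicator measurableSet_ball.compl)) fun x => ?_
  by_cases hx : x ∈ ball y (ρ * s)
  · have : ‖s⁻¹ • (x - y)‖ < ρ := by
      rw [norm_smul, norm_inv, Real.norm_eq_abs, abs_of_pos hs, inv_mul_lt_iff₀ hs, mul_comm]
      exact mem_ball_iff_norm.mp hx
    simp only [indicator_of_notMem (show x ∉ (ball y (ρ * s))ᶜ from fun h => h hx), add_zero]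
    rw [h2 _ this, gk_scale hs]
  · simp only [indicator_of_mem (show x ∈ (ball y (ρ * s))ᶜ from hx)]
    have : 0 ≤ (s ^ 2)⁻¹ * ζ (s⁻¹ • (x - y)) := mul_nonneg (by positivity) (h0 _)
    linarith

/-- the relative scales -/
noncomputable def us (j : ℕ) : ℝ := (1 / 8) ^ j / 2

theorem us_pos (j : ℕ) : 0 < us j := by unfold us; positivity

theorem us_add (i j : ℕ) : us (i + j) = (1 / 8) ^ j * us i := by unfold us; rw [pow_add]; ring

theorem us_anti {i j : ℕ} (h : i ≤ j) : us j ≤ us i := by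
  unfold us
  have := pow_le_pow_of_le_one (show (0 : ℝ) ≤ 1 / 8 by norm_num) (by norm_num) h
  linarith

theorem us_zero : us 0 = 1 / 2 := by simp [us]

theorem us_le (j : ℕ) : us j ≤ 1 / 2 := us_zero ▸ us_anti (Nat.zero_le j)

theorem tendsto_us : Tendsto us atTop (𝓝 0) := by
  have := (tendsto_pow_atTop_nhds_zero_of_lt_one (show (0 : ℝ) ≤ 1 / 8 by norm_num)
    (by norm_num)).div_const 2
  rw [zero_div] at this
  exact this

theorem ev_small {f : ℝ → ℝ} (hf : Continuous f) (h0 : f 0 = 0) {c : ℝ} (hc : 0 < c) :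
    ∀ᶠ j in atTop, f (us j) ≤ c := by
  have := (hf.tendsto 0).comp tendsto_us
  rw [h0] at this
  exact this.eventually (ge_mem_nhds hc)

/-- iteration of the step lemma towards the point `(y, t)` -/
theorem chain {M : ℝ → Set E3} {y : E3} {t lam m η : ℝ} {n : ℕ} (hlam : 0 < lam) (hm : 0 < m)
    (hη : η ≤ 1 / 128)
    (hS : ∀ j ≤ n, ∀ t₂, (us j * lam) ^ 2 / 2 ≤ t₂ - (t - (us j * lam) ^ 2) → t₂ ≤ t →
      Cov (M (t - (us j * lam) ^ 2)) (t - (us j * lam) ^ 2) y (16 * (us j * lam))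
        (m * (us j * lam)) ((us j * lam) ^ 2 / 2) →
      Cov (M t₂) t₂ y (16 * (us j * lam) / 4) (m * (us j * lam) / 4) (η * (us j * lam) ^ 2))
    (h0 : Cov (M (t - (us 0 * lam) ^ 2)) (t - (us 0 * lam) ^ 2) y (16 * (us 0 * lam))
        (m * (us 0 * lam)) ((us 0 * lam) ^ 2 / 2)) :
    ∀ j ≤ n, Cov (M t) t y (us j * lam) (m / 4 * (us j * lam)) (η * (us j * lam) ^ 2) := by
  have key : ∀ j ≤ n, Cov (M (t - (us j * lam) ^ 2)) (t - (us j * lam) ^ 2) y (16 * (us j * lam))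
      (m * (us j * lam)) ((us j * lam) ^ 2 / 2) := by
    intro j
    induction j with
    | zero => exact fun _ => h0
    | succ j ih =>
      intro hj
      have e : us (j + 1) * lam = us j * lam / 8 := by rw [us_add]; ring
      have hl : 0 < us j * lam := mul_pos (us_pos j) hlam
      rw [e]
      set l := us j * lam
      have hl2 : 0 < l ^ 2 := by positivity
      refine cov_mono (hS j (by omega) (t - (l / 8) ^ 2) (by nlinarith) (by nlinarith)
        (ih (by omega))) ?_ (by nlinarith [mul_pos hm hl]) (by nlinarith)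
      simp only [sub_self, norm_zero, add_zero]
      linarith
  intro j hj
  have hl : 0 < us j * lam := mul_pos (us_pos j) hlam
  set l := us j * lam
  have hl2 : 0 < l ^ 2 := by positivity
  refine cov_mono (hS j hj t (by linarith) le_rfl (key j hj)) ?_ (le_of_eq (by ring)) le_rfl
  simp only [sub_self, norm_zero, add_zero]
  linarith

/-- a scale at which the surface is flat in the mean -/
theorem flat_scale {D A J h : ℝ} (hD : 0 < D) (hA : 0 < A) (hJ : 0 < J) (hh : 0 < h) :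
    ∃ p K : ℕ, ∀ (N : Set E3), AreaRatio D N → ∀ (y : E3) (lam : ℝ) (p₀ : ℕ), 0 < lam →
      ∫⁻ x in ball y (J * (us p₀ * lam)), ENNReal.ofReal (a2 N x) ∂(area N) ≤ ENNReal.ofReal A →
      ∃ j, p₀ ≤ j ∧ j ≤ p₀ + p * K ∧
        ∫⁻ x in ball y (J * (us j * lam)), ENNReal.ofReal (√(a2 N x)) ∂(area N) ≤
          ENNReal.ofReal (h * (us j * lam)) := by
  set κ₁ := h / (4 * A) with hκ₁
  set κ₂ := 4 * D * J ^ 2 / h with hκ₂
  set β := h / (4 * κ₂) with hβ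
  have k1 : 0 < κ₁ := by positivity
  have k2 : 0 < κ₂ := by positivity
  have kβ : 0 < β := by positivity
  obtain ⟨p, hp⟩ := exists_pow_lt_of_lt_one (show 0 < h * κ₁ / (4 * D * J ^ 2) by positivity)
    (show (1 / 8 : ℝ) < 1 by norm_num)
  obtain ⟨K, hK⟩ := exists_nat_gt (A / β)
  rw [div_lt_iff₀ kβ] at hK
  refine ⟨p, K, fun N hN y lam p₀ hlam h0 => ?_⟩
  set θ : ℝ := (1 / 8) ^ p with hθ
  have hθ0 : 0 < θ := by positivity
  have hθ1 : θ ≤ 1 := pow_le_one₀ (by norm_num) (by norm_num)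
  have hanti : ∀ i j : ℕ, i ≤ j → J * (us (p₀ + p * j) * lam) ≤ J * (us (p₀ + p * i) * lam) := by
    intro i j hij
    gcongr
    exact us_anti (by nlinarith)
  obtain ⟨i, hi, hann⟩ := pigeon (area N) (fun x => ENNReal.ofReal (a2 N x)) y
    (fun i => J * (us (p₀ + p * i) * lam)) (fun j => hanti j (j + 1) (by omega)) hA.le kβ.le K hK
    (by simpa using h0)
  refine ⟨p₀ + p * i, by omega, by nlinarith, ?_⟩
  have e : J * (us (p₀ + p * (i + 1)) * lam) = J * θ * (us (p₀ + p * i) * lam) := by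
    rw [mul_add p, mul_one, ← add_assoc, us_add]; ring
  have hin : ∫⁻ x in ball y (J * (us (p₀ + p * (i + 1)) * lam)), ENNReal.ofReal (a2 N x)
      ∂(area N) ≤ ENNReal.ofReal A := by
    refine (lintegral_mono_set (ball_subset_ball ?_)).trans h0
    simpa using hanti 0 (i + 1) (by omega)
  have hsub := ball_subset_ball (x := y) (hanti i (i + 1) (by omega))
  simp only [e] at hann hin hsub
  have hl : 0 < us (p₀ + p * i) * lam := mul_pos (us_pos _) hlam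
  set l := us (p₀ + p * i) * lam
  rw [← lintegral_inter_add_sdiff _ (ball y (J * l)) (measurableSet_ball (x := y) (ε := J * θ * l)),
    inter_eq_right.mpr hsub]
  have b1 := lintegral_sqrt_le (area N) (a2 N) _ (show 0 < κ₁ * l by positivity) hA.le
    (by positivity) hin (hN y _ (by positivity))
  have b2 := lintegral_sqrt_le (area N) (a2 N) _ (show 0 < κ₂ * l by positivity) kβ.le
    (by positivity) hann ((measure_mono sdiff_subset).trans (hN y _ (by positivity)))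
  refine (add_le_add b1 b2).trans ?_
  rw [← ENNReal.ofReal_add (by positivity) (by positivity)]
  apply ENNReal.ofReal_le_ofReal
  have e1 : κ₁ * l * A = h * l / 4 := by rw [hκ₁]; field_simp
  have e2 : κ₂ * l * β = h * l / 4 := by rw [hβ]; field_simp
  have e3 : (κ₂ * l)⁻¹ * (D * (J * l) ^ 2) = h * l / 4 := by rw [hκ₂]; field_simp
  have e4 : (κ₁ * l)⁻¹ * (D * (J * θ * l) ^ 2) ≤ h * l / 4 := by
    rw [lt_div_iff₀ (by positivity)] at hp
    have : (κ₁ * l)⁻¹ * (D * (J * θ * l) ^ 2) = θ * (θ * (4 * D * J ^ 2)) * l / (4 * κ₁) := by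
      field_simp
    rw [this, div_le_div_iff₀ (by positivity) (by positivity)]
    have h2 : θ * (θ * (4 * D * J ^ 2)) ≤ 1 * (h * κ₁) := by gcongr
    nlinarith [mul_le_mul_of_nonneg_right h2 hl.le]
  linarith

/-- transfer of a bound for the Gaussian area to a slightly earlier time -/
theorem transfer (hst : StaticS) {D Λ ε : ℝ} (hD : 0 < D) (hΛ : 0 ≤ Λ) (hε : 0 < ε) :
    ∃ L c ρ₁ : ℝ, 0 < L ∧ 0 < c ∧ 0 < ρ₁ ∧ ∀ (M : ℝ → Set E3) (I : Set ℝ), IsMCF M I →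
      (∀ t ∈ I, AreaRatio D (M t)) → ∀ (y : E3) (lam σ a b : ℝ), 0 < lam → 0 < σ →
      σ ≤ ρ₁ * lam → a ≤ b → b - a ≤ σ ^ 2 → Icc a b ⊆ I →
      diss M (Λ / lam ^ 2) y (L * σ) a b ≤ ENNReal.ofReal (c * σ ^ 2) →
      gA (M a) y σ ≤ gA (M b) y σ + ε := by
  obtain ⟨C₀, -, hG⟩ := gauss_proof
  obtain ⟨ρ, hρ, htail⟩ := (hG D hD.le).2 (ε / 2) (by positivity)
  obtain ⟨ζ, K, hζ, z0, z1, z2⟩ := exists_cut hρ
  have hK := hζ.nonneg
  set α := ε / (6 * (K + 1) * (D * (2 * ρ) ^ 2)) with hα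
  have hα0 : 0 < α := by positivity
  set c := ε / (12 * (K + 1) * (1 + α⁻¹)) with hc
  have hc0 : 0 < c := by positivity
  obtain ⟨j, hj⟩ := (ev_small (f := fun u => Λ * (D * (2 * ρ) ^ 2) * u ^ 2) (by fun_prop) (by simp)
    hc0).exists
  refine ⟨2 * ρ, c, us j, by positivity, hc0, us_pos j,
    fun M I hM hA y lam σ a b hlam hσ hσl hab hba hI hd => ?_⟩
  have hd2 : diss M 0 y (2 * ρ * σ) a b ≤ ENNReal.ofReal (2 * c * σ ^ 2) := by
    refine (diss_level hD.le (fun t ht => hA t (hI ht)) y (by positivity)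
      (show 0 ≤ Λ / lam ^ 2 by positivity)).trans ?_
    rw [show 2 * c * σ ^ 2 = c * σ ^ 2 + c * σ ^ 2 by ring,
      ENNReal.ofReal_add (by positivity) (by positivity)]
    refine add_le_add hd (ENNReal.ofReal_le_ofReal ?_)
    calc Λ / lam ^ 2 * (D * (2 * ρ * σ) ^ 2) * (b - a)
        ≤ Λ / lam ^ 2 * (D * (2 * ρ * (us j * lam)) ^ 2) * σ ^ 2 := by
          have : 0 ≤ b - a := sub_nonneg.mpr hab
          gcongr
      _ = Λ * (D * (2 * ρ) ^ 2) * us j ^ 2 * σ ^ 2 := by field_simp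
      _ ≤ c * σ ^ 2 := by gcongr
  have hs := hst D hD.le M I hM hA ζ (2 * ρ) K (by positivity) hζ y σ a b α _ hσ hab hI hα0
    (by positivity) hd2
  have ha := hA a (hI ⟨le_rfl, hab⟩)
  have hb := hA b (hI ⟨hab, le_rfl⟩)
  have c1 := (cut_compare hζ z0 z1 z2 ha y hσ).2
  have c2 := (cut_compare hζ z0 z1 z2 hb y hσ).1
  have c3 := htail (M a) ha y σ hσ
  have e1 : K * (α * (D * (2 * ρ) ^ 2) * (b - a) + (1 + α⁻¹) * (2 * c * σ ^ 2)) ≤
      ε / 2 * σ ^ 2 := by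
    have f1 : (K + 1) * (α * (D * (2 * ρ) ^ 2)) = ε / 6 := by rw [hα]; field_simp
    have f2 : (K + 1) * ((1 + α⁻¹) * (2 * c)) = ε / 6 := by rw [hc]; field_simp; norm_num
    have : 0 ≤ b - a := sub_nonneg.mpr hab
    calc K * (α * (D * (2 * ρ) ^ 2) * (b - a) + (1 + α⁻¹) * (2 * c * σ ^ 2))
        ≤ (K + 1) * (α * (D * (2 * ρ) ^ 2) * σ ^ 2 + (1 + α⁻¹) * (2 * c * σ ^ 2)) := by
          gcongr
          linarith
      _ = ((K + 1) * (α * (D * (2 * ρ) ^ 2)) + (K + 1) * ((1 + α⁻¹) * (2 * c))) * σ ^ 2 := by ring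
      _ ≤ ε / 2 * σ ^ 2 := by
          rw [f1, f2]
          gcongr
          linarith
  have e2 := (abs_le.mp (hs.trans e1)).1
  have e3 : (σ ^ 2)⁻¹ * ∫ x, ζ (σ⁻¹ • (x - y)) ∂(area (M a)) ≤
      (σ ^ 2)⁻¹ * (∫ x, ζ (σ⁻¹ • (x - y)) ∂(area (M b)) + ε / 2 * σ ^ 2) := by
    gcongr
    linarith
  rw [mul_add, show (σ ^ 2)⁻¹ * (ε / 2 * σ ^ 2) = ε / 2 by field_simp] at e3
  linarith

/-- the covering at all scales between `lam` and `us n * lam` -/
theorem cover_scales {M : ℝ → Set E3} {I : Set ℝ} {Λ η m₀ δs δ m₁ m l₂ R lam T t : ℝ} {x₀ y : E3}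
    {n : ℕ} (hη : η ≤ 1 / 128) (hδs : 0 < δs) (hm : 0 < m) (hm₀ : m ≤ m₀) (hm₁ : m ≤ m₁)
    (hΛ : 0 ≤ Λ) (hR : 0 ≤ R) (hlam : 0 < lam) (hlam2 : 2 * lam ≤ l₂) (hδ : δ ≤ δs * us n ^ 2)
    (hS : ∀ (c : E3) (t₁ t₂ lam m : ℝ), 0 < lam → 0 < m →
      m ≤ m₀ → Icc (t₁ - lam ^ 2) t₂ ⊆ I → lam ^ 2 / 2 ≤ t₂ - t₁ → t₂ - t₁ ≤ lam ^ 2 →
      diss M (Λ / lam ^ 2) c (4 * 16 * lam) (t₁ - lam ^ 2) t₂ ≤ ENNReal.ofReal (δs * lam ^ 2) →
      Cov (M t₁) t₁ c (16 * lam) (m * lam) (lam ^ 2 / 2) →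
      Cov (M t₂) t₂ c (16 * lam / 4) (m * lam / 4) (η * lam ^ 2))
    (hcov : ∀ l, 0 < l → l ≤ l₂ → Cov (M (T + lam ^ 2 - l ^ 2)) (T + lam ^ 2 - l ^ 2) x₀
      ((R + 8) * l) (m₁ * l) (1 / 16 * l ^ 2))
    (hy : ‖y - x₀‖ ≤ R * lam) (hI : ∀ t, T - lam ^ 2 ≤ t → t ≤ T → t ∈ I)
    (hloc : ∀ Λ' ρ a' b', Λ / lam ^ 2 ≤ Λ' → ρ ≤ 64 * lam → T - lam ^ 2 ≤ a' → b' ≤ T →
      diss M Λ' y ρ a' b' ≤ ENNReal.ofReal (δ * lam ^ 2))
    (ht1 : T - lam ^ 2 / 4 ≤ t) (ht2 : t ≤ T) :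
    ∀ j ≤ n, Cov (M t) t y (us j * lam) (m / 4 * (us j * lam)) (η * (us j * lam) ^ 2) := by
  have hl2 : 0 < lam ^ 2 := by positivity
  refine chain hlam hm hη ?_ ?_
  · intro j hj t₂ h1 h2 hcv
    have hu := us_pos j
    have hun := us_pos n
    have hu2 : us j * lam ≤ 1 / 2 * lam := by gcongr; exact us_le j
    have hu3 : (us j * lam) ^ 2 ≤ (1 / 2 * lam) ^ 2 := by gcongr
    have hu5 : (us j * lam) ^ 2 ≤ lam ^ 2 / 4 := hu3.trans (le_of_eq (by ring))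
    have hu4 : us n ^ 2 ≤ us j ^ 2 := by gcongr; exact us_anti hj
    refine hS y _ t₂ (us j * lam) m (by positivity) hm hm₀
      (fun s hs => hI s (by linarith [hs.1]) (by linarith [hs.2])) h1 (by linarith) ?_ hcv
    refine (hloc _ _ _ _ ?_ (by linarith) (by linarith) (by linarith)).trans
      (ENNReal.ofReal_le_ofReal ?_)
    · gcongr
      linarith
    · calc δ * lam ^ 2 ≤ δs * us j ^ 2 * lam ^ 2 := by
            gcongr
            exact hδ.trans (by gcongr)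
        _ = _ := by ring
  · rw [us_zero]
    have e0 : (1 / 2 * lam) ^ 2 = lam ^ 2 / 4 := by ring
    have hpos : 0 ≤ T + lam ^ 2 - (t - (1 / 2 * lam) ^ 2) := by linarith
    have hsq := Real.sq_sqrt hpos
    set l := √(T + lam ^ 2 - (t - (1 / 2 * lam) ^ 2)) with hldef
    have hl0 : 0 ≤ l := Real.sqrt_nonneg _
    have h1 : lam ≤ l := (sq_le_sq₀ hlam.le hl0).mp (by linarith)
    have h2 : l ≤ 2 * lam := (sq_le_sq₀ hl0 (by positivity)).mp (by
      rw [show (2 * lam) ^ 2 = 4 * lam ^ 2 by ring]; linarith)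
    have := hcov l (by linarith) (by linarith)
    rw [show T + lam ^ 2 - l ^ 2 = t - (1 / 2 * lam) ^ 2 by linarith] at this
    refine cov_mono this ?_ ?_ (by linarith)
    · have := mul_le_mul_of_nonneg_left h1 (show 0 ≤ R + 8 by linarith)
      linarith
    · exact mul_le_mul hm₁ (by linarith) (by positivity) (by linarith)

/-- the total curvature at a good time -/
theorem a2_bound {D G Λ ρ ρ' : ℝ} {N : Set E3} {y : E3} (hA : AreaRatio D N) (hL : LGB G N)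
    (hρ : 0 < ρ) (hρ' : 2 * ρ ≤ ρ') (hΛ : 0 ≤ Λ) (h1 : Λ * (D * (2 * ρ) ^ 2) ≤ 1 / 2)
    (h2 : ∫⁻ x in ball y ρ', ENNReal.ofReal (‖Hv N x‖ ^ 2 - Λ) ∂(area N) ≤ ENNReal.ofReal (1 / 2)) :
    ∫⁻ x in ball y ρ, ENNReal.ofReal (a2 N x) ∂(area N) ≤ ENNReal.ofReal (2 * G) := by
  have hH2 : ∫⁻ x in ball y (2 * ρ), ENNReal.ofReal (‖Hv N x‖ ^ 2) ∂(area N) ≤ 1 := by
    refine (lintegral_level _ _ _ hΛ (hA y _ (by positivity))).trans ?_
    refine (add_le_add ((lintegral_mono_set (ball_subset_ball hρ')).trans h2)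
      (ENNReal.ofReal_le_ofReal h1)).trans ?_
    rw [← ENNReal.ofReal_add (by norm_num) (by norm_num)]
    norm_num
  refine (hL y _ hρ).trans ?_
  calc ENNReal.ofReal G * (1 + ∫⁻ x in ball y (2 * ρ),
        ENNReal.ofReal (‖Hv N x‖ ^ 2) ∂(area N)) ≤ ENNReal.ofReal G * (1 + 1) := by gcongr
    _ = ENNReal.ofReal (2 * G) := by
        rw [one_add_one_eq_two, mul_comm, ENNReal.ofReal_mul (by norm_num)]
        simp

theorem t0_pos (hM1 : M1Stmt) (hstep : StepStmt) (hfin : FinS) (hst : StaticS) (hdiss : DissStmt)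
    (hH : HuiskenStmt) {D G : ℝ} (hD : 0 < D) (hG : 0 < G) {M : ℝ → Set E3} {a b : ℝ} (hab : a < b)
    (hM : InC D G M (Ioo a b)) (x₀ : E3) {R ε : ℝ} (hR : 0 ≤ R) (hε : 0 < ε) :
    ∃ r : ℝ, 0 < r ∧ r ≤ 1 ∧ ∀ᶠ lam in 𝓝[>] (0 : ℝ),
      ∀ y : E3, ‖y - x₀‖ ≤ R * lam → dens M y (b - lam ^ 2) (r * lam) ≤ 1 + ε := by
  have hC : 0 < ∑' k, gcoef k := summable_gcoef.tsum_pos (fun k => (gcoef_pos k).le) 0 (gcoef_pos 0)
  obtain ⟨c₀, hc₀⟩ : ∃ c₀, c₀ = (∑' k, gcoef k) * D := ⟨_, rfl⟩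
  have hc₀0 : 0 < c₀ := by rw [hc₀]; positivity
  obtain ⟨ηf, hηf, hF⟩ := hfin D (ε / 2) (by positivity)
  obtain ⟨Λ, hΛ0, hΛ⟩ := hdiss D M a b hab hM.mcf hM.ratio x₀ (R + 64) (by linarith)
  obtain ⟨ηs, hηs0, hηs1, hηs2⟩ : ∃ ηs : ℝ, 0 < ηs ∧ ηs ≤ 1 / 128 ∧ c₀ * ηs ≤ ηf := by
    refine ⟨min (1 / 128) (ηf / c₀), lt_min (by norm_num) (by positivity), min_le_left _ _, ?_⟩
    calc c₀ * min (1 / 128) (ηf / c₀) ≤ c₀ * (ηf / c₀) := by gcongr; exact min_le_right _ _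
      _ = ηf := by field_simp
  obtain ⟨m₀, δs, hm₀, hδs, hS⟩ := hstep D G 16 Λ ηs le_rfl hηs0
  obtain ⟨m₁, hm₁, hM1'⟩ := hM1 D G M a b hab hM x₀ (R + 8) (1 / 16) (by norm_num)
  obtain ⟨m, hm0, hmm₀, hmm₁⟩ : ∃ m : ℝ, 0 < m ∧ m ≤ m₀ ∧ m ≤ m₁ :=
    ⟨min m₀ m₁, lt_min hm₀ hm₁, min_le_left _ _, min_le_right _ _⟩
  obtain ⟨r, J, h, hr, hr1, hJ, hh, hF⟩ := hF (m / 4) (by positivity)
  obtain ⟨p, Kn, hflat⟩ := flat_scale hD (show 0 < 2 * G by positivity) (show 0 < J by linarith) hh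
  obtain ⟨L, c, ρ₁, hL, hc, hρ₁, htr⟩ := transfer hst hD hΛ0 (show 0 < ε / 2 by positivity)
  obtain ⟨p₀, q1, q2, q3, q4⟩ : ∃ p₀, Λ * (D * (2 * (J * us p₀)) ^ 2) ≤ 1 / 2 ∧
      2 * (J * us p₀) ≤ 64 ∧ L * us p₀ ≤ 64 ∧ us p₀ ≤ ρ₁ :=
    ((ev_small (f := fun u => Λ * (D * (2 * (J * u)) ^ 2)) (by fun_prop) (by simp) (by norm_num)).and
      ((ev_small (f := fun u => 2 * (J * u)) (by fun_prop) (by simp) (by norm_num)).and
      ((ev_small (f := fun u => L * u) (by fun_prop) (by simp) (by norm_num)).and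
      (ev_small (f := fun u => u) (by fun_prop) rfl hρ₁)))).exists
  obtain ⟨n, hn⟩ : ∃ n, n = p₀ + p * Kn := ⟨_, rfl⟩
  obtain ⟨r₀, hr₀⟩ : ∃ r₀, r₀ = r * us n := ⟨_, rfl⟩
  have hun := us_pos n
  have hr₀0 : 0 < r₀ := by rw [hr₀]; positivity
  have hr₀u : r₀ ≤ us n := by rw [hr₀]; exact mul_le_of_le_one_left hun.le hr1
  have hr₀h : r₀ ≤ 1 / 2 := hr₀u.trans (us_le n)
  obtain ⟨δ, hδ0, hδ1, hδ2, hδ3⟩ : ∃ δ : ℝ, 0 < δ ∧ δ ≤ δs * us n ^ 2 ∧ δ ≤ r₀ ^ 2 / 4 ∧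
      δ ≤ c * r₀ ^ 2 :=
    ⟨min (δs * us n ^ 2) (min (r₀ ^ 2 / 4) (c * r₀ ^ 2)),
      lt_min (by positivity) (lt_min (by positivity) (by positivity)), min_le_left _ _,
      (min_le_right _ _).trans (min_le_left _ _), (min_le_right _ _).trans (min_le_right _ _)⟩
  obtain ⟨l₁, hl₁, hl⟩ := ev_pos ((hΛ δ hδ0).and (ev_time hab 2))
  obtain ⟨l₂, hl₂, hcov⟩ := ev_pos hM1'
  refine ⟨r₀, hr₀0, by linarith, ev_of (lt_min hl₁ (half_pos hl₂)) fun lam hlam hle y hy => ?_⟩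
  obtain ⟨hd, ha⟩ := hl lam hlam (hle.trans (min_le_left _ _))
  have hlam2 : 2 * lam ≤ l₂ := by linarith only [hle.trans (min_le_right _ _)]
  have hl2 : 0 < lam ^ 2 := by positivity
  obtain ⟨T, hT⟩ : ∃ T, T = b - lam ^ 2 := ⟨_, rfl⟩
  rw [← hT]
  have hI : ∀ t, T - lam ^ 2 ≤ t → t ≤ T → t ∈ Ioo a b := fun t h1 h2 =>
    ⟨by linarith only [h1, ha, hT], by linarith only [h2, hT, hl2]⟩
  have hloc : ∀ Λ' ρ a' b', Λ / lam ^ 2 ≤ Λ' → ρ ≤ 64 * lam → T - lam ^ 2 ≤ a' → b' ≤ T →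
      diss M Λ' y ρ a' b' ≤ ENNReal.ofReal (δ * lam ^ 2) := fun Λ' ρ a' b' h1 h2 h3 h4 =>
    (diss_mono h1 (by linarith only [h2, hy]) (by linarith only [h3, hT])
      (by linarith only [h4, hT, hl2])).trans hd
  have hr2 : (r₀ * lam) ^ 2 ≤ lam ^ 2 / 4 := by
    calc (r₀ * lam) ^ 2 ≤ (1 / 2 * lam) ^ 2 := by gcongr
      _ = _ := by ring
  have hr3 : 0 < (r₀ * lam) ^ 2 := by positivity
  have hδ4 : δ * lam ^ 2 ≤ (r₀ * lam) ^ 2 / 4 := by
    calc δ * lam ^ 2 ≤ r₀ ^ 2 / 4 * lam ^ 2 := by gcongr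
      _ = _ := by ring
  obtain ⟨t, ⟨ht1, ht2⟩, hgt⟩ := exists_time _ (show (0 : ℝ) ≤ 1 / 2 by norm_num) (by positivity)
    (show δ * lam ^ 2 < 1 / 2 * (T - (T - (r₀ * lam) ^ 2)) by linarith only [hδ4, hr3])
    (hloc _ (64 * lam) (T - (r₀ * lam) ^ 2) T le_rfl le_rfl (by linarith only [hr2, hl2]) le_rfl)
  have htI : t ∈ Ioo a b := hI t (by linarith only [ht1, hr2, hl2]) ht2
  have hAt := hM.ratio t htI
  have hsurf := isSurf_slice hM.mcf htI
  have hch := cover_scales hηs1 hδs hm0 hmm₀ hmm₁ hΛ0 hR hlam hlam2 hδ1 (hS M _ hM)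
    (by rw [hT, sub_add_cancel]; exact hcov) hy hI hloc (by linarith only [ht1, hr2]) ht2
  have hu0 := us_pos p₀
  obtain ⟨j, hj1, hj2, hfl⟩ := hflat (M t) hAt y lam p₀ hlam (by
    refine a2_bound hAt (hM.lgb t htI) (by positivity) ?_ (by positivity) ?_ hgt
    · calc 2 * (J * (us p₀ * lam)) = 2 * (J * us p₀) * lam := by ring
        _ ≤ 64 * lam := by gcongr
    · refine le_trans (le_of_eq ?_) q1
      field_simp)
  rw [← hn] at hj2
  have huj := us_pos j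
  have hg1 : gA (M t) y (r * (us j * lam)) ≤ 1 + ε / 2 := by
    refine hF (M t) hsurf hAt y _ (by positivity) hfl
      ((cov_area hD.le hsurf.1 hAt (hch j hj2)).trans (ENNReal.ofReal_le_ofReal ?_))
    rw [← mul_assoc, ← hc₀]
    gcongr
  obtain ⟨σ, hσ⟩ : ∃ σ, σ = r * (us j * lam) := ⟨_, rfl⟩
  rw [← hσ] at hg1
  have hσ0 : 0 < σ := by rw [hσ]; positivity
  have hσ1 : r₀ * lam ≤ σ := by
    rw [hr₀, mul_assoc, hσ]
    gcongr
    exact us_anti hj2
  have hσ2 : σ ≤ us p₀ * lam := by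
    rw [hσ]
    refine (mul_le_of_le_one_left (by positivity) hr1).trans ?_
    gcongr
    exact us_anti hj1
  have hσ3 : σ ≤ lam :=
    hσ2.trans (mul_le_of_le_one_left hlam.le ((us_le p₀).trans (by norm_num)))
  have hσ4 : (r₀ * lam) ^ 2 ≤ σ ^ 2 := by gcongr
  have hσ5 : σ ^ 2 ≤ lam ^ 2 := by gcongr
  have hσ6 : L * σ ≤ 64 * lam := by
    calc L * σ ≤ L * (us p₀ * lam) := by gcongr
      _ = L * us p₀ * lam := by ring
      _ ≤ 64 * lam := by gcongr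
  have hσ7 : δ * lam ^ 2 ≤ c * σ ^ 2 := by
    calc δ * lam ^ 2 ≤ c * r₀ ^ 2 * lam ^ 2 := by gcongr
      _ = c * (r₀ * lam) ^ 2 := by ring
      _ ≤ c * σ ^ 2 := by gcongr
  have hg2 := htr M _ hM.mcf hM.ratio y lam σ (T - σ ^ 2) t hlam hσ0 (hσ2.trans (by gcongr))
    (by linarith only [hσ4, ht1]) (by linarith only [ht2])
    (fun s hs => hI s (by linarith only [hs.1, hσ5]) (by linarith only [hs.2, ht2]))
    ((hloc _ _ _ _ le_rfl hσ6 (by linarith only [hσ5]) ht2).trans (ENNReal.ofReal_le_ofReal hσ7))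
  have hmono := dens_mono' hH hM.mcf hM.ratio y T (show 0 < r₀ * lam by positivity) hσ1
    (fun s hs => hI s (by linarith only [hs.1, hσ5]) (by linarith only [hs.2, hr3]))
  refine hmono.trans ?_
  unfold dens
  linarith only [hg1, hg2]

theorem t0_of (hM1 : M1Stmt) (hstep : StepStmt) (hfin : FinS) (hst : StaticS) (hdiss : DissStmt)
    (hH : HuiskenStmt) : T0Stmt := by
  intro D G M a b hab hM x₀ R ε hε
  have hM' : InC (max D 1) (max G 1) M (Ioo a b) :=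
    ⟨hM.mcf, fun t ht => (hM.ratio t ht).mono (le_max_left _ _), fun t ht p r hr =>
      (hM.lgb t ht p r hr).trans (by gcongr; exact le_max_left _ _)⟩
  obtain ⟨r, h1, h2, h3⟩ := t0_pos hM1 hstep hfin hst hdiss hH
    (lt_max_of_lt_right one_pos) (lt_max_of_lt_right one_pos) hab hM' x₀ (le_max_right R 0) hε
  refine ⟨r, h1, h2, ?_⟩
  filter_upwards [h3, self_mem_nhdsWithin] with lam h hl y hy
  exact h y (hy.trans (mul_le_mul_of_nonneg_right (le_max_left _ _) (le_of_lt hl)))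

theorem t1_of (hT0 : T0Stmt) (hW : WhiteS) (hH : HuiskenStmt) : T1Stmt := by
  intro D G M a b hab hM x₀ R
  obtain ⟨ε, r, C, hε, hr, hC, hW⟩ := hW D
  obtain ⟨r₀, hr₀, hr₁, hT⟩ := hT0 D G M a b hab hM x₀ (|R| + 3) ε hε
  obtain ⟨l₁, hl₁, hl⟩ := ev_pos (hT.and (ev_time hab 2))
  refine ⟨r * r₀, C / r₀, b - (l₁ / 3) ^ 2, by positivity, by positivity,
    by nlinarith [sq_pos_of_pos (show 0 < l₁ / 3 by positivity)], fun t ht x hx hxR => ?_⟩
  have hbt : 0 < b - t := sub_pos.mpr ht.2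
  have hsq := Real.sq_sqrt hbt.le
  set lam := √(b - t) with hlamdef
  have hlam : 0 < lam := Real.sqrt_pos.mpr hbt
  have hlam1 : lam ≤ l₁ / 3 := (sq_le_sq₀ hlam.le (by positivity)).mp (by linarith [ht.1])
  have hσ0 : 0 < r₀ * lam := by positivity
  have hσ1 : r₀ * lam ≤ lam := mul_le_of_le_one_left hlam.le hr₁
  have hσ2 : (r₀ * lam) ^ 2 ≤ lam ^ 2 := by gcongr
  have ha := (hl (3 * lam) (by positivity) (by linarith)).2
  have hl2 : 0 < lam ^ 2 := by positivity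
  have := hW M _ hM.mcf hM.ratio x t (r₀ * lam) hσ0
    (fun s hs => ⟨by nlinarith [hs.1], by linarith [hs.2]⟩) (by
      intro y hy t' ht'
      have hpos : 0 ≤ b - t' := by linarith [ht'.2]
      have hsq' := Real.sq_sqrt hpos
      set l := √(b - t') with hldef
      have hl0 : 0 ≤ l := Real.sqrt_nonneg _
      have h1 : lam ≤ l := (sq_le_sq₀ hlam.le hl0).mp (by linarith [ht'.2])
      have h2 : l ≤ 2 * lam := (sq_le_sq₀ hl0 (by positivity)).mp (by nlinarith [ht'.1])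
      have h3 := (hl l (by linarith) (by linarith)).1 y (by
        have h4 := mem_ball_iff_norm.mp hy
        have h5 : ‖y - x₀‖ ≤ ‖y - x‖ + ‖x - x₀‖ := by
          rw [show y - x₀ = (y - x) + (x - x₀) by abel]
          exact norm_add_le _ _
        have h6 : R * lam ≤ |R| * l :=
          mul_le_mul (le_abs_self R) h1 hlam.le (abs_nonneg R)
        nlinarith)
      rw [show b - l ^ 2 = t' by linarith] at h3
      have h7 : (r₀ * l) ^ 2 ≤ l ^ 2 := by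
        gcongr
        exact mul_le_of_le_one_left hl0 hr₁
      have h8 : l ^ 2 ≤ (2 * lam) ^ 2 := by gcongr
      refine (dens_mono' hH hM.mcf hM.ratio y t' hσ0 (by gcongr) fun s hs => ⟨?_, ?_⟩).trans h3
      · nlinarith [hs.1]
      · nlinarith [hs.2, ht'.2, sq_pos_of_pos hσ0]) hx
  rwa [← mul_assoc, ← div_div] at this

end TT

end Vale.Agent.P218FT
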