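import Vale.Agent.P218FT.T0
import Vale.Agent.P218FT.Scale
import Vale.Agent.P218FT.Local2

/-! `M1Stmt`, `T0Stmt` and `T1Stmt` from the blocks of the specification. -/

open MeasureTheory Set Filter Topology Metric
open scoped ENNReal NNReal RealInnerProductSpace ContDiff

namespace Vale.Agent.P218FT

theorem sepPos_proof : SepPosStmt := by
  intro M I hM t₁ t₂ c R hI
  obtain ⟨r, C, hr, hC, h⟩ := hM.exists_twoPt_compact hI c R
  exact ⟨min r (1 / (2 * C)), lt_min hr (by positivity), fun t ht x hx hxc y hy =>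
    (h t ht x hx hxc).le_of_cone hC hy.1 hy.2.1 hy.2.2⟩

namespace TT

theorem finS_of (h : FinStmt) : FinS := by
  intro D ε hε
  obtain ⟨η, hη, h⟩ := h D ε hε
  refine ⟨η, hη, fun m hm => ?_⟩
  obtain ⟨r, J, k, hr, hr1, hJ, hk, h⟩ := h m hm
  refine ⟨r, J, k, hr, hr1, hJ, hk, fun N hN hA y ρ hρ h1 h2 => ?_⟩
  have hl := inv_pos.2 hρ
  have hm := hN.1.measurableSet
  have := h (scaleSet ρ⁻¹ y N) (IsSurf.scale hl.ne' hN y) (AreaRatio.scale hl hA y) (by
      rw [lintegral_sqrt_a2_zoom hρ hm, smul_zero, add_zero]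
      refine (mul_le_mul_right h1 _).trans (le_of_eq ?_)
      rw [← ENNReal.ofReal_mul hl.le]
      congr 1
      field_simp) (by
      rw [area_notSep_zoom hρ hm, smul_zero, add_zero, one_mul]
      refine (mul_le_mul_right h2 _).trans (le_of_eq ?_)
      rw [← ENNReal.ofReal_mul (by positivity)]
      congr 1
      field_simp)
  rwa [gA_zoom hρ, smul_zero, add_zero] at this

theorem staticS_of (h : StaticStmt) : StaticS := by
  intro D hD M I hM hA ζ R K hR hζ y s a b α d hs hab hI hα hd hdiss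
  have hl := inv_pos.2 hs
  have h2 : 0 < s ^ 2 := by positivity
  have ea : (0 : ℝ) + a / s ^ 2 * s ^ 2 = a := by field_simp; ring
  have eb : (0 : ℝ) + b / s ^ 2 * s ^ 2 = b := by field_simp; ring
  have := h D hD _ _ (IsMCF.scale hl hM y 0) (ratio_scaleFlow hl hA y 0) ζ 0 R K (a / s ^ 2) (b / s ^ 2)
    α (d / s ^ 2) hR hζ (by gcongr) ((Icc_subset_zoomInt hs).2 (by rwa [ea, eb])) hα (by positivity)
    (by
      rw [hM.diss_zoom hs (by rwa [ea, eb]), ea, eb, zero_div, smul_zero, add_zero]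
      refine (mul_le_mul_right hdiss _).trans (le_of_eq ?_)
      rw [← ENNReal.ofReal_mul (by positivity)]
      congr 1
      field_simp)
  have e : ∀ N : Set E3, ∫ x, ζ x ∂(area (scaleSet s⁻¹ y N)) =
      (s ^ 2)⁻¹ * ∫ x, ζ (s⁻¹ • (x - y)) ∂(area N) := by
    intro N
    have := integral_zoom hs y N (fun x => ζ (s⁻¹ • (x - y)))
    simpa only [add_sub_cancel_left, inv_smul_smul₀ hs.ne', smul_eq_mul] using this
  rw [zoomFlow_apply, zoomFlow_apply, ea, eb, e, e, ← mul_sub, abs_mul,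
    abs_of_pos (inv_pos.2 h2), inv_mul_le_iff₀ h2] at this
  refine this.trans (le_of_eq ?_)
  field_simp

theorem whiteS_of (h : WhiteStmt) : WhiteS := by
  intro D
  obtain ⟨ε, r, C, hε, hr, hC, hW⟩ := h D
  exact ⟨ε, r, C, hε, hr, hC, fun M I hM hA x t σ hσ hI hd hx =>
    hW.zoom hσ hM hA x t hI hd t ⟨by nlinarith [sq_nonneg σ], le_rfl⟩ x hx (mem_ball_self hσ)⟩

end TT

/-- `M1Stmt` from the step lemma and the dissipation estimate -/
theorem m1_proof' (hstep : StepStmt) (hdiss : DissStmt) : M1Stmt :=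
  m1_proof sepPos_proof hstep hdiss

/-- `T0Stmt` from the blocks -/
theorem t0_proof (hstep : StepStmt) (hfin : FinStmt) (hst : StaticStmt) (hdiss : DissStmt)
    (hH : HuiskenStmt) : T0Stmt :=
  TT.t0_of (m1_proof' hstep hdiss) hstep (TT.finS_of hfin) (TT.staticS_of hst) hdiss hH

/-- `T1Stmt` from `T0Stmt` and the local regularity theorem -/
theorem t1_of_t0 (hT0 : T0Stmt) (hW : WhiteStmt) (hH : HuiskenStmt) : T1Stmt :=
  TT.t1_of hT0 (TT.whiteS_of hW) hH

/-- `T1Stmt` from the blocks -/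
theorem t1_proof (hstep : StepStmt) (hfin : FinStmt) (hEV : EVStmt) (hdiss : DissStmt)
    (hH : HuiskenStmt) (hW : WhiteStmt) : T1Stmt :=
  t1_of_t0 (t0_proof hstep hfin (static_proof hEV) hdiss hH) hW hH

end Vale.Agent.P218FT
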