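import Vale.Agent.P218FT.NC1
import Mathlib.Analysis.Calculus.ParametricIntegral

/-! Integrals change little under translations which are almost tangent (`TransStmt`). -/

open MeasureTheory Set Filter Topology Metric
open scoped ENNReal NNReal RealInnerProductSpace ContDiff

namespace Vale.Agent.P218FT

open NC

lemma NC.lintegral_tilt_le {D : ℝ} {N : Set E3} (hN : IsSurf N) (hA : AreaRatio D N) {p e : E3}
    {R γ c : ℝ} (hR : 0 < R) (he : ‖e‖ = 1) (hγ : 0 ≤ γ) (hD : 0 ≤ D) (hc : 0 ≤ c)
    (hB : area N {x | x ∈ ball p R ∧ γ ^ 2 < 1 - ⟪nu N x, e⟫ ^ 2} ≤ ENNReal.ofReal c) :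
    ∫⁻ x in ball p R, ENNReal.ofReal ‖pt e (nu N x)‖ ∂(area N)
      ≤ ENNReal.ofReal (γ * (D * R ^ 2) + c) := by
  set B := {x | x ∈ ball p R ∧ γ ^ 2 < 1 - ⟪nu N x, e⟫ ^ 2}
  calc ∫⁻ x in ball p R, ENNReal.ofReal ‖pt e (nu N x)‖ ∂(area N)
      ≤ ∫⁻ x in ball p R, (ENNReal.ofReal γ + B.indicator 1 x) ∂(area N) := by
        refine lintegral_mono_ae ?_
        filter_upwards [ae_restrict_of_ae (ae_mem hN), ae_restrict_mem measurableSet_ball]
          with x hx hx'
        by_cases h : x ∈ B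
        · rw [indicator_of_mem h, Pi.one_apply]
          refine le_add_left (ENNReal.ofReal_le_one.2 ?_)
          exact (norm_pt_le he _).trans (hN.norm_nu hx).le
        · rw [indicator_of_notMem h, add_zero]
          refine ENNReal.ofReal_le_ofReal (norm_pt_le_of he (hN.norm_nu hx) hγ ?_).1
          by_contra h'
          exact h ⟨hx', not_le.1 h'⟩
    _ ≤ ENNReal.ofReal γ * area N (ball p R) + area N B := by
        rw [lintegral_add_left measurable_const, lintegral_const, Measure.restrict_apply_univ]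
        gcongr
        exact (lintegral_indicator_one_le _).trans (Measure.restrict_apply_le _ _)
    _ ≤ ENNReal.ofReal γ * ENNReal.ofReal (D * R ^ 2) + ENNReal.ofReal c := by
        gcongr; exact hA p R hR
    _ = _ := by rw [← ENNReal.ofReal_mul hγ, ← ENNReal.ofReal_add (by positivity) hc]

lemma NC.integral_fderiv_le (hFV : FVStmt) {D : ℝ} (hD : 0 ≤ D) {N : Set E3} (hN : IsSurf N)
    (hA : AreaRatio D N) {ζ : E3 → ℝ} {p e b : E3} {R K γ h c : ℝ} (hR : 0 < R)
    (hζ : Test ζ p R K) (he : ‖e‖ = 1) (hb : ⟪b, e⟫ = 0) (hγ : 0 ≤ γ) (hh : 0 ≤ h) (hc : 0 ≤ c)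
    (hH : ∫⁻ x in ball p R, ENNReal.ofReal ‖Hv N x‖ ∂(area N) ≤ ENNReal.ofReal h)
    (hB : area N {x | x ∈ ball p R ∧ γ ^ 2 < 1 - ⟪nu N x, e⟫ ^ 2} ≤ ENNReal.ofReal c) :
    |∫ x, fderiv ℝ ζ x b ∂(area N)| ≤ K * ‖b‖ * (h + γ * (D * R ^ 2) + c) := by
  have hK := hζ.nonneg
  have hcont : Continuous (fderiv ℝ ζ) := hζ.smooth.continuous_fderiv one_ne_zero
  have i1 : Integrable (fun x => fderiv ℝ ζ x b) (area N) :=
    integrable_of_contOn hN hA (hcont.clm_apply continuous_const).continuousOn (p := p) (R := R)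
      fun x _ hx => by rw [hζ.fderiv_eq_zero hR hx]; rfl
  have i2 : Integrable (fun x => fderiv ℝ ζ x (pt (nu N x) b)) (area N) :=
    integrable_of_contOn hN hA
      (hcont.continuousOn.clm_apply ((contOn_pt hN).clm_apply continuousOn_const)) (p := p) (R := R)
      fun x _ hx => by rw [hζ.fderiv_eq_zero hR hx]; rfl
  have b1 : |∫ x, fderiv ℝ ζ x (pt (nu N x) b) ∂(area N)| ≤ K * ‖b‖ * h := by
    rw [fv_smul hFV hN hζ.smooth hζ.hasCompactSupport, abs_neg]
    refine abs_integral_le hN (by positivity) hh (fun x _ => ?_) (fun x _ hx => ?_) hH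
    · rw [abs_mul, mul_assoc]
      exact mul_le_mul (hζ.b0 x) (abs_real_inner_le_norm _ _) (abs_nonneg _) hK
    · rw [hζ.supp x hx, zero_mul]
  have b2 : |∫ x, (fderiv ℝ ζ x b - fderiv ℝ ζ x (pt (nu N x) b)) ∂(area N)|
      ≤ K * ‖b‖ * (γ * (D * R ^ 2) + c) := by
    refine abs_integral_le hN (by positivity) (by positivity) (fun x hx => ?_) (fun x _ hx => ?_)
      (lintegral_tilt_le hN hA hR he hγ hD hc hB)
    · rw [← map_sub, pt_apply, sub_sub_cancel, map_smul, smul_eq_mul, abs_mul]
      have e1 : |⟪nu N x, b⟫| ≤ ‖b‖ * ‖pt e (nu N x)‖ := by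
        have : ⟪nu N x, b⟫ = ⟪pt e (nu N x), b⟫ := by
          rw [inner_pt_left, pt_of_orth (by rw [real_inner_comm]; exact hb)]
        rw [this, mul_comm]
        exact abs_real_inner_le_norm _ _
      have e2 : |fderiv ℝ ζ x (nu N x)| ≤ K := by
        have := (fderiv ℝ ζ x).le_opNorm (nu N x)
        rw [hN.norm_nu hx, mul_one] at this
        exact this.trans (hζ.b1 x)
      rw [mul_comm, mul_assoc]
      gcongr
    · rw [hζ.fderiv_eq_zero hR hx]; simp
  rw [integral_sub i1 i2] at b2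
  have := abs_add_le (∫ x, fderiv ℝ ζ x b ∂(area N) - ∫ x, fderiv ℝ ζ x (pt (nu N x) b) ∂(area N))
    (∫ x, fderiv ℝ ζ x (pt (nu N x) b) ∂(area N))
  rw [sub_add_cancel] at this
  nlinarith

theorem trans_proof (hFV : FVStmt) : TransStmt := by
  intro D hD N hN hA ζ p e b R K γ h c hR hζ he hbe hb hγ hh hc hH hB
  have := hA.locFin
  have hK := hζ.nonneg
  have hcont : Continuous (fderiv ℝ ζ) := hζ.smooth.continuous_fderiv one_ne_zero
  have hdiff := hζ.smooth.differentiable one_ne_zero
  have key : ∀ t ∈ Icc (0 : ℝ) 1, HasDerivAt (fun s : ℝ => ∫ x, ζ (x - s • b) ∂(area N))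
      (∫ x, -fderiv ℝ ζ (x - t • b) b ∂(area N)) t := by
    intro t ht
    refine (hasDerivAt_integral_of_dominated_loc_of_deriv_le (s := ball t 1)
      (F := fun s x => ζ (x - s • b)) (F' := fun s x => -fderiv ℝ ζ (x - s • b) b)
      (bound := (ball p (3 * R)).indicator fun _ => K * ‖b‖) (ball_mem_nhds t one_pos)
      (Eventually.of_forall fun s => ?_) ((hζ.translate (t • b)).integrable hA) ?_
      (Eventually.of_forall fun x s hs => ?_) ?_ (Eventually.of_forall fun x s _ => ?_)).2
    · exact ((hζ.translate (s • b)).integrable hA).1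
    · exact ((hcont.comp (by fun_prop)).clm_apply continuous_const).neg.aestronglyMeasurable
    · by_cases hx : x ∈ ball p (3 * R)
      · rw [indicator_of_mem hx, norm_neg]
        exact ((fderiv ℝ ζ _).le_opNorm b).trans (by gcongr; exact hζ.b1 _)
      · rw [indicator_of_notMem hx, hζ.fderiv_eq_zero hR]
        · simp
        · have h1 : 3 * R ≤ ‖x - p‖ := by simpa [dist_eq_norm] using hx
          have h2 : ‖x - p‖ ≤ ‖x - s • b - p‖ + ‖s • b‖ := by
            have := norm_add_le (x - s • b - p) (s • b)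
            rwa [show x - s • b - p + s • b = x - p by abel] at this
          have h3 : |s| ≤ 2 := by
            rw [mem_ball, Real.dist_eq, abs_lt] at hs
            rw [abs_le]; constructor <;> linarith [ht.1, ht.2]
          have h4 : ‖s • b‖ ≤ 2 * R := by rw [norm_smul, Real.norm_eq_abs]; gcongr
          linarith
    · exact (integrableOn_const (hA.ball_lt_top p _).ne).integrable_indicator measurableSet_ball
    · have h1 : HasDerivAt (fun s : ℝ => x - s • b) (-b) s := by
        simpa using ((hasDerivAt_id s).smul_const b).const_sub x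
      simpa [Function.comp_def] using (hdiff _).hasFDerivAt.comp_hasDerivAt s h1
  have bd : ∀ t ∈ Ico (0 : ℝ) 1, ‖∫ x, -fderiv ℝ ζ (x - t • b) b ∂(area N)‖
      ≤ K * ‖b‖ * (h + γ * (D * (2 * R) ^ 2) + c) := by
    intro t ht
    have hT : Test (fun x => ζ (x - t • b)) p (2 * R) K := by
      refine (hζ.translate (t • b)).mono ?_ le_rfl
      rw [sub_add_cancel_left, norm_neg, norm_smul, Real.norm_eq_abs, abs_of_nonneg ht.1]
      nlinarith [ht.1, ht.2, norm_nonneg b]
    have := integral_fderiv_le hFV hD hN hA (by positivity) hT he hbe hγ hh hc hH hB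
    rw [integral_neg, norm_neg, Real.norm_eq_abs]
    simpa only [fderiv_comp_sub] using this
  have := norm_image_sub_le_of_norm_deriv_le_segment_01'
    (fun t ht => (key t ht).hasDerivWithinAt) bd
  simpa using this

end Vale.Agent.P218FT
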