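import Vale.Agent.P218FT.WhiteFin
import Vale.Agent.P218FT.Huisken3
import Vale.Agent.P218FT.Int3
import Vale.Agent.P218FT.BadCore
import Vale.Agent.P218FT.BadFin
import Vale.Agent.P218FT.Barrier
import Vale.Agent.P218FT.Fin
import Vale.Agent.P218FT.NC
import Vale.Agent.P218FT.AI
import Vale.Agent.P218FT.Static
import Vale.Agent.P218FT.Step
import Vale.Agent.P218FT.T1
import Vale.Agent.P218FT.Trans

/-! Assembly of block T. -/

namespace Vale.Agent.P218FT

theorem huisken : HuiskenStmt := Hu.huisken_proof fv_proof cont_proof ev_proof

theorem ratio_all : P218FS.RatioStmt := Hu.ratio_proof fv_proof cont_proof ev_proof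

theorem white : WhiteStmt := white_proof Int.int3_proof huisken Hu.dens_proof

theorem t1_of (hNC : NCStmt) (hAI : AIStmt) : T1Stmt :=
  t1_proof
    (step_proof barrier_proof
      (bad_proof (badCore_proof huisken Hu.dens_proof Chart.proj_proof) hAI white Hu.dens_proof)
      cont_proof gauss_proof)
    (fin_proof hNC (trans_proof fv_proof) Chart.proj_proof gauss_proof) ev_proof
    (Hu.diss_proof huisken) huisken white

theorem nc_all : NCStmt := nc_proof fv_proof Chart.lower_proof

/-- **Block T1** -/
theorem t1_all : T1Stmt :=
  t1_of nc_all (ai_proof nc_all (static_proof ev_proof) (trans_proof fv_proof))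

end Vale.Agent.P218FT
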