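import Vale.Agent.P218FT.TAll
import Vale.Agent.P218FT.ConvB
import Vale.Agent.P218FT.ConvD

/-! Block T without hypotheses, up to the compactness theorem. -/

open Filter

namespace Vale.Agent.P218FT

theorem Conv.b_proof : Conv.BStmt :=
  ⟨fun _ _ _ _ _ h _ ht => h.slice_const ht, fun _ _ _ _ hN _ h =>
    ⟨fun _ hA => ⟨h.ratio hN hA, fun _ _ hr =>
      h.tendsto_gA hN hA tendsto_const_nhds tendsto_const_nhds hr⟩, fun _ hG => h.lgb hN hG⟩⟩

theorem conv_of_comp (hC : CompStmt) : ConvStmt := Conv.conv_of hC Conv.b_proof t1_all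

end Vale.Agent.P218FT
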