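import Vale.Agent.P218FT.WSpec
import Vale.Agent.P218FT.Local
import Vale.Agent.P218FT.Gauss
import Mathlib.Analysis.Calculus.BumpFunction.InnerProduct
import Mathlib.MeasureTheory.Function.LocallyIntegrable
import Mathlib.MeasureTheory.Integral.Bochner.Set

/-! If the density ratios are close to one then the flow is close to the plane through three of
its points. -/

open MeasureTheory Set Filter Topology Metric
open scoped ENNReal NNReal RealInnerProductSpace ContDiff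

namespace Vale.Agent.P218FT.WH

/-! ### Continuity on the space-time track -/

/-- the spatial gradient as a function on space-time -/
noncomputable def sg (w : ℝ × E3 → ℝ) (p : ℝ × E3) : E3 :=
  rz ((fderiv ℝ w p).comp (ContinuousLinearMap.inr ℝ ℝ E3))

lemma contDiff_sg {w : ℝ × E3 → ℝ} (hw : ContDiff ℝ ∞ w) : ContDiff ℝ ∞ (sg w) :=
  rz.contDiff.comp ((hw.fderiv_right (m := ∞) (by simp)).clm_comp contDiff_const)

lemma hasFDerivAt_slice {F : Type*} [NormedAddCommGroup F] [NormedSpace ℝ F] {w : ℝ × E3 → F}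
    (hw : ContDiff ℝ ∞ w) (s : ℝ) (x : E3) :
    HasFDerivAt (fun y => w (s, y)) ((fderiv ℝ w (s, x)).comp (ContinuousLinearMap.inr ℝ ℝ E3)) x :=
  HasFDerivAt.comp x (g := w) (f := fun y => (s, y))
    ((hw.differentiable (by simp)) (s, x)).hasFDerivAt (hasFDerivAt_prodMk_right s x)

lemma grad_slice {w : ℝ × E3 → ℝ} (hw : ContDiff ℝ ∞ w) (s : ℝ) :
    gradient (fun y => w (s, y)) = fun y => sg w (s, y) := by
  funext y
  rw [gradient_eq_rz]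
  simp only [sg, (hasFDerivAt_slice hw s y).fderiv]

lemma eventually_eqn {M : ℝ → Set E3} {I : Set ℝ} (hM : IsMCF M I) {p : ℝ × E3}
    (hp : p ∈ track M I) : ∃ w : ℝ × E3 → ℝ, ContDiff ℝ ∞ w ∧ sg w p ≠ 0 ∧
      ∀ᶠ q : ℝ × E3 in 𝓝 p, IsEqn (M q.1) q.2 fun y => w (q.1, y) := by
  obtain ⟨w, hw, h0, h1, -⟩ := hM.loc p.1 hp.1 p.2 hp.2
  rw [grad_slice hw] at h0
  refine ⟨w, hw, h0, ?_⟩
  have h2 : ∀ᶠ q in 𝓝 p, sg w q ≠ 0 := (contDiff_sg hw).continuous.continuousAt.eventually_ne h0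
  filter_upwards [h2, h1.eventually_nhds] with q hq hq'
  refine ⟨hw.comp (contDiff_const.prodMk contDiff_id), by rwa [grad_slice hw], ?_⟩
  have ht : Tendsto (fun y : E3 => (q.1, y)) (𝓝 q.2) (𝓝 q) :=
    (continuous_const.prodMk continuous_id).tendsto q.2
  exact ht.eventually hq'

lemma isSurf {M : ℝ → Set E3} {I : Set ℝ} (hM : IsMCF M I) {t : ℝ} (ht : t ∈ I) :
    IsSurf (M t) := by
  refine ⟨?_, fun x hx => ?_⟩
  · rw [← isOpen_compl_iff, isOpen_iff_mem_nhds]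
    intro x hx
    have h1 : Tendsto (fun y : E3 => (t, y)) (𝓝 x) (𝓝 (t, x)) :=
      (continuous_const.prodMk continuous_id).tendsto x
    exact h1.eventually (hM.closed t ht x hx)
  · obtain ⟨w, -, -, h⟩ := eventually_eqn hM (p := (t, x)) ⟨ht, hx⟩
    exact ⟨_, h.self_of_nhds⟩

lemma mono {M : ℝ → Set E3} {I J : Set ℝ} (hM : IsMCF M I) (hJ : IsOpen J) (h : J ⊆ I) :
    IsMCF M J :=
  ⟨hJ, fun t ht => hM.closed t (h ht), fun t ht => hM.loc t (h ht)⟩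

lemma contOn_both {M : ℝ → Set E3} {I : Set ℝ} (hM : IsMCF M I) :
    ContinuousOn (fun p : ℝ × E3 => pt (nu (M p.1) p.2)) (track M I) ∧
      ContinuousOn (fun p : ℝ × E3 => Hv (M p.1) p.2) (track M I) := by
  have key : ∀ p ∈ track M I,
      ContinuousWithinAt (fun p : ℝ × E3 => pt (nu (M p.1) p.2)) (track M I) p ∧
      ContinuousWithinAt (fun p : ℝ × E3 => Hv (M p.1) p.2) (track M I) p := by
    intro p hp
    obtain ⟨w, hw, h0, h1⟩ := eventually_eqn hM hp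
    have hs := contDiff_sg hw
    set n : ℝ × E3 → E3 := fun q => ‖sg w q‖⁻¹ • sg w q with hn
    have cn : ContinuousAt (fun q => ‖sg w q‖⁻¹) p :=
      hs.continuous.norm.continuousAt.inv₀ (norm_ne_zero_iff.2 h0)
    have c1 : ContinuousAt n p := cn.smul hs.continuous.continuousAt
    have c2 : ContinuousAt (fun q => pt (n q)) p := continuous_pt.continuousAt.comp c1
    have c3 : Continuous fun q => (fderiv ℝ (sg w) q).comp (ContinuousLinearMap.inr ℝ ℝ E3) :=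
      (hs.continuous_fderiv (by simp)).clm_comp continuous_const
    have c4 : ContinuousAt (fun q => tr ((-‖sg w q‖⁻¹) • ((pt (n q)).comp
        (((fderiv ℝ (sg w) q).comp (ContinuousLinearMap.inr ℝ ℝ E3)).comp (pt (n q))))) • n q) p :=
      (continuous_tr.continuousAt.comp
        (cn.neg.smul (c2.clm_comp (c3.continuousAt.clm_comp c2)))).smul c1
    have e1 : ∀ q : ℝ × E3, nuw (fun y => w (q.1, y)) q.2 = n q := by
      intro q
      simp only [nuw, grad_slice hw, hn]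
    have e2 : ∀ q : ℝ × E3, shw (fun y => w (q.1, y)) q.2 = (-‖sg w q‖⁻¹) • ((pt (n q)).comp
        (((fderiv ℝ (sg w) q).comp (ContinuousLinearMap.inr ℝ ℝ E3)).comp (pt (n q)))) := by
      intro q
      simp only [shw, e1, grad_slice hw, (hasFDerivAt_slice hs q.1 q.2).fderiv]
    have h2 : ∀ᶠ q in 𝓝[track M I] p, IsEqn (M q.1) q.2 (fun y => w (q.1, y)) ∧ q ∈ track M I :=
      (h1.filter_mono nhdsWithin_le_nhds).and self_mem_nhdsWithin
    constructor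
    · refine c2.continuousWithinAt.congr_of_eventuallyEq_of_mem ?_ hp
      filter_upwards [h2] with q hq
      rw [hq.1.pt_eq hq.2.2, e1]
    · refine c4.continuousWithinAt.congr_of_eventuallyEq_of_mem ?_ hp
      filter_upwards [h2] with q hq
      rw [hq.1.Hv_eq hq.2.2, e1, e2]
  exact ⟨fun p hp => (key p hp).1, fun p hp => (key p hp).2⟩

lemma relV_eq (N : Set E3) (y : E3) (σ : ℝ) (x : E3) :
    relV N y σ x = Hv N x + (2 * σ)⁻¹ • ((x - y) - pt (nu N x) (x - y)) := by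
  rw [relV, pt_apply, sub_sub_cancel, smul_smul, real_inner_comm]

lemma integrable_of_contOn {D : ℝ} {N : Set E3} (hN : IsClosed N) (hA : AreaRatio D N)
    {f : E3 → ℝ} (hf : ContinuousOn f N) {R : ℝ} (h0 : ∀ x, R < ‖x‖ → f x = 0) :
    Integrable f (area N) := by
  have := hA.locFin
  have hK : IsCompact (N ∩ closedBall (0 : E3) R) := (isCompact_closedBall _ _).inter_left hN
  have h1 : IntegrableOn f (N ∩ closedBall (0 : E3) R) (area N) :=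
    (hf.mono inter_subset_left).integrableOn_compact hK
  refine h1.integrable_of_ae_notMem_eq_zero ?_
  filter_upwards [ae_restrict_mem hN.measurableSet] with x hx hx'
  refine h0 x (not_le.1 fun h => hx' ⟨hx, by simpa using h⟩)

/-! ### The dissipation relative to a centre on the flow -/

/-- a weight supported in the ball of radius `B` -/
noncomputable def psi (B : ℝ) (x : E3) : ℝ := max 0 (B - ‖x‖)

lemma psi_nonneg (B : ℝ) (x : E3) : 0 ≤ psi B x := le_max_left _ _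

lemma continuous_psi (B : ℝ) : Continuous (psi B) := by
  unfold psi
  fun_prop

lemma psi_zero {B : ℝ} {x : E3} (h : B ≤ ‖x‖) : psi B x = 0 := max_eq_left (by linarith)

lemma psi_le {B : ℝ} (hB : 0 ≤ B) (x : E3) : psi B x ≤ B :=
  max_le hB (by linarith [norm_nonneg x])

lemma psi_le_gk {B : ℝ} (hB : 0 < B) : ∃ C : ℝ, 0 < C ∧ ∀ (σ : ℝ) (x y : E3), 2 ≤ σ → σ ≤ 4 →
    ‖y‖ ≤ 4 → psi B x ≤ C * gk σ (x - y) := by
  have hπ := Real.pi_pos
  set k : ℝ := (4 * Real.pi * 4)⁻¹ * Real.exp (-(B + 4) ^ 2 / (4 * 2)) with hk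
  have hk0 : 0 < k := by positivity
  refine ⟨B / k, by positivity, fun σ x y h2 h4 hy => ?_⟩
  by_cases hx : B ≤ ‖x‖
  · rw [psi_zero hx]
    exact mul_nonneg (by positivity) (gk_nonneg (by linarith) _)
  have h1 : ‖x - y‖ ≤ B + 4 := (norm_sub_le _ _).trans (by linarith)
  have h3 : k ≤ gk σ (x - y) := by
    have e1 : -(B + 4) ^ 2 / (4 * 2) ≤ -‖x - y‖ ^ 2 / (4 * σ) := by
      rw [neg_div, neg_div, neg_le_neg_iff]
      gcongr
    rw [hk, gk]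
    gcongr
  calc psi B x ≤ B := psi_le hB.le x
    _ = B / k * k := by field_simp
    _ ≤ _ := by gcongr

/-- the weighted dissipation at time `s` -/
noncomputable def FF (M : ℝ → Set E3) (B : ℝ) (y : E3) (t s : ℝ) : ℝ :=
  ∫ x, psi B x * ‖relV (M s) y (t - s) x‖ ^ 2 ∂(area (M s))

lemma near_one (hD : DensStmt) {D : ℝ} {M : ℝ → Set E3} {I : Set ℝ} (hM : IsMCF M I)
    (hA : ∀ t ∈ I, AreaRatio D (M t)) {t : ℝ} (ht : t ∈ I) {y : E3} (hy : y ∈ M t) {ε : ℝ}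
    (hε : 0 < ε) : ∃ b : ℝ, t - 1 ≤ b ∧ b < t ∧ 1 - ε ≤ gA (M b) y √(t - b) := by
  have h1 := (hD D M I hM hA t ht y hy).eventually (lt_mem_nhds (show 1 - ε < 1 by linarith))
  have h2 : ∀ᶠ r in 𝓝[>] (0 : ℝ), r < 1 := nhdsWithin_le_nhds (gt_mem_nhds one_pos)
  obtain ⟨r, ⟨hr, hr1⟩, hr0⟩ := ((h1.and h2).and self_mem_nhdsWithin).exists
  have hr0 : 0 < r := hr0
  refine ⟨t - r ^ 2, by nlinarith, by nlinarith, ?_⟩
  rw [sub_sub_cancel, Real.sqrt_sq hr0.le]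
  exact hr.le

lemma centre (hH : HuiskenStmt) (hD : DensStmt) (hC : ContStmt) {B : ℝ} (hB : 0 < B) :
    ∃ C₁ : ℝ, 0 < C₁ ∧ ∀ (D : ℝ) (M : ℝ → Set E3) (I : Set ℝ), IsMCF M I →
      (∀ t ∈ I, AreaRatio D (M t)) → Icc (-10 : ℝ) 0 ⊆ I → ∀ (y : E3) (t ε : ℝ), 0 < ε → ε ≤ 1 →
      ‖y‖ ≤ 4 → t ∈ Icc (-1 : ℝ) 0 → y ∈ M t → dens M y t 3 ≤ 1 + ε →
      ContinuousOn (FF M B y t) (Icc (-4) (-3)) ∧
      (∀ s ∈ Icc (-4 : ℝ) (-3),
        Integrable (fun x => psi B x * ‖relV (M s) y (t - s) x‖ ^ 2) (area (M s))) ∧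
      ∫ s in Icc (-4 : ℝ) (-3), FF M B y t s ≤ C₁ * ε := by
  obtain ⟨C, hC0, hCk⟩ := psi_le_gk hB
  refine ⟨C * 2, by positivity, fun D M I hM hA hI y t ε hε hε1 hy ht hyt hd => ?_⟩
  have hJI : Ioo (-5 : ℝ) (-2) ⊆ I := fun s hs => hI ⟨by linarith [hs.1], by linarith [hs.2]⟩
  have hKJ : Icc (-4 : ℝ) (-3) ⊆ Ioo (-5 : ℝ) (-2) :=
    fun s hs => ⟨by linarith [hs.1], by linarith [hs.2]⟩
  have hMJ := mono hM isOpen_Ioo hJI
  obtain ⟨c1, c2⟩ := contOn_both hMJ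
  have hg : ContinuousOn (fun p : ℝ × E3 => psi B p.2 * ‖relV (M p.1) y (t - p.1) p.2‖ ^ 2)
      (track M (Ioo (-5 : ℝ) (-2))) := by
    simp only [relV_eq]
    have c3 : ContinuousOn (fun p : ℝ × E3 => (2 * (t - p.1))⁻¹) (track M (Ioo (-5 : ℝ) (-2))) := by
      refine ContinuousOn.inv₀ (by fun_prop) fun p hp => ?_
      have := hp.1.2
      have := ht.1
      apply ne_of_gt
      linarith
    have c4 : ContinuousOn (fun p : ℝ × E3 => p.2 - y) (track M (Ioo (-5 : ℝ) (-2))) := by fun_prop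
    exact ((continuous_psi B).comp continuous_snd).continuousOn.mul
      ((c2.add (c3.smul (c4.sub (c1.clm_apply c4)))).norm.pow 2)
  have hF : ContinuousOn (FF M B y t) (Icc (-4) (-3)) :=
    (hC M _ hMJ _ B hg fun p hp => by rw [psi_zero hp, zero_mul]).mono hKJ
  have hi : ∀ s ∈ Icc (-4 : ℝ) (-3),
      Integrable (fun x => psi B x * ‖relV (M s) y (t - s) x‖ ^ 2) (area (M s)) := by
    intro s hs
    refine integrable_of_contOn (isSurf hMJ (hKJ hs)).1 (hA s (hJI (hKJ hs))) (R := B) ?_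
      fun x hx => by rw [psi_zero hx.le, zero_mul]
    exact hg.comp (f := fun x : E3 => (s, x)) (by fun_prop) fun x hx => ⟨hKJ hs, hx⟩
  refine ⟨hF, hi, ?_⟩
  have hpos : ∀ s, 0 ≤ FF M B y t s := fun s =>
    integral_nonneg fun x => mul_nonneg (psi_nonneg _ _) (sq_nonneg _)
  rw [integral_eq_lintegral_of_nonneg_ae (Eventually.of_forall hpos)
    (hF.aestronglyMeasurable measurableSet_Icc)]
  refine ENNReal.toReal_le_of_le_ofReal (by positivity) ?_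
  obtain ⟨b, hb1, hb2, hb3⟩ := near_one hD hM hA (hI ⟨by linarith [ht.1], ht.2⟩) hyt hε
  have hab : Icc (t - 9) b ⊆ I := fun s hs =>
    hI ⟨by linarith [hs.1, ht.1], by linarith [hs.2, ht.2]⟩
  have H := hH D M I hM hA y t (t - 9) b (by linarith) hb2 hab
  have e3 : √(t - (t - 9)) = 3 := by
    rw [show t - (t - 9) = 3 ^ 2 by ring, Real.sqrt_sq (by norm_num)]
  have e4 : gA (M (t - 9)) y 3 ≤ 1 + ε := by
    have : dens M y t 3 = gA (M (t - 9)) y 3 := by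
      rw [dens, show (3 : ℝ) ^ 2 = 9 by norm_num]
    rwa [← this]
  rw [e3] at H
  set Q := ∫⁻ s in Icc (t - 9) b, ∫⁻ x,
    ENNReal.ofReal (‖relV (M s) y (t - s) x‖ ^ 2 * gk (t - s) (x - y)) ∂(area (M s)) with hQ
  have hQ2 : Q ≤ ENNReal.ofReal (2 * ε) := by
    have h1 : ENNReal.ofReal (1 - ε) + Q ≤ ENNReal.ofReal (1 - ε) + ENNReal.ofReal (2 * ε) := by
      rw [← ENNReal.ofReal_add (by linarith) (by linarith)]
      calc ENNReal.ofReal (1 - ε) + Q ≤ ENNReal.ofReal (gA (M b) y √(t - b)) + Q := by gcongr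
        _ ≤ _ := H
        _ ≤ _ := ENNReal.ofReal_le_ofReal (by linarith)
    exact (ENNReal.add_le_add_iff_left ENNReal.ofReal_ne_top).1 h1
  have hs : ∀ s ∈ Icc (-4 : ℝ) (-3), ENNReal.ofReal (FF M B y t s) ≤ ENNReal.ofReal C * ∫⁻ x,
      ENNReal.ofReal (‖relV (M s) y (t - s) x‖ ^ 2 * gk (t - s) (x - y)) ∂(area (M s)) := by
    intro s hs
    rw [FF, ofReal_integral_eq_lintegral_ofReal (hi s hs)
      (Eventually.of_forall fun x => mul_nonneg (psi_nonneg _ _) (sq_nonneg _)),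
      ← lintegral_const_mul' _ _ ENNReal.ofReal_ne_top]
    refine lintegral_mono fun x => ?_
    rw [← ENNReal.ofReal_mul hC0.le]
    apply ENNReal.ofReal_le_ofReal
    have := hCk (t - s) x y (by linarith [hs.2, ht.1]) (by linarith [hs.1, ht.2]) hy
    nlinarith [sq_nonneg ‖relV (M s) y (t - s) x‖]
  calc ∫⁻ s in Icc (-4 : ℝ) (-3), ENNReal.ofReal (FF M B y t s)
      ≤ ∫⁻ s in Icc (-4 : ℝ) (-3), ENNReal.ofReal C * ∫⁻ x,
          ENNReal.ofReal (‖relV (M s) y (t - s) x‖ ^ 2 * gk (t - s) (x - y)) ∂(area (M s)) :=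
        setLIntegral_mono' measurableSet_Icc hs
    _ ≤ ENNReal.ofReal C * Q := by
        rw [lintegral_const_mul' _ _ ENNReal.ofReal_ne_top]
        gcongr
        exact lintegral_mono_set fun s hs =>
          ⟨by linarith [hs.1, ht.2], by linarith [hs.2, ht.1]⟩
    _ ≤ ENNReal.ofReal C * ENNReal.ofReal (2 * ε) := by gcongr
    _ = _ := by rw [← ENNReal.ofReal_mul hC0.le, mul_assoc]

/-! ### The pointwise inequality -/

lemma le_add_sq_div {α u : ℝ} (hα : 0 < α) : |u| ≤ α + u ^ 2 / α := by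
  have h1 : α + u ^ 2 / α - |u| = ((α - |u| / 2) ^ 2 + 3 / 4 * u ^ 2) / α := by
    rw [← sq_abs u]
    field_simp
    ring
  have h2 : 0 ≤ ((α - |u| / 2) ^ 2 + 3 / 4 * u ^ 2) / α := by positivity
  linarith

lemma sq64 {s : ℝ} (x y : ℝ) (h0 : 0 ≤ s) (h1 : s ≤ 4) :
    (2 * s * (x - y)) ^ 2 ≤ 128 * (x ^ 2 + y ^ 2) := by
  have k1 : s ^ 2 ≤ 16 := by nlinarith
  have k2 : (x - y) ^ 2 ≤ 2 * (x ^ 2 + y ^ 2) := by nlinarith [sq_nonneg (x + y)]
  calc (2 * s * (x - y)) ^ 2 = 4 * s ^ 2 * (x - y) ^ 2 := by ring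
    _ ≤ 4 * 16 * (2 * (x ^ 2 + y ^ 2)) := by gcongr
    _ = _ := by ring

lemma add_sq_le' (x y : ℝ) : (x + y) ^ 2 ≤ 2 * x ^ 2 + 2 * y ^ 2 := by
  nlinarith [sq_nonneg (x - y)]

lemma aux_p {a σ σ₀ φ₀ φ : ℝ} (h2 : 2 ≤ σ) (hσ : σ ≤ σ₀) (h4 : σ₀ ≤ 4) :
    (a * (1 - σ / σ₀) + 2 * σ * (φ₀ - φ)) ^ 2 ≤ 2 * a ^ 2 + 256 * (φ₀ ^ 2 + φ ^ 2) := by
  have k1 := sq64 (s := σ) φ₀ φ (by linarith) (by linarith)
  have k2 : (a * (1 - σ / σ₀)) ^ 2 ≤ a ^ 2 := by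
    have l1 : σ / σ₀ ≤ 1 := (div_le_one (by linarith)).2 hσ
    have l2 : 0 ≤ σ / σ₀ := div_nonneg (by linarith) (by linarith)
    have l3 : (1 - σ / σ₀) ^ 2 ≤ 1 := by nlinarith
    rw [mul_pow]
    nlinarith [sq_nonneg a]
  linarith [add_sq_le' (a * (1 - σ / σ₀)) (2 * σ * (φ₀ - φ))]

lemma aux_Y {m n p u : ℝ} (hn : n ^ 2 ≤ 1) (hm : |m| ≤ 4 * u) :
    (m + n * p) ^ 2 ≤ 32 * u ^ 2 + 2 * p ^ 2 := by
  have k1 : m ^ 2 ≤ 16 * u ^ 2 := by
    rw [← sq_abs m]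
    nlinarith [abs_nonneg m]
  have k2 : (n * p) ^ 2 ≤ p ^ 2 := by
    rw [mul_pow]
    nlinarith [sq_nonneg p]
  linarith [add_sq_le' m (n * p)]

lemma aux_za {B K z a q n u v d H σ₀ φ₀ : ℝ} (hB : 0 ≤ B) (hz0 : 0 ≤ z) (hz1 : z ≤ 1)
    (ha : |a| ≤ B) (hq : |q| ≤ B) (hn1 : |n| ≤ 1) (hav : a = v + n * q) (hv : |v| ≤ B * u)
    (hd : |d| ≤ K * u) (h3 : 3 ≤ σ₀) (h4 : σ₀ ≤ 4) (fa : a = 2 * σ₀ * (φ₀ - H)) :
    z * a ^ 2 ≤ B ^ 2 * u + 8 * B * |φ₀| - 2 * σ₀ * (d + z * q * (H * n)) + 8 * K * u := by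
  have k0 : z * a ^ 2 = z * (a * v) + 2 * σ₀ * (z * (n * q * φ₀)) -
      2 * σ₀ * (d + z * q * (H * n)) + 2 * σ₀ * d := by
    have : z * a ^ 2 = z * (a * v) + z * (n * q) * a := by
      rw [sq]
      nth_rewrite 2 [hav]
      ring
    rw [this]
    nth_rewrite 2 [fa]
    ring
  have s0 : 0 ≤ σ₀ := by linarith
  have k1 : z * (a * v) ≤ B ^ 2 * u := by
    calc z * (a * v) ≤ z * |a * v| := by gcongr; exact le_abs_self _
      _ ≤ 1 * (B * (B * u)) := by rw [abs_mul]; gcongr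
      _ = _ := by ring
  have k2 : 2 * σ₀ * (z * (n * q * φ₀)) ≤ 8 * B * |φ₀| := by
    calc 2 * σ₀ * (z * (n * q * φ₀)) ≤ 2 * σ₀ * (z * |n * q * φ₀|) := by
          gcongr; exact le_abs_self _
      _ ≤ 2 * 4 * (1 * (1 * B * |φ₀|)) := by rw [abs_mul, abs_mul]; gcongr
      _ = _ := by ring
  have k3 : 2 * σ₀ * d ≤ 8 * K * u := by
    calc 2 * σ₀ * d ≤ 2 * σ₀ * |d| := by gcongr; exact le_abs_self _
      _ ≤ 2 * 4 * (K * u) := by gcongr
      _ = _ := by ring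
  linarith

lemma aux_fin {L₁ L₂ A α u φ₀ Φ : ℝ} (h₁ : 0 ≤ L₁) (h₂ : 0 ≤ L₂) (hα : 0 < α)
    (hu : 0 ≤ u) (hu2 : u ^ 2 ≤ A * Φ) (hΦ0 : φ₀ ^ 2 ≤ Φ) :
    32 * u ^ 2 + 512 * Φ + L₁ * u + L₂ * |φ₀| ≤
      (L₁ + L₂) * α + (512 + 32 * A + (L₁ + L₂) * (A + 1) / α) * Φ := by
  have hΦ : 0 ≤ Φ := (sq_nonneg _).trans hΦ0
  have hua : u ≤ α + (A + 1) * Φ / α := by
    have := le_add_sq_div (u := u) hα
    rw [abs_of_nonneg hu] at this
    exact this.trans (by gcongr; nlinarith)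
  have hφa : |φ₀| ≤ α + (A + 1) * Φ / α :=
    (le_add_sq_div hα).trans (by gcongr; nlinarith)
  have k5 := mul_le_mul_of_nonneg_left hua h₁
  have k6 := mul_le_mul_of_nonneg_left hφa h₂
  have k7 : (L₁ + L₂) * α + (512 + 32 * A + (L₁ + L₂) * (A + 1) / α) * Φ =
      L₁ * (α + (A + 1) * Φ / α) + L₂ * (α + (A + 1) * Φ / α) + 512 * Φ + 32 * (A * Φ) := by
    ring
  linarith

lemma real_ineq {B K c α z a q n u v d H σ₀ σ p₁ p₂ p m φ₀ φ₁ φ₂ φ : ℝ} (hB : 0 ≤ B)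
    (hK : 0 ≤ K) (hc : 0 < c) (hα : 0 < α) (hz0 : 0 ≤ z) (hz1 : z ≤ 1) (ha : |a| ≤ B)
    (hq : |q| ≤ B) (hn : n ^ 2 ≤ 1) (hu : 0 ≤ u) (hav : a = v + n * q) (hv : |v| ≤ B * u)
    (hd : |d| ≤ K * u) (h3 : 3 ≤ σ₀) (h4 : σ₀ ≤ 4) (h2 : 2 ≤ σ)
    (hσ : σ ≤ σ₀) (e₀ : φ₀ = H + (2 * σ₀)⁻¹ * a) (e₁ : φ₁ = H + (2 * σ₀)⁻¹ * (a - p₁))
    (e₂ : φ₂ = H + (2 * σ₀)⁻¹ * (a - p₂)) (e : φ = H + (2 * σ)⁻¹ * (a - p))
    (hcu : c ^ 2 * u ^ 2 ≤ p₁ ^ 2 + p₂ ^ 2) (hm : |m| ≤ 4 * u) :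
    (m + n * p) ^ 2 * z ≤ -8 * σ₀ * (d + z * q * (H * n)) + (4 * (B ^ 2 + 8 * K) + 32 * B) * α +
      (512 + 32 * (256 / c ^ 2) + (4 * (B ^ 2 + 8 * K) + 32 * B) * (256 / c ^ 2 + 1) / α) *
        (φ₀ ^ 2 + φ₁ ^ 2 + φ₂ ^ 2 + φ ^ 2) := by
  have q₀ := sq_nonneg φ₀
  have q₁ := sq_nonneg φ₁
  have q₂ := sq_nonneg φ₂
  have q₃ := sq_nonneg φ
  have hn1 : |n| ≤ 1 := by rwa [← sq_le_one_iff_abs_le_one]
  have s0 : σ₀ ≠ 0 := by linarith
  have s1 : σ ≠ 0 := by linarith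
  have f₁ : p₁ = 2 * σ₀ * (φ₀ - φ₁) := by rw [e₀, e₁]; field_simp; ring
  have f₂ : p₂ = 2 * σ₀ * (φ₀ - φ₂) := by rw [e₀, e₂]; field_simp; ring
  have f : p = a * (1 - σ / σ₀) + 2 * σ * (φ₀ - φ) := by rw [e₀, e]; field_simp; ring
  have fa : a = 2 * σ₀ * (φ₀ - H) := by rw [e₀]; field_simp; ring
  clear e₀ e₁ e₂ e
  have hu2 : u ^ 2 ≤ 256 / c ^ 2 * (φ₀ ^ 2 + φ₁ ^ 2 + φ₂ ^ 2 + φ ^ 2) := by
    rw [div_mul_eq_mul_div, le_div_iff₀ (by positivity)]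
    have k1 := sq64 (s := σ₀) φ₀ φ₁ (by linarith) h4
    have k2 := sq64 (s := σ₀) φ₀ φ₂ (by linarith) h4
    rw [← f₁] at k1
    rw [← f₂] at k2
    linarith
  have hp := aux_p (a := a) (φ₀ := φ₀) (φ := φ) h2 hσ h4
  rw [← f] at hp
  have hY := aux_Y (p := p) hn hm
  have hza := aux_za hB hz0 hz1 ha hq hn1 hav hv hd h3 h4 fa
  have hf := aux_fin (L₁ := 4 * (B ^ 2 + 8 * K)) (L₂ := 32 * B) (φ₀ := φ₀) (by positivity)
    (by positivity) hα hu hu2 (by linarith)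
  have k4 : (m + n * p) ^ 2 * z ≤
      (32 * u ^ 2 + 512 * (φ₀ ^ 2 + φ₁ ^ 2 + φ₂ ^ 2 + φ ^ 2) + 4 * a ^ 2) * z :=
    mul_le_mul_of_nonneg_right (by linarith) hz0
  have k5 : (32 * u ^ 2 + 512 * (φ₀ ^ 2 + φ₁ ^ 2 + φ₂ ^ 2 + φ ^ 2)) * z ≤
      (32 * u ^ 2 + 512 * (φ₀ ^ 2 + φ₁ ^ 2 + φ₂ ^ 2 + φ ^ 2)) * 1 :=
    mul_le_mul_of_nonneg_left hz1 (by positivity)
  linarith

/-! ### The first variation -/

lemma exists_cut {R : ℝ} (hR : 0 < R) : ∃ (ζ : E3 → ℝ) (K : ℝ), 0 ≤ K ∧ ContDiff ℝ 1 ζ ∧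
    (∀ x, 0 ≤ ζ x) ∧ (∀ x, ζ x ≤ 1) ∧ (∀ x, ‖x‖ ≤ R → ζ x = 1) ∧ (∀ x, 2 * R ≤ ‖x‖ → ζ x = 0) ∧
    ∀ x, ‖fderiv ℝ ζ x‖ ≤ K := by
  let f : ContDiffBump (0 : E3) := ⟨R, 2 * R, hR, by linarith⟩
  have h1 : ContDiff ℝ 1 f := f.contDiff
  obtain ⟨K, hK⟩ := (f.hasCompactSupport.fderiv ℝ).exists_bound_of_continuous
    (h1.continuous_fderiv one_ne_zero)
  exact ⟨f, K, (norm_nonneg _).trans (hK 0), h1, fun x => f.nonneg, fun x => f.le_one,
    fun x hx => f.one_of_mem_closedBall (by simpa using hx),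
    fun x hx => f.zero_of_le_dist (by simpa using hx), hK⟩

lemma tr_smulRight (l : E3 →L[ℝ] ℝ) (e : E3) : tr (l.smulRight e) = l e := by
  obtain ⟨a, b, h⟩ := exists_triple (n := EuclideanSpace.single (0 : Fin 3) (1 : ℝ)) (by simp)
  rw [h.tr_eq]
  conv_rhs => rw [h.expand e]
  simp only [ContinuousLinearMap.smulRight_apply, real_inner_smul_left, map_add, map_smul,
    smul_eq_mul, real_inner_comm e]
  ring

lemma divT_smul (N : Set E3) {g : E3 → ℝ} (hg : ContDiff ℝ 1 g) (e x : E3) :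
    divT N (fun x => g x • e) x = fderiv ℝ g x (pt (nu N x) e) := by
  have h := (hg.differentiable one_ne_zero x).hasFDerivAt.smul_const e
  rw [divT, h.fderiv, tr_smulRight, pt_apply, map_sub, map_smul,
    ContinuousLinearMap.smulRight_apply, real_inner_smul_left, real_inner_comm e, smul_eq_mul,
    mul_comm]

lemma fderiv_zero {g : E3 → ℝ} {R : ℝ} (h0 : ∀ x, R ≤ ‖x‖ → g x = 0) {x : E3} (hx : R < ‖x‖) :
    fderiv ℝ g x = 0 := by
  have : g =ᶠ[𝓝 x] fun _ => 0 := by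
    filter_upwards [(isOpen_lt continuous_const continuous_norm).mem_nhds hx] with z hz
      using h0 z (le_of_lt hz)
  rw [this.fderiv_eq]
  simp

lemma fv_zero (hF : FVStmt) {D : ℝ} {N : Set E3} (hN : IsSurf N) (hA : AreaRatio D N)
    (c1 : ContinuousOn (fun x => pt (nu N x)) N) (c2 : ContinuousOn (Hv N) N) {g : E3 → ℝ}
    (hg : ContDiff ℝ 1 g) {R : ℝ} (h0 : ∀ x, R ≤ ‖x‖ → g x = 0) (e : E3) :
    Integrable (fun x => fderiv ℝ g x (pt (nu N x) e) + g x * ⟪e, Hv N x⟫) (area N) ∧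
      ∫ x, (fderiv ℝ g x (pt (nu N x) e) + g x * ⟪e, Hv N x⟫) ∂(area N) = 0 := by
  have i1 : Integrable (fun x => fderiv ℝ g x (pt (nu N x) e)) (area N) :=
    integrable_of_contOn hN.1 hA (R := R)
      ((hg.continuous_fderiv one_ne_zero).continuousOn.clm_apply (c1.clm_apply continuousOn_const))
      fun x hx => by simp [fderiv_zero h0 hx]
  have i2 : Integrable (fun x => g x * ⟪e, Hv N x⟫) (area N) :=
    integrable_of_contOn hN.1 hA (R := R)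
      (hg.continuous.continuousOn.mul (continuousOn_const.inner c2))
      fun x hx => by simp [h0 x hx.le]
  refine ⟨i1.add i2, ?_⟩
  have hc : HasCompactSupport fun x => g x • e := by
    refine HasCompactSupport.intro (isCompact_closedBall (0 : E3) R) fun x hx => ?_
    rw [h0 x (by simpa using le_of_lt (not_le.1 fun h => hx (by simpa using h))), zero_smul]
  have := hF N hN (fun x => g x • e) (hg.smul contDiff_const) hc
  simp only [divT_smul N hg, real_inner_smul_left] at this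
  rw [integral_add i1 i2, this]
  simp

lemma norm_relV_sq {N : Set E3} (hN : IsSurf N) {x : E3} (hx : x ∈ N) (y : E3) (σ : ℝ) :
    ‖relV N y σ x‖ ^ 2 = (tr (sh N x) + (2 * σ)⁻¹ * (⟪x, nu N x⟫ - ⟪y, nu N x⟫)) ^ 2 := by
  rw [relV, Hv, ← add_smul, norm_smul, hN.norm_nu hx, mul_one, Real.norm_eq_abs, sq_abs,
    inner_sub_left]

/-- the pointwise inequality -/
lemma pointwise {N : Set E3} (hN : IsSurf N) {ζ : E3 → ℝ} {R K c α σ₀ σ : ℝ} (hR : 0 < R)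
    (hK : 0 ≤ K) (hc : 0 < c) (hα : 0 < α) (hζ : ContDiff ℝ 1 ζ) (z0 : ∀ x, 0 ≤ ζ x)
    (z1 : ∀ x, ζ x ≤ 1) (z2 : ∀ x, 2 * R ≤ ‖x‖ → ζ x = 0) (z3 : ∀ x, ‖fderiv ℝ ζ x‖ ≤ K)
    (h3 : 3 ≤ σ₀) (h4 : σ₀ ≤ 4) (h2 : 2 ≤ σ) (hσ : σ ≤ σ₀) {y₁ y₂ y e : E3} (he : ‖e‖ = 1)
    (hy : ‖y‖ ≤ 4) (hn : ∀ n : E3, ‖n‖ = 1 → c ^ 2 * (1 - ⟪n, e⟫ ^ 2) ≤ ⟪y₁, n⟫ ^ 2 + ⟪y₂, n⟫ ^ 2)
    {x : E3} (hx : x ∈ N) :
    ⟪y, e⟫ ^ 2 * ζ x ≤ -8 * σ₀ * (fderiv ℝ (fun x => ζ x * ⟪x, e⟫) x (pt (nu N x) e) +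
        ζ x * ⟪x, e⟫ * ⟪e, Hv N x⟫) +
      (4 * ((2 * R) ^ 2 + 8 * (K * (2 * R) + 1)) + 32 * (2 * R)) * α * psi (2 * R + 1) x +
      (512 + 32 * (256 / c ^ 2) + (4 * ((2 * R) ^ 2 + 8 * (K * (2 * R) + 1)) + 32 * (2 * R)) *
        (256 / c ^ 2 + 1) / α) * (psi (2 * R + 1) x * ‖relV N 0 σ₀ x‖ ^ 2 +
          psi (2 * R + 1) x * ‖relV N y₁ σ₀ x‖ ^ 2 + psi (2 * R + 1) x * ‖relV N y₂ σ₀ x‖ ^ 2 +
          psi (2 * R + 1) x * ‖relV N y σ x‖ ^ 2) := by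
  have hψ := psi_nonneg (2 * R + 1) x
  by_cases hxR : 2 * R < ‖x‖
  · rw [fderiv_zero (R := 2 * R) (fun x hx => by rw [z2 x hx, zero_mul]) hxR, z2 x hxR.le]
    simp only [mul_zero, zero_mul, zero_apply, add_zero, zero_add]
    positivity
  have hxR : ‖x‖ ≤ 2 * R := not_lt.1 hxR
  have hψ1 : 1 ≤ psi (2 * R + 1) x := le_max_of_le_right (by linarith)
  have hν := hN.norm_nu hx
  set ν := nu N x with hνd
  have hu2 : ‖pt ν e‖ ^ 2 = 1 - ⟪ν, e⟫ ^ 2 := by rw [norm_pt_sq hν, he, one_pow]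
  have hu3 : ‖pt e ν‖ = ‖pt ν e‖ := by
    rw [← sq_eq_sq₀ (norm_nonneg _) (norm_nonneg _), hu2, norm_pt_sq he, hν, one_pow,
      real_inner_comm]
  have hxe : |⟪x, e⟫| ≤ 2 * R := (abs_real_inner_le_norm _ _).trans (by rw [he]; linarith)
  have hd : ‖fderiv ℝ (fun x => ζ x * ⟪x, e⟫) x‖ ≤ K * (2 * R) + 1 := by
    have d1 := (hζ.differentiable one_ne_zero x).hasFDerivAt
    have d2 : HasFDerivAt (fun x : E3 => ⟪x, e⟫) (innerSL ℝ e) x := by
      simp only [real_inner_comm e]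
      exact (innerSL ℝ e).hasFDerivAt
    rw [(d1.fun_mul d2).fderiv]
    refine (norm_add_le _ _).trans ?_
    rw [norm_smul, norm_smul, innerSL_apply_norm, he, Real.norm_eq_abs, Real.norm_eq_abs,
      abs_of_nonneg (z0 x), mul_one]
    have := mul_le_mul hxe (z3 x) (norm_nonneg _) (by linarith)
    linarith [z1 x]
  have hd2 : |fderiv ℝ (fun x => ζ x * ⟪x, e⟫) x (pt ν e)| ≤ (K * (2 * R) + 1) * ‖pt ν e‖ :=
    ((fderiv ℝ (fun x => ζ x * ⟪x, e⟫) x).le_opNorm _).trans (by gcongr)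
  have key := real_ineq (B := 2 * R) (K := K * (2 * R) + 1) (c := c) (α := α) (z := ζ x)
    (a := ⟪x, ν⟫) (q := ⟪x, e⟫) (n := ⟪ν, e⟫) (u := ‖pt ν e‖) (v := ⟪x, pt e ν⟫)
    (d := fderiv ℝ (fun x => ζ x * ⟪x, e⟫) x (pt ν e)) (H := tr (sh N x)) (σ₀ := σ₀) (σ := σ)
    (p₁ := ⟪y₁, ν⟫) (p₂ := ⟪y₂, ν⟫) (p := ⟪y, ν⟫) (m := ⟪y, pt ν e⟫) (by positivity)
    (by positivity) hc hα (z0 x) (z1 x)
    ((abs_real_inner_le_norm _ _).trans (by rw [hν]; linarith)) hxe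
    (by linarith [sq_nonneg ‖pt ν e‖]) (norm_nonneg _)
    (by rw [pt_apply, inner_sub_right, real_inner_smul_right, real_inner_comm e ν]; ring)
    ((abs_real_inner_le_norm _ _).trans (by rw [hu3]; gcongr))
    hd2 h3 h4 h2 hσ rfl rfl rfl rfl
    (by rw [hu2]; exact hn ν hν) ((abs_real_inner_le_norm _ _).trans (by gcongr))
  have e1 : ⟪y, pt ν e⟫ + ⟪ν, e⟫ * ⟪y, ν⟫ = ⟪y, e⟫ := by
    rw [pt_apply, inner_sub_right, real_inner_smul_right]; ring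
  have e2 : ⟪e, Hv N x⟫ = tr (sh N x) * ⟪ν, e⟫ := by
    rw [Hv, real_inner_smul_right, real_inner_comm]
  rw [e1] at key
  rw [e2, norm_relV_sq hN hx, norm_relV_sq hN hx, norm_relV_sq hN hx, norm_relV_sq hN hx,
    inner_zero_left, sub_zero, ← mul_add, ← mul_add, ← mul_add]
  refine key.trans (add_le_add (add_le_add le_rfl ?_) ?_)
  · exact le_mul_of_one_le_right (by positivity) hψ1
  · gcongr
    exact le_mul_of_one_le_left (by positivity) hψ1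

/-! ### The height estimate -/

lemma mass_lower (hH : HuiskenStmt) (hD : DensStmt) (hG : GaussStmt) (D : ℝ) :
    ∃ R : ℝ, 0 < R ∧ ∀ (M : ℝ → Set E3) (I : Set ℝ), IsMCF M I → (∀ t ∈ I, AreaRatio D (M t)) →
      Icc (-10 : ℝ) 0 ⊆ I → (0 : E3) ∈ M 0 → ∀ s ∈ Icc (-4 : ℝ) (-3), ∀ ζ : E3 → ℝ,
      Integrable ζ (area (M s)) → (∀ x, 0 ≤ ζ x) → (∀ x, ‖x‖ ≤ R → ζ x = 1) →
      1 ≤ ∫ x, ζ x ∂(area (M s)) := by
  obtain ⟨C₀, -, hG⟩ := hG
  obtain ⟨g1, g2⟩ := hG (max D 0) (le_max_right _ _)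
  obtain ⟨ρ, hρ, g2⟩ := g2 (1 / 4) (by norm_num)
  refine ⟨2 * ρ, by positivity, fun M I hM hA hI h0 s hs ζ hζ z0 z1 => ?_⟩
  have hsI : s ∈ I := hI ⟨by linarith [hs.1], by linarith [hs.2]⟩
  have hA' := (hA s hsI).mono (le_max_left D 0)
  obtain ⟨b, hb1, hb2, hb3⟩ := near_one hD hM hA (hI ⟨by norm_num, le_rfl⟩) h0
    (show (0 : ℝ) < 1 / 4 by norm_num)
  have H := hH D M I hM hA 0 0 s b (by linarith [hs.2]) hb2
    fun u hu => hI ⟨by linarith [hu.1, hs.1], by linarith [hu.2]⟩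
  set r := √(0 - s) with hr
  have hr2 : r ^ 2 = 0 - s := Real.sq_sqrt (by linarith [hs.2])
  have hr0 : 0 < r := Real.sqrt_pos.2 (by linarith [hs.2])
  have hr1 : r ≤ 2 := by nlinarith [hs.1]
  have h1 : 3 / 4 ≤ gA (M s) 0 r := by
    have h2 : ENNReal.ofReal (3 / 4) ≤ ENNReal.ofReal (gA (M s) 0 r) :=
      (ENNReal.ofReal_le_ofReal (by linarith)).trans (le_self_add.trans H)
    exact (ENNReal.ofReal_le_ofReal_iff (integral_nonneg fun x => gk_nonneg (sq_nonneg _) _)).1 h2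
  have i1 := (g1 (M s) hA' 0 (r ^ 2) (by positivity)).1
  have h3 := integral_add_compl (s := ball (0 : E3) (ρ * r)) measurableSet_ball i1
  have h4 := g2 (M s) hA' 0 r hr0
  have h5 : ∫ x in ball (0 : E3) (ρ * r), gk (r ^ 2) (x - 0) ∂(area (M s)) ≤
      ∫ x in ball (0 : E3) (ρ * r), ζ x / 2 ∂(area (M s)) := by
    refine setIntegral_mono_on i1.integrableOn (hζ.div_const 2).integrableOn measurableSet_ball
      fun x hx => ?_
    rw [z1 x (by have := mem_ball_zero_iff.1 hx; nlinarith)]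
    refine (gk_le (by positivity) _).trans ?_
    rw [one_div]
    refine inv_anti₀ (by norm_num) ?_
    nlinarith [Real.two_le_pi, hs.2]
  have h6 : ∫ x in ball (0 : E3) (ρ * r), ζ x / 2 ∂(area (M s)) ≤ ∫ x, ζ x / 2 ∂(area (M s)) :=
    setIntegral_le_integral (hζ.div_const 2)
      (Eventually.of_forall fun x => div_nonneg (z0 x) (by norm_num))
  have h7 : ∫ x, ζ x / 2 ∂(area (M s)) = (∫ x, ζ x ∂(area (M s))) / 2 := integral_div _ _
  rw [gA] at h1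
  linarith

lemma integral_psi_le {D : ℝ} {N : Set E3} (hA : AreaRatio D N) {B : ℝ} (hB : 0 < B) :
    Integrable (psi B) (area N) ∧ ∫ x, psi B x ∂(area N) ≤ B * (max D 0 * B ^ 2) := by
  have := hA.locFin
  have i1 : Integrable (psi B) (area N) :=
    (continuous_psi B).integrable_of_hasCompactSupport
      (HasCompactSupport.intro (isCompact_closedBall (0 : E3) B) fun x hx =>
        psi_zero (le_of_lt (not_le.1 fun h => hx (by simpa using h))))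
  refine ⟨i1, ?_⟩
  rw [← setIntegral_eq_integral_of_forall_compl_eq_zero (s := ball (0 : E3) B)
    fun x hx => psi_zero (by simpa using hx)]
  have h1 := norm_setIntegral_le_of_norm_le_const (μ := area N) (s := ball (0 : E3) B)
    (f := psi B) (C := B) (hA.ball_lt_top _ _)
    fun x _ => by rw [Real.norm_eq_abs, abs_of_nonneg (psi_nonneg _ _)]; exact psi_le hB.le x
  refine ((le_abs_self _).trans h1).trans ?_
  gcongr
  exact ENNReal.toReal_le_of_le_ofReal (by positivity) (hA.mono (le_max_left D 0) 0 B hB)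

lemma integral_add3 {X : Type*} [MeasurableSpace X] {μ : Measure X} {f g h : X → ℝ}
    (hf : Integrable f μ) (hg : Integrable g μ) (hh : Integrable h μ) :
    ∫ x, (f x + g x + h x) ∂μ = ∫ x, f x ∂μ + ∫ x, g x ∂μ + ∫ x, h x ∂μ := by
  rw [← integral_add hf hg]
  exact integral_add (hf.add hg) hh

lemma integral_add4 {X : Type*} [MeasurableSpace X] {μ : Measure X} {f g h k : X → ℝ}
    (hf : Integrable f μ) (hg : Integrable g μ) (hh : Integrable h μ) (hk : Integrable k μ) :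
    ∫ x, (f x + g x + h x + k x) ∂μ = ∫ x, f x ∂μ + ∫ x, g x ∂μ + ∫ x, h x ∂μ + ∫ x, k x ∂μ := by
  rw [← integral_add3 hf hg hh]
  exact integral_add ((hf.add hg).add hh) hk

lemma exists_le_integral {F : ℝ → ℝ} (hF : ContinuousOn F (Icc (-4) (-3))) :
    ∃ s ∈ Icc (-4 : ℝ) (-3), F s ≤ ∫ u in Icc (-4 : ℝ) (-3), F u := by
  obtain ⟨s, hs, hmin⟩ := isCompact_Icc.exists_isMinOn (nonempty_Icc.2 (by norm_num)) hF
  refine ⟨s, hs, ?_⟩
  have h1 := setIntegral_mono_on (μ := volume) (s := Icc (-4 : ℝ) (-3)) (f := fun _ => F s)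
    continuousOn_const.integrableOn_Icc hF.integrableOn_Icc measurableSet_Icc fun u hu => hmin hu
  rw [setIntegral_const, Real.volume_real_Icc] at h1
  norm_num at h1
  exact h1

end Vale.Agent.P218FT.WH

namespace Vale.Agent.P218FT

open WH in
theorem height_proof (hH : HuiskenStmt) (hD : DensStmt) (hF : FVStmt) (hC : ContStmt)
    (hG : GaussStmt) : HeightStmt := by
  intro D c τ hc hτ
  obtain ⟨R, hR, hmass⟩ := mass_lower hH hD hG D
  obtain ⟨ζ, K, hK, hζ, z0, z1, z2, z3, z4⟩ := exists_cut hR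
  obtain ⟨C₁, hC₁, hcen⟩ := centre hH hD hC (B := 2 * R + 1) (by positivity)
  set L := 4 * ((2 * R) ^ 2 + 8 * (K * (2 * R) + 1)) + 32 * (2 * R) with hL
  have hL0 : 0 < L := by positivity
  set P := (2 * R + 1) * (max D 0 * (2 * R + 1) ^ 2) with hP
  have hP0 : 0 ≤ P := by positivity
  set α := τ ^ 2 / 2 / (L * (P + 1)) with hα
  have hα0 : 0 < α := by positivity
  set C₃ := 512 + 32 * (256 / c ^ 2) + L * (256 / c ^ 2 + 1) / α with hC₃
  have hC₃0 : 0 < C₃ := by positivity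
  refine ⟨min 1 (τ ^ 2 / 2 / (C₃ * (4 * C₁))), by positivity, ?_⟩
  set ε := min 1 (τ ^ 2 / 2 / (C₃ * (4 * C₁))) with hε
  have hε0 : 0 < ε := by positivity
  have hε1 : ε ≤ 1 := min_le_left _ _
  have hε2 : C₃ * (4 * C₁ * ε) ≤ τ ^ 2 / 2 := by
    have := min_le_right 1 (τ ^ 2 / 2 / (C₃ * (4 * C₁)))
    rw [← hε, le_div_iff₀ (by positivity)] at this
    linarith
  have hα2 : L * α * P ≤ τ ^ 2 / 2 := by
    have : L * α * (P + 1) = τ ^ 2 / 2 := by rw [hα]; field_simp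
    nlinarith [mul_pos hL0 hα0]
  intro M I hM hA hI hd y₁ y₂ e h0 h1 h2 n1 n2 he hn t ht y hy hy4
  have t0 : (0 : ℝ) ∈ Icc (-1 : ℝ) 0 := ⟨by norm_num, le_rfl⟩
  have hy4' : ‖y‖ ≤ 4 := (mem_ball_zero_iff.1 hy4).le
  obtain ⟨a0, b0, c0⟩ := hcen D M I hM hA hI 0 0 ε hε0 hε1 (by simp) t0 h0
    (hd 0 (mem_ball_self (by norm_num)) 0 t0)
  obtain ⟨a1, b1, c1⟩ := hcen D M I hM hA hI y₁ 0 ε hε0 hε1 (by linarith) t0 h1
    (hd y₁ (mem_ball_zero_iff.2 (by linarith)) 0 t0)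
  obtain ⟨a2, b2, c2⟩ := hcen D M I hM hA hI y₂ 0 ε hε0 hε1 (by linarith) t0 h2
    (hd y₂ (mem_ball_zero_iff.2 (by linarith)) 0 t0)
  obtain ⟨a3, b3, c3⟩ := hcen D M I hM hA hI y t ε hε0 hε1 hy4' ht hy (hd y hy4 t ht)
  obtain ⟨s, hs, hmin⟩ := exists_le_integral (((a0.add a1).add a2).add a3)
  simp only [Pi.add_apply] at hmin
  rw [integral_add4 a0.integrableOn_Icc a1.integrableOn_Icc a2.integrableOn_Icc
    a3.integrableOn_Icc] at hmin
  have hsI : s ∈ I := hI ⟨by linarith [hs.1], by linarith [hs.2]⟩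
  have hN := isSurf hM hsI
  obtain ⟨k1, k2⟩ := contOn_both hM
  have k1' : ContinuousOn (fun x => pt (nu (M s) x)) (M s) :=
    k1.comp (f := fun x : E3 => (s, x)) (by fun_prop) fun x hx => ⟨hsI, hx⟩
  have k2' : ContinuousOn (Hv (M s)) (M s) :=
    k2.comp (f := fun x : E3 => (s, x)) (by fun_prop) fun x hx => ⟨hsI, hx⟩
  obtain ⟨w1, w2⟩ := fv_zero hF hN (hA s hsI) k1' k2' (g := fun x => ζ x * ⟪x, e⟫)
    (hζ.mul (contDiff_id.inner ℝ contDiff_const)) (R := 2 * R)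
    (fun x hx => by rw [z3 x hx, zero_mul]) e
  obtain ⟨p1, p2⟩ := integral_psi_le (hA s hsI) (B := 2 * R + 1) (by positivity)
  have iζ : Integrable ζ (area (M s)) :=
    integrable_of_contOn hN.1 (hA s hsI) hζ.continuous.continuousOn fun x hx => z3 x hx.le
  have m1 := hmass M I hM hA hI h0 s hs ζ iζ z0 z2
  have i4 := (((b0 s hs).add (b1 s hs)).add (b2 s hs)).add (b3 s hs)
  have key := integral_mono_ae (iζ.const_mul (⟪y, e⟫ ^ 2))
    (((w1.const_mul (-8 * (0 - s))).add (p1.const_mul (L * α))).add (i4.const_mul C₃))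
    ((ae_restrict_mem hN.1.measurableSet).mono fun x hx =>
      pointwise hN hR hK hc hα0 hζ z0 z1 z3 z4 (σ₀ := 0 - s) (σ := t - s) (by linarith [hs.2])
        (by linarith [hs.1]) (by linarith [hs.2, ht.1]) (by linarith [ht.2]) he hy4' hn hx)
  simp only [Pi.add_apply] at key
  have i5 := i4.const_mul C₃
  simp only [Pi.add_apply] at i5
  rw [integral_add3 (w1.const_mul _) (p1.const_mul _) i5, integral_const_mul, integral_const_mul,
    integral_const_mul, integral_const_mul, w2,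
    integral_add4 (b0 s hs) (b1 s hs) (b2 s hs) (b3 s hs)] at key
  have q1 : L * α * ∫ x, psi (2 * R + 1) x ∂(area (M s)) ≤ L * α * P := by gcongr
  have q2 : C₃ * (FF M (2 * R + 1) 0 0 s + FF M (2 * R + 1) y₁ 0 s + FF M (2 * R + 1) y₂ 0 s +
      FF M (2 * R + 1) y t s) ≤ C₃ * (4 * C₁ * ε) :=
    mul_le_mul_of_nonneg_left (by linarith) hC₃0.le
  have q3 : ⟪y, e⟫ ^ 2 * 1 ≤ ⟪y, e⟫ ^ 2 * ∫ x, ζ x ∂(area (M s)) := by gcongr
  simp only [FF] at q2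
  exact abs_le_of_sq_le_sq (by linarith) hτ.le

end Vale.Agent.P218FT
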