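import Vale.Agent.P218FT.WGeo
import Vale.Agent.P218FT.Scale

/-! White's local regularity theorem in two-point form. -/

open MeasureTheory Set Filter Topology Metric
open scoped ENNReal NNReal RealInnerProductSpace ContDiff

namespace Vale.Agent.P218FT.W

theorem exists_normal {a b e₀ : E3} (T : Triple a b e₀) {c : ℝ} (hc : 0 < c) (z₁ z₂ : ℝ) :
    ∃ e : E3, ‖e‖ = 1 ∧ ∀ n : E3, ‖n‖ = 1 → (c / 2) ^ 2 * (1 - ⟪n, e⟫ ^ 2) ≤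
      ⟪c • a + z₁ • e₀, n⟫ ^ 2 + ⟪c • b + z₂ • e₀, n⟫ ^ 2 := by
  set E : E3 := (-z₁) • a + (-z₂) • b + c • e₀ with hE
  have ba : ⟪b, a⟫ = 0 := by rw [real_inner_comm]; exact T.ab
  have ca : ⟪e₀, a⟫ = 0 := by rw [real_inner_comm]; exact T.ac
  have cb : ⟪e₀, b⟫ = 0 := by rw [real_inner_comm]; exact T.bc
  have hs : ‖E‖ ^ 2 = z₁ ^ 2 + z₂ ^ 2 + c ^ 2 := by
    rw [T.norm_sq]
    simp only [hE, inner_add_right, real_inner_smul_right, real_inner_self_eq_norm_sq, T.na, T.nb,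
      T.nc, T.ab, T.ac, T.bc, ba, ca, cb]
    ring
  have hp : 0 < ‖E‖ := by
    have : 0 < ‖E‖ ^ 2 := by rw [hs]; positivity
    exact lt_of_le_of_ne (norm_nonneg _) fun h => by rw [← h] at this; norm_num at this
  refine ⟨‖E‖⁻¹ • E, by rw [norm_smul, norm_inv, norm_norm, inv_mul_cancel₀ hp.ne'], fun n hn => ?_⟩
  have h1 := T.norm_sq n
  rw [hn] at h1
  have h2 : ⟪n, E⟫ = -z₁ * ⟪a, n⟫ + -z₂ * ⟪b, n⟫ + c * ⟪e₀, n⟫ := by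
    rw [real_inner_comm]
    simp only [hE, inner_add_left, real_inner_smul_left]
  rw [real_inner_smul_right, mul_pow, inv_pow, hs, h2]
  simp only [inner_add_left, real_inner_smul_left]
  generalize ⟪a, n⟫ = n₁ at *
  generalize ⟪b, n⟫ = n₂ at *
  generalize ⟪e₀, n⟫ = n₃ at *
  have hs0 : 0 < z₁ ^ 2 + z₂ ^ 2 + c ^ 2 := by positivity
  set α := c * n₁ + z₁ * n₃ with hα
  set β := c * n₂ + z₂ * n₃ with hβ
  have e1 : z₁ ^ 2 + z₂ ^ 2 + c ^ 2 - (-z₁ * n₁ + -z₂ * n₂ + c * n₃) ^ 2 =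
      α ^ 2 + β ^ 2 + (z₁ * n₂ - z₂ * n₁) ^ 2 := by
    have : z₁ ^ 2 + z₂ ^ 2 + c ^ 2 = (z₁ ^ 2 + z₂ ^ 2 + c ^ 2) * (n₁ ^ 2 + n₂ ^ 2 + n₃ ^ 2) := by
      rw [← h1]; ring
    rw [hα, hβ]
    conv_lhs => rw [this]
    ring
  have e2 : c ^ 2 * (z₁ * n₂ - z₂ * n₁) ^ 2 = (z₁ * β - z₂ * α) ^ 2 := by rw [hα, hβ]; ring
  have e3 : (z₁ * β - z₂ * α) ^ 2 ≤ (z₁ ^ 2 + z₂ ^ 2) * (α ^ 2 + β ^ 2) := by
    nlinarith [sq_nonneg (z₁ * α + z₂ * β)]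
  have e4 : 1 - (z₁ ^ 2 + z₂ ^ 2 + c ^ 2)⁻¹ * (-z₁ * n₁ + -z₂ * n₂ + c * n₃) ^ 2 =
      (α ^ 2 + β ^ 2 + (z₁ * n₂ - z₂ * n₁) ^ 2) / (z₁ ^ 2 + z₂ ^ 2 + c ^ 2) := by
    rw [← e1]; field_simp
  rw [e4, ← mul_div_assoc, div_le_iff₀ hs0]
  have : 0 ≤ (α ^ 2 + β ^ 2) * (z₁ ^ 2 + z₂ ^ 2 + c ^ 2) := by positivity
  nlinarith

/-- small height gives small tilt -/
theorem tilt_le (hG : GraphStmt) {M : ℝ → Set E3} {I : Set ℝ} (hM : IsMCF M I) {t : ℝ}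
    (ht : t ∈ I) {x : E3} (hx : x ∈ M t) (hTP : ∀ y ∈ M t, ‖y - x‖ ≤ 1 → TP (M t) y 2) {e : E3}
    (he : ‖e‖ = 1) {τ : ℝ} (hh : ∀ y ∈ M t, ‖y - x‖ ≤ 1 → |⟪y, e⟫| ≤ τ) :
    1 - ⟪nu (M t) x, e⟫ ^ 2 ≤ 300 * τ := by
  have hn : ‖nu (M t) x‖ = 1 := (surf hM ht).norm_nu hx
  set n := nu (M t) x with hndef
  have h1 : ‖pt n e‖ ^ 2 = 1 - ⟪n, e⟫ ^ 2 := by rw [norm_pt_sq hn, he]; ring
  have h2 : ‖pt n e‖ ≤ 1 := by rw [← he]; exact norm_pt_le hn e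
  have h3 : ‖(1 / 100 : ℝ) • pt n e‖ = 1 / 100 * ‖pt n e‖ := by
    rw [norm_smul, Real.norm_eq_abs, abs_of_pos (by norm_num)]
  obtain ⟨z, hz, hm⟩ := exists_over hG hM ht hx hTP (v := (1 / 100 : ℝ) • pt n e)
    (by rw [real_inner_smul_right, inner_pt_nrm hn, mul_zero]) (by rw [h3]; linarith)
  rw [h3, mul_pow, h1] at hz
  have h0 : 0 ≤ ⟪n, e⟫ ^ 2 := sq_nonneg _
  have h4 := hh _ hm (by
    rw [add_assoc, add_sub_cancel_left]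
    refine (norm_add_le _ _).trans ?_
    rw [h3, norm_smul, hn, Real.norm_eq_abs]
    linarith)
  have h5 := hh x hx (by simp)
  have h6 : ⟪pt n e, e⟫ = 1 - ⟪n, e⟫ ^ 2 := by
    rw [pt_apply, inner_sub_left, real_inner_smul_left, real_inner_self_eq_norm_sq, he]; ring
  rw [inner_add_left, inner_add_left, real_inner_smul_left, real_inner_smul_left, h6] at h4
  have h7 : |⟪n, e⟫| ≤ 1 := by simpa [he, hn] using abs_real_inner_le_norm n e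
  have h8 : |z * ⟪n, e⟫| ≤ |z| := by
    rw [abs_mul]; exact mul_le_of_le_one_right (abs_nonneg _) h7
  have := (abs_le.1 h4).2
  have := (abs_le.1 h5).1
  have := (abs_le.1 (h8.trans hz)).1
  have : 0 ≤ τ := (abs_nonneg _).trans h5
  linarith

theorem rem_arith {r d g c : ℝ} (hc : 1 / 2 ≤ |c|) (hg : |g| ≤ d) (hr : |r| ≤ 1 / 16)
    (h : |r * c| ≤ 2 * (d ^ 2 + (g + r) ^ 2)) : |r| ≤ 24 * d ^ 2 := by
  rw [abs_mul] at h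
  have h1 : g ^ 2 ≤ d ^ 2 := by
    rw [← sq_abs g]; exact pow_le_pow_left₀ (abs_nonneg _) hg 2
  have h2 : (g + r) ^ 2 ≤ 2 * g ^ 2 + 2 * |r| ^ 2 := by
    rw [sq_abs]; nlinarith [sq_nonneg (g - r)]
  nlinarith [abs_nonneg r]

/-- the inner product of a chord of a graph with the normal -/
theorem chord_inner {J : P2 →ₗᵢ[ℝ] E3} {e n : E3} {g : P2}
    (h : ∀ a, ⟪J a + ⟪g, a⟫ • e, n⟫ = 0) (a : P2) (z : ℝ) :
    ⟪J a + z • e, n⟫ = (z - ⟪g, a⟫) * ⟪e, n⟫ := by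
  have := h a
  rw [inner_add_left, real_inner_smul_left] at this ⊢
  linarith

theorem grad_le {J : P2 →ₗᵢ[ℝ] E3} {e n : E3} {g : P2} (he : ‖e‖ = 1) (hn : ‖n‖ = 1)
    (hJ : ∀ a, ⟪J a, e⟫ = 0) (h : ∀ a, ⟪J a + ⟪g, a⟫ • e, n⟫ = 0) (ht : 1 / 2 ≤ ⟪n, e⟫ ^ 2) :
    ‖g‖ ≤ 1 := by
  have h1 := h g
  rw [inner_add_left, real_inner_smul_left, real_inner_self_eq_norm_sq] at h1
  have h2 : ⟪J g, n⟫ = ⟪J g, pt e n⟫ := by
    rw [pt_apply, inner_sub_right, real_inner_smul_right, hJ]; ring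
  have h3 := abs_real_inner_le_norm (J g) (pt e n)
  rw [J.norm_map, ← h2] at h3
  have h4 : ‖pt e n‖ ^ 2 = 1 - ⟪e, n⟫ ^ 2 := by rw [norm_pt_sq he, hn]; ring
  rw [real_inner_comm] at ht
  have h5 : ⟪J g, n⟫ ^ 2 ≤ (‖g‖ * ‖pt e n‖) ^ 2 := by
    rw [← sq_abs]; exact pow_le_pow_left₀ (abs_nonneg _) h3 2
  have h6 : ⟪J g, n⟫ = -(‖g‖ ^ 2 * ⟪e, n⟫) := by linarith
  rw [h6, mul_pow, h4, neg_sq, mul_pow] at h5
  by_contra hc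
  push Not at hc
  have h7 : 1 < ‖g‖ ^ 2 := by nlinarith
  have h8 : ‖g‖ ^ 2 * (1 - ⟪e, n⟫ ^ 2) ≤ ‖g‖ ^ 2 * (1 / 2) :=
    mul_le_mul_of_nonneg_left (by linarith) (sq_nonneg _)
  have h9 : (‖g‖ ^ 2) ^ 2 * (1 / 2) ≤ (‖g‖ ^ 2) ^ 2 * ⟪e, n⟫ ^ 2 :=
    mul_le_mul_of_nonneg_left ht (sq_nonneg _)
  nlinarith

/-- a flow which lies in a thin slab is a graph with bounded first and second derivatives -/
theorem flat_graph (hG : GraphStmt) {M : ℝ → Set E3} {I : Set ℝ} (hM : IsMCF M I)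
    (hI : Icc (-1 : ℝ) 0 ⊆ I) (hTP : ∀ t ∈ Icc (-1 : ℝ) 0, ∀ x ∈ M t, ‖x‖ ≤ 5 → TP (M t) x 2)
    (h0 : (0 : E3) ∈ M 0) {J : P2 →ₗᵢ[ℝ] E3} {e : E3} (he : ‖e‖ = 1) (hJ : ∀ a, ⟪J a, e⟫ = 0) {τ : ℝ}
    (hτ : τ ≤ 1 / 600)
    (hh : ∀ t ∈ Icc (-1 : ℝ) 0, ∀ y ∈ M t, y ∈ ball (0 : E3) 4 → |⟪y, e⟫| ≤ τ) :
    ∃ (h : P2 × ℝ → ℝ) (O : Set (P2 × ℝ)), IsOpen O ∧ ContDiffOn ℝ ∞ h O ∧
      closedBall (0 : P2) 1 ×ˢ Icc (-1 : ℝ) 0 ⊆ O ∧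
      (∀ p ∈ closedBall (0 : P2) 1 ×ˢ Icc (-1 : ℝ) 0,
        GEq h p ∧ ‖gx h p‖ ≤ 48 ∧ ‖hx h p‖ ≤ 48) ∧
      (∀ ξ ∈ closedBall (0 : P2) 1, |h (ξ, 0)| ≤ τ ∧
        ∀ z : ℝ, |z| ≤ 1 / 8 → J ξ + z • e ∈ M 0 → z = h (ξ, 0)) ∧
      ∀ a, ⟪J a + ⟪gx h (0, 0), a⟫ • e, nu (M 0) 0⟫ = 0 := by
  have hnorm : ∀ ξ ∈ closedBall (0 : P2) 1, ∀ z : ℝ, |z| ≤ 1 / 8 → ‖J ξ + z • e‖ ≤ 2 := by
    intro ξ hξ z hz
    refine (norm_add_le _ _).trans ?_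
    rw [J.norm_map, norm_smul, he, Real.norm_eq_abs]
    have : ‖ξ‖ ≤ 1 := by simpa using hξ
    linarith
  have htilt : ∀ t ∈ Icc (-1 : ℝ) 0, ∀ x ∈ M t, ‖x‖ ≤ 2 → 1 / 2 ≤ ⟪nu (M t) x, e⟫ ^ 2 := by
    intro t ht x hx hx2
    have hb : ∀ y : E3, ‖y - x‖ ≤ 1 → ‖y‖ ≤ 3 := fun y hy => by
      linarith [norm_sub_norm_le y x]
    have := tilt_le hG hM (hI ht) hx (fun y hy hy' => hTP t ht y hy (by linarith [hb y hy'])) he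
      (τ := τ) fun y hy hy' => hh t ht y hy (by
        rw [mem_ball_zero_iff]; linarith [hb y hy'])
    linarith
  have hht : ∀ p ∈ closedBall (0 : P2) 1 ×ˢ Icc (-1 : ℝ) 0, ∀ z : ℝ, |z| ≤ 1 / 8 →
      J p.1 + z • e ∈ M p.2 → |z| ≤ τ := by
    intro p hp z hz hm
    have := hh p.2 hp.2 _ hm (by rw [mem_ball_zero_iff]; linarith [hnorm _ hp.1 z hz])
    rwa [inner_add_e he hJ] at this
  have key : ∀ p ∈ closedBall (0 : P2) 1 ×ˢ Icc (-1 : ℝ) 0, ∀ z : ℝ, |z| ≤ 1 / 8 →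
      0 + J p.1 + z • e ∈ M p.2 → GoodAt M I 0 J e (1 / 8) p := by
    intro p hp z hz hm
    have hm' := hm
    rw [zero_add] at hm'
    have h1 := hht p hp z hz hm'
    have h2 := htilt p.2 hp.2 _ hm' (hnorm _ hp.1 z hz)
    refine ⟨hI hp.2, z, by linarith, hm, fun h => ?_, fun z' hz' hm'' => ?_⟩
    · rw [zero_add] at h; rw [h] at h2; norm_num at h2
    · rw [zero_add] at hm''
      have h3 := hht p hp z' hz' hm''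
      have := vertical_eq (z := z' - z) he
        (hTP p.2 hp.2 _ hm' (by linarith [hnorm _ hp.1 z hz]))
        (by rw [sub_smul, add_add_sub_cancel]; exact hm'') (by linarith)
        (by linarith [abs_sub z' z])
      linarith
  have h00 : ((0, 0) : P2 × ℝ) ∈ closedBall (0 : P2) 1 ×ˢ Icc (-1 : ℝ) 0 := ⟨by simp, by simp⟩
  have good := good_of_conn hG hM 0 he hJ (ρ := 1 / 8)
    ((convex_closedBall (0 : P2) 1).isPreconnected.prod isPreconnected_Icc)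
    (fun p hp => hI hp.2) key ⟨(0, 0), h00, key _ h00 0 (by norm_num) (by simpa using h0)⟩
  obtain ⟨hO, h, hs, hp⟩ := hG M I hM 0 J e (1 / 8) he hJ
  simp only [zero_add] at hp
  have huniq : ∀ p, GoodAt M I 0 J e (1 / 8) p → ∀ z : ℝ, |z| ≤ 1 / 8 → J p.1 + z • e ∈ M p.2 →
      z = h p := by
    intro p hg z hz hm
    obtain ⟨-, z₀, -, -, -, hu⟩ := id hg
    simp only [zero_add] at hu
    rw [hu z hz hm, hu (h p) (hp p hg).1.le (hp p hg).2.1]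
  refine ⟨h, _, hO, hs, good, fun p hpQ => ?_, fun ξ hξ => ?_, ?_⟩
  · obtain ⟨h1, h2, h3, -, h5⟩ := hp p (good p hpQ)
    have hn : ‖nu (M p.2) (J p.1 + h p • e)‖ = 1 := (surf hM (hI hpQ.2)).norm_nu h2
    have ht := htilt p.2 hpQ.2 _ h2 (hnorm _ hpQ.1 _ h1.le)
    have hg1 := grad_le he hn hJ h3 ht
    refine ⟨h5, by linarith, ?_⟩
    have hcd : ContDiffAt ℝ ∞ (fun ξ => h (ξ, p.2)) p.1 :=
      (hs.contDiffAt (hO.mem_nhds (good p hpQ))).comp p.1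
        (contDiffAt_id.prodMk contDiffAt_const)
    have hev : ∀ᶠ η in 𝓝 p.1, GoodAt M I 0 J e (1 / 8) (η, p.2) :=
      ((continuous_id.prodMk continuous_const).tendsto p.1).eventually (hO.mem_nhds (good p hpQ))
    have hcr : ContinuousAt (fun η => |h (η, p.2) - h p - ⟪gx h p, η - p.1⟫|) p.1 :=
      ((hcd.continuousAt.sub continuousAt_const).sub (by fun_prop)).abs
    have hsm : ∀ᶠ η in 𝓝 p.1, |h (η, p.2) - h p - ⟪gx h p, η - p.1⟫| < 1 / 16 :=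
      hcr.eventually (gt_mem_nhds (by simp))
    have := norm_hess_le (K := 24) (by norm_num) (hcd.of_le two_le_inf) (by
      filter_upwards [hev, hsm] with η hη hη'
      have h6 := hTP p.2 hpQ.2 _ h2 (by linarith [hnorm _ hpQ.1 _ h1.le]) _ (hp _ hη).2.1
      have e1 : J η + h (η, p.2) • e - (J p.1 + h p • e) =
          J (η - p.1) + (h (η, p.2) - h p) • e := by
        rw [map_sub, sub_smul]; abel
      simp only at h6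
      rw [e1, chord_inner h3, norm_sq_add he hJ] at h6
      change |h (η, p.2) - h p - ⟪gx h p, η - p.1⟫| ≤ 24 * ‖η - p.1‖ ^ 2
      refine rem_arith (c := ⟪e, nu (M p.2) (J p.1 + h p • e)⟫) (g := ⟪gx h p, η - p.1⟫) ?_ ?_
        hη'.le ?_
      · rw [real_inner_comm, ← sq_abs] at ht
        nlinarith [abs_nonneg ⟪e, nu (M p.2) (J p.1 + h p • e)⟫]
      · exact (abs_real_inner_le_norm _ _).trans (mul_le_of_le_one_left (norm_nonneg _) hg1)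
      · rw [add_sub_cancel]; exact h6)
    exact this.trans (by norm_num)
  · have hq : (ξ, (0 : ℝ)) ∈ closedBall (0 : P2) 1 ×ˢ Icc (-1 : ℝ) 0 := ⟨hξ, by simp⟩
    obtain ⟨h1, h2, -⟩ := hp _ (good _ hq)
    exact ⟨hht _ hq _ h1.le h2, huniq _ (good _ hq)⟩
  · obtain ⟨-, -, h3, -⟩ := hp _ (good _ h00)
    have : h (0, 0) = 0 := (huniq _ (good _ h00) 0 (by norm_num) (by simpa using h0)).symm
    simpa [this] using h3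

theorem exists_const (C₃ : ℝ) : ∃ C ρ δ τ : ℝ, C₃ ≤ C ∧ 0 < ρ ∧ ρ ≤ 1 / 16 ∧ 0 < δ ∧ 0 < τ ∧
    τ ≤ 1 / 600 ∧ 300 * τ ≤ δ ^ 2 ∧ 9 * τ / ρ ^ 2 + 2 * C * ρ ≤ 1 / 4 ∧ 2 * δ + τ ≤ ρ ^ 2 / 4 := by
  obtain ⟨C, hC1, hC⟩ : ∃ C : ℝ, 1 ≤ C ∧ C₃ ≤ C := ⟨max 1 C₃, le_max_left _ _, le_max_right _ _⟩
  obtain ⟨ρ, hρ, hρC, hρ1⟩ : ∃ ρ : ℝ, 0 < ρ ∧ 16 * C * ρ = 1 ∧ ρ ≤ 1 / 16 :=
    ⟨(16 * C)⁻¹, by positivity, mul_inv_cancel₀ (by positivity), by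
      rw [one_div]; exact inv_anti₀ (by norm_num) (by linarith)⟩
  obtain ⟨δ, hδ⟩ : ∃ δ : ℝ, δ = ρ ^ 2 / 16 := ⟨_, rfl⟩
  have hδ0 : 0 < δ := by rw [hδ]; positivity
  have hδ1 : δ ≤ 1 / 16 := by rw [hδ]; nlinarith
  obtain ⟨τ, hτ⟩ : ∃ τ : ℝ, τ = δ ^ 2 / 300 := ⟨_, rfl⟩
  have hτ0 : 0 < τ := by rw [hτ]; positivity
  have hτδ : τ ≤ δ / 300 := by rw [hτ]; nlinarith
  have h8 : 9 * τ / ρ ^ 2 ≤ 1 / 8 := by
    rw [div_le_iff₀ (by positivity)]; linarith only [hτδ, hδ, hδ0]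
  exact ⟨C, ρ, δ, τ, hC, hρ, hρ1, hδ0, hτ0, by linarith, by linarith, by linarith, by linarith⟩

theorem exists_e (hG : GraphStmt) {M : ℝ → Set E3} {I : Set ℝ} (hM : IsMCF M I) (hI : (0 : ℝ) ∈ I)
    (h0 : (0 : E3) ∈ M 0) (hTP : ∀ y ∈ M 0, ‖y - 0‖ ≤ 1 → TP (M 0) y 2) :
    ∃ y₁ y₂ e : E3, y₁ ∈ M 0 ∧ y₂ ∈ M 0 ∧ ‖y₁‖ ≤ 1 ∧ ‖y₂‖ ≤ 1 ∧ ‖e‖ = 1 ∧ ∀ n : E3, ‖n‖ = 1 →
      (1 / 100 / 2 : ℝ) ^ 2 * (1 - ⟪n, e⟫ ^ 2) ≤ ⟪y₁, n⟫ ^ 2 + ⟪y₂, n⟫ ^ 2 := by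
  have hn : ‖nu (M 0) 0‖ = 1 := (surf hM hI).norm_nu h0
  obtain ⟨a, b, T⟩ := exists_triple hn
  have over : ∀ u : E3, ‖u‖ = 1 → ⟪u, nu (M 0) 0⟫ = 0 → ∃ z : ℝ,
      (1 / 100 : ℝ) • u + z • nu (M 0) 0 ∈ M 0 ∧ ‖(1 / 100 : ℝ) • u + z • nu (M 0) 0‖ ≤ 1 := by
    intro u hu hu'
    have h3 : ‖(1 / 100 : ℝ) • u‖ = 1 / 100 := by
      rw [norm_smul, Real.norm_eq_abs, abs_of_pos (by norm_num), hu, mul_one]
    obtain ⟨z, hz, hm⟩ := exists_over hG hM hI h0 hTP (v := (1 / 100 : ℝ) • u)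
      (by rw [real_inner_smul_right, real_inner_comm, hu', mul_zero]) h3.le
    rw [zero_add] at hm
    refine ⟨z, hm, (norm_add_le _ _).trans ?_⟩
    rw [h3] at hz
    rw [h3, norm_smul, hn, Real.norm_eq_abs]
    linarith
  obtain ⟨z₁, hm₁, hn₁⟩ := over a T.na T.ac
  obtain ⟨z₂, hm₂, hn₂⟩ := over b T.nb T.bc
  obtain ⟨e, he, hE⟩ := exists_normal T (c := 1 / 100) (by norm_num) z₁ z₂
  exact ⟨_, _, e, hm₁, hm₂, hn₁, hn₂, he, hE⟩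

theorem far_le {y e n : E3} {δ τ : ℝ} (he : ‖e‖ = 1) (hn : ‖n‖ = 1) (hδ : 0 < δ) (hy : ‖y‖ ≤ 2)
    (h1 : 1 - ⟪n, e⟫ ^ 2 ≤ δ ^ 2) (h2 : |⟪y, e⟫| ≤ τ) : |⟪y, n⟫| ≤ 2 * δ + τ := by
  have hen : |⟪e, n⟫| ≤ 1 := by simpa [he, hn] using abs_real_inner_le_norm e n
  have h5 : ‖pt e n‖ ≤ δ := by
    refine (sq_le_sq₀ (norm_nonneg _) hδ.le).1 ?_
    rw [norm_pt_sq he, hn, real_inner_comm]
    linarith
  have h6 : ⟪y, n⟫ = ⟪y, pt e n⟫ + ⟪e, n⟫ * ⟪y, e⟫ := by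
    rw [pt_apply, inner_sub_right, real_inner_smul_right]; ring
  have h7 : |⟪y, pt e n⟫| ≤ 2 * δ :=
    (abs_real_inner_le_norm _ _).trans (mul_le_mul hy h5 (norm_nonneg _) (by norm_num))
  have h8 : |⟪e, n⟫ * ⟪y, e⟫| ≤ τ := by
    rw [abs_mul]; exact (mul_le_of_le_one_left (abs_nonneg _) hen).trans h2
  rw [h6]
  linarith [abs_add_le ⟪y, pt e n⟫ (⟪e, n⟫ * ⟪y, e⟫)]

/-- the estimate after rescaling -/
theorem core (hG : GraphStmt) (hI3 : Int3Stmt) (hH : HeightStmt) (D : ℝ) : ∃ ε : ℝ, 0 < ε ∧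
    ∀ (M : ℝ → Set E3) (I : Set ℝ), IsMCF M I → (∀ t ∈ I, AreaRatio D (M t)) →
      Icc (-10 : ℝ) 0 ⊆ I →
      (∀ y ∈ ball (0 : E3) 4, ∀ t ∈ Icc (-1 : ℝ) 0, dens M y t 3 ≤ 1 + ε) →
      (∀ t ∈ Icc (-1 : ℝ) 0, ∀ x ∈ M t, ‖x‖ ≤ 5 → TP (M t) x 2) → (0 : E3) ∈ M 0 →
      ∀ y ∈ M 0, ‖y‖ ≤ 2 → |⟪y, nu (M 0) 0⟫| ≤ ‖y‖ ^ 2 / 4 := by
  obtain ⟨C₃, hC₃⟩ := hI3 48
  obtain ⟨C, ρ, δ, τ, hC, hρ, hρ1, hδ0, hτ0, hτ1, hτ2, hτ3, hτ4⟩ := exists_const C₃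
  obtain ⟨ε, hε, hHe⟩ := hH D (1 / 100 / 2) τ (by norm_num) hτ0
  refine ⟨ε, hε, fun M I hM hD hI hd hTP h0 y hy hy2 => ?_⟩
  have hI' : Icc (-1 : ℝ) 0 ⊆ I := (Icc_subset_Icc (by norm_num) le_rfl).trans hI
  have h0I : (0 : ℝ) ∈ Icc (-1 : ℝ) 0 := ⟨by norm_num, le_rfl⟩
  have hn : ‖nu (M 0) 0‖ = 1 := (surf hM (hI' h0I)).norm_nu h0
  have hTP0 : ∀ y ∈ M 0, ‖y - 0‖ ≤ 1 → TP (M 0) y 2 := fun y hy hy' =>
    hTP 0 h0I y hy (by rw [sub_zero] at hy'; linarith only [hy'])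
  obtain ⟨y₁, y₂, e, hm₁, hm₂, hn₁, hn₂, he, hE⟩ := exists_e hG hM (hI' h0I) h0 hTP0
  have hh := hHe M I hM hD hI hd _ _ e h0 hm₁ hm₂ hn₁ hn₂ he hE
  obtain ⟨J, hJ, hJ'⟩ := exists_plane he
  obtain ⟨h, O, hO, hs, hQ, hb, hgr, htan⟩ := flat_graph hG hM hI' hTP h0 he hJ hτ1 hh
  have h3 := hC₃ h O hO hs hQ hb
  obtain ⟨ξ, hξ⟩ := hJ' y
  have hyξ : J ξ + ⟪y, e⟫ • e = y := by rw [hξ, pt_apply, real_inner_comm, sub_add_cancel]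
  have hyh := hh 0 h0I y hy (by rw [mem_ball_zero_iff]; linarith only [hy2])
  have hyn : ‖ξ‖ ≤ ‖y‖ := by rw [← J.norm_map, hξ]; exact norm_pt_le he y
  have hyn2 : ‖ξ‖ ^ 2 ≤ ‖y‖ ^ 2 := pow_le_pow_left₀ (norm_nonneg _) hyn 2
  by_cases hc : ‖ξ‖ ≤ ρ
  · have hen : |⟪e, nu (M 0) 0⟫| ≤ 1 := by
      simpa only [he, hn, mul_one] using abs_real_inner_le_norm e (nu (M 0) 0)
    have hsub : ∀ η ∈ closedBall (0 : P2) ρ, η ∈ closedBall (0 : P2) 1 := fun η hη =>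
      closedBall_subset_closedBall (by linarith only [hρ1]) hη
    have h4 := taylor_small' (F := fun η => h (η, 0)) (τ := τ) (C := C) hρ
      (fun η hη => (hs.contDiffAt (hO.mem_nhds (hQ (mk_mem_prod (hsub η hη) h0I)))).comp η
        (contDiffAt_id.prodMk contDiffAt_const))
      (fun η hη => (hgr η (hsub η hη)).1)
      (fun η hη => (h3 η (closedBall_subset_closedBall (by linarith only [hρ1]) hη)).trans hC) hc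
    have h5 : h (0, 0) = 0 := ((hgr 0 (mem_closedBall_self zero_le_one)).2 0 (by norm_num)
      (by rw [map_zero, zero_smul, add_zero]; exact h0)).symm
    have h6 : ⟪y, e⟫ = h (ξ, 0) := (hgr ξ (hsub ξ (mem_closedBall_zero_iff.2 hc))).2 _
      (by linarith only [hyh, hτ1]) (by rw [hyξ]; exact hy)
    have h7 : ⟪gx h (0, 0), ξ⟫ = fderiv ℝ (fun η => h (η, 0)) 0 ξ := inner_gradient _ _ _
    simp only [h5, sub_zero] at h4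
    have h11 := chord_inner htan ξ ⟪y, e⟫
    rw [hyξ, h6, h7] at h11
    have h9 := mul_le_mul_of_nonneg_right hτ3 (sq_nonneg ‖ξ‖)
    have h10 := mul_le_of_le_one_right
      (abs_nonneg (h (ξ, 0) - fderiv ℝ (fun η => h (η, 0)) 0 ξ)) hen
    rw [h11, abs_mul]
    linarith only [h10, h4, h9, hyn2]
  · push Not at hc
    have h4 := tilt_le hG hM (hI' h0I) h0 hTP0 he (τ := τ) fun z hz hz' =>
      hh 0 h0I z hz (by rw [mem_ball_zero_iff]; rw [sub_zero] at hz'; linarith only [hz'])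
    have h9 : ρ ^ 2 ≤ ‖ξ‖ ^ 2 := pow_le_pow_left₀ hρ.le hc.le 2
    linarith only [far_le he hn hδ0 hy2 (h4.trans hτ2) hyh, h9, hyn2, hτ4]

theorem dens_mono (hH : HuiskenStmt) {D : ℝ} {M : ℝ → Set E3} {I : Set ℝ} (hM : IsMCF M I)
    (hD : ∀ t ∈ I, AreaRatio D (M t)) (y : E3) {t r r' : ℝ} (hr : 0 < r) (hrr : r ≤ r')
    (hI : Icc (t - r' ^ 2) t ⊆ I) : dens M y t r ≤ dens M y t r' := by
  have h2 : r ^ 2 ≤ r' ^ 2 := pow_le_pow_left₀ hr.le hrr 2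
  have h := hH D M I hM hD y t (t - r' ^ 2) (t - r ^ 2) (by linarith) (by nlinarith)
    ((Icc_subset_Icc le_rfl (by nlinarith)).trans hI)
  rw [sub_sub_cancel, sub_sub_cancel, Real.sqrt_sq hr.le, Real.sqrt_sq (hr.le.trans hrr)] at h
  have h0 : 0 ≤ gA (M (t - r' ^ 2)) y r' :=
    integral_nonneg fun x => by unfold gk; positivity
  exact (ENNReal.ofReal_le_ofReal_iff h0).1 (le_self_add.trans h)

theorem tp_scale {N : Set E3} {lam C : ℝ} (hl : 0 < lam) {x₀ y : E3} (hy : y ∈ scaleSet lam x₀ N)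
    (h : TP N (x₀ + lam⁻¹ • y) (C * lam)) : TP (scaleSet lam x₀ N) y C := by
  intro z hz
  have := h _ hz
  rw [Sc.norm_up_sub_up hl, Sc.up_sub_up, real_inner_smul_left, abs_mul,
    abs_of_pos (inv_pos.2 hl), ← abs_inner_nu_scale hl hy] at this
  have h2 := mul_le_mul_of_nonneg_left this hl.le
  rw [← mul_assoc, mul_inv_cancel₀ hl.ne', one_mul] at h2
  refine h2.trans (le_of_eq ?_)
  field_simp

/-- **White's theorem** from its pieces -/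
theorem white_of (hG : GraphStmt) (hI3 : Int3Stmt) (hHt : HeightStmt) (hH : HuiskenStmt) :
    WhiteStmt := by
  intro D
  obtain ⟨ε, hε, hc⟩ := core hG hI3 hHt D
  refine ⟨ε, 1, 20, hε, one_pos, by norm_num, fun M I hM hD x₀ t₀ hI hd t ht x hx hxb y hy _ => ?_⟩
  by_contra hcon
  push Not at hcon
  obtain ⟨C, hC0, hC⟩ := tp_compact hM
    ((Icc_subset_Icc (by linarith) le_rfl : Icc (t₀ - 2) t₀ ⊆ Icc (t₀ - 4) t₀).trans hI) x₀ 2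
  set d : ℝ → E3 → ℝ := fun t x => min (2 - ‖x - x₀‖) (t - (t₀ - 2)) with hddef
  set S : Set ℝ := {s | ∃ t ∈ Icc (t₀ - 2) t₀, ∃ x ∈ M t, ‖x - x₀‖ ≤ 2 ∧ ∃ y ∈ M t, y ≠ x ∧
    s = |⟪y - x, nu (M t) x⟫| / ‖y - x‖ ^ 2 * d t x} with hS
  have hd2 : ∀ t x, d t x ≤ 2 := fun t x =>
    (min_le_left _ _).trans (by linarith [norm_nonneg (x - x₀)])
  have hbdd : BddAbove S := by
    refine ⟨C * 2, ?_⟩
    rintro s ⟨t, ht, x, hx, hx2, y, hy, hyx, rfl⟩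
    have hp : 0 < ‖y - x‖ ^ 2 := pow_pos (norm_pos_iff.2 (sub_ne_zero.2 hyx)) 2
    refine mul_le_mul ((div_le_iff₀ hp).2 (hC t ht x hx hx2 y hy)) (hd2 t x) ?_ hC0
    exact le_min (by linarith) (by linarith [ht.1])
  have hx1 : ‖x - x₀‖ < 1 := by simpa [dist_eq_norm] using hxb
  have hyx : y ≠ x := by
    rintro rfl
    simp at hcon
  have h20 : 20 < sSup S := by
    have hp : 0 < ‖y - x‖ ^ 2 := pow_pos (norm_pos_iff.2 (sub_ne_zero.2 hyx)) 2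
    refine lt_of_lt_of_le ?_ (le_csSup hbdd ⟨t, ⟨by linarith [ht.1], ht.2⟩, x, hx, by linarith,
      y, hy, hyx, rfl⟩)
    have h1 : 1 ≤ d t x := le_min (by linarith) (by linarith [ht.1])
    have h2 : 20 < |⟪y - x, nu (M t) x⟫| / ‖y - x‖ ^ 2 := (lt_div_iff₀ hp).2 hcon
    nlinarith
  have hne : S.Nonempty := ⟨_, t, ⟨by linarith [ht.1], ht.2⟩, x, hx, by linarith, y, hy, hyx, rfl⟩
  obtain ⟨s, ⟨t₁, ht₁, x₁, hx₁, hx₁2, y₁, hy₁, hyx₁, rfl⟩, hs⟩ :=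
    exists_lt_of_lt_csSup hne (by linarith : sSup S / 2 < sSup S)
  have hp₁ : 0 < ‖y₁ - x₁‖ := norm_pos_iff.2 (sub_ne_zero.2 hyx₁)
  obtain ⟨lam, hlam⟩ : ∃ lam : ℝ, lam = 2 * (|⟪y₁ - x₁, nu (M t₁) x₁⟫| / ‖y₁ - x₁‖ ^ 2) := ⟨_, rfl⟩
  have hlam0 : 0 ≤ lam := by rw [hlam]; positivity
  have hld : sSup S < lam * d t₁ x₁ := by rw [hlam]; linarith
  have hl10 : 10 < lam := by nlinarith [hd2 t₁ x₁]
  have hl : 0 < lam := by linarith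
  have hinv : lam⁻¹ * 20 < d t₁ x₁ := by
    rw [inv_mul_lt_iff₀ hl]; linarith
  have hi0 : 0 < lam⁻¹ := inv_pos.2 hl
  have hi1 : lam⁻¹ < 1 / 10 := by rw [one_div]; exact inv_strictAnti₀ (by norm_num) hl10
  have hsq : ∀ s : ℝ, s / lam ^ 2 = s * (lam⁻¹ * lam⁻¹) := fun s => by field_simp
  have hii : lam⁻¹ * lam⁻¹ ≤ lam⁻¹ := by nlinarith
  have hii0 : 0 < lam⁻¹ * lam⁻¹ := by positivity
  have hda : d t₁ x₁ ≤ 2 - ‖x₁ - x₀‖ := min_le_left _ _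
  have hdb : d t₁ x₁ ≤ t₁ - (t₀ - 2) := min_le_right _ _
  have hup : ∀ z : E3, ‖x₁ + lam⁻¹ • z - x₀‖ ≤ ‖x₁ - x₀‖ + lam⁻¹ * ‖z‖ := by
    intro z
    rw [add_sub_right_comm]
    refine (norm_add_le _ _).trans ?_
    rw [norm_smul, Real.norm_eq_abs, abs_of_pos hi0]
  have htm : ∀ s ∈ Icc (-1 : ℝ) 0, t₁ - lam⁻¹ ≤ t₁ + s / lam ^ 2 ∧ t₁ + s / lam ^ 2 ≤ t₁ := by
    intro s hs
    rw [hsq]
    constructor <;> nlinarith [hs.1, hs.2]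
  have h0 : (0 : E3) ∈ scaleFlow lam x₁ t₁ M 0 := by simpa [mem_scaleFlow] using hx₁
  have hy0 : lam • (y₁ - x₁) ∈ scaleFlow lam x₁ t₁ M 0 := by
    rw [scaleFlow_apply, dn_mem_scaleSet hl.ne']; simpa using hy₁
  have hn₁ : ‖nu (M t₁) x₁‖ = 1 := (surf hM (hI ⟨by linarith [ht₁.1], ht₁.2⟩)).norm_nu hx₁
  have hq : |⟪y₁ - x₁, nu (M t₁) x₁⟫| = lam / 2 * ‖y₁ - x₁‖ ^ 2 := by rw [hlam]; field_simp
  have hle := abs_real_inner_le_norm (y₁ - x₁) (nu (M t₁) x₁)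
  rw [hn₁, mul_one, hq] at hle
  have hfin := hc (scaleFlow lam x₁ t₁ M) (scaleInt lam t₁ I) (hM.scale hl x₁ t₁)
    (ratio_scaleFlow hl hD x₁ t₁) ?_ ?_ ?_ h0 _ hy0 ?_
  · have h1 := abs_inner_nu_scale (N := M (t₁ + 0 / lam ^ 2)) (x₀ := x₁) hl h0 (lam • (y₁ - x₁))
    rw [scaleFlow_apply, h1, real_inner_smul_left, abs_mul, abs_of_pos hl, norm_smul,
      Real.norm_eq_abs, abs_of_pos hl] at hfin
    simp only [zero_div, add_zero, smul_zero] at hfin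
    rw [hq] at hfin
    have : 0 < (lam * ‖y₁ - x₁‖) ^ 2 := by positivity
    nlinarith
  · rw [Icc_subset_scaleInt hl]
    refine (Icc_subset_Icc ?_ ?_).trans hI
    · rw [hsq]; linarith [ht₁.1]
    · simpa using ht₁.2
  · intro z hz s hs
    rw [dens_scale hl]
    have hz4 : ‖z‖ < 4 := by simpa using hz
    obtain ⟨h1, h2⟩ := htm s hs
    refine (dens_mono hH hM hD _ (r' := 1) (by positivity) ?_ ?_).trans (hd _ ?_ _ ?_)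
    · rw [div_le_one hl]; linarith
    · exact (Icc_subset_Icc (by linarith [ht₁.1]) (by linarith [ht₁.2])).trans hI
    · rw [mem_ball, dist_eq_norm]
      have := hup z
      nlinarith
    · exact ⟨by linarith [ht₁.1], by linarith [ht₁.2]⟩
  · intro s hs z hz hz5
    refine tp_scale hl hz fun w hw => ?_
    obtain ⟨h1, h2⟩ := htm s hs
    have h3 := hup z
    have h4 : lam⁻¹ * ‖z‖ ≤ lam⁻¹ * 5 := mul_le_mul_of_nonneg_left hz5 hi0.le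
    rcases eq_or_ne w (x₁ + lam⁻¹ • z) with rfl | hw'
    · simp
    have hp : 0 < ‖w - (x₁ + lam⁻¹ • z)‖ ^ 2 := pow_pos (norm_pos_iff.2 (sub_ne_zero.2 hw')) 2
    have h5 := le_csSup hbdd ⟨t₁ + s / lam ^ 2, ⟨by linarith, by linarith [ht₁.2]⟩, _, hz,
      by linarith, w, hw, hw', rfl⟩
    have h6 : d t₁ x₁ / 2 ≤ d (t₁ + s / lam ^ 2) (x₁ + lam⁻¹ • z) :=
      le_min (by linarith) (by linarith)
    rw [← div_le_iff₀ hp]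
    have h7 : 0 ≤ |⟪w - (x₁ + lam⁻¹ • z), nu (M (t₁ + s / lam ^ 2)) (x₁ + lam⁻¹ • z)⟫| /
      ‖w - (x₁ + lam⁻¹ • z)‖ ^ 2 := by positivity
    have h8 := mul_le_mul_of_nonneg_left h6 h7
    have h9 : 0 < d t₁ x₁ := by linarith
    by_contra h10
    push Not at h10
    nlinarith
  · rw [norm_smul, Real.norm_eq_abs, abs_of_pos hl]
    nlinarith

end Vale.Agent.P218FT.W
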