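import Vale.Agent.P218FT.White
import Vale.Agent.P218FT.WGraph
import Vale.Agent.P218FT.WHeight
import Vale.Agent.P218FT.EVMain
import Vale.Agent.P218FT.Gauss

/-! White's theorem from the interior estimate and the monotonicity formula. -/

namespace Vale.Agent.P218FT

theorem white_proof (hI : Int3Stmt) (hH : HuiskenStmt) (hD : DensStmt) : WhiteStmt :=
  W.white_of graph_proof hI (height_proof hH hD fv_proof cont_proof gauss_proof) hH

end Vale.Agent.P218FT
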